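import Mathlib

set_option linter.all false

section

open MeasureTheory Filter Topology
open scoped ContDiff

namespace Vale.Agent.P353

/-- The bosonic configuration space `ℝ^{9 d}`; `x (i, A)` is the coefficient `x_i^A`. -/
abbrev Cfg (d : ℕ) : Type := EuclideanSpace ℝ (Fin 9 × Fin d)

/-- The coefficients of the adjoint action: `U T_A U* = ∑ B, adCoeff T U B A • T_B`. -/
noncomputable def adCoeff {N d : ℕ} (T : Fin d → Matrix (Fin N) (Fin N) ℂ)
    (U : Matrix.specialUnitaryGroup (Fin N) ℂ) (B A : Fin d) : ℝ :=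
  (T B * ((U : Matrix (Fin N) (Fin N) ℂ) * T A *
    (U : Matrix (Fin N) (Fin N) ℂ).conjTranspose)).trace.re

/-- The data of the `SU(N)` BFSS matrix model with `d = N^2 - 1`: an orthonormal basis `T` of the
traceless Hermitian matrices, its structure constants `f`, nine real symmetric gamma matrices `γ`,
an irreducible Clifford module `F` with self-adjoint generators `θ`, and the unitary action `S` of
`SU(N)` on `F` that implements the adjoint rotation of the generators. -/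
structure Model (N d : ℕ) (F : Type*) [NormedAddCommGroup F] [InnerProductSpace ℂ F] where
  dim_eq : d = N ^ 2 - 1
  T : Fin d → Matrix (Fin N) (Fin N) ℂ
  T_hermitian : ∀ A, (T A).conjTranspose = T A
  T_traceless : ∀ A, (T A).trace = 0
  T_orthonormal : ∀ A B, (T A * T B).trace = if A = B then 1 else 0
  f : Fin d → Fin d → Fin d → ℝ
  T_comm : ∀ A B, T A * T B - T B * T A = ∑ C, (Complex.I * (f A B C : ℂ)) • T C
  γ : Fin 9 → Matrix (Fin 16) (Fin 16) ℝ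
  γ_symm : ∀ i, (γ i).transpose = γ i
  γ_anticomm : ∀ i j, γ i * γ j + γ j * γ i = if i = j then 2 else 0
  θ : Fin 16 → Fin d → F →L[ℂ] F
  θ_selfAdjoint : ∀ α A (v w : F), inner ℂ (θ α A v) w = inner ℂ v (θ α A w)
  θ_anticomm : ∀ α A β B, θ α A * θ β B + θ β B * θ α A = if α = β ∧ A = B then 1 else 0
  θ_irreducible : ∀ W : Submodule ℂ F, (∀ α A, ∀ v ∈ W, θ α A v ∈ W) → W = ⊥ ∨ W = ⊤
  nontrivial : ∃ v : F, v ≠ 0
  S : Matrix.specialUnitaryGroup (Fin N) ℂ →* (F →L[ℂ] F)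
  S_isometry : ∀ U v, ‖S U v‖ = ‖v‖
  S_continuous : ∀ v, Continuous fun U => S U v
  S_rotates : ∀ U α A, S U * θ α A = ∑ B, ((adCoeff T U B A : ℝ) : ℂ) • (θ α B * S U)

variable {N d : ℕ} {F : Type*} [NormedAddCommGroup F] [InnerProductSpace ℂ F]

/-- The partial derivative of `u` in the direction `x_i^A`. -/
noncomputable def pd (i : Fin 9) (A : Fin d) (u : Cfg d → F) (x : Cfg d) : F :=
  fderiv ℝ u x (EuclideanSpace.single (i, A) 1)

namespace Model

/-- `γ^{ij} = (γ^i γ^j - γ^j γ^i) / 2`. -/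
noncomputable def γ2 (M : Model N d F) (i j : Fin 9) : Matrix (Fin 16) (Fin 16) ℝ :=
  (1 / 2 : ℝ) • (M.γ i * M.γ j - M.γ j * M.γ i)

/-- The supercharge `Q_α`. -/
noncomputable def Q (M : Model N d F) (α : Fin 16) (u : Cfg d → F) (x : Cfg d) : F :=
  (-Complex.I) • ∑ i, ∑ β, ∑ A, ((M.γ i α β : ℝ) : ℂ) • M.θ β A (pd i A u x) +
    ((1 / 2 : ℝ) : ℂ) • ∑ A, ∑ B, ∑ C, ∑ i, ∑ j, ∑ β,
      ((M.f A B C * x (i, B) * x (j, C) * M.γ2 i j α β : ℝ) : ℂ) • M.θ β A (u x)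

/-- The adjoint action of `U` on the configuration space. -/
noncomputable def act (M : Model N d F) (U : Matrix.specialUnitaryGroup (Fin N) ℂ) (x : Cfg d) :
    Cfg d :=
  WithLp.toLp 2 fun p => ∑ A, adCoeff M.T U p.2 A * x (p.1, A)

/-- The form core: smooth compactly supported `SU(N)`-invariant wave functions. -/
def IsCore (M : Model N d F) (u : Cfg d → F) : Prop :=
  ContDiff ℝ ∞ u ∧ HasCompactSupport u ∧ ∀ U x, u (M.act U x) = M.S U (u x)

/-- The polarized form `q_N(φ, u) = (1/16) ∑ α, ⟨Q_α φ, Q_α u⟩`. -/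
noncomputable def form (M : Model N d F) (φ u : Cfg d → F) : ℂ :=
  (1 / 16 : ℂ) * ∑ α, ∫ x, inner ℂ (M.Q α φ x) (M.Q α u x)

/-- `Ψ` is in the domain of `H_N` and `H_N Ψ = 0`: there is a sequence in the core that converges
to `Ψ` in `L²`, is Cauchy for the form `q_N`, and along it `q_N(φ, ·)` tends to `0` for all `φ` in
the core (that is, the closed form satisfies `q_N(φ, Ψ) = 0 = ⟨φ, 0⟩`). -/
def IsZeroEnergyState (M : Model N d F) (Ψ : Lp F 2 (volume : Measure (Cfg d))) : Prop :=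
  ∃ u : ℕ → Cfg d → F, (∀ n, M.IsCore (u n)) ∧
    Tendsto (fun n => ∫ x, ‖u n x - Ψ x‖ ^ 2) atTop (𝓝 0) ∧
    Tendsto (fun p : ℕ × ℕ => M.form (u p.1 - u p.2) (u p.1 - u p.2)) atTop (𝓝 0) ∧
    ∀ φ, M.IsCore φ → Tendsto (fun n => M.form φ (u n)) atTop (𝓝 0)

end Model

end Vale.Agent.P353
end

section

/-! # P353, C-L1: Gaussian test functions -/

open MeasureTheory Filter Topology
open scoped ContDiff ComplexConjugate

namespace Vale.Agent.P353.Z.U

variable {dc : ℕ}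

/-- coordinate vectors -/
noncomputable def l1e (p : Fin 9 × Fin dc) : (Cfg dc) := EuclideanSpace.single p 1

theorem l1_inner_e (x : (Cfg dc)) (p : Fin 9 × Fin dc) : inner ℝ x (l1e p) = x p := by
  simp [l1e, EuclideanSpace.inner_single_right]

theorem l1_inner_sum (x y : (Cfg dc)) : inner ℝ x y = ∑ p, x p * y p := by
  simp [PiLp.inner_apply, mul_comm]

/-- data of the scalar Liouville lemma -/
structure L1D (dc : ℕ) (ι : Type) [Fintype ι] [DecidableEq ι] where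
  A : (Cfg dc) →L[ℝ] (Cfg dc)
  τ : ι → (Cfg dc)
  symm : ∀ x y, inner ℝ (A x) y = inner ℝ x (A y)
  Aτ : ∀ C, A (τ C) = 0
  ττ : ∀ C D, inner ℝ (τ C) (τ D) = if C = D then 2 else 0
  c0 : ℝ
  c0_pos : 0 < c0
  low : ∀ x, c0 * ‖x‖ ^ 2 ≤ inner ℝ x (A x) + (1 / 2) * ∑ C, inner ℝ (τ C) x ^ 2
  pos : ∀ x, 0 ≤ inner ℝ x (A x)

namespace L1D

variable {ι : Type} [Fintype ι] [DecidableEq ι] (D : L1D dc ι)

theorem c0_half_pos : 0 < D.c0 / 2 := by
  have := D.c0_pos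
  linarith

theorem c0_quarter_pos : 0 < D.c0 / 4 := by
  have := D.c0_pos
  linarith

theorem c0_quarter_lt : D.c0 / 4 < D.c0 / 2 := by
  have := D.c0_pos
  linarith

/-- `A + ∑ τ τᵀ` -/
noncomputable def M2 : (Cfg dc) →L[ℝ] (Cfg dc) :=
  D.A + ∑ C, (innerSL ℝ (D.τ C)).smulRight (D.τ C)

/-- `A + ½ ∑ τ τᵀ` -/
noncomputable def M : (Cfg dc) →L[ℝ] (Cfg dc) :=
  D.A + (1 / 2 : ℝ) • ∑ C, (innerSL ℝ (D.τ C)).smulRight (D.τ C)

theorem M2_apply (x : (Cfg dc)) : D.M2 x = D.A x + ∑ C, inner ℝ (D.τ C) x • D.τ C := by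
  simp [M2]

theorem M_apply (x : (Cfg dc)) : D.M x = D.A x + (1 / 2 : ℝ) • ∑ C, inner ℝ (D.τ C) x • D.τ C := by
  simp [M]

theorem inner_M2 (x y : (Cfg dc)) : inner ℝ (D.M2 x) y = inner ℝ (D.A x) y +
    ∑ C, inner ℝ (D.τ C) x * inner ℝ (D.τ C) y := by
  rw [M2_apply, inner_add_left, sum_inner]
  simp only [real_inner_smul_left]

theorem inner_M (x y : (Cfg dc)) : inner ℝ (D.M x) y = inner ℝ (D.A x) y +
    (1 / 2) * ∑ C, inner ℝ (D.τ C) x * inner ℝ (D.τ C) y := by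
  rw [M_apply, inner_add_left, real_inner_smul_left, sum_inner]
  simp only [real_inner_smul_left]

theorem M2_symm (x y : (Cfg dc)) : inner ℝ (D.M2 x) y = inner ℝ x (D.M2 y) := by
  rw [real_inner_comm (D.M2 y) x, inner_M2, inner_M2, D.symm, real_inner_comm (D.A y) x]
  congr 1
  exact Finset.sum_congr rfl fun C _ => mul_comm _ _

theorem M_symm (x y : (Cfg dc)) : inner ℝ (D.M x) y = inner ℝ x (D.M y) := by
  rw [real_inner_comm (D.M y) x, inner_M, inner_M, D.symm, real_inner_comm (D.A y) x]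
  congr 2
  exact Finset.sum_congr rfl fun C _ => mul_comm _ _

theorem M_low (x : (Cfg dc)) : D.c0 * ‖x‖ ^ 2 ≤ inner ℝ (D.M x) x := by
  rw [inner_M, D.symm]
  refine (D.low x).trans (le_of_eq ?_)
  congr 2
  exact Finset.sum_congr rfl fun C _ => by ring

theorem M2_low (x : (Cfg dc)) : D.c0 * ‖x‖ ^ 2 ≤ inner ℝ (D.M2 x) x := by
  rw [inner_M2, D.symm]
  refine (D.low x).trans ?_
  have h : (0 : ℝ) ≤ ∑ C, inner ℝ (D.τ C) x ^ 2 := Finset.sum_nonneg fun C _ => sq_nonneg _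
  have h2 : ∑ C, inner ℝ (D.τ C) x * inner ℝ (D.τ C) x = ∑ C, inner ℝ (D.τ C) x ^ 2 :=
    Finset.sum_congr rfl fun C _ => by ring
  rw [h2]; linarith

theorem M2_τ (C : ι) : D.M2 (D.τ C) = (2 : ℝ) • D.τ C := by
  rw [M2_apply, D.Aτ, zero_add]
  simp [D.ττ]

theorem norm_M2_sq (x : (Cfg dc)) : ‖D.M2 x‖ ^ 2 = ‖D.A x‖ ^ 2 + 2 * ∑ C, inner ℝ (D.τ C) x ^ 2 := by
  have h1 : ‖D.M2 x‖ ^ 2 = inner ℝ (D.M2 x) (D.M2 x) := (real_inner_self_eq_norm_sq _).symm
  rw [h1, inner_M2]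
  have h2 : inner ℝ (D.A x) (D.M2 x) = ‖D.A x‖ ^ 2 := by
    rw [real_inner_comm, inner_M2, real_inner_self_eq_norm_sq]
    have : ∀ C, inner ℝ (D.τ C) (D.A x) = 0 := fun C => by
      rw [← D.symm, D.Aτ, inner_zero_left]
    simp [this]
  have h3 : ∀ C, inner ℝ (D.τ C) (D.M2 x) = 2 * inner ℝ (D.τ C) x := fun C => by
    rw [← M2_symm, M2_τ, real_inner_smul_left]
  rw [h2]
  simp only [h3]
  rw [Finset.mul_sum]
  congr 1
  exact Finset.sum_congr rfl fun C _ => by ring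

/-- trace of `A` -/
noncomputable def tr : ℝ := ∑ p, inner ℝ (D.A (l1e p)) (l1e p)

theorem tr_M2 : ∑ p, inner ℝ (D.M2 (l1e p)) (l1e p) = D.tr + 2 * Fintype.card ι := by
  simp only [inner_M2, tr, Finset.sum_add_distrib]
  congr 1
  rw [Finset.sum_comm]
  have : ∀ C, ∑ p, inner ℝ (D.τ C) (l1e p) * inner ℝ (D.τ C) (l1e p) = 2 := fun C => by
    simp only [l1_inner_e]
    rw [← l1_inner_sum, D.ττ, if_pos rfl]
  simp [this, mul_comm]

/-! ### the Gaussian functions -/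

/-- exponent -/
noncomputable def ph (k x : (Cfg dc)) : ℂ :=
  ((-(1 / 2) * inner ℝ (D.M2 x) x : ℝ) : ℂ) + ((inner ℝ k x : ℝ) : ℂ) * Complex.I

/-- `E_k(x) = exp(-½⟨x, M₂ x⟩ + i⟨k,x⟩)` -/
noncomputable def EE (k x : (Cfg dc)) : ℂ := Complex.exp (D.ph k x)

/-- logarithmic derivative -/
noncomputable def cc (k e x : (Cfg dc)) : ℂ :=
  -((inner ℝ (D.M2 x) e : ℝ) : ℂ) + ((inner ℝ k e : ℝ) : ℂ) * Complex.I

theorem norm_EE (k x : (Cfg dc)) : ‖D.EE k x‖ = Real.exp (-(1 / 2) * inner ℝ (D.M2 x) x) := by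
  rw [EE, Complex.norm_exp, ph]
  simp

theorem norm_EE_le (k x : (Cfg dc)) : ‖D.EE k x‖ ≤ Real.exp (-(D.c0 / 2 * ‖x‖ ^ 2)) := by
  rw [norm_EE, Real.exp_le_exp]
  have := D.M2_low x
  linarith

theorem hasFDerivAt_q (x : (Cfg dc)) : HasFDerivAt (fun y => inner ℝ (D.M2 y) y)
    ((2 : ℝ) • innerSL ℝ (D.M2 x)) x := by
  have h := (D.M2.hasFDerivAt (x := x)).inner ℝ (hasFDerivAt_id x)
  refine h.congr_fderiv ?_
  ext e
  simp only [ContinuousLinearMap.comp_apply, fderivInnerCLM_apply,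
    ContinuousLinearMap.prod_apply, ContinuousLinearMap.id_apply, id,
    smul_apply, innerSL_apply_apply, smul_eq_mul]
  rw [D.M2_symm e x, real_inner_comm (D.M2 x) e]
  ring

theorem hasFDerivAt_ph (k x : (Cfg dc)) : HasFDerivAt (D.ph k)
    (Complex.ofRealCLM.comp (-innerSL ℝ (D.M2 x)) +
      (Complex.I • Complex.ofRealCLM.comp (innerSL ℝ k))) x := by
  have h1 : HasFDerivAt (fun y => -(1 / 2) * inner ℝ (D.M2 y) y) (-innerSL ℝ (D.M2 x)) x := by
    refine ((D.hasFDerivAt_q x).const_mul (-(1 / 2))).congr_fderiv ?_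
    ext e; simp
  have h2 := (Complex.ofRealCLM.hasFDerivAt (x := -(1 / 2) * inner ℝ (D.M2 x) x)).comp x h1
  have h3 : HasFDerivAt (fun y => inner ℝ k y) (innerSL ℝ k) x := (innerSL ℝ k).hasFDerivAt
  have h4 := ((Complex.ofRealCLM.hasFDerivAt (x := inner ℝ k x)).comp x h3).mul_const Complex.I
  refine (h2.add h4).congr_fderiv ?_
  ext e; simp

theorem fderiv_EE (k x e : (Cfg dc)) : fderiv ℝ (D.EE k) x e = D.EE k x * D.cc k e x := by
  have h := (D.hasFDerivAt_ph k x).cexp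
  have h2 : HasFDerivAt (D.EE k) _ x := h
  rw [h2.fderiv]
  simp [EE, cc]
  ring

theorem contDiff_EE (k : (Cfg dc)) : ContDiff ℝ ∞ (D.EE k) := by
  unfold EE ph
  refine ContDiff.cexp (ContDiff.add ?_ ?_)
  · exact Complex.ofRealCLM.contDiff.comp (contDiff_const.mul (D.M2.contDiff.inner ℝ contDiff_id))
  · exact (Complex.ofRealCLM.contDiff.comp (contDiff_const.inner ℝ contDiff_id)).mul contDiff_const

theorem fderiv_cc (k e x e' : (Cfg dc)) : fderiv ℝ (D.cc k e) x e' = -((inner ℝ (D.M2 e') e : ℝ) : ℂ) := by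
  have h1 : HasFDerivAt (fun y => inner ℝ (D.M2 y) e) ((innerSL ℝ e).comp D.M2) x := by
    have h0 : HasFDerivAt (fun y => inner ℝ e (D.M2 y)) ((innerSL ℝ e).comp D.M2) x :=
      ((innerSL ℝ e).comp D.M2).hasFDerivAt
    simpa only [real_inner_comm] using h0
  have h2 := (Complex.ofRealCLM.hasFDerivAt (x := inner ℝ (D.M2 x) e)).comp x h1
  have h3 : HasFDerivAt (D.cc k e) _ x := h2.neg.add_const (((inner ℝ k e : ℝ) : ℂ) * Complex.I)
  rw [h3.fderiv]
  simp [real_inner_comm]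

theorem differentiable_cc (k e : (Cfg dc)) : Differentiable ℝ (D.cc k e) := by
  unfold cc
  refine Differentiable.add_const _ (Differentiable.neg ?_)
  exact Complex.ofRealCLM.differentiable.comp (D.M2.differentiable.inner ℝ (differentiable_const e))

end L1D

end Vale.Agent.P353.Z.U
end
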