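import Mathlib
import Vale.Agent.P353.BdZ.B1
import Vale.Agent.P353.BFSS

set_option linter.all false

section

open Matrix

namespace Vale.Agent.P353.Z

variable {d : ℕ}

/-- gamma matrices over `ℂ` and a Clifford system in a complex algebra. -/
structure CS (d : ℕ) (R : Type*) [Ring R] [Algebra ℂ R] where
  g : Fin 9 → Matrix (Fin 16) (Fin 16) ℂ
  g_symm : ∀ i, (g i)ᵀ = g i
  g_anti : ∀ i j, g i * g j + g j * g i = if i = j then 2 else 0
  th : Fin 16 → Fin d → R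
  th_anti : ∀ α A β B, th α A * th β B + th β B * th α A = if α = β ∧ A = B then 1 else 0

namespace CS

variable {R : Type*} [Ring R] [Algebra ℂ R] (S : CS d R)

/-- `γ^{ij}` -/
noncomputable def g2 (i j : Fin 9) : Matrix (Fin 16) (Fin 16) ℂ :=
  (1 / 2 : ℂ) • (S.g i * S.g j - S.g j * S.g i)

/-- `(N θ^A)_β` -/
noncomputable def vec (N : Matrix (Fin 16) (Fin 16) ℂ) (A : Fin d) (β : Fin 16) : R :=
  ∑ γ, N β γ • S.th γ A

/-- `θ^A N θ^B` -/
noncomputable def bil (N : Matrix (Fin 16) (Fin 16) ℂ) (A B : Fin d) : R :=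
  ∑ α, S.th α A * S.vec N B α

lemma vec_add (N M : Matrix (Fin 16) (Fin 16) ℂ) (A β) :
    S.vec (N + M) A β = S.vec N A β + S.vec M A β := by
  simp [vec, add_smul, Finset.sum_add_distrib]

lemma vec_sub (N M : Matrix (Fin 16) (Fin 16) ℂ) (A β) :
    S.vec (N - M) A β = S.vec N A β - S.vec M A β := by
  simp [vec, sub_smul, Finset.sum_sub_distrib]

lemma vec_neg (N : Matrix (Fin 16) (Fin 16) ℂ) (A β) :
    S.vec (-N) A β = -S.vec N A β := by
  simp [vec]

lemma vec_smul (c : ℂ) (N : Matrix (Fin 16) (Fin 16) ℂ) (A β) :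
    S.vec (c • N) A β = c • S.vec N A β := by
  simp [vec, Finset.smul_sum, mul_smul]

lemma vec_sum {ι : Type*} (s : Finset ι) (N : ι → Matrix (Fin 16) (Fin 16) ℂ) (A β) :
    S.vec (∑ i ∈ s, N i) A β = ∑ i ∈ s, S.vec (N i) A β := by
  simp only [vec, Matrix.sum_apply, Finset.sum_smul]
  rw [Finset.sum_comm]

lemma vec_zero (A β) : S.vec 0 A β = 0 := by simp [vec]

lemma vec_one (A β) : S.vec 1 A β = S.th β A := by
  simp [vec, Matrix.one_apply]

lemma vec_mul (N M : Matrix (Fin 16) (Fin 16) ℂ) (A β) :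
    S.vec (N * M) A β = ∑ γ, N β γ • S.vec M A γ := by
  simp only [vec, Matrix.mul_apply, Finset.sum_smul, Finset.smul_sum, mul_smul]
  rw [Finset.sum_comm]

lemma bil_add (N M : Matrix (Fin 16) (Fin 16) ℂ) (A B) :
    S.bil (N + M) A B = S.bil N A B + S.bil M A B := by
  simp [bil, vec_add, mul_add, Finset.sum_add_distrib]

lemma bil_sub (N M : Matrix (Fin 16) (Fin 16) ℂ) (A B) :
    S.bil (N - M) A B = S.bil N A B - S.bil M A B := by
  simp [bil, vec_sub, mul_sub, Finset.sum_sub_distrib]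

lemma bil_neg (N : Matrix (Fin 16) (Fin 16) ℂ) (A B) :
    S.bil (-N) A B = -S.bil N A B := by
  simp [bil, vec_neg]

lemma bil_smul (c : ℂ) (N : Matrix (Fin 16) (Fin 16) ℂ) (A B) :
    S.bil (c • N) A B = c • S.bil N A B := by
  simp [bil, vec_smul, Finset.smul_sum]

lemma bil_sum {ι : Type*} (s : Finset ι) (N : ι → Matrix (Fin 16) (Fin 16) ℂ) (A B) :
    S.bil (∑ i ∈ s, N i) A B = ∑ i ∈ s, S.bil (N i) A B := by
  simp only [bil, vec_sum, Finset.mul_sum]
  rw [Finset.sum_comm]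

lemma bil_zero (A B) : S.bil 0 A B = 0 := by simp [bil, vec_zero]

/-- `{(Nθ^A)_β, (Mθ^B)_δ} = δ_{AB} (N Mᵀ)_{βδ}` -/
lemma vec_anti (N M : Matrix (Fin 16) (Fin 16) ℂ) (A B : Fin d) (β δ : Fin 16) :
    S.vec N A β * S.vec M B δ + S.vec M B δ * S.vec N A β =
      if A = B then ((N * Mᵀ) β δ) • (1 : R) else 0 := by
  have h1 : S.vec N A β * S.vec M B δ =
      ∑ i, ∑ j, (N β i * M δ j) • (S.th i A * S.th j B) := by
    simp only [vec, Finset.sum_mul, Finset.mul_sum, smul_mul_smul_comm]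
    rw [Finset.sum_comm]
  have h2 : S.vec M B δ * S.vec N A β =
      ∑ i, ∑ j, (N β i * M δ j) • (S.th j B * S.th i A) := by
    simp only [vec, Finset.sum_mul, Finset.mul_sum, smul_mul_smul_comm]
    refine Finset.sum_congr rfl fun i _ => Finset.sum_congr rfl fun j _ => ?_
    rw [mul_comm]
  rw [h1, h2, ← Finset.sum_add_distrib]
  simp only [← Finset.sum_add_distrib, ← smul_add, S.th_anti]
  by_cases h : A = B
  · simp [h, Matrix.mul_apply, Finset.sum_smul]
  · simp [h]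

lemma vec_anti' (N M : Matrix (Fin 16) (Fin 16) ℂ) (A B : Fin d) (β δ : Fin 16) :
    S.vec N A β * S.vec M B δ =
      (if A = B then ((N * Mᵀ) β δ) • (1 : R) else 0) - S.vec M B δ * S.vec N A β := by
  rw [← S.vec_anti N M A B β δ]; abel

/-- `∑_β (Nθ^A)_β (Mθ^B)_β = θ^A Nᵀ M θ^B` -/
lemma sum_vec_mul_vec (N M : Matrix (Fin 16) (Fin 16) ℂ) (A B : Fin d) :
    ∑ β, S.vec N A β * S.vec M B β = S.bil (Nᵀ * M) A B := by
  have h1 : ∀ β, S.vec N A β * S.vec M B β =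
      ∑ i, ∑ j, (N β i * M β j) • (S.th i A * S.th j B) := by
    intro β
    simp only [vec, Finset.sum_mul, Finset.mul_sum, smul_mul_smul_comm]
    rw [Finset.sum_comm]
  have h2 : S.bil (Nᵀ * M) A B =
      ∑ i, ∑ j, (∑ β, N β i * M β j) • (S.th i A * S.th j B) := by
    simp only [bil, vec, Finset.mul_sum, mul_smul_comm, Matrix.mul_apply, Matrix.transpose_apply]
  rw [h2, Finset.sum_congr rfl fun β _ => h1 β, Finset.sum_comm]
  refine Finset.sum_congr rfl fun i _ => ?_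
  rw [Finset.sum_comm]
  refine Finset.sum_congr rfl fun j _ => ?_
  rw [Finset.sum_smul]

lemma bil_swap (N : Matrix (Fin 16) (Fin 16) ℂ) (A B : Fin d) :
    S.bil N A B = (if A = B then N.trace • (1 : R) else 0) - S.bil Nᵀ B A := by
  have h : S.bil N A B + S.bil Nᵀ B A = (if A = B then N.trace • (1 : R) else 0) := by
    have h1 : S.bil N A B = ∑ β, S.vec 1 A β * S.vec N B β := by
      rw [S.sum_vec_mul_vec]; simp
    have h2 : S.bil Nᵀ B A = ∑ β, S.vec N B β * S.vec 1 A β := by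
      rw [S.sum_vec_mul_vec]; simp
    rw [h1, h2, ← Finset.sum_add_distrib]
    simp only [vec_anti]
    by_cases hAB : A = B
    · simp [hAB, Matrix.trace, Finset.sum_smul]
    · simp [hAB]
  rw [← h]; abel

/-- the total bilinear `∑_C θ^C N θ^C` -/
noncomputable def tot (N : Matrix (Fin 16) (Fin 16) ℂ) : R := ∑ C, S.bil N C C

lemma tot_add (N M : Matrix (Fin 16) (Fin 16) ℂ) : S.tot (N + M) = S.tot N + S.tot M := by
  simp [tot, bil_add, Finset.sum_add_distrib]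

lemma tot_sub (N M : Matrix (Fin 16) (Fin 16) ℂ) : S.tot (N - M) = S.tot N - S.tot M := by
  simp [tot, bil_sub, Finset.sum_sub_distrib]

lemma tot_neg (N : Matrix (Fin 16) (Fin 16) ℂ) : S.tot (-N) = -S.tot N := by
  simp [tot, bil_neg]

lemma tot_smul (c : ℂ) (N : Matrix (Fin 16) (Fin 16) ℂ) : S.tot (c • N) = c • S.tot N := by
  simp [tot, bil_smul, Finset.smul_sum]

lemma tot_sum {ι : Type*} (s : Finset ι) (N : ι → Matrix (Fin 16) (Fin 16) ℂ) :
    S.tot (∑ i ∈ s, N i) = ∑ i ∈ s, S.tot (N i) := by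
  simp only [tot, bil_sum]
  rw [Finset.sum_comm]

lemma tot_one : S.tot 1 = (8 * d : ℂ) • (1 : R) := by
  have h : S.tot 1 = (16 * d : ℂ) • (1 : R) - S.tot 1 := by
    conv_lhs => rw [tot]
    have : ∀ C, S.bil 1 C C = (16 : ℂ) • (1 : R) - S.bil 1 C C := by
      intro C
      conv_lhs => rw [S.bil_swap]
      simp [Matrix.trace_one]
    rw [Finset.sum_congr rfl fun C _ => this C, Finset.sum_sub_distrib, tot]
    congr 1
    rw [Finset.sum_const, Finset.card_univ, Fintype.card_fin, ← Nat.cast_smul_eq_nsmul ℂ, smul_smul]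
    ring_nf
  have h2 : (2 : ℂ) • S.tot 1 = (16 * d : ℂ) • (1 : R) := by
    rw [two_smul]
    nth_rewrite 1 [h]
    abel
  calc S.tot 1 = (1/2 : ℂ) • ((2 : ℂ) • S.tot 1) := by rw [smul_smul]; norm_num
    _ = _ := by rw [h2, smul_smul]; congr 1; ring

/-- `[(Nθ^A)_β, θ M θ] = 2 (N M θ^A)_β` for antisymmetric `M` -/
lemma vec_comm_tot (N M : Matrix (Fin 16) (Fin 16) ℂ) (hM : Mᵀ = -M) (A : Fin d) (β : Fin 16) :
    S.vec N A β * S.tot M - S.tot M * S.vec N A β = (2 : ℂ) • S.vec (N * M) A β := by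
  have key : ∀ C, S.vec N A β * S.bil M C C - S.bil M C C * S.vec N A β =
      if A = C then (2 : ℂ) • S.vec (N * M) A β else 0 := by
    intro C
    have hb : S.bil M C C = ∑ δ, S.vec 1 C δ * S.vec M C δ := by
      rw [S.sum_vec_mul_vec]; simp
    rw [hb, Finset.mul_sum, Finset.sum_mul, ← Finset.sum_sub_distrib]
    have h1 : ∀ δ, S.vec N A β * (S.vec 1 C δ * S.vec M C δ) -
        S.vec 1 C δ * S.vec M C δ * S.vec N A β =
        (if A = C then (N β δ) • S.vec M C δ - ((N * Mᵀ) β δ) • S.vec 1 C δ else 0) := by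
      intro δ
      have e1 := S.vec_anti N 1 A C β δ
      have e2 := S.vec_anti N M A C β δ
      have : S.vec N A β * (S.vec 1 C δ * S.vec M C δ) -
        S.vec 1 C δ * S.vec M C δ * S.vec N A β =
        (S.vec N A β * S.vec 1 C δ + S.vec 1 C δ * S.vec N A β) * S.vec M C δ -
        S.vec 1 C δ * (S.vec N A β * S.vec M C δ + S.vec M C δ * S.vec N A β) := by
        noncomm_ring
      rw [this, e1, e2]
      by_cases h : A = C
      · simp [h]
      · simp [h]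
    rw [Finset.sum_congr rfl fun δ _ => h1 δ]
    by_cases h : A = C
    · subst h
      simp only [if_true, Finset.sum_sub_distrib]
      have a1 : ∑ δ, N β δ • S.vec M A δ = S.vec (N * M) A β := by rw [S.vec_mul]
      have a2 : ∑ δ, (N * Mᵀ) β δ • S.vec 1 A δ = S.vec (N * Mᵀ) A β := by
        simp only [vec_one]; rfl
      rw [a1, a2, hM, Matrix.mul_neg, S.vec_neg, two_smul]
      abel
    · simp [h]
  rw [tot, Finset.mul_sum, Finset.sum_mul, ← Finset.sum_sub_distrib,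
    Finset.sum_congr rfl fun C _ => key C]
  simp

end CS
end Vale.Agent.P353.Z
end

section

/-! # General gauge algebra: abstract setup with structure constants `f` on `Fin d`

Same conventions as `Vale.Agent.P353.Core` with `ε_{ABC}` replaced by `f_{ABC}`. -/

open MeasureTheory Filter Topology
open scoped ContDiff

namespace Vale.Agent.P353.Z

variable (d : ℕ) (F : Type*) [NormedAddCommGroup F] [InnerProductSpace ℂ F]

/-- Abstract setup: Clifford system acting on `F` and structure constants `f` (totally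
antisymmetric, Jacobi identity). -/
structure Setup extends CS d (F →L[ℂ] F) where
  κ : ℝ
  κ_pos : 0 < κ
  f : Fin d → Fin d → Fin d → ℝ
  f_swap : ∀ A B C, f A B C = - f B A C
  f_cyc : ∀ A B C, f A B C = f B C A
  f_jac : ∀ A B C D, ∑ E, (f A B E * f E C D + f B C E * f E A D + f C A E * f E B D) = 0
  g_real : ∀ i α β, (g i α β).im = 0
  th_sa : ∀ α A (v w : F), inner ℂ (th α A v) w = inner ℂ v (th α A w)

variable {d} {F}

namespace Setup

variable (S : Setup d F)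

lemma f_swap' (A B C : Fin d) : S.f A C B = - S.f A B C := by
  rw [S.f_cyc A C B, S.f_swap C B A, ← S.f_cyc A B C]

/-- `F^A_{ij}(x) = κ f_{ABC} x_i^B x_j^C` -/
noncomputable def FF (A : Fin d) (i j : Fin 9) (x : Cfg d) : ℝ :=
  S.κ * ∑ B, ∑ C, S.f A B C * x (i, B) * x (j, C)

/-- `W_β(x) = (1/2) F^A_{ij} (γ^{ij} θ^A)_β` -/
noncomputable def W (β : Fin 16) (x : Cfg d) : F →L[ℂ] F :=
  (1 / 2 : ℂ) • ∑ A, ∑ i, ∑ j, ((S.FF A i j x : ℝ) : ℂ) • S.vec (S.g2 i j) A β

/-- supercharge `Q_β u = -i (γ^i θ^A)_β ∂_i^A u + W_β u` -/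
noncomputable def Q (β : Fin 16) (u : Cfg d → F) (x : Cfg d) : F :=
  (-Complex.I) • ∑ i, ∑ A, S.vec (S.g i) A β (pd i A u x) + S.W β x (u x)

/-- `S_{kl} = -(i/4) θ γ^{kl} θ` -/
noncomputable def Skl (k l : Fin 9) : F →L[ℂ] F := (-Complex.I / 4) • S.tot (S.g2 k l)

/-- spin part of the gauge generator `𝒮_C = -(i/2) f_{CDE} θ^D·θ^E` -/
noncomputable def cS (C : Fin d) : F →L[ℂ] F :=
  (-Complex.I / 2) • ∑ D, ∑ E, (S.f C D E : ℂ) • S.bil 1 D E

/-- rotation generator `J_{kl}` -/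
noncomputable def J (k l : Fin 9) (u : Cfg d → F) (x : Cfg d) : F :=
  (-Complex.I) • ∑ A, ((x (k, A) : ℂ) • pd l A u x - (x (l, A) : ℂ) • pd k A u x) +
    S.Skl k l (u x)

/-- gauge generator `G_C` -/
noncomputable def G (C : Fin d) (u : Cfg d → F) (x : Cfg d) : F :=
  (-Complex.I) • ∑ i, ∑ A, ∑ B, ((S.f C A B : ℂ) * (x (i, A) : ℂ)) • pd i B u x + S.cS C (u x)

/-- `B_β(x) = x_i^A (γ^i θ^A)_β` -/
noncomputable def B (β : Fin 16) (x : Cfg d) : F →L[ℂ] F :=
  ∑ i, ∑ A, (x (i, A) : ℂ) • S.vec (S.g i) A β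

/-- bosonic potential `V = (1/4) ∑ (F^A_{ij})²` -/
noncomputable def V (x : Cfg d) : ℝ := (1 / 4) * ∑ A, ∑ i, ∑ j, (S.FF A i j x) ^ 2

/-- fermionic potential `F(x) = (i/2) κ f_{ABC} x_q^C θ^A γ^q θ^B` -/
noncomputable def Fx (x : Cfg d) : F →L[ℂ] F :=
  (Complex.I / 2 * (S.κ : ℂ)) • ∑ q, ∑ A, ∑ B, ∑ C, ((S.f A B C : ℂ) * (x (q, C) : ℂ)) •
    S.bil (S.g q) A B

/-- test functions -/
def Tst (u : Cfg d → F) : Prop := ContDiff ℝ ∞ u ∧ HasCompactSupport u

/-- approximating sequences of zero modes -/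
def Apx (Ψ : Lp F 2 (volume : Measure (Cfg d))) (u : ℕ → Cfg d → F) : Prop :=
  (∀ n, Tst (u n)) ∧ (∀ n C x, S.G C (u n) x = 0) ∧
    Tendsto (fun n => ∫ x, ‖u n x - Ψ x‖ ^ 2) atTop (𝓝 0) ∧
    ∀ β, Tendsto (fun n => ∫ x, ‖S.Q β (u n) x‖ ^ 2) atTop (𝓝 0)

/-- zero modes -/
def IsZM (Ψ : Lp F 2 (volume : Measure (Cfg d))) : Prop := ∃ u, S.Apx Ψ u

end Setup
end Vale.Agent.P353.Z
end

section

open MeasureTheory Filter Topology
open scoped ContDiff

namespace Vale.Agent.P353.Z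

variable {d : ℕ}

variable {F : Type*} [NormedAddCommGroup F] [InnerProductSpace ℂ F]

/-- gradient of a real function in direction (i,A) -/
noncomputable def pdr (i : Fin 9) (A : Fin d) (φ : (Cfg d) → ℝ) (x : (Cfg d)) : ℝ :=
  fderiv ℝ φ x (EuclideanSpace.single (i, A) 1)

/-! ### basic rules for `pd` -/

section pd

variable {d : ℕ}

lemma pd_add {i : Fin 9} {A : Fin d} {u v : Cfg d → F} {x : Cfg d}
    (hu : DifferentiableAt ℝ u x) (hv : DifferentiableAt ℝ v x) :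
    pd i A (fun y => u y + v y) x = pd i A u x + pd i A v x := by
  unfold pd
  rw [fderiv_fun_add hu hv]; rfl

lemma pd_sub {i : Fin 9} {A : Fin d} {u v : Cfg d → F} {x : Cfg d}
    (hu : DifferentiableAt ℝ u x) (hv : DifferentiableAt ℝ v x) :
    pd i A (fun y => u y - v y) x = pd i A u x - pd i A v x := by
  unfold pd
  rw [fderiv_fun_sub hu hv]; rfl

lemma pd_neg {i : Fin 9} {A : Fin d} {u : Cfg d → F} {x : Cfg d} :
    pd i A (fun y => -u y) x = -pd i A u x := by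
  unfold pd
  rw [fderiv_fun_neg]; rfl

lemma pd_sum {ι : Type*} (s : Finset ι) {i : Fin 9} {A : Fin d} {u : ι → Cfg d → F} {x : Cfg d}
    (hu : ∀ k ∈ s, DifferentiableAt ℝ (u k) x) :
    pd i A (fun y => ∑ k ∈ s, u k y) x = ∑ k ∈ s, pd i A (u k) x := by
  unfold pd
  rw [fderiv_fun_sum hu]
  simp

/-- product rule for an operator valued multiplier -/
lemma pd_clm_apply {i : Fin 9} {A : Fin d} {T : Cfg d → F →L[ℂ] F} {u : Cfg d → F} {x : Cfg d}
    (hT : DifferentiableAt ℝ T x) (hu : DifferentiableAt ℝ u x) :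
    pd i A (fun y => T y (u y)) x =
      (fderiv ℝ T x (EuclideanSpace.single (i, A) 1)) (u x) + T x (pd i A u x) := by
  unfold pd
  have hB : IsBoundedBilinearMap ℝ (fun p : (F →L[ℂ] F) × F => p.1 p.2) := by
    have h := (isBoundedBilinearMap_apply (𝕜 := ℂ) (E := F) (F := F))
    refine ⟨fun a b c => by simp, fun c a b => ?_, fun a b c => by simp, fun c a b => ?_, ?_⟩
    · simp
    · simp
    · obtain ⟨C, hC, hb⟩ := h.bound
      exact ⟨C, hC, hb⟩
  have h1 := hB.hasFDerivAt (T x, u x)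
  have h2 := hT.hasFDerivAt.prodMk hu.hasFDerivAt
  have h3 := h1.comp x h2
  have h4 : fderiv ℝ (fun y => T y (u y)) x = _ := h3.fderiv
  rw [h4]
  simp [add_comm]

lemma pd_clm {i : Fin 9} {A : Fin d} (T : F →L[ℂ] F) {u : Cfg d → F} {x : Cfg d}
    (hu : DifferentiableAt ℝ u x) :
    pd i A (fun y => T (u y)) x = T (pd i A u x) := by
  rw [pd_clm_apply (T := fun _ => T) (differentiableAt_const T) hu]
  simp

lemma pd_csmul {i : Fin 9} {A : Fin d} {c : Cfg d → ℂ} {u : Cfg d → F} {x : Cfg d}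
    (hc : DifferentiableAt ℝ c x) (hu : DifferentiableAt ℝ u x) :
    pd i A (fun y => c y • u y) x =
      (fderiv ℝ c x (EuclideanSpace.single (i, A) 1)) • u x + c x • pd i A u x := by
  unfold pd
  rw [fderiv_fun_smul hc hu]
  simp [add_comm]

lemma fderiv_ofReal_comp {φ : Cfg d → ℝ} {x : Cfg d} (hφ : DifferentiableAt ℝ φ x)
    (e : Cfg d) : fderiv ℝ (fun y => ((φ y : ℝ) : ℂ)) x e = ((fderiv ℝ φ x e : ℝ) : ℂ) := by
  have h := (Complex.ofRealCLM.hasFDerivAt (x := φ x)).comp x hφ.hasFDerivAt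
  have h2 : fderiv ℝ (fun y => ((φ y : ℝ) : ℂ)) x = _ := h.fderiv
  rw [h2]
  simp

lemma pd_rsmul {i : Fin 9} {A : Fin d} {φ : Cfg d → ℝ} {u : Cfg d → F} {x : Cfg d}
    (hφ : DifferentiableAt ℝ φ x) (hu : DifferentiableAt ℝ u x) :
    pd i A (fun y => ((φ y : ℝ) : ℂ) • u y) x =
      ((fderiv ℝ φ x (EuclideanSpace.single (i, A) 1) : ℝ) : ℂ) • u x
        + ((φ x : ℝ) : ℂ) • pd i A u x := by
  have hc : DifferentiableAt ℝ (fun y => ((φ y : ℝ) : ℂ)) x :=
    Complex.ofRealCLM.differentiableAt.comp x hφ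
  rw [pd_csmul hc hu, fderiv_ofReal_comp hφ]

lemma contDiff_pd {i : Fin 9} {A : Fin d} {u : Cfg d → F} (hu : ContDiff ℝ ∞ u) :
    ContDiff ℝ ∞ (pd i A u) := by
  unfold pd
  exact (hu.fderiv_right (m := ∞) (by simp)).clm_apply contDiff_const

lemma continuous_pd {i : Fin 9} {A : Fin d} {u : Cfg d → F} (hu : ContDiff ℝ 1 u) :
    Continuous (pd i A u) := by
  unfold pd
  exact (hu.continuous_fderiv (by simp)).clm_apply continuous_const

lemma hasCompactSupport_pd {i : Fin 9} {A : Fin d} {u : Cfg d → F} (hu : HasCompactSupport u) :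
    HasCompactSupport (pd i A u) := by
  have h := hu.fderiv_apply (𝕜 := ℝ) (EuclideanSpace.single (i, A) (1 : ℝ) : Cfg d)
  exact h

end pd

/-! ### integration by parts -/

section parts

variable {d : ℕ} {G : Type*} [NormedAddCommGroup G] [NormedSpace ℝ G]

lemma integral_fderiv_eq_zero (w : Cfg d → G) (hw : ContDiff ℝ 1 w)
    (hc : HasCompactSupport w) (e : Cfg d) :
    ∫ x, fderiv ℝ w x e = 0 := by
  have h := integral_smul_fderiv_eq_neg_fderiv_smul_of_integrable (μ := volume)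
    (f := fun _ : Cfg d => (1 : ℝ)) (g := w) (v := e) (𝕜 := ℝ) ?_ ?_ ?_ ?_ ?_
  · simpa using h
  · simp
  · simp only [one_smul]
    exact ((hw.continuous_fderiv (by simp)).clm_apply continuous_const).integrable_of_hasCompactSupport
      (hc.fderiv_apply (𝕜 := ℝ) e)
  · simp only [one_smul]
    exact hw.continuous.integrable_of_hasCompactSupport hc
  · intro x _; exact differentiableAt_const _
  · intro x _; exact (hw.differentiable (by simp)) x

lemma integral_inner_pd (u v : Cfg d → F) (hu : ContDiff ℝ 1 u) (hv : ContDiff ℝ 1 v)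
    (hc : HasCompactSupport u) (i : Fin 9) (A : Fin d) :
    ∫ x, inner ℂ (pd i A u x) (v x) = - ∫ x, inner ℂ (u x) (pd i A v x) := by
  have hw : ContDiff ℝ 1 (fun x => inner ℂ (u x) (v x)) := hu.inner ℂ hv
  have hcw : HasCompactSupport (fun x => inner ℂ (u x) (v x)) := by
    refine hc.mono ?_
    intro x hx
    simp only [Function.mem_support] at hx ⊢
    intro h0
    exact hx (by rw [h0, inner_zero_left])
  have h := integral_fderiv_eq_zero _ hw hcw (EuclideanSpace.single (i, A) (1 : ℝ))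
  have hd : ∀ x, fderiv ℝ (fun x => inner ℂ (u x) (v x)) x (EuclideanSpace.single (i, A) (1 : ℝ)) =
      inner ℂ (u x) (pd i A v x) + inner ℂ (pd i A u x) (v x) := by
    intro x
    rw [fderiv_inner_apply ℂ ((hu.differentiable (by simp)) x) ((hv.differentiable (by simp)) x)]
    rfl
  have hcu' : HasCompactSupport (pd i A u) := hasCompactSupport_pd hc
  have hi1 : Integrable (fun x => inner ℂ (u x) (pd i A v x)) := by
    refine (hu.continuous.inner (continuous_pd hv)).integrable_of_hasCompactSupport ?_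
    refine hc.mono ?_
    intro x hx
    simp only [Function.mem_support] at hx ⊢
    intro h0
    exact hx (by rw [h0, inner_zero_left])
  have hi2 : Integrable (fun x => inner ℂ (pd i A u x) (v x)) := by
    refine ((continuous_pd hu).inner hv.continuous).integrable_of_hasCompactSupport ?_
    refine hcu'.mono ?_
    intro x hx
    simp only [Function.mem_support] at hx ⊢
    intro h0
    exact hx (by rw [h0, inner_zero_left])
  simp only [hd] at h
  rw [integral_add hi1 hi2] at h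
  linear_combination h

end parts

/-! ### symmetric operators -/

namespace Setup

variable (S : Setup d F)

lemma th_symm (α : Fin 16) (A : Fin d) (v w : F) :
    inner ℂ (S.th α A v) w = inner ℂ v (S.th α A w) := S.th_sa α A v w

lemma vec_symm (N : Matrix (Fin 16) (Fin 16) ℂ) (hN : ∀ α β, (N α β).im = 0) (A : Fin d)
    (β : Fin 16) (v w : F) :
    inner ℂ (S.vec N A β v) w = inner ℂ v (S.vec N A β w) := by
  simp only [CS.vec, _root_.sum_apply, _root_.smul_apply, sum_inner,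
    inner_sum, inner_smul_left, inner_smul_right, S.th_symm]
  refine Finset.sum_congr rfl fun γ _ => ?_
  rw [Complex.conj_eq_iff_im.mpr (hN β γ)]

lemma g_im (i : Fin 9) (α β : Fin 16) : (S.g i α β).im = 0 := S.g_real i α β

lemma mul_im_zero {N M : Matrix (Fin 16) (Fin 16) ℂ} (hN : ∀ α β, (N α β).im = 0)
    (hM : ∀ α β, (M α β).im = 0) (α β : Fin 16) : ((N * M) α β).im = 0 := by
  rw [Matrix.mul_apply, Complex.im_sum]
  refine Finset.sum_eq_zero fun γ _ => ?_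
  rw [Complex.mul_im, hN, hM]; ring

lemma g2_im (i j : Fin 9) (α β : Fin 16) : (S.g2 i j α β).im = 0 := by
  have h1 := mul_im_zero (S.g_im i) (S.g_im j) α β
  have h2 := mul_im_zero (S.g_im j) (S.g_im i) α β
  simp only [CS.g2, Matrix.smul_apply, Matrix.sub_apply, smul_eq_mul]
  rw [Complex.mul_im, Complex.sub_im, h1, h2]
  norm_num

lemma W_symm (β : Fin 16) (x : (Cfg d)) (v w : F) :
    inner ℂ (S.W β x v) w = inner ℂ v (S.W β x w) := by
  simp only [W, _root_.sum_apply, _root_.smul_apply, sum_inner,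
    inner_sum, inner_smul_left, inner_smul_right, S.vec_symm _ (S.g2_im _ _), Complex.conj_ofReal]
  congr 1
  norm_num [Complex.ext_iff]

/-! smoothness in `x` of the operator valued coefficients -/

lemma contDiff_coord (p : Fin 9 × Fin d) : ContDiff ℝ ∞ (fun x : (Cfg d) => x p) := by
  exact (EuclideanSpace.proj (𝕜 := ℝ) p).contDiff

lemma contDiff_FF (A : Fin d) (i j : Fin 9) : ContDiff ℝ ∞ (S.FF A i j) := by
  unfold FF
  refine contDiff_const.mul (ContDiff.sum fun B _ => ContDiff.sum fun C _ => ?_)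
  exact (contDiff_const.mul (contDiff_coord _)).mul (contDiff_coord _)

lemma contDiff_ofReal {φ : (Cfg d) → ℝ} (h : ContDiff ℝ ∞ φ) :
    ContDiff ℝ ∞ (fun x => ((φ x : ℝ) : ℂ)) :=
  Complex.ofRealCLM.contDiff.comp h

lemma contDiff_W (β : Fin 16) : ContDiff ℝ ∞ (S.W β) := by
  unfold W
  refine ContDiff.const_smul (1 / 2 : ℂ) (ContDiff.sum fun A _ => ContDiff.sum fun i _ =>
    ContDiff.sum fun j _ => ?_)
  exact (contDiff_ofReal (S.contDiff_FF A i j)).smul contDiff_const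

lemma contDiff_B (β : Fin 16) : ContDiff ℝ ∞ (S.B β) := by
  unfold B
  refine ContDiff.sum fun i _ => ContDiff.sum fun A _ => ?_
  exact (contDiff_ofReal (contDiff_coord _)).smul contDiff_const

lemma contDiff_clm_apply' {T : (Cfg d) → F →L[ℂ] F} {u : (Cfg d) → F} (hT : ContDiff ℝ ∞ T)
    (hu : ContDiff ℝ ∞ u) : ContDiff ℝ ∞ (fun x => T x (u x)) := by
  have hB : IsBoundedBilinearMap ℝ (fun p : (F →L[ℂ] F) × F => p.1 p.2) := by
    have h := (isBoundedBilinearMap_apply (𝕜 := ℂ) (E := F) (F := F))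
    refine ⟨fun a b c => by simp, fun c a b => ?_, fun a b c => by simp, fun c a b => ?_, ?_⟩
    · simp
    · simp
    · obtain ⟨C, hC, hb⟩ := h.bound
      exact ⟨C, hC, hb⟩
  exact hB.contDiff.comp (hT.prodMk hu)

lemma contDiff_Q (β : Fin 16) {u : (Cfg d) → F} (hu : ContDiff ℝ ∞ u) : ContDiff ℝ ∞ (S.Q β u) := by
  unfold Q
  refine ContDiff.add (contDiff_const.smul (ContDiff.sum fun i _ => ContDiff.sum fun A _ => ?_))
    (contDiff_clm_apply' (S.contDiff_W β) hu)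
  exact contDiff_clm_apply' contDiff_const (contDiff_pd hu)

lemma hasCompactSupport_Q (β : Fin 16) {u : (Cfg d) → F} (hu : HasCompactSupport u) :
    HasCompactSupport (S.Q β u) := by
  refine HasCompactSupport.intro' (K := tsupport u) hu (isClosed_tsupport u) ?_
  intro x hx
  have h0 : u x = 0 := image_eq_zero_of_notMem_tsupport hx
  have h1 : ∀ i A, pd i A u x = 0 := by
    intro i A
    have : fderiv ℝ u x = 0 := by
      have h := (tsupport_fderiv_subset ℝ (f := u))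
      by_contra hne
      exact hx (h (subset_tsupport _ hne))
    simp [pd, this]
  simp [Q, h0, h1]

lemma Tst.contDiff {u : (Cfg d) → F} (hu : Tst u) : ContDiff ℝ ∞ u := hu.1

lemma Tst.hcs {u : (Cfg d) → F} (hu : Tst u) : HasCompactSupport u := hu.2

lemma Tst.diff {u : (Cfg d) → F} (hu : Tst u) (x : (Cfg d)) : DifferentiableAt ℝ u x :=
  (hu.1.differentiable (by simp)) x

lemma Tst.Q {u : (Cfg d) → F} (hu : Tst u) (β : Fin 16) : Tst (S.Q β u) :=
  ⟨S.contDiff_Q β hu.1, S.hasCompactSupport_Q β hu.2⟩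

lemma Tst.clm {T : (Cfg d) → F →L[ℂ] F} {u : (Cfg d) → F} (hT : ContDiff ℝ ∞ T) (hu : Tst u) :
    Tst (fun x => T x (u x)) := by
  refine ⟨contDiff_clm_apply' hT hu.1, hu.2.mono ?_⟩
  intro x hx
  simp only [Function.mem_support] at hx ⊢
  intro h0
  exact hx (by rw [h0, map_zero])

lemma Tst.rsmul {φ : (Cfg d) → ℝ} {u : (Cfg d) → F} (hφ : ContDiff ℝ ∞ φ) (hu : Tst u) :
    Tst (fun x => ((φ x : ℝ) : ℂ) • u x) := by
  refine ⟨(contDiff_ofReal hφ).smul hu.1, hu.2.mono ?_⟩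
  intro x hx
  simp only [Function.mem_support] at hx ⊢
  intro h0
  exact hx (by rw [h0, smul_zero])

lemma Tst.pd {u : (Cfg d) → F} (hu : Tst u) (i : Fin 9) (A : Fin d) : Tst (pd i A u) :=
  ⟨contDiff_pd hu.1, hasCompactSupport_pd hu.2⟩

lemma Tst.add {u v : (Cfg d) → F} (hu : Tst u) (hv : Tst v) : Tst (fun x => u x + v x) :=
  ⟨hu.1.add hv.1, hu.2.add hv.2⟩

lemma Tst.neg {u : (Cfg d) → F} (hu : Tst u) : Tst (fun x => -u x) := by
  refine ⟨hu.1.neg, hu.2.mono ?_⟩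
  intro x hx
  simpa using hx

lemma Tst.sub {u v : (Cfg d) → F} (hu : Tst u) (hv : Tst v) : Tst (fun x => u x - v x) := by
  have h := hu.add hv.neg
  simpa [sub_eq_add_neg] using h

lemma Tst.inner_cs {u v : (Cfg d) → F} (hu : Tst u) : HasCompactSupport (fun x => inner ℂ (u x) (v x)) := by
  refine hu.2.mono ?_
  intro x hx
  simp only [Function.mem_support] at hx ⊢
  intro h0
  exact hx (by rw [h0, inner_zero_left])

lemma Tst.inner_int {u v : (Cfg d) → F} (hu : Tst u) (hv : Continuous v) :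
    Integrable (fun x => inner ℂ (u x) (v x)) :=
  (hu.1.continuous.inner hv).integrable_of_hasCompactSupport hu.inner_cs

lemma Tst.inner_int' {u v : (Cfg d) → F} (hu : Tst u) (hv : Continuous v) :
    Integrable (fun x => inner ℂ (v x) (u x)) := by
  refine (hv.inner hu.1.continuous).integrable_of_hasCompactSupport (hu.2.mono ?_)
  intro x hx
  simp only [Function.mem_support] at hx ⊢
  intro h0
  exact hx (by rw [h0, inner_zero_right])

lemma Tst.norm_sq_int {u : (Cfg d) → F} (hu : Tst u) : Integrable (fun x => ‖u x‖ ^ 2) := by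
  refine (hu.1.continuous.norm.pow 2).integrable_of_hasCompactSupport (hu.2.mono ?_)
  intro x hx
  simp only [Function.mem_support] at hx ⊢
  intro h0
  exact hx (by simp [h0])

lemma Tst.mul_norm_sq_int {φ : (Cfg d) → ℝ} {u : (Cfg d) → F} (hφ : Continuous φ) (hu : Tst u) :
    Integrable (fun x => φ x * ‖u x‖ ^ 2) := by
  refine (hφ.mul (hu.1.continuous.norm.pow 2)).integrable_of_hasCompactSupport (hu.2.mono ?_)
  intro x hx
  simp only [Function.mem_support] at hx ⊢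
  intro h0
  exact hx (by simp [h0])

end Setup

/-! ### Q and J -/

theorem Q_smul (S : Setup d F) (β : Fin 16) (φ : (Cfg d) → ℝ) (u : (Cfg d) → F) (x : (Cfg d))
    (hφ : DifferentiableAt ℝ φ x) (hu : DifferentiableAt ℝ u x) :
    S.Q β (fun y => ((φ y : ℝ) : ℂ) • u y) x = ((φ x : ℝ) : ℂ) • S.Q β u x -
      Complex.I • ∑ i, ∑ A, ((pdr i A φ x : ℝ) : ℂ) • S.vec (S.g i) A β (u x) := by
  have h : ∀ i A, pd i A (fun y => ((φ y : ℝ) : ℂ) • u y) x =
      ((pdr i A φ x : ℝ) : ℂ) • u x + ((φ x : ℝ) : ℂ) • pd i A u x := fun i A => pd_rsmul hφ hu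
  simp only [Setup.Q, h, map_add, map_smul, Finset.sum_add_distrib, smul_add, Finset.smul_sum,
    neg_smul]
  simp only [smul_smul, mul_comm Complex.I, Finset.sum_neg_distrib, smul_neg]
  abel

theorem Q_symm (S : Setup d F) (β : Fin 16) (u v : (Cfg d) → F)
    (hu : Setup.Tst u) (hv : ContDiff ℝ ∞ v) :
    ∫ x, inner ℂ (S.Q β u x) (v x) = ∫ x, inner ℂ (u x) (S.Q β v x) := by
  have hv1 : ContDiff ℝ 1 v := hv.of_le (by simp)
  have hu1 : ContDiff ℝ 1 u := hu.1.of_le (by simp)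
  have hpt : ∀ x, inner ℂ (S.Q β u x) (v x) - inner ℂ (u x) (S.Q β v x) =
      ∑ i, ∑ A, Complex.I * (fderiv ℝ (fun y => inner ℂ (u y) (S.vec (S.g i) A β (v y))) x
        (EuclideanSpace.single (i, A) (1 : ℝ))) := by
    intro x
    have hd : ∀ i A, fderiv ℝ (fun y => inner ℂ (u y) (S.vec (S.g i) A β (v y))) x
        (EuclideanSpace.single (i, A) (1 : ℝ)) =
        inner ℂ (u x) (S.vec (S.g i) A β (pd i A v x)) +
          inner ℂ (pd i A u x) (S.vec (S.g i) A β (v x)) := by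
      intro i A
      have hdv : DifferentiableAt ℝ v x := (hv1.differentiable (by simp)) x
      have hdT : DifferentiableAt ℝ (fun y => S.vec (S.g i) A β (v y)) x :=
        ((S.vec (S.g i) A β).restrictScalars ℝ).differentiableAt.comp x hdv
      rw [fderiv_inner_apply ℂ ((hu1.differentiable (by simp)) x) hdT]
      have := pd_clm (i := i) (A := A) (S.vec (S.g i) A β) hdv
      unfold pd at this ⊢
      rw [this]
    simp only [hd, Setup.Q, inner_add_left, inner_add_right, inner_smul_left, inner_smul_right,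
      sum_inner, inner_sum, S.W_symm, S.vec_symm _ (S.g_im _)]
    simp only [map_neg, Complex.conj_I, neg_neg]
    simp only [mul_add, Finset.sum_add_distrib, Finset.mul_sum]
    simp only [neg_mul, Finset.sum_neg_distrib]
    ring
  have hI : ∫ x, (inner ℂ (S.Q β u x) (v x) - inner ℂ (u x) (S.Q β v x)) = 0 := by
    simp only [hpt]
    have hw : ∀ i A, ContDiff ℝ 1 (fun y => inner ℂ (u y) (S.vec (S.g i) A β (v y))) := by
      intro i A
      exact hu1.inner ℂ ((S.vec (S.g i) A β).restrictScalars ℝ |>.contDiff.comp hv1)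
    have hcs : ∀ i A, HasCompactSupport (fun y => inner ℂ (u y) (S.vec (S.g i) A β (v y))) :=
      fun i A => hu.inner_cs
    have hint : ∀ i A, Integrable (fun x => fderiv ℝ (fun y => inner ℂ (u y)
        (S.vec (S.g i) A β (v y))) x (EuclideanSpace.single (i, A) (1 : ℝ))) := by
      intro i A
      exact (((hw i A).continuous_fderiv (by simp)).clm_apply
        continuous_const).integrable_of_hasCompactSupport ((hcs i A).fderiv_apply (𝕜 := ℝ) _)
    rw [integral_finsetSum _ fun i _ => integrable_finsetSum _ fun A _ => (hint i A).const_mul _]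
    refine Finset.sum_eq_zero fun i _ => ?_
    rw [integral_finsetSum _ fun A _ => (hint i A).const_mul _]
    refine Finset.sum_eq_zero fun A _ => ?_
    rw [integral_const_mul, integral_fderiv_eq_zero _ (hw i A) (hcs i A), mul_zero]
  rw [integral_sub ((hu.Q S β).inner_int hv.continuous)
    (hu.inner_int (S.contDiff_Q β hv).continuous)] at hI
  exact sub_eq_zero.mp hI


namespace Setup

variable (S : Setup d F)

lemma bil_adj (N : Matrix (Fin 16) (Fin 16) ℂ) (hN : ∀ α β, (N α β).im = 0) (A B : Fin d)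
    (v w : F) : inner ℂ (S.bil N A B v) w = inner ℂ v (S.bil N.transpose B A w) := by
  have h1 : S.bil N.transpose B A = ∑ α, S.vec N B α * S.th α A := by
    simp only [CS.bil, CS.vec, Finset.mul_sum, Finset.sum_mul, Matrix.transpose_apply,
      mul_smul_comm, smul_mul_assoc]
    rw [Finset.sum_comm]
  rw [h1]
  simp only [CS.bil, _root_.sum_apply, sum_inner, inner_sum]
  refine Finset.sum_congr rfl fun α _ => ?_
  rw [mul_apply_eq_comp, mul_apply_eq_comp, S.th_symm,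
    S.vec_symm N hN]

lemma tot_adj (N : Matrix (Fin 16) (Fin 16) ℂ) (hN : ∀ α β, (N α β).im = 0) (v w : F) :
    inner ℂ (S.tot N v) w = inner ℂ v (S.tot N.transpose w) := by
  simp only [CS.tot, _root_.sum_apply, sum_inner, inner_sum, S.bil_adj N hN]

lemma g2_transpose (k l : Fin 9) : (S.g2 k l).transpose = - S.g2 k l := by
  simp only [CS.g2, Matrix.transpose_smul, Matrix.transpose_sub, Matrix.transpose_mul, S.g_symm]
  rw [← smul_neg, neg_sub]

lemma Skl_symm (k l : Fin 9) (v w : F) :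
    inner ℂ (S.Skl k l v) w = inner ℂ v (S.Skl k l w) := by
  simp only [Skl, _root_.smul_apply, inner_smul_left, inner_smul_right,
    S.tot_adj _ (S.g2_im k l), S.g2_transpose, S.tot_neg, _root_.neg_apply, inner_neg_right]
  have : (starRingEnd ℂ) (-Complex.I / 4) = Complex.I / 4 := by
    have h4 : (starRingEnd ℂ) 4 = 4 := by norm_num [Complex.ext_iff]
    simp [map_div₀, h4]
  rw [this]; ring

lemma cS_symm (C : Fin d) (v w : F) :
    inner ℂ (S.cS C v) w = inner ℂ v (S.cS C w) := by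
  have h1 : ∀ α β, ((1 : Matrix (Fin 16) (Fin 16) ℂ) α β).im = 0 := by
    intro α β
    rw [Matrix.one_apply]
    split_ifs <;> simp
  have he : ∀ D E : Fin d, S.f C E D = - S.f C D E := fun D E => S.f_swap' C D E
  have hc : ∀ D E : Fin d, (starRingEnd ℂ) (S.f C D E : ℂ) = (S.f C D E : ℂ) := by
    intro D E; simp
  simp only [cS, _root_.smul_apply, _root_.sum_apply, inner_smul_left, inner_smul_right,
    sum_inner, inner_sum, S.bil_adj _ h1, Matrix.transpose_one, hc]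
  have : (starRingEnd ℂ) (-Complex.I / 2) = Complex.I / 2 := by
    have h2 : (starRingEnd ℂ) 2 = 2 := by norm_num [Complex.ext_iff]
    simp [map_div₀, h2]
  rw [this]
  have h2 : ∑ D, ∑ E, (S.f C D E : ℂ) * inner ℂ v (S.bil 1 E D w) =
      - ∑ D, ∑ E, (S.f C D E : ℂ) * inner ℂ v (S.bil 1 D E w) := by
    rw [Finset.sum_comm, ← Finset.sum_neg_distrib]
    refine Finset.sum_congr rfl fun D _ => ?_
    rw [← Finset.sum_neg_distrib]
    refine Finset.sum_congr rfl fun E _ => ?_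
    rw [he D E]; push_cast; ring
  rw [h2]; ring

end Setup

lemma integral_rot_eq_zero (k l : Fin 9) (A : Fin d) (w : (Cfg d) → ℂ) (hw : ContDiff ℝ 1 w)
    (hc : HasCompactSupport w) :
    ∫ x, (((x (k, A) : ℝ) : ℂ) * fderiv ℝ w x (EuclideanSpace.single (l, A) (1 : ℝ)) -
      ((x (l, A) : ℝ) : ℂ) * fderiv ℝ w x (EuclideanSpace.single (k, A) (1 : ℝ))) = 0 := by
  have hcd : ∀ p : Fin 9 × Fin d, ContDiff ℝ 1 (fun x : (Cfg d) => ((x p : ℝ) : ℂ)) := fun p =>
    (Setup.contDiff_ofReal (Setup.contDiff_coord p)).of_le (by simp)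
  have hder : ∀ (p q : Fin 9 × Fin d) (x : (Cfg d)),
      fderiv ℝ (fun x : (Cfg d) => ((x p : ℝ) : ℂ) * w x) x (EuclideanSpace.single q (1 : ℝ)) =
        ((x p : ℝ) : ℂ) * fderiv ℝ w x (EuclideanSpace.single q (1 : ℝ)) +
          (if p = q then w x else 0) := by
    intro p q x
    rw [fderiv_fun_mul ((hcd p).differentiable (by simp) x) (hw.differentiable (by simp) x)]
    have hdp : fderiv ℝ (fun y : (Cfg d) => ((y p : ℝ) : ℂ)) x (EuclideanSpace.single q (1 : ℝ)) =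
        if p = q then 1 else 0 := by
      have hL : (fun y : (Cfg d) => y p) = (EuclideanSpace.proj (𝕜 := ℝ) p : (Cfg d) →L[ℝ] ℝ) := rfl
      have h := fderiv_ofReal_comp (d := d) (φ := fun y : (Cfg d) => y p) (x := x)
        (by rw [hL]; exact (EuclideanSpace.proj (𝕜 := ℝ) p : (Cfg d) →L[ℝ] ℝ).differentiableAt)
        (EuclideanSpace.single q (1 : ℝ))
      rw [h, hL, ContinuousLinearMap.fderiv]
      by_cases hpq : p = q
      · simp [hpq]
      · simp [hpq]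
    simp only [_root_.add_apply, _root_.smul_apply, smul_eq_mul, hdp]
    by_cases hpq : p = q
    · simp [hpq]
    · simp [hpq]
  have hcs : ∀ p : Fin 9 × Fin d, HasCompactSupport (fun x : (Cfg d) => ((x p : ℝ) : ℂ) * w x) := by
    intro p
    exact hc.mul_left
  have hsm : ∀ p : Fin 9 × Fin d, ContDiff ℝ 1 (fun x : (Cfg d) => ((x p : ℝ) : ℂ) * w x) :=
    fun p => (hcd p).mul hw
  have hint : ∀ p q : Fin 9 × Fin d, Integrable (fun x : (Cfg d) =>
      fderiv ℝ (fun x : (Cfg d) => ((x p : ℝ) : ℂ) * w x) x (EuclideanSpace.single q (1 : ℝ))) := by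
    intro p q
    exact (((hsm p).continuous_fderiv (by simp)).clm_apply
        continuous_const).integrable_of_hasCompactSupport ((hcs p).fderiv_apply (𝕜 := ℝ) _)
  have hz := fun p q : Fin 9 × Fin d => integral_fderiv_eq_zero _ (hsm p) (hcs p)
    (EuclideanSpace.single q (1 : ℝ))
  have heq : ∀ x : (Cfg d), (((x (k, A) : ℝ) : ℂ) * fderiv ℝ w x (EuclideanSpace.single (l, A) (1 : ℝ)) -
      ((x (l, A) : ℝ) : ℂ) * fderiv ℝ w x (EuclideanSpace.single (k, A) (1 : ℝ))) =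
      fderiv ℝ (fun x : (Cfg d) => ((x (k, A) : ℝ) : ℂ) * w x) x (EuclideanSpace.single (l, A) (1 : ℝ)) -
      fderiv ℝ (fun x : (Cfg d) => ((x (l, A) : ℝ) : ℂ) * w x) x
        (EuclideanSpace.single (k, A) (1 : ℝ)) := by
    intro x
    rw [hder, hder]
    by_cases hkl : k = l
    · subst hkl; simp
    · have hlk : ¬ l = k := fun h => hkl h.symm
      simp [hkl, hlk]
  simp only [heq]
  rw [integral_sub (hint _ _) (hint _ _), hz, hz, sub_zero]

lemma integrable_rot (k l : Fin 9) (A : Fin d) (w : (Cfg d) → ℂ) (hw : ContDiff ℝ 1 w)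
    (hc : HasCompactSupport w) :
    Integrable (fun x : (Cfg d) => (((x (k, A) : ℝ) : ℂ) *
      fderiv ℝ w x (EuclideanSpace.single (l, A) (1 : ℝ)) -
      ((x (l, A) : ℝ) : ℂ) * fderiv ℝ w x (EuclideanSpace.single (k, A) (1 : ℝ)))) := by
  have hcd : ∀ p : Fin 9 × Fin d, Continuous (fun x : (Cfg d) => ((x p : ℝ) : ℂ)) := fun p =>
    (Setup.contDiff_ofReal (Setup.contDiff_coord p)).continuous
  have hf : ∀ q : Fin 9 × Fin d, Continuous (fun x : (Cfg d) =>
      fderiv ℝ w x (EuclideanSpace.single q (1 : ℝ))) := fun q =>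
    (hw.continuous_fderiv (by simp)).clm_apply continuous_const
  have hs : ∀ q : Fin 9 × Fin d, HasCompactSupport (fun x : (Cfg d) =>
      fderiv ℝ w x (EuclideanSpace.single q (1 : ℝ))) := fun q => hc.fderiv_apply (𝕜 := ℝ) _
  refine Integrable.sub ?_ ?_
  · exact ((hcd _).mul (hf _)).integrable_of_hasCompactSupport (hs _).mul_left
  · exact ((hcd _).mul (hf _)).integrable_of_hasCompactSupport (hs _).mul_left

namespace Setup

variable (S : Setup d F)

lemma contDiff_J (k l : Fin 9) {u : (Cfg d) → F} (hu : ContDiff ℝ ∞ u) :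
    ContDiff ℝ ∞ (S.J k l u) := by
  unfold J
  refine ContDiff.add (ContDiff.const_smul _ (ContDiff.sum fun A _ => ContDiff.sub ?_ ?_))
    (contDiff_clm_apply' contDiff_const hu)
  · exact (contDiff_ofReal (contDiff_coord _)).smul (contDiff_pd hu)
  · exact (contDiff_ofReal (contDiff_coord _)).smul (contDiff_pd hu)

lemma hasCompactSupport_J (k l : Fin 9) {u : (Cfg d) → F} (hu : HasCompactSupport u) :
    HasCompactSupport (S.J k l u) := by
  refine HasCompactSupport.intro' (K := tsupport u) hu (isClosed_tsupport u) ?_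
  intro x hx
  have h0 : u x = 0 := image_eq_zero_of_notMem_tsupport hx
  have h1 : ∀ i A, _root_.Vale.Agent.P353.pd i A u x = 0 := by
    intro i A
    have : fderiv ℝ u x = 0 := by
      have h := (tsupport_fderiv_subset ℝ (f := u))
      by_contra hne
      exact hx (h (subset_tsupport _ hne))
    simp [_root_.Vale.Agent.P353.pd, this]
  simp [J, h0, h1]

lemma Tst.J {u : (Cfg d) → F} (hu : Tst u) (k l : Fin 9) : Tst (S.J k l u) :=
  ⟨S.contDiff_J k l hu.1, S.hasCompactSupport_J k l hu.2⟩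

end Setup

theorem J_symm (S : Setup d F) (k l : Fin 9) (u v : (Cfg d) → F)
    (hu : Setup.Tst u) (hv : ContDiff ℝ ∞ v) :
    ∫ x, inner ℂ (S.J k l u x) (v x) = ∫ x, inner ℂ (u x) (S.J k l v x) := by
  have hv1 : ContDiff ℝ 1 v := hv.of_le (by simp)
  have hu1 : ContDiff ℝ 1 u := hu.1.of_le (by simp)
  have hw : ContDiff ℝ 1 (fun y => inner ℂ (u y) (v y)) := hu1.inner ℂ hv1
  have hcs : HasCompactSupport (fun y => inner ℂ (u y) (v y)) := hu.inner_cs
  have hd : ∀ i A x, fderiv ℝ (fun y => inner ℂ (u y) (v y)) x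
      (EuclideanSpace.single (i, A) (1 : ℝ)) =
      inner ℂ (u x) (pd i A v x) + inner ℂ (pd i A u x) (v x) := by
    intro i A x
    rw [fderiv_inner_apply ℂ ((hu1.differentiable (by simp)) x) ((hv1.differentiable (by simp)) x)]
    rfl
  have hpt : ∀ x, inner ℂ (S.J k l u x) (v x) - inner ℂ (u x) (S.J k l v x) =
      ∑ A, Complex.I * (((x (k, A) : ℝ) : ℂ) * fderiv ℝ (fun y => inner ℂ (u y) (v y)) x
        (EuclideanSpace.single (l, A) (1 : ℝ)) - ((x (l, A) : ℝ) : ℂ) *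
        fderiv ℝ (fun y => inner ℂ (u y) (v y)) x (EuclideanSpace.single (k, A) (1 : ℝ))) := by
    intro x
    simp only [hd, Setup.J, inner_add_left, inner_add_right, inner_smul_left, inner_smul_right,
      inner_sub_left, inner_sub_right, sum_inner, inner_sum, S.Skl_symm, Complex.conj_ofReal]
    simp only [map_neg, Complex.conj_I, neg_neg]
    rw [Finset.mul_sum, neg_mul, Finset.mul_sum, add_sub_add_right_eq_sub, sub_neg_eq_add,
      ← Finset.sum_add_distrib]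
    refine Finset.sum_congr rfl fun A _ => ?_
    ring
  have hI : ∫ x, (inner ℂ (S.J k l u x) (v x) - inner ℂ (u x) (S.J k l v x)) = 0 := by
    simp only [hpt]
    rw [integral_finsetSum _ fun A _ => (integrable_rot k l A _ hw hcs).const_mul _]
    refine Finset.sum_eq_zero fun A _ => ?_
    rw [integral_const_mul, integral_rot_eq_zero k l A _ hw hcs, mul_zero]
  rw [integral_sub ((hu.J S k l).inner_int hv.continuous)
    (hu.inner_int (S.contDiff_J k l hv).continuous)] at hI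
  exact sub_eq_zero.mp hI

end Vale.Agent.P353.Z
end

section

open MeasureTheory Filter Topology
open scoped ContDiff

namespace Vale.Agent.P353.Z

variable {d : ℕ}

variable {F : Type*} [NormedAddCommGroup F] [InnerProductSpace ℂ F]

/-! ### general tools: Cauchy-Schwarz, supports, cutoff functions -/

lemma Setup.Tst.memLp {u : (Cfg d) → F} (hu : Setup.Tst u) : MemLp u 2 (volume : Measure (Cfg d)) :=
  hu.1.continuous.memLp_of_hasCompactSupport hu.2

omit [InnerProductSpace ℂ F] in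
lemma memLp_norm_sq_int {f : (Cfg d) → F} (hf : MemLp f 2 (volume : Measure (Cfg d))) :
    Integrable (fun x => ‖f x‖ ^ 2) := (memLp_two_iff_integrable_sq_norm hf.1).mp hf

lemma cs_inner {f g : (Cfg d) → F} (hf : MemLp f 2 (volume : Measure (Cfg d)))
    (hg : MemLp g 2 (volume : Measure (Cfg d))) :
    ‖∫ x, inner ℂ (f x) (g x)‖ ≤ Real.sqrt (∫ x, ‖f x‖ ^ 2) * Real.sqrt (∫ x, ‖g x‖ ^ 2) := by
  have hn : ∀ {f : (Cfg d) → F} (hf : MemLp f 2 (volume : Measure (Cfg d))),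
      ‖hf.toLp f‖ = Real.sqrt (∫ x, ‖f x‖ ^ 2) := by
    intro f hf
    have h1 : ‖hf.toLp f‖ ^ 2 = ∫ x, ‖f x‖ ^ 2 := by
      have h2 := inner_self_eq_norm_sq_to_K (𝕜 := ℂ) (hf.toLp f)
      rw [MeasureTheory.L2.inner_def] at h2
      have h3 : ∫ x, inner ℂ ((hf.toLp f) x) ((hf.toLp f) x) = ((∫ x, ‖f x‖ ^ 2 : ℝ) : ℂ) := by
        rw [← integral_complex_ofReal]
        refine integral_congr_ae ?_
        filter_upwards [hf.coeFn_toLp] with x hx
        rw [hx, inner_self_eq_norm_sq_to_K]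
        norm_cast
      rw [h3] at h2
      have h4 : ((‖hf.toLp f‖ ^ 2 : ℝ) : ℂ) = ((∫ x, ‖f x‖ ^ 2 : ℝ) : ℂ) := by
        rw [h2, Complex.ofReal_pow]
        rfl
      exact Complex.ofReal_injective h4
    rw [← h1, Real.sqrt_sq (norm_nonneg _)]
  have h1 : ∫ x, inner ℂ (f x) (g x) = inner ℂ (hf.toLp f) (hg.toLp g) := by
    rw [MeasureTheory.L2.inner_def]
    refine integral_congr_ae ?_
    filter_upwards [hf.coeFn_toLp, hg.coeFn_toLp] with x hx hy
    rw [hx, hy]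
  rw [h1, ← hn hf, ← hn hg]
  exact norm_inner_le_norm _ _

lemma integrable_inner_memLp {f g : (Cfg d) → F} (hf : MemLp f 2 (volume : Measure (Cfg d)))
    (hg : MemLp g 2 (volume : Measure (Cfg d))) : Integrable (fun x => inner ℂ (f x) (g x)) := by
  refine (MeasureTheory.L2.integrable_inner (𝕜 := ℂ) (hf.toLp f) (hg.toLp g)).congr ?_
  filter_upwards [hf.coeFn_toLp, hg.coeFn_toLp] with x hx hy
  rw [hx, hy]

lemma Setup.Tst.exists_bound {u : (Cfg d) → F} (hu : Setup.Tst u) :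
    ∃ C r : ℝ, 0 ≤ C ∧ 0 < r ∧ (∀ x, ‖u x‖ ≤ C) ∧ ∀ x, r < ‖x‖ → u x = 0 := by
  obtain ⟨C, hC⟩ := hu.2.exists_bound_of_continuous hu.1.continuous
  obtain ⟨r, hr⟩ := hu.2.isCompact.isBounded.subset_closedBall (0 : (Cfg d))
  refine ⟨max C 0, max r 1, le_max_right _ _, lt_of_lt_of_le one_pos (le_max_right _ _),
    fun x => (hC x).trans (le_max_left _ _), fun x hx => ?_⟩
  by_contra hne
  have h1 : x ∈ tsupport u := subset_tsupport _ hne
  have h2 := hr h1
  rw [Metric.mem_closedBall, dist_zero_right] at h2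
  exact absurd hx (not_lt.mpr (h2.trans (le_max_left _ _)))

/-- cutoff functions at scale `R` with gradient bound -/
def IsCut (K R : ℝ) (χ : (Cfg d) → ℝ) : Prop :=
  ContDiff ℝ ∞ χ ∧ HasCompactSupport χ ∧ (∀ x, 0 ≤ χ x) ∧ (∀ x, χ x ≤ 1) ∧
    (∀ x, ‖x‖ ≤ R → χ x = 1) ∧ (∀ x, 2 * R ≤ ‖x‖ → χ x = 0) ∧
    (∀ j B x, |pdr j B χ x| * ‖x‖ ≤ K) ∧ (∀ j B x, ‖x‖ < R → pdr j B χ x = 0)

lemma exists_cut : ∃ K : ℝ, 0 ≤ K ∧ ∀ R : ℝ, 0 < R → ∃ χ : (Cfg d) → ℝ, IsCut K R χ := by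
  let f : ContDiffBump (0 : (Cfg d)) := ⟨1, 2, one_pos, one_lt_two⟩
  have hfc : ContDiff ℝ ∞ (f : (Cfg d) → ℝ) := f.contDiff
  have hfs : HasCompactSupport (f : (Cfg d) → ℝ) := f.hasCompactSupport
  have hg : Continuous (fun y : (Cfg d) => ‖fderiv ℝ (f : (Cfg d) → ℝ) y‖ * ‖y‖) :=
    (hfc.continuous_fderiv (by simp)).norm.mul continuous_norm
  have hgs : HasCompactSupport (fun y : (Cfg d) => ‖fderiv ℝ (f : (Cfg d) → ℝ) y‖ * ‖y‖) :=
    ((hfs.fderiv (𝕜 := ℝ)).norm).mul_right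
  obtain ⟨K, hK⟩ := hgs.exists_bound_of_continuous hg
  refine ⟨max K 0, le_max_right _ _, fun R hR => ⟨fun x => f (R⁻¹ • x), ?_⟩⟩
  have hR' : 0 < R⁻¹ := inv_pos.mpr hR
  have hder : ∀ j B x, pdr j B (fun x : (Cfg d) => f (R⁻¹ • x)) x =
      R⁻¹ * fderiv ℝ (f : (Cfg d) → ℝ) (R⁻¹ • x) (EuclideanSpace.single (j, B) (1 : ℝ)) := by
    intro j B x
    have h1 : HasFDerivAt (fun x : (Cfg d) => R⁻¹ • x) (R⁻¹ • ContinuousLinearMap.id ℝ (Cfg d)) x :=
      (hasFDerivAt_id x).const_smul R⁻¹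
    have h2 := ((hfc.differentiable (by simp)) (R⁻¹ • x)).hasFDerivAt.comp x h1
    have h3 : fderiv ℝ (fun x : (Cfg d) => f (R⁻¹ • x)) x = _ := h2.fderiv
    rw [pdr, h3]
    simp
  refine ⟨?_, ?_, ?_, ?_, ?_, ?_, ?_, ?_⟩
  · exact hfc.comp (contDiff_const_smul R⁻¹)
  · exact hfs.comp_smul hR'.ne'
  · intro x; exact f.nonneg
  · intro x; exact f.le_one
  · intro x hx
    refine f.one_of_mem_closedBall ?_
    rw [Metric.mem_closedBall, dist_zero_right, norm_smul, Real.norm_of_nonneg hR'.le]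
    change R⁻¹ * ‖x‖ ≤ 1
    rw [inv_mul_le_iff₀ hR]
    simpa using hx
  · intro x hx
    refine f.zero_of_le_dist ?_
    rw [dist_zero_right, norm_smul, Real.norm_of_nonneg hR'.le]
    change 2 ≤ R⁻¹ * ‖x‖
    rw [le_inv_mul_iff₀ hR]
    linarith
  · intro j B x
    rw [hder, abs_mul, abs_of_pos hR']
    have h1 : |fderiv ℝ (f : (Cfg d) → ℝ) (R⁻¹ • x) (EuclideanSpace.single (j, B) (1 : ℝ))| ≤
        ‖fderiv ℝ (f : (Cfg d) → ℝ) (R⁻¹ • x)‖ := by
      have := (fderiv ℝ (f : (Cfg d) → ℝ) (R⁻¹ • x)).le_opNorm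
        (EuclideanSpace.single (j, B) (1 : ℝ))
      simpa using this
    have h2 := hK (R⁻¹ • x)
    rw [Real.norm_of_nonneg (by positivity), norm_smul, Real.norm_of_nonneg hR'.le] at h2
    calc R⁻¹ * |fderiv ℝ (f : (Cfg d) → ℝ) (R⁻¹ • x) (EuclideanSpace.single (j, B) (1 : ℝ))| * ‖x‖
        ≤ R⁻¹ * ‖fderiv ℝ (f : (Cfg d) → ℝ) (R⁻¹ • x)‖ * ‖x‖ := by gcongr
      _ = ‖fderiv ℝ (f : (Cfg d) → ℝ) (R⁻¹ • x)‖ * (R⁻¹ * ‖x‖) := by ring
      _ ≤ K := h2
      _ ≤ max K 0 := le_max_left _ _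
  · intro j B x hx
    have h1 : (fun x : (Cfg d) => f (R⁻¹ • x)) =ᶠ[𝓝 x] fun _ => 1 := by
      have : Metric.ball (0 : (Cfg d)) R ∈ 𝓝 x := Metric.isOpen_ball.mem_nhds (by simpa using hx)
      filter_upwards [this] with y hy
      refine f.one_of_mem_closedBall ?_
      rw [Metric.mem_closedBall, dist_zero_right, norm_smul, Real.norm_of_nonneg hR'.le]
      change R⁻¹ * ‖y‖ ≤ 1
      rw [inv_mul_le_iff₀ hR]
      have : ‖y‖ < R := by simpa using hy
      linarith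
    rw [pdr, h1.fderiv_eq]
    simp

end Vale.Agent.P353.Z
end

section

open MeasureTheory Filter Topology
open scoped ContDiff

namespace Vale.Agent.P353.Z

variable {d : ℕ}

variable {F : Type*} [NormedAddCommGroup F] [InnerProductSpace ℂ F]

/-- square of the `L²` norm -/
noncomputable def nsq (f : (Cfg d) → F) : ℝ := ∫ x, ‖f x‖ ^ 2

omit [InnerProductSpace ℂ F] in
lemma nsq_nonneg (f : (Cfg d) → F) : 0 ≤ nsq f := integral_nonneg fun _ => by positivity

lemma norm_toLp {f : (Cfg d) → F} (hf : MemLp f 2 (volume : Measure (Cfg d))) :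
    ‖hf.toLp f‖ = Real.sqrt (nsq f) := by
  have h1 : ‖hf.toLp f‖ ^ 2 = nsq f := by
    have h2 := inner_self_eq_norm_sq_to_K (𝕜 := ℂ) (hf.toLp f)
    rw [MeasureTheory.L2.inner_def] at h2
    have h3 : ∫ x, inner ℂ ((hf.toLp f) x) ((hf.toLp f) x) = ((∫ x, ‖f x‖ ^ 2 : ℝ) : ℂ) := by
      rw [← integral_complex_ofReal]
      refine integral_congr_ae ?_
      filter_upwards [hf.coeFn_toLp] with x hx
      rw [hx, inner_self_eq_norm_sq_to_K]
      norm_cast
    rw [h3] at h2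
    have h4 : ((‖hf.toLp f‖ ^ 2 : ℝ) : ℂ) = ((∫ x, ‖f x‖ ^ 2 : ℝ) : ℂ) := by
      rw [h2, Complex.ofReal_pow]
      rfl
    exact Complex.ofReal_injective h4
  rw [← h1, Real.sqrt_sq (norm_nonneg _)]

/-- `L²` convergence -/
structure L2t (f : ℕ → (Cfg d) → F) (g : (Cfg d) → F) : Prop where
  mem : ∀ n, MemLp (f n) 2 (volume : Measure (Cfg d))
  mem' : MemLp g 2 (volume : Measure (Cfg d))
  lim : Tendsto (fun n => nsq (fun x => f n x - g x)) atTop (𝓝 0)

namespace L2t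

variable {f f' : ℕ → (Cfg d) → F} {g g' : (Cfg d) → F}

lemma lim_toLp (h : L2t f g) : Tendsto (fun n => (h.mem n).toLp (f n)) atTop (𝓝 (h.mem'.toLp g)) := by
  rw [tendsto_iff_norm_sub_tendsto_zero]
  have h1 : ∀ n, ‖(h.mem n).toLp (f n) - h.mem'.toLp g‖ =
      Real.sqrt (nsq (fun x => f n x - g x)) := by
    intro n
    rw [← MemLp.toLp_sub, norm_toLp]
    rfl
  simp only [h1]
  have := (Real.continuous_sqrt.tendsto 0).comp h.lim
  rw [Real.sqrt_zero] at this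
  exact this

lemma lim_inner (h : L2t f g) (h' : L2t f' g') :
    Tendsto (fun n => ∫ x, inner ℂ (f n x) (f' n x)) atTop (𝓝 (∫ x, inner ℂ (g x) (g' x))) := by
  have h1 : ∀ {a b : (Cfg d) → F} (ha : MemLp a 2 (volume : Measure (Cfg d)))
      (hb : MemLp b 2 (volume : Measure (Cfg d))),
      ∫ x, inner ℂ (a x) (b x) = inner ℂ (ha.toLp a) (hb.toLp b) := by
    intro a b ha hb
    rw [MeasureTheory.L2.inner_def]
    refine integral_congr_ae ?_
    filter_upwards [ha.coeFn_toLp, hb.coeFn_toLp] with x hx hy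
    rw [hx, hy]
  have h2 := h.lim_toLp.inner h'.lim_toLp (𝕜 := ℂ)
  rw [h1 h.mem' h'.mem']
  refine h2.congr fun n => ?_
  rw [← h1]

lemma lim_nsq (h : L2t f g) : Tendsto (fun n => nsq (f n)) atTop (𝓝 (nsq g)) := by
  have h1 := (Complex.continuous_re.tendsto _).comp (h.lim_inner h)
  have h2 : ∀ {a : (Cfg d) → F}, (∫ x, inner ℂ (a x) (a x)).re = nsq a := by
    intro a
    have : ∫ x, inner ℂ (a x) (a x) = ((∫ x, ‖a x‖ ^ 2 : ℝ) : ℂ) := by
      rw [← integral_complex_ofReal]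
      refine integral_congr_ae (Filter.Eventually.of_forall fun x => ?_)
      simp only [inner_self_eq_norm_sq_to_K]
      norm_cast
    rw [this, Complex.ofReal_re]; rfl
  rw [h2] at h1
  refine h1.congr fun n => ?_
  simp only [Function.comp, h2]

end L2t

/-! bounded multipliers -/

lemma continuous_apply_clm {A : (Cfg d) → F →L[ℂ] F} (hA : Continuous A) {f : (Cfg d) → F}
    (hf : AEStronglyMeasurable f (volume : Measure (Cfg d))) :
    AEStronglyMeasurable (fun x => A x (f x)) (volume : Measure (Cfg d)) := by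
  have hc : Continuous (fun p : (F →L[ℂ] F) × F => p.1 p.2) :=
    (isBoundedBilinearMap_apply (𝕜 := ℂ) (E := F) (F := F)).continuous
  exact hc.comp_aestronglyMeasurable (hA.aestronglyMeasurable.prodMk hf)

lemma memLp_op {A : (Cfg d) → F →L[ℂ] F} (hA : Continuous A) {C : ℝ} (hC : ∀ x, ‖A x‖ ≤ C)
    {f : (Cfg d) → F} (hf : MemLp f 2 (volume : Measure (Cfg d))) :
    MemLp (fun x => A x (f x)) 2 (volume : Measure (Cfg d)) := by
  refine MemLp.of_le_mul (c := C) hf (continuous_apply_clm hA hf.1) ?_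
  refine Filter.Eventually.of_forall fun x => ?_
  exact ((A x).le_opNorm _).trans (mul_le_mul_of_nonneg_right (hC x) (norm_nonneg _))

lemma nsq_op_le {A : (Cfg d) → F →L[ℂ] F} {C : ℝ} (hC : ∀ x, ‖A x‖ ≤ C)
    {f : (Cfg d) → F} (hf : MemLp f 2 (volume : Measure (Cfg d))) :
    nsq (fun x => A x (f x)) ≤ C ^ 2 * nsq f := by
  rw [nsq, nsq, ← integral_const_mul]
  refine integral_mono_of_nonneg (Filter.Eventually.of_forall fun x => by positivity)
    ((memLp_norm_sq_int hf).const_mul _) (Filter.Eventually.of_forall fun x => ?_)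
  have h1 := ((A x).le_opNorm (f x)).trans (mul_le_mul_of_nonneg_right (hC x) (norm_nonneg _))
  have := pow_le_pow_left₀ (norm_nonneg _) h1 2
  simpa [mul_pow] using this

lemma L2t.op {f : ℕ → (Cfg d) → F} {g : (Cfg d) → F} (h : L2t f g) {A : (Cfg d) → F →L[ℂ] F}
    (hA : Continuous A) {C : ℝ} (hC : ∀ x, ‖A x‖ ≤ C) :
    L2t (fun n x => A x (f n x)) (fun x => A x (g x)) := by
  refine ⟨fun n => memLp_op hA hC (h.mem n), memLp_op hA hC h.mem', ?_⟩
  have h1 : ∀ n, nsq (fun x => A x (f n x) - A x (g x)) ≤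
      C ^ 2 * nsq (fun x => f n x - g x) := by
    intro n
    have := nsq_op_le hC ((h.mem n).sub h.mem')
    simp only [map_sub, Pi.sub_apply] at this
    exact this
  refine squeeze_zero (fun n => nsq_nonneg _) h1 ?_
  simpa using h.lim.const_mul (C ^ 2)

omit [InnerProductSpace ℂ F] in
lemma nsq_add_le {f g : (Cfg d) → F} (hf : MemLp f 2 (volume : Measure (Cfg d)))
    (hg : MemLp g 2 (volume : Measure (Cfg d))) :
    nsq (fun x => f x + g x) ≤ 2 * nsq f + 2 * nsq g := by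
  rw [nsq, nsq, nsq, ← integral_const_mul, ← integral_const_mul, ← integral_add
    ((memLp_norm_sq_int hf).const_mul _) ((memLp_norm_sq_int hg).const_mul _)]
  refine integral_mono_of_nonneg (Filter.Eventually.of_forall fun x => by positivity)
    (((memLp_norm_sq_int hf).const_mul _).add ((memLp_norm_sq_int hg).const_mul _))
    (Filter.Eventually.of_forall fun x => ?_)
  have h1 := norm_add_le (f x) (g x)
  have h2 := norm_nonneg (f x + g x)
  simp only
  nlinarith [sq_nonneg (‖f x‖ - ‖g x‖)]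

lemma L2t.add {f f' : ℕ → (Cfg d) → F} {g g' : (Cfg d) → F} (h : L2t f g) (h' : L2t f' g') :
    L2t (fun n x => f n x + f' n x) (fun x => g x + g' x) := by
  refine ⟨fun n => (h.mem n).add (h'.mem n), h.mem'.add h'.mem', ?_⟩
  have h1 : ∀ n, nsq (fun x => f n x + f' n x - (g x + g' x)) ≤
      2 * nsq (fun x => f n x - g x) + 2 * nsq (fun x => f' n x - g' x) := by
    intro n
    have := nsq_add_le ((h.mem n).sub h.mem') ((h'.mem n).sub h'.mem')
    refine le_trans (le_of_eq ?_) this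
    congr 1; funext x
    simp only [Pi.sub_apply]; abel
  refine squeeze_zero (fun n => nsq_nonneg _) h1 ?_
  simpa using (h.lim.const_mul 2).add (h'.lim.const_mul 2)

lemma Lp_L2t {Ψ : Lp F 2 (volume : Measure (Cfg d))} {u : ℕ → (Cfg d) → F} (hu : ∀ n, Setup.Tst (u n))
    (h : Tendsto (fun n => ∫ x, ‖u n x - Ψ x‖ ^ 2) atTop (𝓝 0)) : L2t u Ψ :=
  ⟨fun n => (hu n).memLp, Lp.memLp Ψ, h⟩

lemma zero_L2t {f : ℕ → (Cfg d) → F} (hf : ∀ n, Setup.Tst (f n))
    (h : Tendsto (fun n => ∫ x, ‖f n x‖ ^ 2) atTop (𝓝 0)) : L2t f (fun _ => 0) :=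
  ⟨fun n => (hf n).memLp, MemLp.zero, by simpa [nsq] using h⟩

/-- continuous compactly supported functions are bounded -/
lemma bdd_of_cs {G : Type*} [NormedAddCommGroup G] {A : (Cfg d) → G} (hA : Continuous A)
    (hc : HasCompactSupport A) : ∃ C, ∀ x, ‖A x‖ ≤ C := hc.exists_bound_of_continuous hA

end Vale.Agent.P353.Z
end

section

open Matrix

namespace Vale.Agent.P353.Z

variable {d : ℕ}
namespace CS

variable {R : Type*} [Ring R] [Algebra ℂ R] (S : CS d R)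

lemma g_sqE (i : Fin 9) : S.g i * S.g i = 1 := by
  have h := S.g_anti i i
  simp only [if_true] at h
  have h2 : (2 : ℂ) • (S.g i * S.g i) = (2 : ℂ) • (1 : Matrix (Fin 16) (Fin 16) ℂ) := by
    rw [two_smul, two_smul, h]; norm_num
  have h3 := congrArg (fun m => (1 / 2 : ℂ) • m) h2
  simpa [smul_smul] using h3

lemma g_swapE {i j : Fin 9} (h : i ≠ j) : S.g i * S.g j = -(S.g j * S.g i) := by
  have h1 := S.g_anti i j
  rw [if_neg h] at h1
  exact eq_neg_of_add_eq_zero_left h1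

lemma g_swapE' (i j : Fin 9) : S.g i * S.g j =
    (if i = j then (2 : ℂ) • (1 : Matrix (Fin 16) (Fin 16) ℂ) else 0) - S.g j * S.g i := by
  have h1 := S.g_anti i j
  by_cases h : i = j
  · rw [if_pos h] at h1 ⊢
    rw [eq_sub_iff_add_eq, h1]
    rw [two_smul]; norm_num
  · rw [if_neg h] at h1 ⊢
    rw [eq_sub_iff_add_eq, h1]

lemma trace_one16 : (1 : Matrix (Fin 16) (Fin 16) ℂ).trace = 16 := by
  simp [Matrix.trace_one]

lemma trace_g_g (i j : Fin 9) : (S.g i * S.g j).trace = if i = j then 16 else 0 := by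
  by_cases h : i = j
  · subst h; rw [S.g_sqE, if_pos rfl, trace_one16]
  · rw [if_neg h]
    have h1 := congrArg Matrix.trace (S.g_swapE h)
    rw [Matrix.trace_neg, Matrix.trace_mul_comm (S.g j)] at h1
    have : (2 : ℂ) * (S.g i * S.g j).trace = 0 := by linear_combination h1
    simpa using this

/-- `tr(γ^i γ^j γ^k γ^l)` -/
lemma trace_g4 (i j k l : Fin 9) : (S.g i * S.g j * (S.g k * S.g l)).trace =
    (if i = j then 1 else 0) * (if k = l then 16 else 0)
      - (if i = k then 1 else 0) * (if j = l then 16 else 0)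
      + (if i = l then 1 else 0) * (if j = k then 16 else 0) := by
  have e1 : S.g i * S.g j * (S.g k * S.g l) =
      (if i = j then (2 : ℂ) • (1 : Matrix (Fin 16) (Fin 16) ℂ) else 0) * (S.g k * S.g l)
      - S.g j * (S.g i * S.g k) * S.g l := by
    rw [S.g_swapE' i j]; noncomm_ring
  have e2 : S.g j * (S.g i * S.g k) * S.g l =
      S.g j * (if i = k then (2 : ℂ) • (1 : Matrix (Fin 16) (Fin 16) ℂ) else 0) * S.g l
      - S.g j * S.g k * (S.g i * S.g l) := by
    rw [S.g_swapE' i k]; noncomm_ring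
  have e3 : S.g j * S.g k * (S.g i * S.g l) =
      S.g j * S.g k * (if i = l then (2 : ℂ) • (1 : Matrix (Fin 16) (Fin 16) ℂ) else 0)
      - S.g j * S.g k * (S.g l * S.g i) := by
    rw [S.g_swapE' i l]; noncomm_ring
  have e4 : (S.g j * S.g k * (S.g l * S.g i)).trace = (S.g i * S.g j * (S.g k * S.g l)).trace := by
    rw [← Matrix.mul_assoc, Matrix.trace_mul_comm _ (S.g i)]
    congr 1; noncomm_ring
  have t1 := congrArg Matrix.trace e1
  have t2 := congrArg Matrix.trace e2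
  have t3 := congrArg Matrix.trace e3
  rw [Matrix.trace_sub] at t1 t2 t3
  rw [e4] at t3
  have s1 : ((if i = j then (2 : ℂ) • (1 : Matrix (Fin 16) (Fin 16) ℂ) else 0) *
      (S.g k * S.g l)).trace = 2 * ((if i = j then 1 else 0) * (if k = l then 16 else 0)) := by
    split_ifs with h1 h2 <;> simp [S.trace_g_g, *]
  have s2 : (S.g j * (if i = k then (2 : ℂ) • (1 : Matrix (Fin 16) (Fin 16) ℂ) else 0) *
      S.g l).trace = 2 * ((if i = k then 1 else 0) * (if j = l then 16 else 0)) := by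
    split_ifs with h1 h2 <;> simp [S.trace_g_g, *]
  have s3 : (S.g j * S.g k * (if i = l then (2 : ℂ) • (1 : Matrix (Fin 16) (Fin 16) ℂ) else
      0)).trace = 2 * ((if i = l then 1 else 0) * (if j = k then 16 else 0)) := by
    split_ifs with h1 h2 <;> simp [S.trace_g_g, *]
  rw [s1] at t1
  rw [s2] at t2
  rw [s3] at t3
  linear_combination (1 / 2) * t1 - (1 / 2) * t2 + (1 / 2) * t3

lemma trace_g2_g2 (i j k l : Fin 9) : (S.g2 i j * S.g2 k l).trace =
    16 * ((if i = l then 1 else 0) * (if j = k then 1 else 0)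
      - (if i = k then 1 else 0) * (if j = l then 1 else 0)) := by
  have e : S.g2 i j * S.g2 k l = (1 / 4 : ℂ) • (S.g i * S.g j * (S.g k * S.g l)
      - S.g i * S.g j * (S.g l * S.g k) - S.g j * S.g i * (S.g k * S.g l)
      + S.g j * S.g i * (S.g l * S.g k)) := by
    simp only [g2, smul_mul_smul_comm]
    congr 1
    · norm_num
    · noncomm_ring
  rw [e]
  simp only [Matrix.trace_smul, Matrix.trace_add, Matrix.trace_sub, S.trace_g4, smul_eq_mul,
    eq_comm (a := l) (b := k), eq_comm (a := j) (b := i)]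
  have h16 : ∀ p : Prop, [Decidable p] → (if p then (16 : ℂ) else 0) = 16 * (if p then 1 else 0) := by
    intro p _; split_ifs <;> simp
  simp only [h16]
  ring

lemma trace_g_g2E (j k l : Fin 9) : (S.g j * S.g2 k l).trace = 0 := by
  have h : (S.g j * (S.g k * S.g l)).trace = (S.g j * (S.g l * S.g k)).trace := by
    rw [← Matrix.trace_transpose]
    simp only [Matrix.transpose_mul, S.g_symm]
    rw [Matrix.trace_mul_comm]
  simp only [g2, Matrix.mul_smul, Matrix.mul_sub, Matrix.trace_smul, Matrix.trace_sub, h,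
    sub_self, smul_zero]

lemma g2_transpose' (k l : Fin 9) : (S.g2 k l).transpose = - S.g2 k l := by
  simp only [CS.g2, Matrix.transpose_smul, Matrix.transpose_sub, Matrix.transpose_mul, S.g_symm]
  rw [← smul_neg, neg_sub]

lemma g2_swap (k l : Fin 9) : S.g2 k l = - S.g2 l k := by
  simp only [CS.g2]
  rw [← smul_neg, neg_sub]

lemma g_g2 (j l : Fin 9) : S.g j * S.g2 j l = if j = l then 0 else S.g l := by
  by_cases h : j = l
  · subst h; simp [g2]
  · rw [if_neg h]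
    have e : S.g j * S.g2 j l = (1 / 2 : ℂ) • (S.g j * S.g j * S.g l - (S.g j * S.g l) * S.g j) := by
      simp only [g2, Matrix.mul_smul]; congr 1; noncomm_ring
    rw [e, S.g_sqE, S.g_swapE h]
    have e2 : -(S.g l * S.g j) * S.g j = -(S.g l * (S.g j * S.g j)) := by noncomm_ring
    rw [e2, S.g_sqE]
    simp only [Matrix.one_mul, Matrix.mul_one, sub_neg_eq_add]
    rw [← two_smul ℂ, smul_smul]
    norm_num

lemma sum_g_g2 (l : Fin 9) : ∑ j, S.g j * S.g2 j l = (8 : ℂ) • S.g l := by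
  simp only [S.g_g2]
  rw [← Finset.sum_erase_add _ _ (Finset.mem_univ l)]
  simp only [if_true, add_zero]
  rw [Finset.sum_congr rfl (g := fun _ => S.g l)]
  · rw [Finset.sum_const]
    simp only [Finset.card_erase_of_mem, Finset.mem_univ, Finset.card_univ, Fintype.card_fin]
    rw [← Nat.cast_smul_eq_nsmul ℂ]
    norm_num
  · intro j hj
    rw [if_neg (Finset.ne_of_mem_erase hj)]

end CS
end Vale.Agent.P353.Z
end

section

/-! # P353, general `N`: BMN deformation, definitions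

Notation in the comments: `I3 = {0,1,2}`, `I6 = {3,…,8}`, `Γ = γ^0 γ^1 γ^2`. Colour index in `Fin d`,
structure constants `κ f_{ABC}`. -/

open MeasureTheory Filter Topology
open scoped ContDiff

namespace Vale.Agent.P353.Z

variable {d : ℕ} {F : Type*} [NormedAddCommGroup F] [InnerProductSpace ℂ F]

/-- block weights: `2` on `I3`, `1` on `I6` -/
noncomputable def aw (i : Fin 9) : ℝ := if i.val < 3 then 2 else 1

/-- `k ≠ l` lie in the same block -/
def Same (k l : Fin 9) : Prop := k ≠ l ∧ (k.val < 3 ↔ l.val < 3)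

/-- coefficients of the rotation generators in the anticommutator of the supercharges -/
noncomputable def rc (i j : Fin 9) : ℝ :=
  if i.val < 3 ∧ j.val < 3 then 2 else if 3 ≤ i.val ∧ 3 ≤ j.val then -1 else 0

/-- action of a `d × d` matrix on the colour index -/
noncomputable def ro (O : Matrix (Fin d) (Fin d) ℝ) (x : Cfg d) : Cfg d :=
  WithLp.toLp 2 fun p => ∑ B, O p.2 B * x (p.1, B)

namespace Setup

variable (S : Setup d F)

/-- `∑ f_{ABC} x_0^A x_1^B x_2^C` -/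
noncomputable def det3 (x : Cfg d) : ℝ :=
  ∑ A, ∑ B, ∑ C, S.f A B C * x (0, A) * x (1, B) * x (2, C)

/-- irreducibility of the Clifford module -/
def Irr : Prop := ∀ W : Submodule ℂ F, (∀ α A, ∀ v ∈ W, S.th α A v ∈ W) → W = ⊥ ∨ W = ⊤

/-- `Γ = γ^0 γ^1 γ^2` -/
noncomputable def Gam : Matrix (Fin 16) (Fin 16) ℂ := S.g 0 * S.g 1 * S.g 2

/-- `FG = i θ Γ θ` -/
noncomputable def FG : F →L[ℂ] F := Complex.I • S.tot S.Gam

/-- `M_β(x) = ∑ a_i x_i^A (γ^i Γ θ^A)_β` -/
noncomputable def MM (β : Fin 16) (x : Cfg d) : F →L[ℂ] F :=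
  ∑ i, ∑ A, ((aw i * x (i, A) : ℝ) : ℂ) • S.vec (S.g i * S.Gam) A β

/-- free supercharge `-i (γ^i θ^A)_β ∂_i^A` -/
noncomputable def Q0 (β : Fin 16) (u : Cfg d → F) (x : Cfg d) : F :=
  (-Complex.I) • ∑ i, ∑ A, S.vec (S.g i) A β (pd i A u x)

/-- BMN supercharge `Q_β + m M_β` -/
noncomputable def Qm (m : ℝ) (β : Fin 16) (u : Cfg d → F) (x : Cfg d) : F :=
  S.Q β u x + (m : ℂ) • S.MM β x (u x)

/-- BMN potential -/
noncomputable def Vm (m : ℝ) (x : Cfg d) : ℝ :=
  S.V x + 6 * m * S.κ * S.det3 x + m ^ 2 / 2 * ∑ i, ∑ A, (aw i * x (i, A)) ^ 2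

/-- BMN Hamiltonian `H_m = (1/16) ∑ Q_β²` in explicit form -/
noncomputable def Hm (m : ℝ) (u : Cfg d → F) (x : Cfg d) : F :=
  (-(1 / 2) : ℂ) • (∑ i, ∑ A, pd i A (pd i A u) x) + ((S.Vm m x : ℝ) : ℂ) • u x + S.Fx x (u x)
    - ((3 / 4 * m : ℝ) : ℂ) • S.FG (u x)

/-- gauge and `Spin(3) × Spin(6)` invariant test functions -/
def Inv (u : Cfg d → F) : Prop :=
  Tst u ∧ (∀ C x, S.G C u x = 0) ∧ ∀ k l, Same k l → ∀ x, S.J k l u x = 0

/-- weak gauge invariance -/
def wG (Ψ : Cfg d → F) : Prop := ∀ C, ∀ ζ, Tst ζ → ∫ x, inner ℂ (S.G C ζ x) (Ψ x) = 0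

/-- weak `Spin(3) × Spin(6)` invariance -/
def wJ (Ψ : Cfg d → F) : Prop :=
  ∀ k l, Same k l → ∀ ζ, Tst ζ → ∫ x, inner ℂ (S.J k l ζ x) (Ψ x) = 0

/-- `Q_β Ψ = Φ` weakly -/
def wQ (m : ℝ) (β : Fin 16) (Ψ Φ : Cfg d → F) : Prop :=
  ∀ ζ, Tst ζ → ∫ x, inner ℂ (S.Qm m β ζ x) (Ψ x) = ∫ x, inner ℂ (ζ x) (Φ x)

/-- invariant zero modes of the BMN model -/
def Em (m : ℝ) (Ψ : Cfg d → F) : Prop :=
  MemLp Ψ 2 (volume : Measure (Cfg d)) ∧ S.wG Ψ ∧ S.wJ Ψ ∧ ∀ β, S.wQ m β Ψ (fun _ => 0)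

/-- strong limits in the graph norm: `u_n → Ψ`, `Q_β u_n → Φ_β` -/
def Str (m : ℝ) (Ψ : Cfg d → F) (Φ : Fin 16 → Cfg d → F) : Prop :=
  ∃ u : ℕ → Cfg d → F, (∀ n, Tst (u n)) ∧ L2t u Ψ ∧ ∀ β, L2t (fun n => S.Qm m β (u n)) (Φ β)

/-- weak eigenfunctions of `∑ Q_β²` with eigenvalue `e` -/
def wE (m e : ℝ) (Ψ : Cfg d → F) : Prop :=
  ∀ ζ, Tst ζ → ∫ x, inner ℂ (∑ β, S.Qm m β (S.Qm m β ζ) x) (Ψ x) =
    (e : ℂ) * ∫ x, inner ℂ (ζ x) (Ψ x)

/-- there is a `k` dimensional space of invariant test functions with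
`∑ ‖Q_β u‖² < c ‖u‖²` -/
def Low (k : ℕ) (m c : ℝ) : Prop :=
  ∃ u : Fin k → Cfg d → F, (∀ j, S.Inv (u j)) ∧ ∀ a : Fin k → ℂ, a ≠ 0 →
    ∑ β, nsq (S.Qm m β (fun x => ∑ j, a j • u j x)) < c * nsq (fun x => ∑ j, a j • u j x)

/-- the zero set of the potential `V_m` -/
def wells (m : ℝ) : Set (Cfg d) := {x | S.Vm m x = 0}

/-- distance to the wells -/
noncomputable def dm (m : ℝ) (x : Cfg d) : ℝ := Metric.infDist x (S.wells m)

/-- matrix of `ad a` -/
noncomputable def adm (a : Fin d → ℝ) : Matrix (Fin d) (Fin d) ℝ :=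
  Matrix.of fun A C => ∑ B, S.f A B C * a B

/-- the colour group: orthogonal matrices preserving the structure constants and the norm of all
gauge invariant test functions (a compact group containing all `exp (ad a)`) -/
def grp : Set (Matrix (Fin d) (Fin d) ℝ) :=
  {O | O.transpose * O = 1 ∧
    (∀ A B C, ∑ A', ∑ B', ∑ C', O A' A * O B' B * O C' C * S.f A' B' C' = S.f A B C) ∧
    ∀ u : Cfg d → F, Tst u → (∀ C x, S.G C u x = 0) → ∀ x, ‖u (ro O x)‖ = ‖u x‖}

/-- the orbit of `ξ` under the colour group -/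
def Orb (ξ : Cfg d) : Set (Cfg d) := {x | ∃ O ∈ S.grp, x = ro O ξ}

/-- `S` has at most `n` orbits of zeros of `V_1` -/
def OrbCount (n : ℕ) : Prop := ∃ ξ : Fin n → Cfg d, (∀ j, S.Vm 1 (ξ j) = 0) ∧
  ∀ x, S.Vm 1 x = 0 → ∃ j, x ∈ S.Orb (ξ j)

/-- derivative of `W_β` at `ξ` in direction `x` -/
noncomputable def DW (ξ : Cfg d) (β : Fin 16) (x : Cfg d) : F →L[ℂ] F :=
  (S.κ : ℂ) • ∑ A, ∑ B, ∑ C, ∑ i, ∑ j,
    ((S.f A B C : ℂ) * (ξ (i, B) : ℂ) * (x (j, C) : ℂ)) • S.vec (S.g2 i j) A β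

/-- linearised supercharge at `ξ` (for `m = 1`) -/
noncomputable def Qlin (ξ : Cfg d) (β : Fin 16) (u : Cfg d → F) (x : Cfg d) : F :=
  S.Q0 β u x + S.MM β x (u x) + S.DW ξ β x (u x)

/-- the inclusion of `I3` into `Fin 9` -/
def c3 (k : Fin 3) : Fin 9 := ⟨k.val, by omega⟩

/-- the square terms `F_{ij} + 2 m x_k`, `(i,j,k)` cyclic in `I3` -/
noncomputable def GG (m : ℝ) (k : Fin 3) (A : Fin d) (x : Cfg d) : ℝ :=
  S.FF A (c3 (k + 1)) (c3 (k + 2)) x + 2 * m * x (c3 k, A)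

/-- linearisation of `F_{ij}` at `ξ` -/
noncomputable def LF (ξ : Cfg d) (A : Fin d) (i j : Fin 9) (x : Cfg d) : ℝ :=
  S.κ * ∑ B, ∑ C, S.f A B C * (ξ (i, B) * x (j, C) + x (i, B) * ξ (j, C))

/-- linearisation of `GG 1` at `ξ` -/
noncomputable def LG (ξ : Cfg d) (k : Fin 3) (A : Fin d) (x : Cfg d) : ℝ :=
  S.LF ξ A (c3 (k + 1)) (c3 (k + 2)) x + 2 * x (c3 k, A)

/-- quadratic part of `w ↦ V_1(ξ + w)` at a zero `ξ` of `V_1` -/
noncomputable def hq (ξ x : Cfg d) : ℝ :=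
  (1 / 2) * (∑ k, ∑ A, S.LG ξ k A x ^ 2) +
    (1 / 2) * (∑ i : Fin 9, ∑ A, if i.val < 3 then 0 else x (i, A) ^ 2) +
    (1 / 4) * (∑ i : Fin 9, ∑ j : Fin 9, ∑ A,
      if i.val < 3 ∧ j.val < 3 then 0 else S.LF ξ A i j x ^ 2)

/-- `x` is orthogonal to the infinitesimal gauge rotations of `ξ` -/
def Perp (ξ x : Cfg d) : Prop := ∀ C, ∑ i, ∑ A, ∑ B, S.f C A B * ξ (i, A) * x (i, B) = 0

/-- fermionic mass term at `ξ`, `t` = trace of the square root of the Hessian -/
noncomputable def Nx (t : ℝ) (ξ : Cfg d) : F →L[ℂ] F :=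
  ((t / 2 : ℝ) : ℂ) • 1 + S.Fx ξ - (3 / 4 : ℂ) • S.FG

/-- `K` is the positive square root of the Hessian of `V_1` at `ξ` -/
structure IsK (ξ : Cfg d) (K : Cfg d →L[ℝ] Cfg d) : Prop where
  symm : ∀ x y, inner ℝ (K x) y = inner ℝ x (K y)
  pos : ∀ x, 0 ≤ inner ℝ x (K x)
  sq : ∀ x, ‖K x‖ ^ 2 = 2 * S.hq ξ x

end Setup

/-- trace of `K` -/
noncomputable def trK (K : Cfg d →L[ℝ] Cfg d) : ℝ :=
  ∑ i, ∑ A, K (EuclideanSpace.single (i, A) 1) (i, A)

end Vale.Agent.P353.Z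
end

section

open MeasureTheory Filter Topology
open scoped ContDiff Matrix

namespace Vale.Agent.P353.Z

variable {dc : ℕ}

variable {F : Type*} [NormedAddCommGroup F] [InnerProductSpace ℂ F]

namespace Setup

variable (S : Setup dc F)

lemma g_sq' (i : Fin 9) : S.g i * S.g i = 1 := S.g_sqE i

lemma g_ac {i j : Fin 9} (h : i ≠ j) : S.g i * S.g j = -(S.g j * S.g i) := by
  have h1 := S.g_anti i j
  rw [if_neg h] at h1
  exact eq_neg_of_add_eq_zero_left h1

lemma Gam_transpose : S.Gamᵀ = -S.Gam := by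
  unfold Gam
  rw [Matrix.transpose_mul, Matrix.transpose_mul, S.g_symm, S.g_symm, S.g_symm]
  have h01 : S.g 0 * S.g 1 = -(S.g 1 * S.g 0) := S.g_ac (by decide)
  have h02 : S.g 0 * S.g 2 = -(S.g 2 * S.g 0) := S.g_ac (by decide)
  have h12 : S.g 1 * S.g 2 = -(S.g 2 * S.g 1) := S.g_ac (by decide)
  calc S.g 2 * (S.g 1 * S.g 0) = S.g 2 * S.g 1 * S.g 0 := by rw [mul_assoc]
    _ = -(S.g 1 * S.g 2) * S.g 0 := by rw [h12, neg_neg]
    _ = -(S.g 1 * (S.g 2 * S.g 0)) := by rw [neg_mul, mul_assoc]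
    _ = S.g 1 * (S.g 0 * S.g 2) := by rw [h02, mul_neg]
    _ = S.g 1 * S.g 0 * S.g 2 := by rw [mul_assoc]
    _ = -(S.g 0 * S.g 1 * S.g 2) := by rw [h01, neg_mul, neg_neg]

lemma Gam_sq : S.Gam * S.Gam = -1 := by
  have h : S.Gam * S.Gam = -(S.Gam * S.Gamᵀ) := by rw [Gam_transpose, mul_neg, neg_neg]
  rw [h]
  congr 1
  unfold Gam
  rw [Matrix.transpose_mul, Matrix.transpose_mul, S.g_symm, S.g_symm, S.g_symm]
  calc S.g 0 * S.g 1 * S.g 2 * (S.g 2 * (S.g 1 * S.g 0))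
      = S.g 0 * S.g 1 * (S.g 2 * S.g 2) * (S.g 1 * S.g 0) := by simp only [mul_assoc]
    _ = S.g 0 * (S.g 1 * S.g 1) * S.g 0 := by rw [S.g_sq' 2]; simp only [mul_one, mul_assoc]
    _ = 1 := by rw [S.g_sq' 1, mul_one, S.g_sq' 0]

/-- `γ^i` commutes with `Γ` for `i ∈ I3` -/
lemma g_Gam_comm {i : Fin 9} (hi : i.val < 3) : S.g i * S.Gam = S.Gam * S.g i := by
  have h01 : S.g 0 * S.g 1 = -(S.g 1 * S.g 0) := S.g_ac (by decide)
  have h02 : S.g 0 * S.g 2 = -(S.g 2 * S.g 0) := S.g_ac (by decide)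
  have h12 : S.g 1 * S.g 2 = -(S.g 2 * S.g 1) := S.g_ac (by decide)
  have hi' : i = 0 ∨ i = 1 ∨ i = 2 := by
    rcases i with ⟨i, h⟩
    simp only at hi
    interval_cases i
    · left; rfl
    · right; left; rfl
    · right; right; rfl
  unfold Gam
  rcases hi' with rfl | rfl | rfl
  · calc S.g 0 * (S.g 0 * S.g 1 * S.g 2) = S.g 0 * (S.g 0 * S.g 1 * S.g 2) := rfl
      _ = S.g 0 * (S.g 1 * (S.g 2 * S.g 0)) := by
          congr 1
          calc S.g 0 * S.g 1 * S.g 2 = -(S.g 1 * S.g 0) * S.g 2 := by rw [h01]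
            _ = -(S.g 1 * (S.g 0 * S.g 2)) := by rw [neg_mul, mul_assoc]
            _ = S.g 1 * (S.g 2 * S.g 0) := by rw [h02, mul_neg, neg_neg]
      _ = S.g 0 * S.g 1 * S.g 2 * S.g 0 := by simp only [mul_assoc]
  · calc S.g 1 * (S.g 0 * S.g 1 * S.g 2) = S.g 1 * S.g 0 * (S.g 1 * S.g 2) := by
          simp only [mul_assoc]
      _ = -(S.g 0 * S.g 1) * (S.g 1 * S.g 2) := by rw [h01, neg_neg]
      _ = S.g 0 * S.g 1 * S.g 2 * S.g 1 := by
          rw [h12]; simp only [mul_assoc, mul_neg, neg_mul, neg_neg]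
  · calc S.g 2 * (S.g 0 * S.g 1 * S.g 2) = S.g 2 * S.g 0 * S.g 1 * S.g 2 := by
          simp only [mul_assoc]
      _ = S.g 0 * S.g 1 * S.g 2 * S.g 2 := by
          congr 1
          calc S.g 2 * S.g 0 * S.g 1 = -(S.g 0 * S.g 2) * S.g 1 := by rw [h02, neg_neg]
            _ = -(S.g 0 * (S.g 2 * S.g 1)) := by rw [neg_mul, mul_assoc]
            _ = S.g 0 * S.g 1 * S.g 2 := by rw [mul_assoc (S.g 0), h12, mul_neg]

/-- `γ^i` anticommutes with `Γ` for `i ∈ I6` -/
lemma g_Gam_anti {i : Fin 9} (hi : 3 ≤ i.val) : S.g i * S.Gam = -(S.Gam * S.g i) := by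
  have h0 : S.g i * S.g 0 = -(S.g 0 * S.g i) := S.g_ac (by rintro rfl; simp at hi)
  have h1 : S.g i * S.g 1 = -(S.g 1 * S.g i) := S.g_ac (by rintro rfl; simp at hi)
  have h2 : S.g i * S.g 2 = -(S.g 2 * S.g i) := S.g_ac (by
    rintro rfl
    have : ((2 : Fin 9) : ℕ) = 2 := rfl
    omega)
  unfold Gam
  calc S.g i * (S.g 0 * S.g 1 * S.g 2) = S.g i * S.g 0 * (S.g 1 * S.g 2) := by
        simp only [mul_assoc]
    _ = -(S.g 0 * (S.g i * S.g 1) * S.g 2) := by rw [h0]; simp only [mul_assoc, neg_mul]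
    _ = S.g 0 * S.g 1 * (S.g i * S.g 2) := by
        rw [h1]; simp only [mul_assoc, mul_neg, neg_mul, neg_neg]
    _ = -(S.g 0 * S.g 1 * S.g 2 * S.g i) := by rw [h2]; simp only [mul_assoc, mul_neg]

lemma Gam_comm_g2 {k l : Fin 9} (h : Same k l) : S.g2 k l * S.Gam = S.Gam * S.g2 k l := by
  unfold CS.g2
  rw [Matrix.smul_mul, Matrix.mul_smul]
  congr 1
  rw [sub_mul, mul_sub]
  rcases lt_or_ge k.val 3 with hk | hk
  · have hl : l.val < 3 := h.2.mp hk
    rw [mul_assoc, S.g_Gam_comm hl, ← mul_assoc, S.g_Gam_comm hk, mul_assoc (S.g l),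
      S.g_Gam_comm hk, ← mul_assoc (S.g l), S.g_Gam_comm hl]
    simp only [mul_assoc]
  · have hl : 3 ≤ l.val := by
      by_contra hh
      exact absurd (h.2.mpr (by omega)) (by omega)
    rw [mul_assoc, S.g_Gam_anti hl, mul_neg, ← mul_assoc, S.g_Gam_anti hk, mul_assoc (S.g l),
      S.g_Gam_anti hk, mul_neg, ← mul_assoc (S.g l), S.g_Gam_anti hl]
    simp only [mul_assoc, neg_mul, neg_neg]

/-- entries of `Γ` are real -/
lemma Gam_real (α β : Fin 16) : (S.Gam α β).im = 0 := by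
  unfold Gam
  have h : ∀ (P Q : Matrix (Fin 16) (Fin 16) ℂ), (∀ a b, (P a b).im = 0) →
      (∀ a b, (Q a b).im = 0) → ∀ a b, ((P * Q) a b).im = 0 := by
    intro P Q hP hQ a b
    rw [Matrix.mul_apply, Complex.im_sum]
    refine Finset.sum_eq_zero fun c _ => ?_
    rw [Complex.mul_im, hP, hQ]
    simp
  exact h _ _ (h _ _ (S.g_real 0) (S.g_real 1)) (S.g_real 2) α β

end Setup
end Vale.Agent.P353.Z
end

section

open Matrix

namespace Vale.Agent.P353.Z

variable {d : ℕ}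
namespace CS

variable {R : Type*} [Ring R] [Algebra ℂ R] (S : CS d R)

lemma g_sq (i : Fin 9) : S.g i * S.g i = 1 := by
  have h := S.g_anti i i
  simp only [if_true] at h
  have h2 : (2 : ℂ) • (S.g i * S.g i) = (2 : ℂ) • (1 : Matrix (Fin 16) (Fin 16) ℂ) := by
    rw [two_smul, h, two_smul]; norm_num
  calc S.g i * S.g i = (1 / 2 : ℂ) • ((2 : ℂ) • (S.g i * S.g i)) := by
        rw [smul_smul]; norm_num
    _ = 1 := by rw [h2, smul_smul]; norm_num

lemma g_swap (i j : Fin 9) :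
    S.g i * S.g j = (if i = j then (2 : ℂ) else 0) • (1 : Matrix (Fin 16) (Fin 16) ℂ)
      - S.g j * S.g i := by
  rw [eq_sub_iff_add_eq, S.g_anti i j]
  split_ifs
  · ext a b; simp [Matrix.ofNat_apply, Matrix.one_apply]
  · simp

lemma g_swap_ne {i j : Fin 9} (h : i ≠ j) : S.g i * S.g j = -(S.g j * S.g i) := by
  rw [S.g_swap i j, if_neg h]; simp

lemma g2_eq (i j : Fin 9) :
    S.g2 i j = S.g i * S.g j - (if i = j then (1 : ℂ) else 0) • 1 := by
  rw [g2, S.g_swap j i]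
  by_cases h : i = j
  · subst h; simp [g_sq, two_smul]
  · rw [if_neg (Ne.symm h), if_neg h]; simp [← two_smul ℂ, smul_smul]

lemma g2_transpose (i j : Fin 9) : (S.g2 i j)ᵀ = -S.g2 i j := by
  simp only [g2, Matrix.transpose_smul, Matrix.transpose_sub, Matrix.transpose_mul, S.g_symm]
  rw [← smul_neg, neg_sub]

lemma g2_antisymm (i j : Fin 9) : S.g2 i j = -S.g2 j i := by
  simp only [g2]; rw [← smul_neg, neg_sub]

/-- the sandwich `∑_k γ_k X γ_k` -/
noncomputable def sand (X : Matrix (Fin 16) (Fin 16) ℂ) : Matrix (Fin 16) (Fin 16) ℂ :=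
  ∑ k, S.g k * X * S.g k

lemma sand_add (X Y : Matrix (Fin 16) (Fin 16) ℂ) : S.sand (X + Y) = S.sand X + S.sand Y := by
  simp [sand, mul_add, add_mul, Finset.sum_add_distrib]

lemma sand_sub (X Y : Matrix (Fin 16) (Fin 16) ℂ) : S.sand (X - Y) = S.sand X - S.sand Y := by
  simp [sand, mul_sub, sub_mul, Finset.sum_sub_distrib]

lemma sand_smul (c : ℂ) (X : Matrix (Fin 16) (Fin 16) ℂ) : S.sand (c • X) = c • S.sand X := by
  simp [sand, Finset.smul_sum]

lemma sand_one : S.sand 1 = (9 : ℂ) • 1 := by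
  simp only [sand, mul_one, g_sq]
  rw [Finset.sum_const, Finset.card_univ, Fintype.card_fin, ← Nat.cast_smul_eq_nsmul ℂ]
  norm_num

lemma sand_g_mul (i : Fin 9) (X : Matrix (Fin 16) (Fin 16) ℂ) :
    S.sand (S.g i * X) = (2 : ℂ) • (X * S.g i) - S.g i * S.sand X := by
  simp only [sand]
  have h : ∀ k, S.g k * (S.g i * X) * S.g k =
      (if k = i then (2 : ℂ) else 0) • (X * S.g k) - S.g i * (S.g k * X * S.g k) := by
    intro k
    rw [← mul_assoc (S.g k), S.g_swap k i, sub_mul, sub_mul, smul_mul_assoc, one_mul,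
      smul_mul_assoc]
    simp only [mul_assoc]
  rw [Finset.sum_congr rfl fun k _ => h k, Finset.sum_sub_distrib, ← Finset.mul_sum]
  congr 1
  simp

lemma sand_g (i : Fin 9) : S.sand (S.g i) = (-7 : ℂ) • S.g i := by
  have h := S.sand_g_mul i 1
  rw [mul_one, sand_one] at h
  rw [h, one_mul, mul_smul_comm, mul_one, ← sub_smul]; norm_num

lemma sand_gg (i j : Fin 9) :
    S.sand (S.g i * S.g j) = (2 : ℂ) • (S.g j * S.g i) + (7 : ℂ) • (S.g i * S.g j) := by
  rw [sand_g_mul, sand_g, mul_smul_comm, sub_eq_add_neg, ← neg_smul]; norm_num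

lemma sand_g2 (i j : Fin 9) : S.sand (S.g2 i j) = (5 : ℂ) • S.g2 i j := by
  simp only [g2]
  rw [sand_smul, sand_sub, sand_gg, sand_gg]
  module

/-- `∑_{kl} γ_{kl} X γ_{kl} = 9 X - sand (sand X)` -/
lemma sum_g2_g2 (X : Matrix (Fin 16) (Fin 16) ℂ) :
    ∑ k, ∑ l, S.g2 k l * X * S.g2 k l = (9 : ℂ) • X - S.sand (S.sand X) := by
  have h1 : ∀ k l, S.g2 k l * X * S.g2 k l = S.g k * S.g l * X * (S.g k * S.g l)
      - (if k = l then (1:ℂ) else 0) • (S.g k * S.g l * X + X * (S.g k * S.g l) - X) := by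
    intro k l
    rw [g2_eq]
    split_ifs
    · simp only [one_smul]; noncomm_ring
    · simp
  have h2 : ∀ k l, S.g k * S.g l * X * (S.g k * S.g l) =
      (if k = l then (2:ℂ) else 0) • (S.g k * S.g l * X) - S.g k * (S.g l * X * S.g l) * S.g k := by
    intro k l
    rw [S.g_swap k l, mul_sub, ← S.g_swap k l, mul_smul_comm, mul_one]
    congr 1
    noncomm_ring
  simp only [h1, h2, Finset.sum_sub_distrib, ite_smul, zero_smul, Finset.sum_ite_eq,
    Finset.mem_univ, if_true, one_smul, g_sq, one_mul, mul_one, add_sub_cancel_right]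
  have h3 : ∑ x, ∑ x_1, S.g x * (S.g x_1 * X * S.g x_1) * S.g x = S.sand (S.sand X) := by
    simp only [sand, Finset.mul_sum, Finset.sum_mul]
  rw [h3]
  simp only [Finset.sum_const, Finset.card_univ, Fintype.card_fin, ← Nat.cast_smul_eq_nsmul ℂ]
  rw [sub_right_comm]
  congr 1
  rw [smul_smul, ← sub_smul]
  norm_num

lemma sum_g2_g_g2 (i : Fin 9) :
    ∑ k, ∑ l, S.g2 k l * S.g i * S.g2 k l = (-40 : ℂ) • S.g i := by
  rw [sum_g2_g2, sand_g, sand_smul, sand_g, smul_smul, ← sub_smul]; norm_num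

lemma sum_g2_g2_g2 (p q : Fin 9) :
    ∑ k, ∑ l, S.g2 k l * S.g2 p q * S.g2 k l = (-16 : ℂ) • S.g2 p q := by
  rw [sum_g2_g2, sand_g2, sand_smul, sand_g2, smul_smul, ← sub_smul]; norm_num

/-! traces -/

lemma trace_eq_zero_of_anti (m : Fin 9) (X : Matrix (Fin 16) (Fin 16) ℂ)
    (h : S.g m * X = -(X * S.g m)) : X.trace = 0 := by
  have h1 : (S.g m * X * S.g m).trace = X.trace := by
    rw [Matrix.trace_mul_comm, ← mul_assoc, g_sq, one_mul]
  have h2 : (S.g m * X * S.g m).trace = -X.trace := by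
    rw [h, neg_mul, mul_assoc, g_sq, mul_one, Matrix.trace_neg]
  rw [h1] at h2
  have h3 : (2 : ℂ) * X.trace = 0 := by linear_combination h2
  simpa using h3

lemma trace_g (i : Fin 9) : (S.g i).trace = 0 := by
  obtain ⟨m, hm⟩ : ∃ m : Fin 9, m ≠ i := exists_ne i
  exact S.trace_eq_zero_of_anti m _ (S.g_swap_ne hm)

lemma trace_gg (i j : Fin 9) : (S.g i * S.g j).trace = if i = j then 16 else 0 := by
  by_cases h : i = j
  · subst h; simp [g_sq, Matrix.trace_one]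
  · rw [if_neg h]
    have h1 := S.g_swap_ne h
    have h2 : (S.g i * S.g j).trace = -(S.g i * S.g j).trace := by
      conv_lhs => rw [h1, Matrix.trace_neg, Matrix.trace_mul_comm]
    have h3 : (2 : ℂ) * (S.g i * S.g j).trace = 0 := by linear_combination h2
    simpa using h3

lemma trace_ggg (i j k : Fin 9) : (S.g i * S.g j * S.g k).trace = 0 := by
  obtain ⟨m, hm⟩ : ∃ m : Fin 9, m ∉ ({i, j, k} : Finset (Fin 9)) := by
    by_contra h
    push Not at h
    have : (Finset.univ : Finset (Fin 9)).card ≤ ({i, j, k} : Finset (Fin 9)).card :=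
      Finset.card_le_card (fun x _ => h x)
    have h3 : ({i, j, k} : Finset (Fin 9)).card ≤ 3 := Finset.card_le_three
    simp at this
    omega
  simp only [Finset.mem_insert, Finset.mem_singleton, not_or] at hm
  obtain ⟨h1, h2, h3⟩ := hm
  refine S.trace_eq_zero_of_anti m _ ?_
  rw [← mul_assoc, ← mul_assoc, S.g_swap_ne h1, neg_mul, neg_mul, mul_assoc (S.g i),
    S.g_swap_ne h2, mul_neg, neg_mul, neg_neg, mul_assoc, mul_assoc, mul_assoc,
    S.g_swap_ne h3]
  noncomm_ring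

lemma trace_ggggg (i j k l n : Fin 9) :
    (S.g i * S.g j * S.g k * S.g l * S.g n).trace = 0 := by
  obtain ⟨m, hm⟩ : ∃ m : Fin 9, m ∉ ({i, j, k, l, n} : Finset (Fin 9)) := by
    by_contra h
    push Not at h
    have : (Finset.univ : Finset (Fin 9)).card ≤ ({i, j, k, l, n} : Finset (Fin 9)).card :=
      Finset.card_le_card (fun x _ => h x)
    have h3 : ({i, j, k, l, n} : Finset (Fin 9)).card ≤ 5 := Finset.card_le_five
    simp at this
    omega
  simp only [Finset.mem_insert, Finset.mem_singleton, not_or] at hm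
  obtain ⟨h1, h2, h3, h4, h5⟩ := hm
  refine S.trace_eq_zero_of_anti m _ ?_
  have e1 := S.g_swap_ne h1
  have e2 := S.g_swap_ne h2
  have e3 := S.g_swap_ne h3
  have e4 := S.g_swap_ne h4
  have e5 := S.g_swap_ne h5
  calc S.g m * (S.g i * S.g j * S.g k * S.g l * S.g n)
      = (S.g m * S.g i) * (S.g j * S.g k * S.g l * S.g n) := by noncomm_ring
    _ = -(S.g i * (S.g m * S.g j) * (S.g k * S.g l * S.g n)) := by rw [e1]; noncomm_ring
    _ = (S.g i * S.g j * (S.g m * S.g k) * (S.g l * S.g n)) := by rw [e2]; noncomm_ring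
    _ = -(S.g i * S.g j * S.g k * (S.g m * S.g l) * (S.g n)) := by rw [e3]; noncomm_ring
    _ = (S.g i * S.g j * S.g k * S.g l * (S.g m * S.g n)) := by rw [e4]; noncomm_ring
    _ = -(S.g i * S.g j * S.g k * S.g l * S.g n * S.g m) := by rw [e5]; noncomm_ring

lemma trace_g2 (i j : Fin 9) : (S.g2 i j).trace = 0 := by
  rw [g2, Matrix.trace_smul, Matrix.trace_sub, Matrix.trace_mul_comm (S.g j)]; simp

lemma trace_g_g2 (i k l : Fin 9) : (S.g i * S.g2 k l).trace = 0 := by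
  rw [g2_eq, mul_sub, Matrix.trace_sub, ← mul_assoc, trace_ggg, mul_smul_comm, mul_one,
    Matrix.trace_smul, trace_g]
  simp

lemma trace_g2_g_g2 (p q j k l : Fin 9) : (S.g2 p q * S.g j * S.g2 k l).trace = 0 := by
  rw [g2_eq, g2_eq]
  have : (S.g p * S.g q - (if p = q then (1:ℂ) else 0) • 1) * S.g j *
      (S.g k * S.g l - (if k = l then (1:ℂ) else 0) • 1) =
      S.g p * S.g q * S.g j * S.g k * S.g l - (if k = l then (1:ℂ) else 0) • (S.g p * S.g q * S.g j)
      - (if p = q then (1:ℂ) else 0) • (S.g j * S.g k * S.g l)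
      + ((if p = q then (1:ℂ) else 0) * (if k = l then (1:ℂ) else 0)) • S.g j := by
    simp only [sub_mul, mul_sub, smul_mul_assoc, mul_smul_comm, one_mul, mul_one, smul_sub,
      smul_smul, ← mul_assoc]
    rw [mul_comm (if k = l then (1:ℂ) else 0)]
    abel
  rw [this, Matrix.trace_add, Matrix.trace_sub, Matrix.trace_sub, Matrix.trace_smul,
    Matrix.trace_smul, Matrix.trace_smul, trace_ggggg, trace_ggg, trace_ggg, trace_g]
  simp

lemma trace_gg_g2 (i j k l : Fin 9) : (S.g i * S.g j * S.g2 k l).trace =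
    16 * ((if i = l then 1 else 0) * (if j = k then 1 else 0) -
      (if i = k then 1 else 0) * (if j = l then 1 else 0)) := by
  have h4 : ∀ a b c d, (S.g a * S.g b * S.g c * S.g d).trace =
      (if a = b then 2 else 0) * (S.g c * S.g d).trace
      - (if a = c then 2 else 0) * (S.g b * S.g d).trace
      + (if a = d then 2 else 0) * (S.g b * S.g c).trace
      - (S.g a * S.g b * S.g c * S.g d).trace := by
    intro a b c d
    have e : S.g a * S.g b * S.g c * S.g d =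
        (if a = b then (2:ℂ) else 0) • (S.g c * S.g d)
        - (if a = c then (2:ℂ) else 0) • (S.g b * S.g d)
        + (if a = d then (2:ℂ) else 0) • (S.g b * S.g c)
        - S.g b * S.g c * S.g d * S.g a := by
      rw [S.g_swap a b, sub_mul, sub_mul, smul_mul_assoc, smul_mul_assoc, one_mul,
        mul_assoc (S.g b) (S.g a), S.g_swap a c, mul_sub, mul_smul_comm, mul_one, sub_mul,
        smul_mul_assoc, ← mul_assoc (S.g b), mul_assoc (S.g b * S.g c) (S.g a), S.g_swap a d,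
        mul_sub, mul_smul_comm, mul_one, ← mul_assoc]
      abel
    conv_lhs => rw [e]
    rw [Matrix.trace_sub, Matrix.trace_add, Matrix.trace_sub, Matrix.trace_smul,
      Matrix.trace_smul, Matrix.trace_smul, smul_eq_mul, smul_eq_mul, smul_eq_mul,
      Matrix.trace_mul_comm (S.g b * S.g c * S.g d) (S.g a), ← mul_assoc, ← mul_assoc]
  rw [g2_eq, mul_sub, Matrix.trace_sub, mul_smul_comm, mul_one, Matrix.trace_smul, smul_eq_mul,
    ← mul_assoc]
  have h5 := h4 i j k l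
  have h6 : (S.g i * S.g j * S.g k * S.g l).trace =
      (if i = j then 1 else 0) * (S.g k * S.g l).trace
      - (if i = k then 1 else 0) * (S.g j * S.g l).trace
      + (if i = l then 1 else 0) * (S.g j * S.g k).trace := by
    have : ∀ (p : Prop) [Decidable p], (if p then (2:ℂ) else 0) = 2 * (if p then 1 else 0) := by
      intro p _; split_ifs <;> simp
    simp only [this] at h5
    linear_combination (1/2) * h5
  have h7 : ∀ (p : Prop) [Decidable p], (if p then (16:ℂ) else 0) = 16 * (if p then 1 else 0) := by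
    intro p _; split_ifs <;> simp
  rw [h6]
  simp only [trace_gg, h7]
  ring

end CS
end Vale.Agent.P353.Z
end

section

/-! # Mollification on `(Cfg dc)`: `mo ρ f = ρ * f`, derivatives, `L²` bounds, `L²` convergence -/

open MeasureTheory Filter Topology
open scoped ContDiff

namespace Vale.Agent.P353.Z.Moll

variable {dc : ℕ}

section general

variable {G : Type*} [NormedAddCommGroup G] [NormedSpace ℝ G]

/-- mollification -/
noncomputable def mo (ρ : (Cfg dc) → ℝ) (f : (Cfg dc) → G) (x : (Cfg dc)) : G := ∫ y, ρ (x - y) • f y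

lemma mo_eq_conv (ρ : (Cfg dc) → ℝ) (f : (Cfg dc) → G) :
    mo ρ f = convolution f ρ (ContinuousLinearMap.lsmul ℝ ℝ).flip volume := rfl

lemma mo_eq_conv' (ρ : (Cfg dc) → ℝ) (f : (Cfg dc) → G) :
    mo ρ f = convolution ρ f (ContinuousLinearMap.lsmul ℝ ℝ) volume := by
  rw [mo_eq_conv, convolution_flip]

lemma integrable_mo {ρ : (Cfg dc) → ℝ} (hρ : Continuous ρ) (hc : HasCompactSupport ρ) {f : (Cfg dc) → G}
    (hf : LocallyIntegrable f volume) (x : (Cfg dc)) : Integrable (fun y => ρ (x - y) • f y) := by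
  have h := HasCompactSupport.convolutionExists_right
    ((ContinuousLinearMap.lsmul ℝ ℝ : ℝ →L[ℝ] G →L[ℝ] G).flip) hc hf hρ x
  exact h

lemma contDiff_mo {ρ : (Cfg dc) → ℝ} (hρ : ContDiff ℝ ∞ ρ) (hc : HasCompactSupport ρ) {f : (Cfg dc) → G}
    (hf : LocallyIntegrable f volume) : ContDiff ℝ ∞ (mo ρ f) := by
  rw [mo_eq_conv]
  exact hc.contDiff_convolution_right _ hf hρ

lemma fderiv_mo {ρ : (Cfg dc) → ℝ} (hρ : ContDiff ℝ ∞ ρ) (hc : HasCompactSupport ρ) {f : (Cfg dc) → G}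
    (hf : LocallyIntegrable f volume) (x e : (Cfg dc)) :
    fderiv ℝ (mo ρ f) x e = mo (fun z => fderiv ℝ ρ z e) f x := by
  have h1 := hc.hasFDerivAt_convolution_right
    ((ContinuousLinearMap.lsmul ℝ ℝ : ℝ →L[ℝ] G →L[ℝ] G).flip) hf (hρ.of_le (by simp)) x
  have h2 : fderiv ℝ (mo ρ f) x = _ := h1.fderiv
  rw [h2, convolution_precompR_apply _ hf (hc.fderiv ℝ) (hρ.continuous_fderiv (by simp))]
  rfl

lemma mo_sub {ρ : (Cfg dc) → ℝ} (hρ : Continuous ρ) (hc : HasCompactSupport ρ) {f g : (Cfg dc) → G}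
    (hf : LocallyIntegrable f volume) (hg : LocallyIntegrable g volume) (x : (Cfg dc)) :
    mo ρ (fun y => f y - g y) x = mo ρ f x - mo ρ g x := by
  unfold mo
  rw [← integral_sub (integrable_mo hρ hc hf x) (integrable_mo hρ hc hg x)]
  simp only [smul_sub]

end general

/-- radial mollifiers -/
structure IsMol (ε : ℝ) (ρ : (Cfg dc) → ℝ) : Prop where
  contDiff : ContDiff ℝ ∞ ρ
  hcs : HasCompactSupport ρ
  nonneg : ∀ x, 0 ≤ ρ x
  supp : ∀ x, ε ≤ ‖x‖ → ρ x = 0
  one : ∫ x, ρ x = 1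

section jensen

variable {G : Type*} [NormedAddCommGroup G] [NormedSpace ℝ G] {ε : ℝ} {ρ : (Cfg dc) → ℝ}

lemma IsMol.one' (h : IsMol ε ρ) (x : (Cfg dc)) : ∫ y, ρ (x - y) = 1 := by
  rw [integral_sub_left_eq_self ρ volume x, h.one]

lemma IsMol.int (h : IsMol ε ρ) (x : (Cfg dc)) : Integrable (fun y => ρ (x - y)) :=
  (h.contDiff.continuous.integrable_of_hasCompactSupport h.hcs).comp_sub_left x

lemma norm_mo_le (h : IsMol ε ρ) (f : (Cfg dc) → G) (x : (Cfg dc)) :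
    ‖mo ρ f x‖ ≤ mo ρ (fun y => ‖f y‖) x := by
  unfold mo
  refine (norm_integral_le_integral_norm _).trans (le_of_eq ?_)
  refine integral_congr_ae (Eventually.of_forall fun y => ?_)
  simp only [norm_smul, Real.norm_of_nonneg (h.nonneg _), smul_eq_mul]

omit [NormedSpace ℝ G] in
lemma sq_mo_le (h : IsMol ε ρ) {f : (Cfg dc) → G} (hf : LocallyIntegrable f volume)
    (hf2 : LocallyIntegrable (fun y => ‖f y‖ ^ 2) volume) (x : (Cfg dc)) :
    (mo ρ (fun y => ‖f y‖) x) ^ 2 ≤ mo ρ (fun y => ‖f y‖ ^ 2) x := by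
  have i1 : Integrable (fun y => ρ (x - y) • ‖f y‖) :=
    integrable_mo h.contDiff.continuous h.hcs (fun z => (hf z).norm) x
  have i2 : Integrable (fun y => ρ (x - y) • ‖f y‖ ^ 2) :=
    integrable_mo h.contDiff.continuous h.hcs hf2 x
  have i3 := h.int x
  obtain ⟨a, ha⟩ : ∃ a, a = mo ρ (fun y => ‖f y‖) x := ⟨_, rfl⟩
  have h1 : 0 ≤ ∫ y, ρ (x - y) * (‖f y‖ - a) ^ 2 :=
    integral_nonneg fun y => mul_nonneg (h.nonneg _) (sq_nonneg _)
  have h2 : ∫ y, ρ (x - y) * (‖f y‖ - a) ^ 2 =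
      mo ρ (fun y => ‖f y‖ ^ 2) x - 2 * a * mo ρ (fun y => ‖f y‖) x + a ^ 2 * ∫ y, ρ (x - y) := by
    have i4 : Integrable (fun y => ρ (x - y) • ‖f y‖ ^ 2 - 2 * a * (ρ (x - y) • ‖f y‖)) :=
      i2.sub (i1.const_mul _)
    unfold mo
    rw [← integral_const_mul, ← integral_const_mul, ← integral_sub i2 (i1.const_mul _),
      ← integral_add i4 (i3.const_mul _)]
    refine integral_congr_ae (Eventually.of_forall fun y => ?_)
    simp only [smul_eq_mul]
    ring
  rw [h2, h.one' x, ← ha] at h1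
  rw [← ha]
  nlinarith

end jensen

section L2

variable {F : Type*} [NormedAddCommGroup F] [InnerProductSpace ℂ F] {ε : ℝ} {ρ : (Cfg dc) → ℝ}

omit [InnerProductSpace ℂ F] in
lemma locInt {f : (Cfg dc) → F} (hf : MemLp f 2 (volume : Measure (Cfg dc))) :
    LocallyIntegrable f volume := hf.locallyIntegrable (by norm_num)

omit [InnerProductSpace ℂ F] in
lemma locInt_sq {f : (Cfg dc) → F} (hf : MemLp f 2 (volume : Measure (Cfg dc))) :
    LocallyIntegrable (fun y => ‖f y‖ ^ 2) volume := (memLp_norm_sq_int hf).locallyIntegrable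

omit [InnerProductSpace ℂ F] in
lemma integral_mo_sq (h : IsMol ε ρ) {f : (Cfg dc) → F} (hf : MemLp f 2 (volume : Measure (Cfg dc))) :
    Integrable (mo ρ (fun y => ‖f y‖ ^ 2)) ∧ ∫ x, mo ρ (fun y => ‖f y‖ ^ 2) x = nsq f := by
  have i1 := memLp_norm_sq_int hf
  have i2 : Integrable ρ := h.contDiff.continuous.integrable_of_hasCompactSupport h.hcs
  rw [mo_eq_conv]
  refine ⟨i1.integrable_convolution _ i2, ?_⟩
  rw [integral_convolution _ i1 i2, h.one]
  simp [nsq]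

/-- bound for functions dominated by `η ρ * |f|` -/
lemma nsq_le_mo (h : IsMol ε ρ) {f : (Cfg dc) → F} (hf : MemLp f 2 (volume : Measure (Cfg dc)))
    {w : (Cfg dc) → F} {η : ℝ} (hm : AEStronglyMeasurable w volume)
    (hw : ∀ x, ‖w x‖ ≤ η * mo ρ (fun y => ‖f y‖) x) :
    MemLp w 2 (volume : Measure (Cfg dc)) ∧ nsq w ≤ η ^ 2 * nsq f := by
  obtain ⟨i1, i2⟩ := integral_mo_sq h hf
  have hb : ∀ x, ‖w x‖ ^ 2 ≤ η ^ 2 * mo ρ (fun y => ‖f y‖ ^ 2) x := by
    intro x
    calc ‖w x‖ ^ 2 ≤ (η * mo ρ (fun y => ‖f y‖) x) ^ 2 :=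
          pow_le_pow_left₀ (norm_nonneg _) (hw x) 2
      _ = η ^ 2 * (mo ρ (fun y => ‖f y‖) x) ^ 2 := by ring
      _ ≤ _ := mul_le_mul_of_nonneg_left (sq_mo_le h (locInt hf) (locInt_sq hf) x) (sq_nonneg _)
  constructor
  · refine (memLp_two_iff_integrable_sq_norm hm).mpr ?_
    refine (i1.const_mul (η ^ 2)).mono' (hm.norm.pow 2) (Eventually.of_forall fun x => ?_)
    rw [Real.norm_of_nonneg (by positivity)]
    exact hb x
  · rw [← i2, nsq, ← integral_const_mul]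
    exact integral_mono_of_nonneg (Eventually.of_forall fun x => by positivity)
      (i1.const_mul _) (Eventually.of_forall hb)

lemma nsq_mo_le (h : IsMol ε ρ) {f : (Cfg dc) → F} (hf : MemLp f 2 (volume : Measure (Cfg dc))) :
    MemLp (mo ρ f) 2 (volume : Measure (Cfg dc)) ∧ nsq (mo ρ f) ≤ nsq f := by
  have h1 := nsq_le_mo (η := 1) h hf
    (contDiff_mo h.contDiff h.hcs (locInt hf)).continuous.aestronglyMeasurable
    (fun x => by rw [one_mul]; exact norm_mo_le h f x)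
  simpa using h1

/-- mollification of a continuous compactly supported function -/
lemma mo_approx_cont [CompleteSpace F] {g : (Cfg dc) → F} (hg : Continuous g) (hgc : HasCompactSupport g) {δ : ℝ}
    (hδ : 0 < δ) : ∃ ε₀ > 0, ∀ ε, ε ≤ ε₀ → ∀ ρ, IsMol ε ρ →
      nsq (fun x => mo ρ g x - g x) ≤ δ := by
  obtain ⟨r, hr⟩ := hgc.isCompact.isBounded.subset_closedBall (0 : (Cfg dc))
  have hg0 : ∀ x, r < ‖x‖ → g x = 0 := by
    intro x hx
    by_contra hne
    have h1 := hr (subset_tsupport _ hne)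
    rw [Metric.mem_closedBall, dist_zero_right] at h1
    linarith
  obtain ⟨v, hv⟩ : ∃ v : ℝ, v = (volume (Metric.closedBall (0 : (Cfg dc)) (r + 1))).toReal := ⟨_, rfl⟩
  have hv0 : 0 ≤ v := hv ▸ ENNReal.toReal_nonneg
  obtain ⟨η, hη⟩ : ∃ η : ℝ, η = Real.sqrt (δ / (v + 1)) := ⟨_, rfl⟩
  have hη0 : 0 < η := hη ▸ Real.sqrt_pos.2 (by positivity)
  have huc : UniformContinuous g := hgc.uniformContinuous_of_continuous hg
  obtain ⟨ε₁, hε₁, h1⟩ := Metric.uniformContinuous_iff.1 huc η hη0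
  refine ⟨min ε₁ 1, lt_min hε₁ one_pos, fun ε hε ρ hρ => ?_⟩
  have hsupp : Function.support ρ ⊆ Metric.ball (0 : (Cfg dc)) ε := by
    intro z hz
    rw [Metric.mem_ball, dist_zero_right]
    by_contra hcon
    exact hz (hρ.supp z (not_lt.1 hcon))
  have hbd : ∀ x, ‖mo ρ g x - g x‖ ^ 2 ≤
      (Metric.closedBall (0 : (Cfg dc)) (r + 1)).indicator (fun _ => η ^ 2) x := by
    intro x
    by_cases hx : x ∈ Metric.closedBall (0 : (Cfg dc)) (r + 1)
    · rw [Set.indicator_of_mem hx]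
      refine pow_le_pow_left₀ (norm_nonneg _) ?_ 2
      rw [← dist_eq_norm, mo_eq_conv']
      refine dist_convolution_le hη0.le hsupp hρ.nonneg hρ.one hg.aestronglyMeasurable ?_
      intro y hy
      exact (h1 (lt_of_lt_of_le hy (hε.trans (min_le_left _ _)))).le
    · rw [Set.indicator_of_notMem hx]
      have hx' : r + 1 < ‖x‖ := by
        rw [Metric.mem_closedBall, dist_zero_right, not_le] at hx
        exact hx
      have h2 : ‖mo ρ g x - g x‖ ≤ 0 := by
        rw [← dist_eq_norm, mo_eq_conv']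
        refine dist_convolution_le le_rfl hsupp hρ.nonneg hρ.one hg.aestronglyMeasurable ?_
        intro y hy
        have hy1 : dist y x < 1 := lt_of_lt_of_le hy (hε.trans (min_le_right _ _))
        have hy2 : r < ‖y‖ := by
          have h3 : ‖x‖ ≤ ‖y‖ + dist y x := by
            have := norm_sub_norm_le x y
            rw [dist_comm, dist_eq_norm]
            linarith
          linarith
        rw [hg0 y hy2, hg0 x (by linarith), dist_self]
      have h3 : ‖mo ρ g x - g x‖ = 0 := le_antisymm h2 (norm_nonneg _)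
      rw [h3]
      norm_num
  have hfin : volume (Metric.closedBall (0 : (Cfg dc)) (r + 1)) ≠ ⊤ :=
    (isCompact_closedBall (0 : (Cfg dc)) (r + 1)).measure_lt_top.ne
  calc nsq (fun x => mo ρ g x - g x)
      ≤ ∫ x, (Metric.closedBall (0 : (Cfg dc)) (r + 1)).indicator (fun _ => η ^ 2) x := by
        refine integral_mono_of_nonneg (Eventually.of_forall fun x => by positivity) ?_
          (Eventually.of_forall hbd)
        exact (integrable_indicator_iff Metric.isClosed_closedBall.measurableSet).2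
          (integrableOn_const hfin)
    _ = v * η ^ 2 := by
        rw [integral_indicator Metric.isClosed_closedBall.measurableSet, setIntegral_const,
          smul_eq_mul, hv]
        rfl
    _ ≤ δ := by
        rw [hη, Real.sq_sqrt (by positivity), mul_div_assoc']
        rw [div_le_iff₀ (by positivity)]
        nlinarith

/-- mollification converges in `L²` -/
lemma mo_approx [CompleteSpace F] {f : (Cfg dc) → F} (hf : MemLp f 2 (volume : Measure (Cfg dc))) {δ : ℝ} (hδ : 0 < δ) :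
    ∃ ε₀ > 0, ∀ ε, ε ≤ ε₀ → ∀ ρ, IsMol ε ρ → nsq (fun x => mo ρ f x - f x) ≤ δ := by
  obtain ⟨s, hs⟩ : ∃ s : ℝ, s = Real.sqrt (δ / 12) := ⟨_, rfl⟩
  have hs0 : 0 < s := hs ▸ Real.sqrt_pos.2 (by positivity)
  obtain ⟨g, hgc, hfg, hg, hgm⟩ := hf.exists_hasCompactSupport_eLpNorm_sub_le (by norm_num)
    (ε := ENNReal.ofReal s) (by simpa using hs0)
  have hd : MemLp (fun x => f x - g x) 2 (volume : Measure (Cfg dc)) := hf.sub hgm
  have h1 : nsq (fun x => f x - g x) ≤ δ / 12 := by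
    have e1 := norm_toLp hd
    have e2 : ‖hd.toLp (fun x => f x - g x)‖ ≤ s := by
      rw [Lp.norm_toLp]
      refine ENNReal.toReal_le_of_le_ofReal hs0.le ?_
      exact hfg
    rw [e1, hs] at e2
    exact (Real.sqrt_le_sqrt_iff (by positivity)).1 e2
  obtain ⟨ε₀, hε₀, h2⟩ := mo_approx_cont hg hgc (show 0 < δ / 12 by positivity)
  refine ⟨ε₀, hε₀, fun ε hε ρ hρ => ?_⟩
  have h3 := h2 ε hε ρ hρ
  have h4 := nsq_mo_le hρ hd
  have m1 : MemLp (mo ρ (fun x => f x - g x)) 2 (volume : Measure (Cfg dc)) := h4.1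
  have m2 : MemLp (fun x => mo ρ g x - g x) 2 (volume : Measure (Cfg dc)) :=
    (nsq_mo_le hρ hgm).1.sub hgm
  have m3 : MemLp (fun x => g x - f x) 2 (volume : Measure (Cfg dc)) := hgm.sub hf
  have e : (fun x => mo ρ f x - f x) = fun x =>
      mo ρ (fun x => f x - g x) x + ((mo ρ g x - g x) + (g x - f x)) := by
    funext x
    rw [mo_sub hρ.contDiff.continuous hρ.hcs (locInt hf) (locInt hgm)]
    abel
  have e3 : nsq (fun x => g x - f x) = nsq (fun x => f x - g x) := by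
    unfold nsq
    refine integral_congr_ae (Eventually.of_forall fun x => ?_)
    simp only [norm_sub_rev]
  rw [e]
  have b1 := nsq_add_le m1 (m2.add m3)
  have b2 := nsq_add_le m2 m3
  have b3 : nsq (fun x => mo ρ (fun x => f x - g x) x + ((mo ρ g x - g x) + (g x - f x))) ≤
    2 * nsq (mo ρ (fun x => f x - g x)) + 2 * nsq (fun x => (mo ρ g x - g x) + (g x - f x)) := b1
  rw [e3] at b2
  linarith [h4.2]

end L2

end Vale.Agent.P353.Z.Moll
end

section

/-! # P353, general `N`: statements of part C (semiclassical limit `m → ∞`)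

`wells 1 = {V_1 = 0}`; `ro O x` rotates the colour index; `grp` the colour group (Defs). -/

open MeasureTheory Filter Topology
open scoped ContDiff

namespace Vale.Agent.P353.Z.U

variable {d : ℕ} {F : Type*} [NormedAddCommGroup F] [InnerProductSpace ℂ F]

/-- rescaling around `m ξ` with the length `m^{-1/2}` -/
noncomputable def scl (m : ℝ) (ξ : Cfg d) (u : Cfg d → F) (w : Cfg d) : F :=
  u (m • ξ + (Real.sqrt m)⁻¹ • w)

/-- **C-Sq** square formula for the potential. PROOF: `V = ¼∑_{A,i,j}F²`; for `i,j ∈ I3` this is `½∑_k|F_{k+1,k+2}|²`;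
cross term `2m∑_k x_k·F_{k+1,k+2} = 6mκ det3` (cyclicity of `f`), `½∑_k 4m²|x_k|² = (m²/2)∑_{I3}(2x)²`. -/
def SqStmt (S : Setup d F) : Prop := ∀ (m : ℝ) (x : Cfg d), S.Vm m x =
  (1 / 2) * (∑ k, ∑ A, S.GG m k A x ^ 2) +
    (m ^ 2 / 2) * (∑ i : Fin 9, ∑ A, if i.val < 3 then 0 else x (i, A) ^ 2) +
    (1 / 4) * (∑ i : Fin 9, ∑ j : Fin 9, ∑ A,
      if i.val < 3 ∧ j.val < 3 then 0 else S.FF A i j x ^ 2)

/-- **C-Tay** lower Taylor bound at a zero: `V_1(ξ + w) ≥ ½ hq(w) - C|w|⁴`.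
PROOF: `SqStmt` with `m = 1`: all squares at `ξ` vanish, `GG 1 k A (ξ+w) = LG + F(w)`, `F(ξ+w) = LF(w) + F(w)`,
`(a+b)² ≥ ½a² - b²`, `|F(w)|² ≤ C|w|⁴`. (`C` independent of `ξ`.) -/
def TayStmt (S : Setup d F) : Prop := ∃ C : ℝ, 0 ≤ C ∧ ∀ ξ w : Cfg d, S.Vm 1 ξ = 0 →
  (1 / 2) * S.hq ξ w - C * ‖w‖ ^ 4 ≤ S.Vm 1 (ξ + w)

/-- **C-Crit** zeros of `V_1` are critical: `W_β(ξ) + M_β(ξ) = 0`.
PROOF: by `SqStmt` `ξ_a = 0` (`a ∈ I6`), `F_{k+1,k+2} = -2ξ_k`; `γ^kΓ = γ^{k+1}γ^{k+2}` (cyclic in `I3`). -/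
def CritStmt (S : Setup d F) : Prop := ∀ ξ, S.Vm 1 ξ = 0 → ∀ β, S.W β ξ + S.MM β ξ = 0

/-- **C-Hes** nondegeneracy transversal to the gauge orbit.
PROOF: `hq ξ w = 0` gives `w_a = 0` for `a ∈ I6` and `∑ f_{ABC}κ(ξ_{k+1}^Bw_{k+2}^C + w_{k+1}^Bξ_{k+2}^C) + 2w_k^A = 0`. Put
`(D_iv)^A = -(κ/2)∑f_{ABC}ξ_i^Bv^C` (`i ∈ I3`), antisymmetric; `F_{ij}(ξ) = -2ξ_k` and Jacobi give `[D_i,D_j] = D_k` (cyclic),
the equation is `w_k = D_iw_j - D_jw_i` (`w = D × w`), and `Perp ξ w` is `∑_iD_iw_i = 0`. Then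
`w = D×w = D×(D×w)`, `(D×(D×w))_k = D_k(D·w) + (D×w)_k - D²w_k`, so `D²w_k = 0`, `D² = ∑_iD_i²`;
`∑_i|D_iw_k|² = -⟨w_k,D²w_k⟩ = 0`, `D_iw_k = 0` for all `i,k`, so `w = D × w = 0`. -/
def HesStmt (S : Setup d F) : Prop := ∀ ξ w : Cfg d, S.Vm 1 ξ = 0 → S.hq ξ w = 0 → S.Perp ξ w → w = 0

/-- **G-1** the colour group contains the one parameter groups: there is a differentiable curve in `grp` through `1` with
derivative `ad a`. PROOF: `γ(t) = exp(t·adm a)` (`adm a` antisymmetric): orthogonality; invariance of `f`: derivative in `t`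
(Jacobi); norms: `d/dt ‖u(ro γ(t) x)‖² = 2Re⟨u,∑_Ca_C(rotation derivative)u⟩ = 2Re⟨u, i(…)𝒮 u⟩ = 0` by `G_Cu = 0` and
self-adjointness of `cS C` (as in `Vale/Agent/P353/U/Grp.lean`). Sign of `ad` as convenient (`a ↦ -a`). -/
def GrpExpStmt (S : Setup d F) : Prop := ∀ a : Fin d → ℝ, ∃ γ : ℝ → Matrix (Fin d) (Fin d) ℝ,
  (∀ t, γ t ∈ S.grp) ∧ γ 0 = 1 ∧ ∀ A B, HasDerivAt (fun t => γ t A B) (S.adm a A B) 0

/-- **G-2** `grp` is a compact group acting by isometries and preserving `V_m`.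
PROOF: closed (pointwise conditions, `u` continuous) and bounded (`OᵀO = 1`); products and transposes are clear. -/
def GrpCptStmt (S : Setup d F) : Prop := IsCompact S.grp ∧ (1 : Matrix (Fin d) (Fin d) ℝ) ∈ S.grp ∧
  (∀ O ∈ S.grp, ∀ O' ∈ S.grp, O * O' ∈ S.grp) ∧ (∀ O ∈ S.grp, O.transpose ∈ S.grp) ∧
  (∀ O ∈ S.grp, ∀ m x, S.Vm m (ro O x) = S.Vm m x) ∧ (∀ O ∈ S.grp, ∀ x, ‖ro O x‖ = ‖x‖)

/-- **C-Near** quadratic lower bound near the wells: there are `c, δ > 0` with: `V_1(ξ) = 0`, `|w| ≤ δ`, `Perp ξ w` imply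
`V_1(ξ+w) ≥ c|w|²`. PROOF: `hq ξ w ≥ c₀|w|²` for `V_1(ξ) = 0`, `Perp ξ w`, by compactness of
`{(ξ,w) : V_1(ξ) = 0, |w| = 1, Perp ξ w}` (`wells 1` is closed, bounded by `CoeStmt`), continuity of `hq` and `HesStmt`; then `TayStmt`. -/
def NearStmt (S : Setup d F) : Prop := ∃ c δ : ℝ, 0 < c ∧ 0 < δ ∧ ∀ ξ w : Cfg d, S.Vm 1 ξ = 0 →
  ‖w‖ ≤ δ → S.Perp ξ w → c * ‖w‖ ^ 2 ≤ S.Vm 1 (ξ + w)

/-- **C-Foot** every point has a nearest point in every orbit and in `wells 1`, and the difference is `Perp`.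
(`wells 1` is a union of orbits.) PROOF: compactness, and the derivative of `t ↦ |x - ro γ(t) ξ|²` at `0` vanishes (`GrpExpStmt`). -/
def FootStmt (S : Setup d F) : Prop :=
  (∀ ξ x : Cfg d, ∃ ξ' ∈ S.Orb ξ, ‖x - ξ'‖ = Metric.infDist x (S.Orb ξ) ∧ S.Perp ξ' (x - ξ')) ∧
  ∀ x : Cfg d, ∃ ξ' ∈ S.wells 1, ‖x - ξ'‖ = Metric.infDist x (S.wells 1) ∧ S.Perp ξ' (x - ξ')

/-- **C-Wel** `V_m ≥ c m² dist(x, wells)²`. PROOF: scaling `V_m(x) = m⁴V_1(x/m)`, `wells m = m·wells 1`; for `m = 1`: near the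
wells `NearStmt` + `FootStmt`; for `|x|` large `CoeStmt` (`0 ∈ wells 1`, so `dm 1 x ≤ |x|`); in between compactness. -/
def WelStmt (S : Setup d F) : Prop := ∃ c : ℝ, 0 < c ∧ ∀ m : ℝ, 0 < m → ∀ x : Cfg d,
  c * m ^ 2 * S.dm m x ^ 2 ≤ S.Vm m x

/-- **C-Fin** finitely many orbits of zeros. PROOF: each orbit is open in the compact set `wells 1`: if `V_1(x) = 0` and `x` is
close to `Orb ξ`, take the nearest point `ξ'` of the orbit (`FootStmt`); `NearStmt` gives `0 ≥ c|x-ξ'|²`, so `x = ξ'`. -/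
def FinStmt (S : Setup d F) : Prop := ∃ n, S.OrbCount n

/-- **C-Vac** vacuum lemma (see `Vale/Agent/P353/U/Vac.lean`). -/
def VacStmt (S : Setup d F) : Prop := S.Irr → (∃ v : F, v ≠ 0) →
  ∀ 𝒜 : Submodule ℂ (Fin 16 × Fin d → ℂ),
    (∀ a ∈ 𝒜, ∀ b ∈ 𝒜, ∑ p, a p * b p = 0) →
    (∀ z : Fin 16 × Fin d → ℂ, ∃ a ∈ 𝒜, ∃ b ∈ 𝒜, z = a + fun p => (starRingEnd ℂ) (b p)) →
    ∃ Ω : F, ‖Ω‖ = 1 ∧ (∀ a ∈ 𝒜, ∑ p : Fin 16 × Fin d, a p • S.th p.1 p.2 Ω = 0) ∧
      ∀ v : F, (∀ a ∈ 𝒜, ∑ p : Fin 16 × Fin d, a p • S.th p.1 p.2 v = 0) → ∃ c : ℂ, v = c • Ω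

/-- **C-Qua** ground state of a nondegenerate quadratic fermionic Hamiltonian is simple.
PROOF: `R` real antisymmetric invertible; `iR` is Hermitian on `ℂ^{16d}` with real spectrum symmetric under complex conjugation of
eigenvectors, `0` not an eigenvalue. `𝒜` = span of the eigenvectors with the eigenvalues of the sign such that
`i∑R_{pq}θ_pθ_q = const + ∑_jλ_jθ(a_j)†θ(a_j)`, `λ_j > 0`, `a_j` orthonormal basis of `𝒜`. `𝒜` is isotropic, `𝒜 + 𝒜̄ = ⊤`. C-Vac gives
`Ω`; `⟨Ω,NΩ⟩ = c₀ + const ≥ 0` by hypothesis, so `⟨v,Nv⟩ ≥ ∑_jλ_j‖θ(a_j)v‖²`, and `⟨v,Nv⟩ = 0` gives `θ(a_j)v = 0`, `v = cΩ`. -/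
def QuaStmt (S : Setup d F) : Prop := S.Irr → (∃ v : F, v ≠ 0) →
  ∀ (R : Matrix (Fin 16 × Fin d) (Fin 16 × Fin d) ℝ) (c₀ : ℝ), R.transpose = -R →
    (∀ z : Fin 16 × Fin d → ℝ, R.mulVec z = 0 → z = 0) →
    (∀ v : F, 0 ≤ (inner ℂ v ((c₀ : ℂ) • v + Complex.I • ∑ p, ∑ q, (R p q : ℂ) •
      S.th p.1 p.2 (S.th q.1 q.2 v))).re) →
    ∃ Ω : F, ‖Ω‖ = 1 ∧ ∀ v : F, (inner ℂ v ((c₀ : ℂ) • v + Complex.I • ∑ p, ∑ q, (R p q : ℂ) •
      S.th p.1 p.2 (S.th q.1 q.2 v))).re = 0 → ∃ c : ℂ, v = c • Ω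

/-- **C-Inv** the fermionic one particle matrix at `ξ` is invertible. `Fx ξ - ¾FG = i∑R_{pq}θ_pθ_q`,
`R_{(αA),(βB)} = (κ/2)∑_{q,C}f_{ABC}ξ_q^Cγ^q_{αβ} - ¾Γ_{αβ}δ_{AB}` (`ξ_q = 0` for `q ∈ I6`).
PROOF: with `T_q = ` matrix `(f_{ABC}ξ_q^C)_{AB}·(κ/2)`, `R = ∑_{q∈I3}γ^q⊗T_q - ¾Γ⊗1`; `X = ΓR = ∑_qΓγ^q⊗T_q + ¾`; the matrices
`σ_q = Γγ^q` (`q ∈ I3`) satisfy `σ_q² = Γγ^qΓγ^q = Γ² = -1`, `σ_0σ_1 = Γ²γ^0γ^1 = -γ^0γ^1`, …: quaternion units up to sign,
`[T_i,T_j] = ±T_k`: `(∑σ_qT_q)² = -∑T_q² + ½∑[σ_i,σ_j]…` `= -T² ± ∑σ_kT_k`-type relation, so `Y = ∑σ_qT_q` satisfies `Y² ∓ Y = -T²`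
`≥ 0` (`T² = ∑T_q² ≤ 0`), and `X = Y + ¾` resp. the sign is such that `R` is invertible: `(X - ¾)² ∓ (X-¾) = -T²`; if `Xv = 0`:
`(9/16 ± 3/4)v = -T²v`; the right side is `≥ 0` and the sign for which it is `9/16 - 3/4 < 0` gives `v = 0`; check the sign with
`[D_i,D_j] = D_k` of `HesStmt`; if the other sign occurs the Casimir eigenvalues `j(j+1)`, `21/16 = j(j+1)` has no
half-integer solution (`j = (-1+√(25/4))/2 = 3/4`). -/
def InvStmt (S : Setup d F) : Prop := ∀ ξ : Cfg d, S.Vm 1 ξ = 0 →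
  ∃ R : Matrix (Fin 16 × Fin d) (Fin 16 × Fin d) ℝ, R.transpose = -R ∧
    (∀ z : Fin 16 × Fin d → ℝ, R.mulVec z = 0 → z = 0) ∧
    ∀ v : F, S.Fx ξ v - (3 / 4 : ℂ) • S.FG v =
      Complex.I • ∑ p, ∑ q, (R p q : ℂ) • S.th p.1 p.2 (S.th q.1 q.2 v)

/-- **C-Sqr** existence of the square root `K` of the Hessian. PROOF: `hq ξ` is a positive quadratic form; diagonalise the
symmetric operator. (Then `ker K = {hq ξ = 0}`.) -/
def SqrStmt (S : Setup d F) : Prop := ∀ ξ : Cfg d, ∃ K : Cfg d →L[ℝ] Cfg d, S.IsK ξ K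

/-- **C-En** energy identity at `ξ`: `∑‖Qlin_βv‖² = 8∑‖(∂_i^A + (Kx)_i^A)v‖² + 16⟨v,N_ξv⟩`.
PROOF: `(1/16)∑Qlin² = -½Δ + hq ξ x + Fx(ξ) - ¾FG`: `∑_β{Q0_β,M_β}` and `∑_β{Q0_β,DW_β}` have no first order part, the zero order
parts are `-12 FG·…` (A-part) and `∑_β-i(γ^iθ^A)_β∂_i^A(DW ξ β x) = ∑_β-i(γ^iθ^A)_β∂_i^AW_β(ξ) = 16Fx(ξ)`; and
`∑_β(M_β(x)+DW ξ β x)² = 16 hq ξ x` (`∑_β(W_β+M_β)² = 16V_1`, quadratic part at the critical point, or directly).
Then complete the square with `K` symmetric, `‖Kx‖² = 2hq`. -/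
def EnStmt (S : Setup d F) : Prop := ∀ (ξ : Cfg d) (K : Cfg d →L[ℝ] Cfg d), S.Vm 1 ξ = 0 →
  S.IsK ξ K → ∀ v : Cfg d → F, Setup.Tst v →
  ∑ β, nsq (S.Qlin ξ β v) =
    8 * (∑ i, ∑ A, nsq (fun x => pd i A v x + ((K x (i, A) : ℝ) : ℂ) • v x)) +
    16 * (∫ x, inner ℂ (v x) (S.Nx (trK K) ξ (v x))).re

/-- **C-Npos** `N_ξ ≥ 0`. PROOF: `EnStmt` for `v = χ(x/s)e^{-½⟨x,Kx⟩}η`: `0 ≤ 8‖(∇χ_s)e^{…}‖²|η|² + 16⟨η,N_ξη⟩‖χ_se^{…}‖²`, `s → ∞`
(Fubini is not needed: choose `χ_s` with `|∇χ_s| ≤ C/s·1_{|x| ≤ 2s}` and compare `∫_{|x|≤2s}e^{-⟨x,Kx⟩}` with `∫_{|x|≤s}`: if the ratio were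
`≥ s^{1}`-like for all large `s` it would grow faster than any power; or use `χ = 1_{|x|≤s}`-like with the ratio bounded along a
sequence `s_j = 2^j`, since `∫_{|x|≤s}e^{…} ≤ Cs^{9d}`). -/
def NposStmt (S : Setup d F) : Prop := ∀ (ξ : Cfg d) (K : Cfg d →L[ℝ] Cfg d), S.Vm 1 ξ = 0 →
  S.IsK ξ K → ∀ v : F, 0 ≤ (inner ℂ v (S.Nx (trK K) ξ v)).re

/-- **C-L1** Liouville theorem at `ξ` for polynomially bounded solutions that are invariant along the gauge directions
(`Vale/Agent/P353/U/LOne.lean`, `L1a–L1k`, with `A1` replaced by `K`; `g x = exp(-½⟨x,Kx⟩)`; `T` = gauge directions at `ξ`,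
`|Kw| ≥ c|w_⊥|` by `HesStmt` and compactness, `Kw = Kw_⊥`). -/
def L1Stmt (S : Setup d F) : Prop := S.Irr → (∃ v : F, v ≠ 0) → ∀ ξ : Cfg d, S.Vm 1 ξ = 0 →
  ∃ g : Cfg d → ℝ, Continuous g ∧ (∀ x, 0 < g x) ∧ ∃ Ω : F, ‖Ω‖ = 1 ∧
  ∀ u : Cfg d → F, StronglyMeasurable u →
    (∀ s : ℝ, 0 < s → IntegrableOn (fun x => ‖u x‖ ^ 2) (Metric.ball (0 : Cfg d) s)) →
    (∃ (K : ℝ) (p : ℕ), ∀ s : ℝ, 1 ≤ s → ∫ x in Metric.ball (0 : Cfg d) s, ‖u x‖ ^ 2 ≤ K * s ^ p) →
    (∀ β ζ, Setup.Tst ζ → ∫ x, inner ℂ (S.Qlin ξ β ζ x) (u x) = 0) →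
    (∀ (C : Fin d) ζ, Setup.Tst ζ → ∫ x, inner ℂ
      (∑ i, ∑ A, ∑ B, ((S.f C A B : ℂ) * (ξ (i, A) : ℂ)) • pd i B ζ x) (u x) = 0) →
    ∃ c : ℂ, ∀ᵐ x ∂(volume : Measure (Cfg d)), u x = (c * (g x : ℂ)) • Ω

/-- **C-AP** a priori bound: from A6 and C-Wel (as `N = 2`). -/
def APStmt (S : Setup d F) : Prop := ∃ C : ℝ, 0 < C ∧ ∀ m : ℝ, 1 ≤ m → ∀ u : Cfg d → F, Setup.Tst u →
  m ^ 2 * (∫ x, S.dm m x ^ 2 * ‖u x‖ ^ 2) ≤ C * (m * nsq u + ∑ β, nsq (S.Qm m β u))

/-- **C-Pack** comparison of tubes around the orbit with balls around `mξ` (as `N = 2`, dimension `9d`; `Orb (mξ)` is compact). -/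
def PackStmt (S : Setup d F) : Prop := ∀ ξ : Cfg d, ∀ R : ℝ, 0 < R → ∃ n : ℝ, 0 < n ∧ ∀ u : Cfg d → F,
  Setup.Tst u → (∀ O ∈ S.grp, ∀ x, ‖u (ro O x)‖ = ‖u x‖) →
  (∫ x, (if Metric.infDist x (S.Orb ξ) ≤ R then ‖u x‖ ^ 2 else 0) ≤
    n * ∫ x in Metric.ball ξ (2 * R), ‖u x‖ ^ 2) ∧
  ∀ s : ℝ, R ≤ s → n * (∫ x in Metric.ball ξ s, ‖u x‖ ^ 2) ≤ (3 * s / R) ^ (9 * d) * nsq u

/-- **C-Lim** local limits (as `N = 2`). -/
def LimStmt (S : Setup d F) : Prop := ∀ ξ : Cfg d, (∀ β, S.W β ξ + S.MM β ξ = 0) →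
  ∀ m : ℕ → ℝ, (∀ k, 1 ≤ m k) → Tendsto m atTop atTop →
  ∀ φ : ℕ → Cfg d → F, (∀ k, Setup.Tst (φ k)) → ∀ P : ℝ → ℝ,
  (∀ k, ∀ s : ℝ, 0 < s → ∫ w in Metric.ball (0 : Cfg d) s, ‖scl (m k) ξ (φ k) w‖ ^ 2 ≤ P s) →
  (∀ s : ℝ, 0 < s → Tendsto (fun k => ∑ β, ∫ w in Metric.ball (0 : Cfg d) s,
    (m k)⁻¹ * ‖scl (m k) ξ (S.Qm (m k) β (φ k)) w‖ ^ 2) atTop (𝓝 0)) →
  ∃ ψ : ℕ → ℕ, StrictMono ψ ∧ ∃ u : Cfg d → F, StronglyMeasurable u ∧
    (∀ s : ℝ, 0 < s → IntegrableOn (fun x => ‖u x‖ ^ 2) (Metric.ball (0 : Cfg d) s)) ∧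
    (∀ s : ℝ, 0 < s → Tendsto (fun k => ∫ w in Metric.ball (0 : Cfg d) s,
      ‖scl (m (ψ k)) ξ (φ (ψ k)) w - u w‖ ^ 2) atTop (𝓝 0)) ∧
    (∀ β ζ, Setup.Tst ζ → ∫ x, inner ℂ (S.Qlin ξ β ζ x) (u x) = 0) ∧
    ((∀ k C x, S.G C (φ k) x = 0) → ∀ (C : Fin d) ζ, Setup.Tst ζ → ∫ x, inner ℂ
      (∑ i, ∑ A, ∑ B, ((S.f C A B : ℂ) * (ξ (i, A) : ℂ)) • pd i B ζ x) (u x) = 0)

/-- **Theorem C** for large `m` there are at most `n` invariant zero modes, `n` the number of orbits of zeros of `V_1`.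
PROOF as for `N = 2` (`Vale/Agent/P353/U/ThmC.lean`) with `n` wells `ξ_1,…,ξ_n` instead of `0, ξ₀`: otherwise there are `m_k → ∞` with
`Low (n+1) m_k ε` for all `ε > 0`. By C-AP a normalised `u` with tiny energy satisfies `∫_{d ≥ Km^{-1/2}}|u|² ≤ 1/4`, fix `K`;
`wells m = ⋃_j Orb(mξ_j)`. `R_k = Km_k^{-1/2}`, `n_{k,j}` from C-Pack at `m_kξ_j`, `ε_k = (k(1+∑_jn_{k,j}))⁻¹`; in the `n+1` dimensional space a unit
vector `φ_k` with `∫⟨b(m_k^{1/2}(x-m_kξ_j))Ω_j,φ_k⟩ = 0` for all `j`. The tubes cover mass `≥ 3/4`, so for some `j` (fixed along a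
subsequence) the mass in the tube of `Orb(m_kξ_j)` is `≥ 1/(2n)`; C-Pack (a): `μ_k = ∫_{ball(m_kξ_j,2R_k)}|φ_k|² ≥ 1/(2n·n_{k,j})`,
(b): the functions `μ_k^{-1/2}m_k^{-9d/4}φ_k` have scaled local masses `≤ 2n(3s/K)^{9d}` and energies `→ 0`. C-Lim, C-Crit, C-L1: the limit is
`u = c·g·Ω_j` with `∫⟨bΩ_j,u⟩ = 0`, so `c = 0`, but `∫_{ball(0,2K)}|u|² = 1`. -/
def ThmCStmt (S : Setup d F) (n : ℕ) : Prop := S.Irr → (∃ v : F, v ≠ 0) → S.OrbCount n →
  ∃ M : ℝ, 0 < M ∧ ∀ m : ℝ, M ≤ m → ∃ ε : ℝ, 0 < ε ∧ ¬ S.Low (n + 1) m ε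

end Vale.Agent.P353.Z.U
end

section

/-! # P353, general `N`: statements relating the model `BFSS.Model N d F` to `Setup d F` -/

open MeasureTheory Filter Topology
open scoped ContDiff

namespace Vale.Agent.P353.Z.U

variable {N d : ℕ} {F : Type*} [NormedAddCommGroup F] [InnerProductSpace ℂ F]

/-- `S` is the abstract setup of the model `M` -/
structure Rep (M : BFSS.Model N d F) (S : Setup d F) : Prop where
  hκ : S.κ = 1
  hf : S.f = M.f
  hg : ∀ i α β, S.g i α β = (M.γ i α β : ℂ)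
  hth : S.th = M.θ

/-- **M-Set** every model has a setup. PROOF: `f_{ABC} = -i tr([T_A,T_B]T_C)` is totally antisymmetric (trace cyclicity), Jacobi from the
Jacobi identity of commutators and linear independence of the `T_A` (`T_orthonormal`). (The `N = 2` version: `Gauge.lean` `f_swap`,
`f_cyc`, `BridgeA.lean` `Model.toSetup`, where the sign `sgnM` is not needed here.) -/
def SetStmt (M : BFSS.Model N d F) : Prop := ∃ S : Setup d F, Rep M S

/-- **M-Gauss** infinitesimal gauge invariance of core functions.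
PROOF. For a traceless Hermitian `H = ∑h_AT_A` put `g_H(t) = exp(itH) ∈ SU(N)`, `E_H(t) = exp(±it∑h_C𝒮_C)` (`𝒮_C = S.cS C`, sign as needed):
`E_H(t)θ^AE_H(t)⁻¹` solves the same linear ODE as `S(g_H(t))θ^AS(g_H(t))⁻¹`, so `S(g_H(t)) = λ_H(t)E_H(t)` (Schur, `θ_irreducible`),
`λ_H : ℝ → U(1)` a continuous homomorphism, `λ_H(t) = e^{iμ(H)t}`. (1) `μ(VHV*) = μ(H)` for `V ∈ SU(N)` (conjugate by `S(V)`; `E` is built from
bilinears in `θ`, so `S(V)E_H(t)S(V)⁻¹ = E_{VHV*}(t)`); (2) `μ(H+H') = μ(H)+μ(H')` if `[H,H'] = 0`. (3) For diagonal `H` the sum over the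
cyclic permutations `P^jHP^{-j}`, `j < N`, is `0` (trace 0), so `Nμ(H) = 0`; permutation matrices times a phase are in `SU(N)`.
(4) a general `H` is unitarily diagonalisable. Hence `μ = 0`, `S(g_H(t)) = E_H(t)`, and differentiating `u(g_H(t)·x) = S(g_H(t))u(x)`
at `t = 0` gives `∑h_CG_Cu = 0`. (The `N = 2` version is `Gauge.lean`, theorem `gauss_law`.) -/
def GaussStmt (M : BFSS.Model N d F) : Prop := ∀ S : Setup d F, Rep M S →
  ∀ u, M.IsCore u → ∀ C x, S.G C u x = 0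

/-- **M-Bridge** zero-energy states are zero modes of the setup. PROOF as `BridgeB.lean` (`isZM_of_zeroEnergy`), `BFSSLight.lean`. -/
def BridgeStmt (M : BFSS.Model N d F) : Prop := ∀ S : Setup d F, Rep M S →
  ∀ Ψ (hΨ : MemLp Ψ 2 (volume : Measure (Cfg d))), M.IsZeroEnergyState Ψ → S.IsZM (hΨ.toLp Ψ)

/-- **M-Ad** the adjoint matrices of `SU(N)` are in the colour group. PROOF. Orthogonality, invariance of `f`: from `adCoeff`. Norms: every
`U ∈ SU(N)` is a phase times `exp(iH)` with `H` Hermitian traceless (diagonalise the unitary `U`), the adjoint action of `exp(itH)`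
is `exp(t·ad h)`, which is in `grp` (`GrpExpStmt`-type ODE argument: `d/dt‖u(γ(t)x)‖² = 0` if `G_Cu = 0`). -/
def AdStmt (M : BFSS.Model N d F) : Prop := ∀ S : Setup d F, Rep M S → ∀ U : BFSS.SU N,
  (Matrix.of fun B A => BFSS.adCoeff M.T U B A) ∈ S.grp

/-- **M-Count** the zeros of `V_1` form at most `p(N)` orbits. PROOF. For a zero `ξ` put `J_k = -½∑_Aξ_{kA}T_A`, `k ∈ I3`: Hermitian
`N×N` matrices with `[J_i,J_j] = iJ_k` (cyclic) (from `F_{ij}(ξ) = -2ξ_k`, `SqStmt`), `ξ_a = 0` for `a ∈ I6`. A Hermitian triple of this kind on a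
finite dimensional Hilbert space is an orthogonal sum of irreducible ones generated by highest weight vectors, with the
multiset of dimensions a partition of `N` (`IsSl2Triple`, `HasPrimitiveVectorWith`); two triples with the same multiset are unitarily
equivalent, by `U ∈ U(N)`, w.l.o.g. `SU(N)`; then `ξ' = ro (adCoeff U) ξ`, in the same orbit by M-Ad. -/
def CountStmt (M : BFSS.Model N d F) : Prop := ∀ S : Setup d F, Rep M S →
  S.OrbCount (Fintype.card (Nat.Partition N))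

end Vale.Agent.P353.Z.U
end

section

/-! # P353, general `N`: smoothness, supports and symmetry of `G_C`, `M_β`, `Q_β` (BMN) -/

open MeasureTheory Filter Topology
open scoped ContDiff

namespace Vale.Agent.P353.Z

variable {dc : ℕ}

variable {F : Type*} [NormedAddCommGroup F] [InnerProductSpace ℂ F]

/-! ### gauge generator -/

lemma integral_gauge_eq_zero {p q : Fin 9 × Fin dc} (hpq : p ≠ q) (w : (Cfg dc) → ℂ) (hw : ContDiff ℝ 1 w)
    (hc : HasCompactSupport w) :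
    Integrable (fun x : (Cfg dc) => ((x p : ℝ) : ℂ) * fderiv ℝ w x (EuclideanSpace.single q (1 : ℝ))) ∧
    ∫ x : (Cfg dc), ((x p : ℝ) : ℂ) * fderiv ℝ w x (EuclideanSpace.single q (1 : ℝ)) = 0 := by
  have hcd : ContDiff ℝ 1 (fun x : (Cfg dc) => ((x p : ℝ) : ℂ)) :=
    (Setup.contDiff_ofReal (Setup.contDiff_coord p)).of_le (by simp)
  have hder : ∀ (x : (Cfg dc)),
      fderiv ℝ (fun x : (Cfg dc) => ((x p : ℝ) : ℂ) * w x) x (EuclideanSpace.single q (1 : ℝ)) =
        ((x p : ℝ) : ℂ) * fderiv ℝ w x (EuclideanSpace.single q (1 : ℝ)) := by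
    intro x
    rw [fderiv_fun_mul (hcd.differentiable (by simp) x) (hw.differentiable (by simp) x)]
    have hdp : fderiv ℝ (fun y : (Cfg dc) => ((y p : ℝ) : ℂ)) x (EuclideanSpace.single q (1 : ℝ)) = 0 := by
      have hL : (fun y : (Cfg dc) => y p) = (EuclideanSpace.proj (𝕜 := ℝ) p : (Cfg dc) →L[ℝ] ℝ) := rfl
      have h := fderiv_ofReal_comp (d := dc) (φ := fun y : (Cfg dc) => y p) (x := x)
        (by rw [hL]; exact (EuclideanSpace.proj (𝕜 := ℝ) p : (Cfg dc) →L[ℝ] ℝ).differentiableAt)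
        (EuclideanSpace.single q (1 : ℝ))
      rw [h, hL, ContinuousLinearMap.fderiv]
      simp [hpq]
    simp only [_root_.add_apply, _root_.smul_apply, smul_eq_mul, hdp]
    ring
  have hcs : HasCompactSupport (fun x : (Cfg dc) => ((x p : ℝ) : ℂ) * w x) := hc.mul_left
  have hsm : ContDiff ℝ 1 (fun x : (Cfg dc) => ((x p : ℝ) : ℂ) * w x) := hcd.mul hw
  have hint : Integrable (fun x : (Cfg dc) =>
      fderiv ℝ (fun x : (Cfg dc) => ((x p : ℝ) : ℂ) * w x) x (EuclideanSpace.single q (1 : ℝ))) :=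
    ((hsm.continuous_fderiv (by simp)).clm_apply
        continuous_const).integrable_of_hasCompactSupport (hcs.fderiv_apply (𝕜 := ℝ) _)
  have hz := integral_fderiv_eq_zero _ hsm hcs (EuclideanSpace.single q (1 : ℝ))
  simp only [hder] at hint hz
  exact ⟨hint, hz⟩

namespace Setup

variable (S : Setup dc F)

lemma contDiff_G (C : Fin dc) {u : (Cfg dc) → F} (hu : ContDiff ℝ ∞ u) : ContDiff ℝ ∞ (S.G C u) := by
  unfold G
  refine ContDiff.add (ContDiff.const_smul _ (ContDiff.sum fun i _ => ContDiff.sum fun A _ =>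
    ContDiff.sum fun B _ => ?_)) (contDiff_clm_apply' contDiff_const hu)
  exact (contDiff_const.mul (contDiff_ofReal (contDiff_coord _))).smul (contDiff_pd hu)

lemma hasCompactSupport_G (C : Fin dc) {u : (Cfg dc) → F} (hu : HasCompactSupport u) :
    HasCompactSupport (S.G C u) := by
  refine HasCompactSupport.intro' (K := tsupport u) hu (isClosed_tsupport u) ?_
  intro x hx
  have h0 : u x = 0 := image_eq_zero_of_notMem_tsupport hx
  have h1 : ∀ i A, _root_.Vale.Agent.P353.pd i A u x = 0 := by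
    intro i A
    have : fderiv ℝ u x = 0 := by
      have h := (tsupport_fderiv_subset ℝ (f := u))
      by_contra hne
      exact hx (h (subset_tsupport _ hne))
    simp [_root_.Vale.Agent.P353.pd, this]
  simp [G, h0, h1]

lemma Tst.G {u : (Cfg dc) → F} (hu : Tst u) (C : Fin dc) : Tst (S.G C u) :=
  ⟨S.contDiff_G C hu.1, S.hasCompactSupport_G C hu.2⟩

lemma contDiff_MM (β : Fin 16) : ContDiff ℝ ∞ (S.MM β) := by
  unfold MM
  refine ContDiff.sum fun i _ => ContDiff.sum fun A _ => ?_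
  exact (contDiff_ofReal (contDiff_const.mul (contDiff_coord _))).smul contDiff_const

/-- `M_β(x)` is symmetric -/
lemma MM_symm (β : Fin 16) (x : (Cfg dc)) (v w : F) :
    inner ℂ (S.MM β x v) w = inner ℂ v (S.MM β x w) := by
  have h : ∀ i, ∀ a b, ((S.g i * S.Gam) a b).im = 0 := fun i =>
    mul_im_zero (S.g_im i) S.Gam_real
  simp only [MM, _root_.sum_apply, _root_.smul_apply, sum_inner, inner_sum, inner_smul_left,
    inner_smul_right, S.vec_symm _ (h _), Complex.conj_ofReal]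

lemma Tst.MM {u : (Cfg dc) → F} (hu : Tst u) (β : Fin 16) : Tst (fun x => S.MM β x (u x)) :=
  Tst.clm (S.contDiff_MM β) hu

lemma contDiff_Qm (m : ℝ) (β : Fin 16) {u : (Cfg dc) → F} (hu : ContDiff ℝ ∞ u) :
    ContDiff ℝ ∞ (S.Qm m β u) := by
  unfold Qm
  exact (S.contDiff_Q β hu).add (contDiff_const.smul (contDiff_clm_apply' (S.contDiff_MM β) hu))

lemma Tst.cst {u : (Cfg dc) → F} (hu : Tst u) (c : ℂ) : Tst (fun x => c • u x) := by
  refine ⟨contDiff_const.smul hu.1, hu.2.mono ?_⟩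
  intro x hx
  simp only [Function.mem_support] at hx ⊢
  intro h0
  exact hx (by rw [h0, smul_zero])

lemma Tst.zero : Tst (fun _ : (Cfg dc) => (0 : F)) := ⟨contDiff_const, HasCompactSupport.zero⟩

lemma Tst.sum {ι : Type*} (s : Finset ι) {u : ι → (Cfg dc) → F} (hu : ∀ j, Tst (u j)) :
    Tst (fun x => ∑ j ∈ s, u j x) := by
  classical
  induction s using Finset.induction_on with
  | empty => simpa using Tst.zero
  | insert a s ha ih =>
    simp only [Finset.sum_insert ha]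
    exact (hu a).add ih

lemma Tst.Qm {u : (Cfg dc) → F} (hu : Tst u) (m : ℝ) (β : Fin 16) : Tst (S.Qm m β u) :=
  (hu.Q S β).add ((Tst.MM S hu β).cst _)

lemma Qm_add {m : ℝ} {β : Fin 16} {u v : (Cfg dc) → F} {x : (Cfg dc)} (hu : DifferentiableAt ℝ u x)
    (hv : DifferentiableAt ℝ v x) :
    S.Qm m β (fun y => u y + v y) x = S.Qm m β u x + S.Qm m β v x := by
  simp only [Qm, Q, pd_add hu hv, map_add, Finset.sum_add_distrib, smul_add]
  abel

lemma Qm_cst {m : ℝ} {β : Fin 16} (c : ℂ) {u : (Cfg dc) → F} {x : (Cfg dc)} (hu : DifferentiableAt ℝ u x) :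
    S.Qm m β (fun y => c • u y) x = c • S.Qm m β u x := by
  have h : ∀ i A, _root_.Vale.Agent.P353.pd i A (fun y => c • u y) x =
      c • _root_.Vale.Agent.P353.pd i A u x := by
    intro i A
    unfold _root_.Vale.Agent.P353.pd
    rw [fderiv_fun_const_smul hu]; rfl
  simp only [Qm, Q, h, map_smul, smul_add, Finset.smul_sum]
  simp only [smul_comm c]

lemma Qm_sum {ι : Type*} (s : Finset ι) {m : ℝ} {β : Fin 16} {u : ι → (Cfg dc) → F}
    (hu : ∀ j, Tst (u j)) (x : (Cfg dc)) :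
    S.Qm m β (fun y => ∑ j ∈ s, u j y) x = ∑ j ∈ s, S.Qm m β (u j) x := by
  classical
  induction s using Finset.induction_on with
  | empty =>
    have h : ∀ i A, _root_.Vale.Agent.P353.pd i A (fun _ : (Cfg dc) => (0 : F)) x = 0 := by
      intro i A
      simp [_root_.Vale.Agent.P353.pd]
    simp [Qm, Q, h]
  | insert a s ha ih =>
    simp only [Finset.sum_insert ha]
    rw [S.Qm_add ((hu a).diff x) ((Tst.sum s hu).diff x), ih]

end Setup

/-- symmetry of the gauge generators -/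
theorem G_symm (S : Setup dc F) (C : Fin dc) (u v : (Cfg dc) → F) (hu : Setup.Tst u)
    (hv : ContDiff ℝ ∞ v) :
    ∫ x, inner ℂ (S.G C u x) (v x) = ∫ x, inner ℂ (u x) (S.G C v x) := by
  have hv1 : ContDiff ℝ 1 v := hv.of_le (by simp)
  have hu1 : ContDiff ℝ 1 u := hu.1.of_le (by simp)
  have hw : ContDiff ℝ 1 (fun y => inner ℂ (u y) (v y)) := hu1.inner ℂ hv1
  have hcs : HasCompactSupport (fun y => inner ℂ (u y) (v y)) := hu.inner_cs
  have hd : ∀ i A x, fderiv ℝ (fun y => inner ℂ (u y) (v y)) x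
      (EuclideanSpace.single (i, A) (1 : ℝ)) =
      inner ℂ (u x) (pd i A v x) + inner ℂ (pd i A u x) (v x) := by
    intro i A x
    rw [fderiv_inner_apply ℂ ((hu1.differentiable (by simp)) x) ((hv1.differentiable (by simp)) x)]
    rfl
  have hpt : ∀ x, inner ℂ (S.G C u x) (v x) - inner ℂ (u x) (S.G C v x) =
      ∑ i, ∑ A, ∑ B, (Complex.I * (S.f C A B : ℂ)) * (((x (i, A) : ℝ) : ℂ) *
        fderiv ℝ (fun y => inner ℂ (u y) (v y)) x (EuclideanSpace.single (i, B) (1 : ℝ))) := by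
    intro x
    have he : ∀ A B, (starRingEnd ℂ) (S.f C A B : ℂ) = (S.f C A B : ℂ) := by
      intro A B
      simp
    simp only [hd, Setup.G, inner_add_left, inner_add_right, inner_smul_left, inner_smul_right,
      sum_inner, inner_sum, S.cS_symm, Complex.conj_ofReal, map_mul, he]
    simp only [map_neg, Complex.conj_I, neg_neg]
    rw [Finset.mul_sum, neg_mul, Finset.mul_sum, add_sub_add_right_eq_sub, sub_neg_eq_add,
      ← Finset.sum_add_distrib]
    refine Finset.sum_congr rfl fun i _ => ?_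
    rw [Finset.mul_sum, Finset.mul_sum, ← Finset.sum_add_distrib]
    refine Finset.sum_congr rfl fun A _ => ?_
    rw [Finset.mul_sum, Finset.mul_sum, ← Finset.sum_add_distrib]
    refine Finset.sum_congr rfl fun B _ => ?_
    ring
  have hI : ∫ x, (inner ℂ (S.G C u x) (v x) - inner ℂ (u x) (S.G C v x)) = 0 := by
    simp only [hpt]
    have hterm : ∀ (i : Fin 9) (A B : Fin dc), Integrable (fun x : (Cfg dc) =>
        (Complex.I * (S.f C A B : ℂ)) * (((x (i, A) : ℝ) : ℂ) *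
        fderiv ℝ (fun y => inner ℂ (u y) (v y)) x (EuclideanSpace.single (i, B) (1 : ℝ)))) ∧
        ∫ x : (Cfg dc), (Complex.I * (S.f C A B : ℂ)) * (((x (i, A) : ℝ) : ℂ) *
        fderiv ℝ (fun y => inner ℂ (u y) (v y)) x (EuclideanSpace.single (i, B) (1 : ℝ))) = 0 := by
      intro i A B
      by_cases hAB : A = B
      · subst hAB
        have : (S.f C A A : ℂ) = 0 := by
          have h9 := S.f_swap' C A A
          have h10 : S.f C A A = 0 := by linarith
          rw [h10, Complex.ofReal_zero]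
        simp [this]
      · have h1 := integral_gauge_eq_zero (p := (i, A)) (q := (i, B))
          (by simpa using hAB) _ hw hcs
        refine ⟨h1.1.const_mul _, ?_⟩
        rw [integral_const_mul, h1.2, mul_zero]
    rw [integral_finsetSum _ fun i _ => integrable_finsetSum _ fun A _ =>
      integrable_finsetSum _ fun B _ => (hterm i A B).1]
    refine Finset.sum_eq_zero fun i _ => ?_
    rw [integral_finsetSum _ fun A _ => integrable_finsetSum _ fun B _ => (hterm i A B).1]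
    refine Finset.sum_eq_zero fun A _ => ?_
    rw [integral_finsetSum _ fun B _ => (hterm i A B).1]
    exact Finset.sum_eq_zero fun B _ => (hterm i A B).2
  rw [integral_sub ((hu.G S C).inner_int hv.continuous)
    (hu.inner_int (S.contDiff_G C hv).continuous)] at hI
  exact sub_eq_zero.mp hI

/-- symmetry of the BMN supercharges -/
theorem Qm_symm (S : Setup dc F) (m : ℝ) (β : Fin 16) (u v : (Cfg dc) → F) (hu : Setup.Tst u)
    (hv : ContDiff ℝ ∞ v) :
    ∫ x, inner ℂ (S.Qm m β u x) (v x) = ∫ x, inner ℂ (u x) (S.Qm m β v x) := by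
  have h1 : ∀ x, inner ℂ (S.Qm m β u x) (v x) = inner ℂ (S.Q β u x) (v x) +
      (m : ℂ) * inner ℂ (u x) (S.MM β x (v x)) := by
    intro x
    simp only [Setup.Qm, inner_add_left, inner_smul_left, Complex.conj_ofReal, S.MM_symm]
  have h2 : ∀ x, inner ℂ (u x) (S.Qm m β v x) = inner ℂ (u x) (S.Q β v x) +
      (m : ℂ) * inner ℂ (u x) (S.MM β x (v x)) := by
    intro x
    simp only [Setup.Qm, inner_add_right, inner_smul_right]
  have h3 : Integrable (fun x => (m : ℂ) * inner ℂ (u x) (S.MM β x (v x))) :=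
    (hu.inner_int (Setup.contDiff_clm_apply' (S.contDiff_MM β) hv).continuous).const_mul _
  simp only [h1, h2]
  rw [integral_add ((hu.Q S β).inner_int hv.continuous) h3,
    integral_add (hu.inner_int (S.contDiff_Q β hv).continuous) h3, Q_symm S β u v hu hv]

namespace Setup

variable {S : Setup dc F}

/-- the strong `Q_βΨ` are the weak ones -/
lemma Str.wQ {m : ℝ} {Ψ : (Cfg dc) → F} {Φ : Fin 16 → (Cfg dc) → F} (h : S.Str m Ψ Φ) (β : Fin 16) :
    S.wQ m β Ψ (Φ β) := by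
  obtain ⟨u, hu, h1, h2⟩ := h
  intro ζ hζ
  have hQ : Tst (S.Qm m β ζ) := hζ.Qm S m β
  have hc : ∀ {f : (Cfg dc) → F}, Tst f → L2t (fun _ : ℕ => f) f := fun {f} hf =>
    ⟨fun _ => hf.memLp, hf.memLp, by simp [nsq]⟩
  have l1 := (hc hQ).lim_inner h1
  have l2 := (hc hζ).lim_inner (h2 β)
  refine tendsto_nhds_unique l1 (l2.congr fun n => ?_)
  exact (Qm_symm S m β ζ (u n) hζ (hu n).1).symm

end Setup
end Vale.Agent.P353.Z
end
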