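import Mathlib
import Vale.Agent.P353.BdZ.B2
import Vale.Agent.P353.BdZ.B1
attribute [-instance] ProperSMul.toContinuousSMul IsTopologicalTorsor.toContinuousSMul IdemSemiring.toCanonicallyOrderedAdd IdemSemiring.toMulLeftMono IdemSemiring.toMulRightMono AddQuantale.instAddLeftMono AddQuantale.instAddRightMono Quantale.instMulLeftMono Quantale.instMulRightMono FiniteDimensional.rclike_to_real IsScalarTower.complexToReal FiniteDimensional.complexToReal

set_option linter.all false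

section

/-! # General gauge algebra: generators and the rotation multiplier (abstract Clifford system) -/

open Matrix

namespace Vale.Agent.P353.Z

variable {d : ℕ}

def E1 (i : Fin 9) (A : Fin d) (j : Fin 9) (B : Fin d) : ℂ := if j = i ∧ B = A then 1 else 0

lemma E1_sum (i : Fin 9) (A : Fin d) (j : Fin 9) {M : Type*} [AddCommGroup M] [Module ℂ M]
    (f : Fin d → M) : ∑ B, E1 i A j B • f B = if j = i then f A else 0 := by
  by_cases h : j = i <;> simp [E1, h]

namespace CS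

variable {R : Type*} [Ring R] [Algebra ℂ R] (S : CS d R)

/-- `S_{kl}` -/
noncomputable def Sk (k l : Fin 9) : R := (-Complex.I / 4) • S.tot (S.g2 k l)

/-- spin part of gauge generator -/
noncomputable def sG (f : Fin d → Fin d → Fin d → ℝ) (C : Fin d) : R :=
  (-Complex.I / 2) • ∑ D, ∑ E, (f C D E : ℂ) • S.bil 1 D E

lemma Sk_antisymm (k l : Fin 9) : S.Sk k l = -S.Sk l k := by
  rw [Sk, S.g2_antisymm, tot_neg, smul_neg]; rfl

lemma tot_g2 (k l : Fin 9) : S.tot (S.g2 k l) = (4 * Complex.I) • S.Sk k l := by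
  rw [Sk, smul_smul]
  have : 4 * Complex.I * (-Complex.I / 4) = 1 := by
    have := Complex.I_mul_I
    linear_combination -this
  rw [this, one_smul]

lemma tot_gg (k l : Fin 9) :
    S.tot (S.g k * S.g l) = (4 * Complex.I) • S.Sk k l + (if k = l then (8 * d:ℂ) else 0) • 1 := by
  have h : S.g k * S.g l = S.g2 k l + (if k = l then (1 : ℂ) else 0) • 1 := by
    rw [g2_eq]; abel
  rw [h, tot_add, tot_g2, tot_smul, tot_one, smul_smul]
  congr 2
  split_ifs <;> simp

lemma Sk_self (k : Fin 9) : S.Sk k k = 0 := by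
  simp [Sk, g2, tot, bil, vec]

/-- `[(Pθ^A)_β, S_{kl}] = -(i/2) (P γ_{kl} θ^A)_β` -/
lemma vec_comm_Sk (P : Matrix (Fin 16) (Fin 16) ℂ) (A : Fin d) (β : Fin 16) (k l : Fin 9) :
    S.vec P A β * S.Sk k l - S.Sk k l * S.vec P A β =
      (-Complex.I / 2) • S.vec (P * S.g2 k l) A β := by
  rw [Sk, mul_smul_comm, smul_mul_assoc, ← smul_sub, S.vec_comm_tot _ _ (S.g2_transpose k l),
    smul_smul]
  congr 1; ring

/-- `[(Pθ^A)_β, 𝒮_C] = -i ε_{CAE} (Pθ^E)_β` -/
lemma vec_comm_sG (f : Fin d → Fin d → Fin d → ℝ) (hf : ∀ C D E, f C D E = -f C E D)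
    (P : Matrix (Fin 16) (Fin 16) ℂ) (A : Fin d) (β : Fin 16) (C : Fin d) :
    S.vec P A β * S.sG f C - S.sG f C * S.vec P A β =
      (-Complex.I) • ∑ E, (f C A E : ℂ) • S.vec P E β := by
  have key : ∀ D E, S.vec P A β * S.bil 1 D E - S.bil 1 D E * S.vec P A β =
      (if A = D then S.vec P E β else 0) - (if A = E then S.vec P D β else 0) := by
    intro D E
    have hb : S.bil 1 D E = ∑ δ, S.vec 1 D δ * S.vec 1 E δ := by
      rw [S.sum_vec_mul_vec]; simp
    rw [hb, Finset.mul_sum, Finset.sum_mul, ← Finset.sum_sub_distrib]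
    have h1 : ∀ δ, S.vec P A β * (S.vec 1 D δ * S.vec 1 E δ) -
        S.vec 1 D δ * S.vec 1 E δ * S.vec P A β =
        (if A = D then (P β δ) • S.vec 1 E δ else 0) -
        (if A = E then (P β δ) • S.vec 1 D δ else 0) := by
      intro δ
      have e1 := S.vec_anti P 1 A D β δ
      have e2 := S.vec_anti P 1 A E β δ
      have : S.vec P A β * (S.vec 1 D δ * S.vec 1 E δ) -
        S.vec 1 D δ * S.vec 1 E δ * S.vec P A β =
        (S.vec P A β * S.vec 1 D δ + S.vec 1 D δ * S.vec P A β) * S.vec 1 E δ -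
        S.vec 1 D δ * (S.vec P A β * S.vec 1 E δ + S.vec 1 E δ * S.vec P A β) := by
        noncomm_ring
      rw [this, e1, e2, Matrix.transpose_one, mul_one]
      by_cases h : A = D <;> by_cases h' : A = E <;> simp [h, h']
    rw [Finset.sum_congr rfl fun δ _ => h1 δ, Finset.sum_sub_distrib]
    congr 1
    · by_cases h : A = D
      · simp only [h, if_true, vec_one]; rfl
      · simp [h]
    · by_cases h : A = E
      · simp only [h, if_true, vec_one]; rfl
      · simp [h]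
  have h2 : S.vec P A β * S.sG f C - S.sG f C * S.vec P A β = (-Complex.I / 2) •
      ∑ D, ∑ E, (f C D E : ℂ) • ((if A = D then S.vec P E β else 0) -
        (if A = E then S.vec P D β else 0)) := by
    rw [sG, mul_smul_comm, smul_mul_assoc, ← smul_sub]
    congr 1
    simp only [Finset.mul_sum, Finset.sum_mul, ← Finset.sum_sub_distrib, mul_smul_comm,
      smul_mul_assoc, ← smul_sub, key]
  rw [h2]
  simp only [smul_sub, smul_ite, smul_zero, Finset.sum_sub_distrib]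
  have h3 : ∑ D, ∑ E, (if A = D then (f C D E : ℂ) • S.vec P E β else 0) =
      ∑ E, (f C A E : ℂ) • S.vec P E β := by
    rw [Finset.sum_comm]; simp
  have h4 : ∑ D, ∑ E, (if A = E then (f C D E : ℂ) • S.vec P D β else 0) =
      -∑ E, (f C A E : ℂ) • S.vec P E β := by
    simp only [Finset.sum_ite_eq, Finset.mem_univ, if_true]
    rw [← Finset.sum_neg_distrib]
    refine Finset.sum_congr rfl fun E _ => ?_
    rw [hf C E A]; push_cast; rw [neg_smul]
  rw [h3, h4]
  module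

/-- `F^A_{pq}` -/
noncomputable def FFc (f : Fin d → Fin d → Fin d → ℝ) (κ : ℂ) (X : Fin 9 → Fin d → ℂ) (A : Fin d) (p q : Fin 9) : ℂ :=
  κ * ∑ B, ∑ C, (f A B C : ℂ) * X p B * X q C

/-- `W_β` -/
noncomputable def Wv (f : Fin d → Fin d → Fin d → ℝ) (κ : ℂ) (X : Fin 9 → Fin d → ℂ) (β : Fin 16) : R :=
  (1 / 2 : ℂ) • ∑ A, ∑ p, ∑ q, FFc f κ X A p q • S.vec (S.g2 p q) A β

lemma sum_Wv_mul (f : Fin d → Fin d → Fin d → ℝ) (κ : ℂ) (X : Fin 9 → Fin d → ℂ) (Y : Fin 16 → R) :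
    ∑ β, S.Wv f κ X β * Y β = (1 / 2 : ℂ) • ∑ A, ∑ p, ∑ q, FFc f κ X A p q •
      ∑ β, S.vec (S.g2 p q) A β * Y β := by
  simp only [Wv, smul_mul_assoc, Finset.sum_mul, ← Finset.smul_sum]
  congr 1
  rw [Finset.sum_comm]
  refine Finset.sum_congr rfl fun A _ => ?_
  rw [Finset.sum_comm]
  refine Finset.sum_congr rfl fun p _ => ?_
  rw [Finset.sum_comm]
  refine Finset.sum_congr rfl fun q _ => ?_
  rw [Finset.smul_sum]

lemma sum_mul_Wv (f : Fin d → Fin d → Fin d → ℝ) (κ : ℂ) (X : Fin 9 → Fin d → ℂ) (Y : Fin 16 → R) :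
    ∑ β, Y β * S.Wv f κ X β = (1 / 2 : ℂ) • ∑ A, ∑ p, ∑ q, FFc f κ X A p q •
      ∑ β, Y β * S.vec (S.g2 p q) A β := by
  simp only [Wv, mul_smul_comm, Finset.mul_sum, ← Finset.smul_sum]
  congr 1
  rw [Finset.sum_comm]
  refine Finset.sum_congr rfl fun A _ => ?_
  rw [Finset.sum_comm]
  refine Finset.sum_congr rfl fun p _ => ?_
  rw [Finset.sum_comm]
  refine Finset.sum_congr rfl fun q _ => ?_
  rw [Finset.smul_sum]

lemma g2_mul_g (p q j : Fin 9) : S.g2 p q * S.g j = S.g j * S.g2 p q +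
    (2:ℂ) • ((if q = j then (1:ℂ) else 0) • S.g p - (if p = j then (1:ℂ) else 0) • S.g q) := by
  rw [g2_eq, sub_mul, mul_sub, smul_mul_assoc, one_mul, mul_smul_comm, mul_one]
  have e1 : S.g p * S.g q * S.g j = S.g j * (S.g p * S.g q) +
    (2:ℂ) • ((if q = j then (1:ℂ) else 0) • S.g p - (if p = j then (1:ℂ) else 0) • S.g q) := by
    rw [mul_assoc, S.g_swap q j, mul_sub, ← mul_assoc, S.g_swap p j, sub_mul]
    simp only [smul_mul_assoc, mul_smul_comm, one_mul, mul_one, mul_assoc]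
    by_cases h : q = j <;> by_cases h' : p = j <;> simp [h, h'] <;> module
  rw [e1]
  abel

/-- contraction with the antisymmetric `F_{pq}` -/
lemma sum_vec_anti (P N : Matrix (Fin 16) (Fin 16) ℂ) (A B : Fin d) :
    ∑ β, S.vec P A β * S.vec N B β + ∑ β, S.vec N B β * S.vec P A β =
      (if A = B then (P * Nᵀ).trace else 0) • (1 : R) := by
  rw [← Finset.sum_add_distrib]
  simp only [vec_anti]
  by_cases h : A = B
  · simp [h, Matrix.trace, Finset.sum_smul]
  · simp [h]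

/-- the multiplier for `J_{kl}` -/
noncomputable def MJv (k l : Fin 9) (X : Fin 9 → Fin d → ℂ) (β : Fin 16) : R :=
  (9 : ℂ) • (∑ A, (X k A • S.vec (S.g l) A β - X l A • S.vec (S.g k) A β))
    + (2 : ℂ) • ∑ j, ∑ A, X j A • S.vec (S.g2 k l * S.g j) A β

lemma sum_mul_MJv (k l : Fin 9) (X : Fin 9 → Fin d → ℂ) (P : Matrix (Fin 16) (Fin 16) ℂ)
    (A : Fin d) :
    ∑ β, S.vec P A β * S.MJv k l X β + ∑ β, S.MJv k l X β * S.vec P A β =
      (9 * (X k A * (P * S.g l).trace - X l A * (P * S.g k).trace) -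
        2 * ∑ j, X j A * (P * S.g j * S.g2 k l).trace) • (1 : R) := by
  have h1 : ∑ β, S.vec P A β * S.MJv k l X β = (9 : ℂ) • ∑ B,
      (X k B • ∑ β, S.vec P A β * S.vec (S.g l) B β -
        X l B • ∑ β, S.vec P A β * S.vec (S.g k) B β) +
      (2 : ℂ) • ∑ j, ∑ B, X j B • ∑ β, S.vec P A β * S.vec (S.g2 k l * S.g j) B β := by
    simp only [MJv, mul_add, mul_smul_comm, Finset.mul_sum, mul_sub, Finset.sum_add_distrib,
      ← Finset.smul_sum]
    congr 2
    · rw [Finset.sum_comm]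
      refine Finset.sum_congr rfl fun B _ => ?_
      rw [Finset.sum_sub_distrib, Finset.smul_sum, Finset.smul_sum]
    · rw [Finset.sum_comm]
      refine Finset.sum_congr rfl fun j _ => ?_
      rw [Finset.sum_comm]
      refine Finset.sum_congr rfl fun B _ => ?_
      rw [Finset.smul_sum]
  have h2 : ∑ β, S.MJv k l X β * S.vec P A β = (9 : ℂ) • ∑ B,
      (X k B • ∑ β, S.vec (S.g l) B β * S.vec P A β -
        X l B • ∑ β, S.vec (S.g k) B β * S.vec P A β) +
      (2 : ℂ) • ∑ j, ∑ B, X j B • ∑ β, S.vec (S.g2 k l * S.g j) B β * S.vec P A β := by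
    simp only [MJv, add_mul, smul_mul_assoc, Finset.sum_mul, sub_mul, Finset.sum_add_distrib,
      ← Finset.smul_sum]
    congr 2
    · rw [Finset.sum_comm]
      refine Finset.sum_congr rfl fun B _ => ?_
      rw [Finset.sum_sub_distrib, Finset.smul_sum, Finset.smul_sum]
    · rw [Finset.sum_comm]
      refine Finset.sum_congr rfl fun j _ => ?_
      rw [Finset.sum_comm]
      refine Finset.sum_congr rfl fun B _ => ?_
      rw [Finset.smul_sum]
  have ht : ∀ j, (P * (S.g2 k l * S.g j)ᵀ).trace = -(P * S.g j * S.g2 k l).trace := by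
    intro j
    rw [Matrix.transpose_mul, g2_transpose, S.g_symm, mul_neg, mul_neg, Matrix.trace_neg,
      ← mul_assoc]
  rw [h1, h2]
  have h3 : ∀ a b c d : R, ((9 : ℂ) • a + (2 : ℂ) • b) + ((9 : ℂ) • c + (2 : ℂ) • d) =
      (9 : ℂ) • (a + c) + (2 : ℂ) • (b + d) := by intros; module
  rw [h3]
  simp only [← Finset.sum_add_distrib]
  have h4 : ∀ B, X k B • ∑ β, S.vec P A β * S.vec (S.g l) B β -
        X l B • ∑ β, S.vec P A β * S.vec (S.g k) B β +
      (X k B • ∑ β, S.vec (S.g l) B β * S.vec P A β -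
        X l B • ∑ β, S.vec (S.g k) B β * S.vec P A β) =
      if A = B then (X k A * (P * S.g l).trace - X l A * (P * S.g k).trace) • (1 : R) else 0 := by
    intro B
    have : X k B • ∑ β, S.vec P A β * S.vec (S.g l) B β -
        X l B • ∑ β, S.vec P A β * S.vec (S.g k) B β +
      (X k B • ∑ β, S.vec (S.g l) B β * S.vec P A β -
        X l B • ∑ β, S.vec (S.g k) B β * S.vec P A β) =
        X k B • (∑ β, S.vec P A β * S.vec (S.g l) B β + ∑ β, S.vec (S.g l) B β * S.vec P A β) -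
        X l B • (∑ β, S.vec P A β * S.vec (S.g k) B β + ∑ β, S.vec (S.g k) B β * S.vec P A β) := by
      module
    rw [this, sum_vec_anti, sum_vec_anti, S.g_symm, S.g_symm]
    by_cases h : A = B
    · subst h; simp only [if_true]; module
    · simp [h]
  have h5 : ∀ j B, X j B • ∑ β, S.vec P A β * S.vec (S.g2 k l * S.g j) B β +
      X j B • ∑ β, S.vec (S.g2 k l * S.g j) B β * S.vec P A β =
      if A = B then (-(X j A * (P * S.g j * S.g2 k l).trace)) • (1 : R) else 0 := by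
    intro j B
    rw [← smul_add, sum_vec_anti, ht]
    by_cases h : A = B
    · subst h; simp only [if_true]; module
    · simp [h]
  simp only [h4, h5, Finset.sum_ite_eq, Finset.mem_univ, if_true]
  rw [← Finset.sum_smul, Finset.sum_neg_distrib]
  module

lemma PJ1 (k l : Fin 9) (X : Fin 9 → Fin d → ℂ) (i : Fin 9) (A : Fin d) :
    ∑ β, S.vec (S.g i) A β * S.MJv k l X β =
      - ∑ β, S.MJv k l X β * S.vec (S.g i) A β +
      (112 * (X k A * (if i = l then 1 else 0) - X l A * (if i = k then 1 else 0))) • (1 : R) := by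
  rw [eq_neg_add_iff_add_eq, add_comm, sum_mul_MJv]
  congr 1
  have h : ∀ j, X j A * (S.g i * S.g j * S.g2 k l).trace =
      (if j = k then (16 * X k A * (if i = l then 1 else 0)) else 0) -
      (if j = l then (16 * X l A * (if i = k then 1 else 0)) else 0) := by
    intro j
    rw [S.trace_gg_g2]
    by_cases h1 : j = k
    · subst h1
      by_cases h2 : j = l
      · subst h2; simp
      · simp only [h2, if_true, if_false]; ring
    · by_cases h2 : j = l
      · subst h2; simp only [h1, if_true, if_false]; ring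
      · simp [h1, h2]
  simp only [h, Finset.sum_sub_distrib, Finset.sum_ite_eq', Finset.mem_univ, if_true, trace_gg]
  have a4 : ∀ (P : Prop) [Decidable P], (if P then (16:ℂ) else 0) = 16 * (if P then (1:ℂ) else 0) := by
    intro P _; split_ifs <;> simp
  rw [a4, a4]
  ring

lemma PJ2 (f : Fin d → Fin d → Fin d → ℝ) (κ : ℂ) (k l : Fin 9) (hkl : k ≠ l) (X : Fin 9 → Fin d → ℂ) :
    (-Complex.I) • ∑ i, ∑ A, ∑ β, S.vec (S.g i) A β * S.MJv k l (E1 i A) β +
      ∑ β, S.Wv f κ X β * S.MJv k l X β + ∑ β, S.MJv k l X β * S.Wv f κ X β =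
    (112 : ℂ) • S.Sk k l := by
  have h1 : ∑ β, S.Wv f κ X β * S.MJv k l X β + ∑ β, S.MJv k l X β * S.Wv f κ X β = 0 := by
    rw [sum_Wv_mul, sum_mul_Wv, ← smul_add]
    have a1 : ∀ p q j, (S.g2 p q * S.g j).trace = 0 := by
      intro p q j; rw [Matrix.trace_mul_comm, trace_g_g2]
    have a2 : ∀ p q j, (S.g2 p q * S.g j * S.g2 k l).trace = 0 := by
      intro p q j; rw [trace_g2_g_g2]
    have a3 : ∀ p q A, ∑ β, S.vec (S.g2 p q) A β * S.MJv k l X β +
        ∑ β, S.MJv k l X β * S.vec (S.g2 p q) A β = 0 := by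
      intro p q A
      rw [sum_mul_MJv]
      simp [a1, a2]
    have a4 : ∀ (h g : Fin d → Fin 9 → Fin 9 → R), ∑ A, ∑ p, ∑ q, FFc f κ X A p q • h A p q +
        ∑ A, ∑ p, ∑ q, FFc f κ X A p q • g A p q =
        ∑ A, ∑ p, ∑ q, FFc f κ X A p q • (h A p q + g A p q) := by
      intro h g
      simp only [← Finset.sum_add_distrib, ← smul_add]
    rw [a4]
    simp [a3]
  have h2 : ∀ i A β, S.MJv k l (E1 i A) β =
      (9 : ℂ) • ((if k = i then S.vec (S.g l) A β else 0) - (if l = i then S.vec (S.g k) A β else 0))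
      + (2 : ℂ) • S.vec (S.g2 k l * S.g i) A β := by
    intro i A β
    simp only [MJv, E1_sum, Finset.sum_sub_distrib, Finset.sum_ite_eq', Finset.mem_univ, if_true]
  have h3 : ∑ i, ∑ A, ∑ β, S.vec (S.g i) A β * S.MJv k l (E1 i A) β =
      (112 * Complex.I) • S.Sk k l := by
    have b1 : ∀ i, ∑ A, ∑ β, S.vec (S.g i) A β * S.MJv k l (E1 i A) β =
        (9 : ℂ) • ((if k = i then S.tot (S.g i * S.g l) else 0) -
          (if l = i then S.tot (S.g i * S.g k) else 0)) +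
          (2 : ℂ) • S.tot (S.g i * S.g2 k l * S.g i) := by
      intro i
      simp only [h2, mul_add, mul_smul_comm, Finset.sum_add_distrib, mul_sub, mul_ite, mul_zero,
        ← Finset.smul_sum, Finset.sum_sub_distrib, Finset.sum_ite_irrel, Finset.sum_const_zero,
        S.sum_vec_mul_vec, S.g_symm, tot, mul_assoc]
    simp only [b1, Finset.sum_add_distrib, ← Finset.smul_sum, Finset.sum_sub_distrib,
      Finset.sum_ite_eq, Finset.mem_univ, if_true]
    rw [← S.tot_sum]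
    have : ∑ i, S.g i * S.g2 k l * S.g i = S.sand (S.g2 k l) := rfl
    rw [this, sand_g2, tot_smul, tot_gg, tot_gg, tot_g2, S.Sk_antisymm l k]
    simp only [hkl, Ne.symm hkl, if_false]
    module
  rw [add_assoc, h1, h3, add_zero, smul_smul]
  congr 1
  linear_combination (-112) * Complex.I_mul_I

end CS
end Vale.Agent.P353.Z
end

section

/-! # P353, general `N`: statements of part B (spectral theory for fixed `m > 0`) -/

open MeasureTheory Filter Topology
open scoped ContDiff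

namespace Vale.Agent.P353.Z.U

variable {d : ℕ} {F : Type*} [NormedAddCommGroup F] [InnerProductSpace ℂ F]

/-- **C-Coe** coercivity of the potential. PROOF (compactness, works for every compact Lie algebra).
Suppose not: `x_n`, `|x_n| → ∞`, `V_1(x_n) ≤ |x_n|²/n`. By the square formula (`SqStmt`) `|x_{n,a}| = o(|x_n|)` for `a ∈ I6`
and `|F_{ij}(x_n) + 2x_{n,k}| = o(|x_n|)` (`(ijk)` cyclic in `I3`). `y_n = x_n/|x_n|`; subsequence `y_n → y`, `|y| = 1`,
`y_a = 0` for `a ∈ I6`, and `κ|x_n|[y_{n,i},y_{n,j}] + 2y_{n,k} → 0`, so `[y_i,y_j] = 0`. Choose `O_n ∈ grp` minimising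
`|ro O_n y_n - y|` (`grp` is compact: `GrpCptStmt`); replace `y_n` by `ro O_n y_n` (everything is invariant; since `1 ∈ grp` still `→ y`).
`e_n = y_n - y` satisfies `Perp y e_n` (derivative along `exp(t ad a)`, `GrpExpStmt`). Let `𝔷` = common kernel of the
`ad y_i`, `i ∈ I3` (a subalgebra), `e = e_∥ + e_⊥` (componentwise, `𝔷 ⊕ 𝔷^⊥`). For commuting `D_i = ad y_i` (antisymmetric):
`∑_{ij}|D_ie_j|² = ½∑_{ij}|D_ie_j - D_je_i|² + |∑_iD_ie_i|²`, and `∑_i D_ie_i = 0` by `Perp`; so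
`c|e_⊥|² ≤ ½∑|D_ie_j - D_je_i|²`, `D_ie_j - D_je_i = [y_{n,i},y_{n,j}] - [e_i,e_j]`. Project on `𝔷^⊥`: `[e_∥,e_∥] ∈ 𝔷`,
`([y_{n,i},y_{n,j}])_⊥ = -(2/(κ|x_n|))(y_{n,k})_⊥ + o(1/|x_n|) = o(1/|x_n|)`, so `|e_⊥| ≤ o(1/|x_n|) + C|e||e_⊥|`,
`|e_⊥| = o(1/|x_n|)`. Finally `⟨[y_{n,i},y_{n,j}],y_k⟩ = ⟨[e_i,e_j],y_k⟩ = ⟨e_i,[e_j,y_k]⟩ = O(|e_⊥|²)`, so
`-2|y_k|² = lim κ|x_n|⟨[y_{n,i},y_{n,j}],y_k⟩ = 0` for all `k`: contradiction with `|y| = 1`. -/
def CoeStmt (S : Setup d F) : Prop := ∃ c C : ℝ, 0 < c ∧ 0 ≤ C ∧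
  ∀ x : Cfg d, c * ‖x‖ ^ 2 - C ≤ S.Vm 1 x

/-- **B0** coercivity, locally uniform in `m`: from A6, `CoeStmt` and the scaling `V_m(x) = m⁴V_1(x/m)`:
`V_m(x) ≥ cm²|x|² - Cm⁴`; `|⟨u,Fx u⟩| ≤ C|x||u|²`, `‖FG‖ ≤ C`. -/
def CoerStmt (S : Setup d F) : Prop := ∀ a b : ℝ, 0 < a → ∃ c C : ℝ, 0 < c ∧ 0 ≤ C ∧
  ∀ m : ℝ, a ≤ m → m ≤ b → ∀ u : Cfg d → F, Setup.Tst u →
    c * ((∫ x, ‖x‖ ^ 2 * ‖u x‖ ^ 2) + ∑ i, ∑ A, nsq (pd i A u)) ≤
      C * nsq u + ∑ β, nsq (S.Qm m β u)

/-- **B-LR** local Rellich theorem (`F` finite dimensional). -/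
def LRStmt (d : ℕ) (F : Type*) [NormedAddCommGroup F] [InnerProductSpace ℂ F] : Prop :=
  ∀ u : ℕ → Cfg d → F, (∀ n, ContDiff ℝ ∞ (u n)) →
    (∀ s : ℝ, 0 < s → ∃ K : ℝ, ∀ n, (∫ x in Metric.ball (0 : Cfg d) s, ‖u n x‖ ^ 2) +
      ∑ i, ∑ A, (∫ x in Metric.ball (0 : Cfg d) s, ‖pd i A (u n) x‖ ^ 2) ≤ K) →
    ∃ φ : ℕ → ℕ, StrictMono φ ∧ ∃ Ψ : Cfg d → F, StronglyMeasurable Ψ ∧
      (∀ s : ℝ, 0 < s → IntegrableOn (fun x => ‖Ψ x‖ ^ 2) (Metric.ball (0 : Cfg d) s)) ∧
      ∀ s : ℝ, 0 < s → Tendsto (fun n => ∫ x in Metric.ball (0 : Cfg d) s, ‖u (φ n) x - Ψ x‖ ^ 2)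
        atTop (𝓝 0)

/-- **core gap** `‖∑Q²φ‖² ≥ 8m ∑‖Qφ‖²` for invariant test functions. Same proof as for `N = 2`
(`Vale/Agent/P353/U/CGap.lean`). -/
def CGapStmt (S : Setup d F) : Prop := ∀ m : ℝ, 0 < m → ∀ φ : Cfg d → F, S.Inv φ →
  8 * m * ∑ β, nsq (S.Qm m β φ) ≤ nsq (fun x => ∑ β, S.Qm m β (S.Qm m β φ) x)

/-- **weak = strong** for limits of invariant test functions. Same proof as for `N = 2`
(`Vale/Agent/P353/U/WS.lean`). -/
def WSStmt (S : Setup d F) : Prop := ∀ m : ℝ, ∀ Ψ : Cfg d → F,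
  (∃ w : ℕ → Cfg d → F, (∀ n, S.Inv (w n)) ∧ L2t w Ψ) →
  (∀ φ, S.Inv φ → ∫ x, inner ℂ (∑ β, S.Qm m β (S.Qm m β φ) x) (Ψ x) = 0) →
  ∃ u : ℕ → Cfg d → F, (∀ n, S.Inv (u n)) ∧ L2t u Ψ ∧
    Tendsto (fun n => ∑ β, nsq (S.Qm m β (u n))) atTop (𝓝 0)

/-- **Theorem B** Same proof as for `N = 2` (`Vale/Agent/P353/U/ThmB2.lean`), with `k` instead of `3` functions. -/
def ThmBStmt (S : Setup d F) (k : ℕ) : Prop := ∀ m : ℝ, 0 < m → S.Low k m (8 * m) →
  ∀ m' : ℝ, 0 < m' → ∀ c : ℝ, 0 < c → S.Low k m' c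

end Vale.Agent.P353.Z.U
end

section

open MeasureTheory Filter Topology
open scoped ContDiff

namespace Vale.Agent.P353.Z

variable {dc : ℕ}

variable {F : Type*} [NormedAddCommGroup F] [InnerProductSpace ℂ F]

/-! ### radial functions -/

/-- radial function of `‖x‖²` -/
noncomputable def rad (f : ℝ → ℝ) (x : (Cfg dc)) : ℝ := f (‖x‖ ^ 2)

lemma contDiff_rad {f : ℝ → ℝ} (hf : ContDiff ℝ ∞ f) : ContDiff ℝ ∞ (rad (dc := dc) f) :=
  hf.comp (contDiff_norm_sq ℝ)

lemma continuous_rad {f : ℝ → ℝ} (hf : Continuous f) : Continuous (rad (dc := dc) f) :=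
  hf.comp (continuous_norm.pow 2)

lemma pdr_rad {f : ℝ → ℝ} (hf : ContDiff ℝ ∞ f) (j : Fin 9) (B : Fin dc) (x : (Cfg dc)) :
    pdr j B (rad f) x = 2 * deriv f (‖x‖ ^ 2) * x (j, B) := by
  have h1 : HasDerivAt f (deriv f (‖x‖ ^ 2)) (‖x‖ ^ 2) :=
    ((hf.differentiable (by simp)) _).hasDerivAt
  have h2 : HasFDerivAt (fun y : (Cfg dc) => ‖y‖ ^ 2) (2 • (innerSL ℝ x)) x :=
    (hasStrictFDerivAt_norm_sq x).hasFDerivAt
  have h3 := h1.comp_hasFDerivAt x h2
  have h4 : fderiv ℝ (rad f) x = _ := h3.fderiv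
  rw [pdr, h4]
  simp only [_root_.smul_apply, innerSL_apply_apply, smul_eq_mul]
  have : inner ℝ x (EuclideanSpace.single (j, B) (1 : ℝ)) = x (j, B) := by
    simp [EuclideanSpace.inner_single_right]
  rw [this]
  simp
  ring

lemma hcs_rad {G : Type*} [Zero G] [TopologicalSpace G] {f : ℝ → G} (hf : HasCompactSupport f) :
    HasCompactSupport (fun x : (Cfg dc) => f (‖x‖ ^ 2)) := by
  obtain ⟨r, hr⟩ := hf.isCompact.isBounded.subset_closedBall (0 : ℝ)
  refine HasCompactSupport.intro (isCompact_closedBall (0 : (Cfg dc)) (Real.sqrt (max r 0))) ?_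
  intro x hx
  by_contra hne
  have h1 : ‖x‖ ^ 2 ∈ tsupport f := subset_tsupport _ hne
  have h2 := hr h1
  rw [Metric.mem_closedBall, dist_zero_right, Real.norm_of_nonneg (by positivity)] at h2
  apply hx
  rw [Metric.mem_closedBall, dist_zero_right]
  exact Real.le_sqrt_of_sq_le (h2.trans (le_max_left _ _))

lemma hcs_rad' {f : ℝ → ℝ} (hf : HasCompactSupport f) : HasCompactSupport (rad (dc := dc) f) :=
  hcs_rad hf

namespace Setup

variable (S : Setup dc F)

lemma Q_rad {f : ℝ → ℝ} (hf : ContDiff ℝ ∞ f) (β : Fin 16) (u : (Cfg dc) → F) (x : (Cfg dc))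
    (hu : DifferentiableAt ℝ u x) :
    S.Q β (fun y => ((rad f y : ℝ) : ℂ) • u y) x = ((rad f x : ℝ) : ℂ) • S.Q β u x +
      (-Complex.I * ((2 * deriv f (‖x‖ ^ 2) : ℝ) : ℂ)) • S.B β x (u x) := by
  rw [Q_smul S β (rad f) u x ((contDiff_rad hf).differentiable (by simp) x) hu, sub_eq_add_neg]
  congr 1
  rw [neg_mul, neg_smul, mul_smul]
  congr 2
  simp only [B, _root_.sum_apply, _root_.smul_apply, Finset.smul_sum, smul_smul]
  refine Finset.sum_congr rfl fun i _ => Finset.sum_congr rfl fun A _ => ?_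
  rw [pdr_rad hf]
  push_cast
  rfl

lemma J_rad {f : ℝ → ℝ} (hf : ContDiff ℝ ∞ f) (k l : Fin 9) (u : (Cfg dc) → F) (x : (Cfg dc))
    (hu : DifferentiableAt ℝ u x) :
    S.J k l (fun y => ((rad f y : ℝ) : ℂ) • u y) x = ((rad f x : ℝ) : ℂ) • S.J k l u x := by
  have h : ∀ i A, pd i A (fun y => ((rad f y : ℝ) : ℂ) • u y) x =
      ((2 * deriv f (‖x‖ ^ 2) * x (i, A) : ℝ) : ℂ) • u x + ((rad f x : ℝ) : ℂ) • pd i A u x := by
    intro i A
    rw [pd_rsmul ((contDiff_rad hf).differentiable (by simp) x) hu]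
    have := pdr_rad hf i A x
    rw [pdr] at this
    rw [this]
  have e : ∀ A, (x (k, A) : ℂ) • (((2 * deriv f (‖x‖ ^ 2) * x (l, A) : ℝ) : ℂ) • u x +
      ((rad f x : ℝ) : ℂ) • pd l A u x) - (x (l, A) : ℂ) •
      (((2 * deriv f (‖x‖ ^ 2) * x (k, A) : ℝ) : ℂ) • u x + ((rad f x : ℝ) : ℂ) • pd k A u x) =
      ((rad f x : ℝ) : ℂ) • ((x (k, A) : ℂ) • pd l A u x - (x (l, A) : ℂ) • pd k A u x) := by
    intro A
    push_cast
    module
  simp only [J, h, e, ← Finset.smul_sum, map_smul]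
  rw [smul_add, smul_comm ((rad f x : ℝ) : ℂ) (-Complex.I)]

end Setup
end Vale.Agent.P353.Z
end

section

/-! # Radial mollifiers and radial cutoff functions on `(Cfg dc)` -/

open MeasureTheory Filter Topology
open scoped ContDiff

namespace Vale.Agent.P353.Z.Moll

variable {dc : ℕ}

/-- profile of the radial mollifier -/
noncomputable def gm (c ε : ℝ) (s : ℝ) : ℝ := c * Real.smoothTransition (1 - s / ε ^ 2)

lemma contDiff_gm (c ε : ℝ) : ContDiff ℝ ∞ (gm c ε) := by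
  unfold gm
  exact contDiff_const.mul (Real.smoothTransition.contDiff.comp
    (contDiff_const.sub (contDiff_id.div_const _)))

lemma gm_zero {c ε : ℝ} (hε : 0 < ε) {x : (Cfg dc)} (hx : ε ≤ ‖x‖) : rad (gm c ε) x = 0 := by
  unfold rad gm
  rw [Real.smoothTransition.zero_of_nonpos, mul_zero]
  have : 1 ≤ ‖x‖ ^ 2 / ε ^ 2 := by
    rw [le_div_iff₀ (by positivity), one_mul]
    exact pow_le_pow_left₀ hε.le hx 2
  linarith

lemma hcs_gm {c ε : ℝ} (hε : 0 < ε) : HasCompactSupport (rad (dc := dc) (gm c ε)) := by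
  refine HasCompactSupport.intro (isCompact_closedBall (0 : (Cfg dc)) ε) fun x hx => ?_
  rw [Metric.mem_closedBall, dist_zero_right, not_le] at hx
  exact gm_zero hε hx.le

/-- existence of radial mollifiers -/
lemma exists_mol {ε : ℝ} (hε : 0 < ε) :
    ∃ g : ℝ → ℝ, ContDiff ℝ ∞ g ∧ IsMol ε (rad (dc := dc) g) := by
  have hpos : 0 < ∫ x, rad (dc := dc) (gm 1 ε) x := by
    refine (contDiff_rad (contDiff_gm 1 ε)).continuous.integral_pos_of_hasCompactSupport_nonneg_nonzero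
      (hcs_gm hε) (fun x => ?_) (x := 0) ?_
    · unfold rad gm
      exact mul_nonneg zero_le_one (Real.smoothTransition.nonneg _)
    · have : rad (gm 1 ε) (0 : (Cfg dc)) = 1 := by
        unfold rad gm
        rw [Real.smoothTransition.one_of_one_le (by simp), mul_one]
      rw [this]
      exact one_ne_zero
  obtain ⟨c, hc⟩ : ∃ c, c = (∫ x, rad (dc := dc) (gm 1 ε) x)⁻¹ := ⟨_, rfl⟩
  have hc0 : 0 < c := hc ▸ inv_pos.2 hpos
  refine ⟨gm c ε, contDiff_gm c ε, ⟨contDiff_rad (contDiff_gm c ε), hcs_gm hε, fun x => ?_,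
    fun x hx => gm_zero hε hx, ?_⟩⟩
  · unfold rad gm
    exact mul_nonneg hc0.le (Real.smoothTransition.nonneg _)
  · have e : ∀ x : (Cfg dc), rad (gm c ε) x = c * rad (gm 1 ε) x := by
      intro x
      unfold rad gm
      ring
    simp only [e]
    rw [integral_const_mul, hc, inv_mul_cancel₀ hpos.ne']

/-- radial cutoff functions: `1` for `‖x‖ ≤ R/2`, `0` for `‖x‖ ≥ R`, gradient `≤ K/R` -/
structure IsRC (K R : ℝ) (h : ℝ → ℝ) : Prop where
  contDiff : ContDiff ℝ ∞ h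
  nonneg : ∀ {n : ℕ} (x : Cfg n), 0 ≤ rad h x
  le_one : ∀ {n : ℕ} (x : Cfg n), rad h x ≤ 1
  one : ∀ {n : ℕ} (x : Cfg n), ‖x‖ ≤ R / 2 → rad h x = 1
  zero : ∀ {n : ℕ} (x : Cfg n), R ≤ ‖x‖ → rad h x = 0
  grad : ∀ {n : ℕ} (j : Fin 9) (B : Fin n) (x : Cfg n), |pdr j B (rad h) x| ≤ K / R
  grad0 : ∀ {n : ℕ} (j : Fin 9) (B : Fin n) (x : Cfg n), ‖x‖ < R / 2 → pdr j B (rad h) x = 0

lemma exists_rc : ∃ K : ℝ, 0 ≤ K ∧ ∀ R : ℝ, 0 < R → ∃ h : ℝ → ℝ, IsRC K R h := by
  -- bound of the derivative of `smoothTransition`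
  obtain ⟨K₀, hK₀⟩ : ∃ K₀, ∀ s : ℝ, |deriv Real.smoothTransition s| ≤ K₀ := by
    have hc : Continuous (deriv Real.smoothTransition) :=
      (Real.smoothTransition.contDiff (n := 1)).continuous_deriv (by simp)
    have hs : HasCompactSupport (deriv Real.smoothTransition) := by
      refine HasCompactSupport.intro (isCompact_Icc (a := (0 : ℝ)) (b := 1)) fun s hs => ?_
      rw [Set.mem_Icc, not_and_or, not_le, not_le] at hs
      rcases hs with h | h
      · have : Real.smoothTransition =ᶠ[𝓝 s] fun _ => 0 := by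
          filter_upwards [isOpen_Iio.mem_nhds h] with y hy
          exact Real.smoothTransition.zero_of_nonpos (le_of_lt hy)
        rw [this.deriv_eq]
        simp
      · have : Real.smoothTransition =ᶠ[𝓝 s] fun _ => 1 := by
          filter_upwards [isOpen_Ioi.mem_nhds h] with y hy
          exact Real.smoothTransition.one_of_one_le (le_of_lt hy)
        rw [this.deriv_eq]
        simp
    obtain ⟨C, hC⟩ := hs.exists_bound_of_continuous hc
    exact ⟨C, hC⟩
  have hK0 : 0 ≤ K₀ := (abs_nonneg _).trans (hK₀ 0)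
  refine ⟨8 / 3 * K₀, by positivity, fun R hR => ?_⟩
  obtain ⟨h, hh⟩ : ∃ h : ℝ → ℝ, h = fun s => Real.smoothTransition (4 / 3 * (1 - s / R ^ 2)) :=
    ⟨_, rfl⟩
  have hcd : ContDiff ℝ ∞ h := by
    rw [hh]
    exact Real.smoothTransition.contDiff.comp
      (contDiff_const.mul (contDiff_const.sub (contDiff_id.div_const _)))
  have hone : ∀ {n : ℕ} (x : Cfg n), ‖x‖ ≤ R / 2 → rad h x = 1 := by
    intro n x hx
    rw [rad, hh]
    refine Real.smoothTransition.one_of_one_le ?_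
    have h1 : ‖x‖ ^ 2 / R ^ 2 ≤ 1 / 4 := by
      rw [div_le_iff₀ (by positivity)]
      have := pow_le_pow_left₀ (norm_nonneg x) hx 2
      linarith
    linarith
  have hzero : ∀ {n : ℕ} (x : Cfg n), R ≤ ‖x‖ → rad h x = 0 := by
    intro n x hx
    rw [rad, hh]
    refine Real.smoothTransition.zero_of_nonpos ?_
    have h1 : 1 ≤ ‖x‖ ^ 2 / R ^ 2 := by
      rw [le_div_iff₀ (by positivity), one_mul]
      exact pow_le_pow_left₀ hR.le hx 2
    linarith
  have hder : ∀ s, deriv h s = deriv Real.smoothTransition (4 / 3 * (1 - s / R ^ 2)) *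
      (-(4 / 3) / R ^ 2) := by
    intro s
    have h1 : HasDerivAt (fun s : ℝ => 4 / 3 * (1 - s / R ^ 2)) (-(4 / 3) / R ^ 2) s := by
      have h2 := (((hasDerivAt_id s).div_const (R ^ 2)).const_sub 1).const_mul (4 / 3)
      refine h2.congr_deriv ?_
      ring
    have h3 : HasDerivAt Real.smoothTransition
        (deriv Real.smoothTransition (4 / 3 * (1 - s / R ^ 2))) (4 / 3 * (1 - s / R ^ 2)) :=
      (((Real.smoothTransition.contDiff (n := 1)).differentiable (by simp)) _).hasDerivAt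
    rw [hh]
    exact (h3.comp s h1).deriv
  refine ⟨h, ⟨hcd, fun {n} x => ?_, fun {n} x => ?_, hone, hzero, fun {n} j B x => ?_,
    fun {n} j B x hx => ?_⟩⟩
  · rw [rad, hh]; exact Real.smoothTransition.nonneg _
  · rw [rad, hh]; exact Real.smoothTransition.le_one _
  · by_cases hx : ‖x‖ ≤ R
    · rw [pdr_rad hcd, hder, abs_mul, abs_mul, abs_mul, abs_div, abs_neg]
      have h1 := hK₀ (4 / 3 * (1 - ‖x‖ ^ 2 / R ^ 2))
      have h2 : |x (j, B)| ≤ R := by
        have := PiLp.norm_apply_le x (j, B)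
        rw [Real.norm_eq_abs] at this
        exact this.trans hx
      have h3 : |(2 : ℝ)| = 2 := abs_of_pos (by norm_num)
      have h4 : |(4 / 3 : ℝ)| = 4 / 3 := abs_of_pos (by norm_num)
      have h5 : |R ^ 2| = R ^ 2 := abs_of_pos (by positivity)
      rw [h3, h4, h5]
      calc 2 * (|deriv Real.smoothTransition (4 / 3 * (1 - ‖x‖ ^ 2 / R ^ 2))| *
            (4 / 3 / R ^ 2)) * |x (j, B)|
          ≤ 2 * (K₀ * (4 / 3 / R ^ 2)) * R := by gcongr
        _ = 8 / 3 * K₀ / R := by field_simp; ring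
    · push Not at hx
      have h1 : rad h =ᶠ[𝓝 x] fun _ => 0 := by
        have : {y : Cfg n | R < ‖y‖} ∈ 𝓝 x := (isOpen_lt continuous_const continuous_norm).mem_nhds hx
        filter_upwards [this] with y hy
        exact hzero y (le_of_lt hy)
      rw [pdr, h1.fderiv_eq]
      simp only [fderiv_fun_const, Pi.zero_apply, _root_.zero_apply, abs_zero]
      positivity
  · have h1 : rad h =ᶠ[𝓝 x] fun _ => 1 := by
      have : {y : Cfg n | ‖y‖ < R / 2} ∈ 𝓝 x := (isOpen_lt continuous_norm continuous_const).mem_nhds hx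
      filter_upwards [this] with y hy
      exact hone y (le_of_lt hy)
    rw [pdr, h1.fderiv_eq]
    simp

end Vale.Agent.P353.Z.Moll
end

section

open MeasureTheory Filter Topology
open scoped ContDiff

namespace Vale.Agent.P353.Z

variable {dc : ℕ}

variable {F : Type*} [NormedAddCommGroup F] [InnerProductSpace ℂ F]

/-! ### more `L²` inequalities -/

omit [InnerProductSpace ℂ F] in
lemma nsq_sum_le {ι : Type*} (s : Finset ι) (f : ι → (Cfg dc) → F)
    (hf : ∀ i ∈ s, MemLp (f i) 2 (volume : Measure (Cfg dc))) :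
    nsq (fun x => ∑ i ∈ s, f i x) ≤ s.card * ∑ i ∈ s, nsq (f i) := by
  have h1 : ∑ i ∈ s, nsq (f i) = ∫ x, ∑ i ∈ s, ‖f i x‖ ^ 2 := by
    rw [integral_finsetSum]
    · rfl
    · intro i hi; exact memLp_norm_sq_int (hf i hi)
  rw [h1, nsq, ← integral_const_mul]
  refine integral_mono_of_nonneg (Filter.Eventually.of_forall fun x => by positivity)
    ((integrable_finsetSum _ fun i hi => memLp_norm_sq_int (hf i hi)).const_mul _)
    (Filter.Eventually.of_forall fun x => ?_)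
  have h2 := norm_sum_le s (fun i => f i x)
  have h3 := sq_sum_le_card_mul_sum_sq (s := s) (f := fun i => ‖f i x‖)
  exact (pow_le_pow_left₀ (norm_nonneg _) h2 2).trans h3

omit [InnerProductSpace ℂ F] in
/-- `‖f‖ ≤ c ‖g‖` pointwise -/
lemma nsq_le_of {f g : (Cfg dc) → F} {c : ℝ} (hg : MemLp g 2 (volume : Measure (Cfg dc)))
    (h : ∀ x, ‖f x‖ ≤ c * ‖g x‖) : nsq f ≤ c ^ 2 * nsq g := by
  rw [nsq, nsq, ← integral_const_mul]
  refine integral_mono_of_nonneg (Filter.Eventually.of_forall fun x => by positivity)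
    ((memLp_norm_sq_int hg).const_mul _) (Filter.Eventually.of_forall fun x => ?_)
  have := pow_le_pow_left₀ (norm_nonneg _) (h x) 2
  simpa [mul_pow] using this

namespace Setup

variable (S : Setup dc F)

/-- multiplication of an operator field by a real function -/
lemma continuous_rsmul_op {φ : (Cfg dc) → ℝ} (hφ : Continuous φ) {A : (Cfg dc) → F →L[ℂ] F}
    (hA : Continuous A) : Continuous (fun x => ((φ x : ℝ) : ℂ) • A x) :=
  (Complex.continuous_ofReal.comp hφ).smul hA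

lemma bdd_rsmul_op {φ : (Cfg dc) → ℝ} (hφ : Continuous φ) (hc : HasCompactSupport φ)
    {A : (Cfg dc) → F →L[ℂ] F} (hA : Continuous A) : ∃ C, 0 ≤ C ∧ ∀ x, ‖((φ x : ℝ) : ℂ) • A x‖ ≤ C := by
  have h1 : HasCompactSupport (fun x => ((φ x : ℝ) : ℂ) • A x) := by
    refine hc.mono ?_
    intro x hx
    simp only [Function.mem_support] at hx ⊢
    intro h0
    exact hx (by simp [h0])
  obtain ⟨C, hC⟩ := h1.exists_bound_of_continuous (continuous_rsmul_op hφ hA)
  exact ⟨max C 0, le_max_right _ _, fun x => (hC x).trans (le_max_left _ _)⟩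

/-- gradient part of `Q (χ u)` -/
noncomputable def gradOp (χ : (Cfg dc) → ℝ) (β : Fin 16) (x : (Cfg dc)) : F →L[ℂ] F :=
  (-Complex.I) • ∑ i, ∑ A, ((pdr i A χ x : ℝ) : ℂ) • S.vec (S.g i) A β

lemma Q_cut (χ : (Cfg dc) → ℝ) (β : Fin 16) (u : (Cfg dc) → F) (x : (Cfg dc)) (hχ : DifferentiableAt ℝ χ x)
    (hu : DifferentiableAt ℝ u x) :
    S.Q β (fun y => ((χ y : ℝ) : ℂ) • u y) x = ((χ x : ℝ) : ℂ) • S.Q β u x +
      S.gradOp χ β x (u x) := by
  rw [Q_smul S β χ u x hχ hu, gradOp, sub_eq_add_neg]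
  congr 1
  rw [_root_.smul_apply, neg_smul]
  simp only [_root_.smul_apply, _root_.sum_apply]

end Setup
end Vale.Agent.P353.Z
end

section

/-! # P353, general `N`: C-Sq, C-Tay, C-Hes -/

open MeasureTheory Filter Topology
open scoped ContDiff

namespace Vale.Agent.P353.Z.U

open Vale.Agent.P353.Z.Setup (c3)

variable {d : ℕ} {F : Type*} [NormedAddCommGroup F] [InnerProductSpace ℂ F]

/-! ### sums over `Fin 9` -/

theorem hes_sum9 (g : Fin 9 → ℝ) :
    ∑ i, g i = ∑ k, g (c3 k) + ∑ i : Fin 9, (if i.val < 3 then 0 else g i) := by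
  simp [Fin.sum_univ_succ, c3]
  ring

theorem hes_sum9' (g : Fin 9 → ℝ) :
    ∑ i : Fin 9, (if i.val < 3 then g i else 0) = ∑ k, g (c3 k) := by
  simp [Fin.sum_univ_succ, c3]

theorem hes_cyc (g : Fin 3 → Fin 3 → ℝ) (hg : ∀ i j, g i j = - g j i) :
    ∑ i, ∑ j, g i j ^ 2 = 2 * ∑ k : Fin 3, g (k + 1) (k + 2) ^ 2 := by
  have h00 : g 0 0 = 0 := by linarith [hg 0 0]
  have h11 : g 1 1 = 0 := by linarith [hg 1 1]
  have h22 : g 2 2 = 0 := by linarith [hg 2 2]
  have e1 : (0 : Fin 3) + 1 = 1 := rfl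
  have e2 : (0 : Fin 3) + 2 = 2 := rfl
  have e3 : (1 : Fin 3) + 1 = 2 := rfl
  have e4 : (1 : Fin 3) + 2 = 0 := rfl
  have e5 : (2 : Fin 3) + 1 = 0 := rfl
  have e6 : (2 : Fin 3) + 2 = 1 := rfl
  rw [Fin.sum_univ_three, Fin.sum_univ_three, Fin.sum_univ_three, Fin.sum_univ_three,
    Fin.sum_univ_three, e1, e2, e3, e4, e5, e6, h00, h11, h22, hg 1 0, hg 2 1, hg 2 0]
  ring

theorem hes_sq9 (g : Fin 9 → Fin 9 → ℝ) (hg : ∀ i j, g i j = - g j i) :
    ∑ i, ∑ j, g i j ^ 2 = 2 * (∑ k : Fin 3, g (c3 (k + 1)) (c3 (k + 2)) ^ 2) +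
      ∑ i : Fin 9, ∑ j : Fin 9, (if i.val < 3 ∧ j.val < 3 then 0 else g i j ^ 2) := by
  have h1 : ∀ i j : Fin 9, g i j ^ 2 =
      (if i.val < 3 then (if j.val < 3 then g i j ^ 2 else 0) else 0) +
      (if i.val < 3 ∧ j.val < 3 then 0 else g i j ^ 2) := by
    intro i j
    by_cases hi : i.val < 3 <;> by_cases hj : j.val < 3 <;> simp [hi, hj]
  have h2 : ∑ i : Fin 9, ∑ j : Fin 9,
      (if i.val < 3 then (if j.val < 3 then g i j ^ 2 else 0) else 0) =
      ∑ k, ∑ l, g (c3 k) (c3 l) ^ 2 := by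
    have h3 : ∀ i : Fin 9, ∑ j : Fin 9,
        (if i.val < 3 then (if j.val < 3 then g i j ^ 2 else 0) else 0) =
        if i.val < 3 then ∑ l, g i (c3 l) ^ 2 else 0 := by
      intro i
      by_cases hi : i.val < 3
      · simp only [if_pos hi]
        exact hes_sum9' fun j => g i j ^ 2
      · simp only [if_neg hi, Finset.sum_const_zero]
    simp only [h3]
    exact hes_sum9' fun i => ∑ l, g i (c3 l) ^ 2
  calc ∑ i, ∑ j, g i j ^ 2 = ∑ i : Fin 9, ∑ j : Fin 9,
      ((if i.val < 3 then (if j.val < 3 then g i j ^ 2 else 0) else 0) +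
      (if i.val < 3 ∧ j.val < 3 then 0 else g i j ^ 2)) :=
        Finset.sum_congr rfl fun i _ => Finset.sum_congr rfl fun j _ => h1 i j
    _ = _ := by
        simp only [Finset.sum_add_distrib]
        rw [h2, hes_cyc (fun k l => g (c3 k) (c3 l)) (fun k l => hg _ _)]

section

variable (S : Setup d F)

theorem hes_FF_swap (A : Fin d) (i j : Fin 9) (x : Cfg d) : S.FF A i j x = - S.FF A j i x := by
  unfold Setup.FF
  rw [← mul_neg]
  congr 1
  rw [Finset.sum_comm, ← Finset.sum_neg_distrib]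
  refine Finset.sum_congr rfl fun B _ => ?_
  rw [← Finset.sum_neg_distrib]
  refine Finset.sum_congr rfl fun C _ => ?_
  rw [S.f_swap' A B C]
  ring

/-- the cross term -/
theorem hes_cross (x : Cfg d) :
    ∑ k : Fin 3, ∑ A, S.FF A (c3 (k + 1)) (c3 (k + 2)) x * x (c3 k, A) =
      3 * S.κ * S.det3 x := by
  have e1 : (0 : Fin 3) + 1 = 1 := rfl
  have e2 : (0 : Fin 3) + 2 = 2 := rfl
  have e3 : (1 : Fin 3) + 1 = 2 := rfl
  have e4 : (1 : Fin 3) + 2 = 0 := rfl
  have e5 : (2 : Fin 3) + 1 = 0 := rfl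
  have e6 : (2 : Fin 3) + 2 = 1 := rfl
  have c0 : c3 0 = 0 := rfl
  have c1 : c3 1 = 1 := rfl
  have c2 : c3 2 = 2 := rfl
  have h0 : ∑ A, S.FF A 1 2 x * x (0, A) = S.κ * S.det3 x := by
    unfold Setup.FF Setup.det3
    rw [Finset.mul_sum]
    refine Finset.sum_congr rfl fun A _ => ?_
    rw [mul_assoc, Finset.sum_mul]
    congr 1
    refine Finset.sum_congr rfl fun B _ => ?_
    rw [Finset.sum_mul]
    exact Finset.sum_congr rfl fun C _ => by ring
  have h1 : ∑ A, S.FF A 2 0 x * x (1, A) = S.κ * S.det3 x := by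
    unfold Setup.FF Setup.det3
    have h3 : ∑ A, ∑ B, ∑ C, S.f A B C * x (0, A) * x (1, B) * x (2, C) =
        ∑ B, ∑ C, ∑ A, S.f B C A * x (2, C) * x (0, A) * x (1, B) := by
      rw [Finset.sum_comm]
      refine Finset.sum_congr rfl fun B _ => ?_
      rw [Finset.sum_comm]
      refine Finset.sum_congr rfl fun C _ => Finset.sum_congr rfl fun A _ => ?_
      rw [S.f_cyc A B C]
      ring
    rw [h3, Finset.mul_sum]
    refine Finset.sum_congr rfl fun A _ => ?_
    rw [mul_assoc, Finset.sum_mul]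
    congr 1
    refine Finset.sum_congr rfl fun B _ => ?_
    rw [Finset.sum_mul]
  have h2 : ∑ A, S.FF A 0 1 x * x (2, A) = S.κ * S.det3 x := by
    unfold Setup.FF Setup.det3
    have h3 : ∑ A, ∑ B, ∑ C, S.f A B C * x (0, A) * x (1, B) * x (2, C) =
        ∑ C, ∑ A, ∑ B, S.f C A B * x (0, A) * x (1, B) * x (2, C) := by
      have h4 : ∀ A, ∑ B, ∑ C, S.f A B C * x (0, A) * x (1, B) * x (2, C) =
          ∑ C, ∑ B, S.f A B C * x (0, A) * x (1, B) * x (2, C) := fun A => Finset.sum_comm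
      simp only [h4]
      rw [Finset.sum_comm]
      refine Finset.sum_congr rfl fun C _ => Finset.sum_congr rfl fun A _ =>
        Finset.sum_congr rfl fun B _ => ?_
      rw [S.f_cyc C A B]
    rw [h3, Finset.mul_sum]
    refine Finset.sum_congr rfl fun A _ => ?_
    rw [mul_assoc, Finset.sum_mul]
    congr 1
    refine Finset.sum_congr rfl fun B _ => ?_
    rw [Finset.sum_mul]
  rw [Fin.sum_univ_three, e1, e2, e3, e4, e5, e6, c0, c1, c2, h0, h1, h2]
  ring

/-- **C-Sq** -/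
theorem sq_stmt : SqStmt S := by
  intro m x
  have hV : S.V x = (1 / 4) * (∑ A, (2 * (∑ k : Fin 3, S.FF A (c3 (k + 1)) (c3 (k + 2)) x ^ 2) +
      ∑ i : Fin 9, ∑ j : Fin 9, (if i.val < 3 ∧ j.val < 3 then 0 else S.FF A i j x ^ 2))) := by
    unfold Setup.V
    congr 1
    exact Finset.sum_congr rfl fun A _ =>
      hes_sq9 (fun i j => S.FF A i j x) (fun i j => hes_FF_swap S A i j x)
  have h3 : ∑ i : Fin 9, ∑ j : Fin 9, ∑ A,
      (if i.val < 3 ∧ j.val < 3 then 0 else S.FF A i j x ^ 2) =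
      ∑ A, ∑ i : Fin 9, ∑ j : Fin 9,
        (if i.val < 3 ∧ j.val < 3 then 0 else S.FF A i j x ^ 2) := by
    have h4 : ∀ i : Fin 9, ∑ j : Fin 9, ∑ A,
        (if i.val < 3 ∧ j.val < 3 then 0 else S.FF A i j x ^ 2) =
        ∑ A, ∑ j : Fin 9, (if i.val < 3 ∧ j.val < 3 then 0 else S.FF A i j x ^ 2) :=
      fun i => Finset.sum_comm
    simp only [h4]
    exact Finset.sum_comm
  have h5 : ∑ i : Fin 9, ∑ A, (aw i * x (i, A)) ^ 2 =
      4 * (∑ k : Fin 3, ∑ A, x (c3 k, A) ^ 2) +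
        ∑ i : Fin 9, ∑ A, (if i.val < 3 then 0 else x (i, A) ^ 2) := by
    rw [hes_sum9 fun i => ∑ A, (aw i * x (i, A)) ^ 2]
    congr 1
    · rw [Finset.mul_sum]
      refine Finset.sum_congr rfl fun k _ => ?_
      rw [Finset.mul_sum]
      refine Finset.sum_congr rfl fun A _ => ?_
      have : aw (c3 k) = 2 := if_pos k.isLt
      rw [this]
      ring
    · refine Finset.sum_congr rfl fun i _ => ?_
      by_cases hi : i.val < 3
      · simp only [if_pos hi, Finset.sum_const_zero]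
      · simp only [if_neg hi]
        refine Finset.sum_congr rfl fun A _ => ?_
        have : aw i = 1 := if_neg hi
        rw [this]
        ring
  have h6 : ∑ k : Fin 3, ∑ A, S.GG m k A x ^ 2 =
      ∑ A, (∑ k : Fin 3, S.FF A (c3 (k + 1)) (c3 (k + 2)) x ^ 2) +
        4 * m * (3 * S.κ * S.det3 x) + 4 * m ^ 2 * ∑ k : Fin 3, ∑ A, x (c3 k, A) ^ 2 := by
    rw [← hes_cross S x, Finset.sum_comm (f := fun (A : Fin d) (k : Fin 3) =>
      S.FF A (c3 (k + 1)) (c3 (k + 2)) x ^ 2), Finset.mul_sum, Finset.mul_sum,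
      ← Finset.sum_add_distrib, ← Finset.sum_add_distrib]
    refine Finset.sum_congr rfl fun k _ => ?_
    rw [Finset.mul_sum, Finset.mul_sum, ← Finset.sum_add_distrib, ← Finset.sum_add_distrib]
    refine Finset.sum_congr rfl fun A _ => ?_
    unfold Setup.GG
    ring
  unfold Setup.Vm
  rw [hV, h3, h5, h6, Finset.sum_add_distrib, ← Finset.mul_sum]
  ring

/-! ### Taylor expansion -/

theorem hes_FF_add (A : Fin d) (i j : Fin 9) (ξ w : Cfg d) :
    S.FF A i j (ξ + w) = S.FF A i j ξ + S.LF ξ A i j w + S.FF A i j w := by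
  unfold Setup.FF Setup.LF
  rw [← mul_add, ← mul_add]
  congr 1
  rw [← Finset.sum_add_distrib, ← Finset.sum_add_distrib]
  refine Finset.sum_congr rfl fun B _ => ?_
  rw [← Finset.sum_add_distrib, ← Finset.sum_add_distrib]
  refine Finset.sum_congr rfl fun C _ => ?_
  simp only [PiLp.add_apply]
  ring

/-- the squares vanish at a zero -/
theorem hes_zero {ξ : Cfg d} (h : S.Vm 1 ξ = 0) : (∀ k A, S.GG 1 k A ξ = 0) ∧
    (∀ i : Fin 9, ∀ A, ¬ i.val < 3 → ξ (i, A) = 0) ∧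
    ∀ (i j : Fin 9) (A : Fin d), ¬ (i.val < 3 ∧ j.val < 3) → S.FF A i j ξ = 0 := by
  rw [sq_stmt S 1 ξ] at h
  have n1 : 0 ≤ ∑ k, ∑ A, S.GG 1 k A ξ ^ 2 :=
    Finset.sum_nonneg fun k _ => Finset.sum_nonneg fun A _ => sq_nonneg _
  have m2 : ∀ (i : Fin 9) (A : Fin d), 0 ≤ (if i.val < 3 then 0 else ξ (i, A) ^ 2 : ℝ) := by
    intro i A
    split_ifs
    · exact le_rfl
    · exact sq_nonneg _
  have n2 : 0 ≤ ∑ i : Fin 9, ∑ A, (if i.val < 3 then 0 else ξ (i, A) ^ 2 : ℝ) :=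
    Finset.sum_nonneg fun i _ => Finset.sum_nonneg fun A _ => m2 i A
  have m3 : ∀ (i j : Fin 9) (A : Fin d),
      0 ≤ (if i.val < 3 ∧ j.val < 3 then 0 else S.FF A i j ξ ^ 2 : ℝ) := by
    intro i j A
    split_ifs
    · exact le_rfl
    · exact sq_nonneg _
  have n3 : 0 ≤ ∑ i : Fin 9, ∑ j : Fin 9, ∑ A,
      (if i.val < 3 ∧ j.val < 3 then 0 else S.FF A i j ξ ^ 2 : ℝ) :=
    Finset.sum_nonneg fun i _ => Finset.sum_nonneg fun j _ => Finset.sum_nonneg fun A _ => m3 i j A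
  have z1 : ∑ k, ∑ A, S.GG 1 k A ξ ^ 2 = 0 := by linarith
  have z2 : ∑ i : Fin 9, ∑ A, (if i.val < 3 then 0 else ξ (i, A) ^ 2 : ℝ) = 0 := by linarith
  have z3 : ∑ i : Fin 9, ∑ j : Fin 9, ∑ A,
      (if i.val < 3 ∧ j.val < 3 then 0 else S.FF A i j ξ ^ 2 : ℝ) = 0 := by linarith
  refine ⟨fun k A => ?_, fun i A hi => ?_, fun i j A hij => ?_⟩
  · have h1 := (Finset.sum_eq_zero_iff_of_nonneg
      (fun k _ => Finset.sum_nonneg fun A _ => sq_nonneg _)).1 z1 k (Finset.mem_univ _)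
    have h2 := (Finset.sum_eq_zero_iff_of_nonneg (fun A _ => sq_nonneg _)).1 h1 A
      (Finset.mem_univ _)
    exact pow_eq_zero_iff two_ne_zero |>.1 h2
  · have h1 := (Finset.sum_eq_zero_iff_of_nonneg
      (fun i _ => Finset.sum_nonneg fun A _ => m2 i A)).1 z2 i (Finset.mem_univ _)
    have h2 := (Finset.sum_eq_zero_iff_of_nonneg (fun A _ => m2 i A)).1 h1 A (Finset.mem_univ _)
    rw [if_neg hi] at h2
    exact pow_eq_zero_iff two_ne_zero |>.1 h2
  · have h1 := (Finset.sum_eq_zero_iff_of_nonneg (fun i _ => Finset.sum_nonneg fun j _ =>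
      Finset.sum_nonneg fun A _ => m3 i j A)).1 z3 i (Finset.mem_univ _)
    have h2 := (Finset.sum_eq_zero_iff_of_nonneg (fun j _ =>
      Finset.sum_nonneg fun A _ => m3 i j A)).1 h1 j (Finset.mem_univ _)
    have h3 := (Finset.sum_eq_zero_iff_of_nonneg (fun A _ => m3 i j A)).1 h2 A
      (Finset.mem_univ _)
    rw [if_neg hij] at h3
    exact pow_eq_zero_iff two_ne_zero |>.1 h3

/-- bound of the field strength -/
theorem hes_FF_le (A : Fin d) (i j : Fin 9) (w : Cfg d) :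
    S.FF A i j w ^ 2 ≤ (S.κ * ∑ A, ∑ B, ∑ C, |S.f A B C|) ^ 2 * ‖w‖ ^ 4 := by
  have h1 : |S.FF A i j w| ≤ (S.κ * ∑ A, ∑ B, ∑ C, |S.f A B C|) * ‖w‖ ^ 2 := by
    unfold Setup.FF
    rw [abs_mul, abs_of_pos S.κ_pos, mul_assoc]
    refine mul_le_mul_of_nonneg_left ?_ S.κ_pos.le
    have h2 : ∑ B, ∑ C, |S.f A B C| ≤ ∑ A, ∑ B, ∑ C, |S.f A B C| :=
      Finset.single_le_sum (f := fun A => ∑ B, ∑ C, |S.f A B C|)
        (fun A _ => Finset.sum_nonneg fun B _ => Finset.sum_nonneg fun C _ => abs_nonneg _)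
        (Finset.mem_univ A)
    refine le_trans ?_ (mul_le_mul_of_nonneg_right h2 (sq_nonneg _))
    rw [Finset.sum_mul]
    refine (Finset.abs_sum_le_sum_abs _ _).trans (Finset.sum_le_sum fun B _ => ?_)
    rw [Finset.sum_mul]
    refine (Finset.abs_sum_le_sum_abs _ _).trans (Finset.sum_le_sum fun C _ => ?_)
    rw [abs_mul, abs_mul, mul_assoc]
    refine mul_le_mul_of_nonneg_left ?_ (abs_nonneg _)
    have h3 : |w (i, B)| ≤ ‖w‖ := PiLp.norm_apply_le w (i, B)
    have h4 : |w (j, C)| ≤ ‖w‖ := PiLp.norm_apply_le w (j, C)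
    calc |w (i, B)| * |w (j, C)| ≤ ‖w‖ * ‖w‖ :=
          mul_le_mul h3 h4 (abs_nonneg _) (norm_nonneg _)
      _ = ‖w‖ ^ 2 := by ring
  calc S.FF A i j w ^ 2 = |S.FF A i j w| ^ 2 := (sq_abs _).symm
    _ ≤ ((S.κ * ∑ A, ∑ B, ∑ C, |S.f A B C|) * ‖w‖ ^ 2) ^ 2 :=
        pow_le_pow_left₀ (abs_nonneg _) h1 2
    _ = _ := by ring

/-- **C-Tay** -/
theorem tay_stmt : TayStmt S := by
  obtain ⟨K, hK⟩ : ∃ K : ℝ, K = (S.κ * ∑ A, ∑ B, ∑ C, |S.f A B C|) ^ 2 := ⟨_, rfl⟩
  have hK0 : 0 ≤ K := by rw [hK]; exact sq_nonneg _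
  refine ⟨(1 / 2) * (∑ _k : Fin 3, ∑ _A : Fin d, K) +
    (1 / 4) * (∑ _i : Fin 9, ∑ _j : Fin 9, ∑ _A : Fin d, K), by positivity, fun ξ w h => ?_⟩
  obtain ⟨h1, h2, h3⟩ := hes_zero S h
  have hle : ∀ A i j, S.FF A i j w ^ 2 ≤ K * ‖w‖ ^ 4 := fun A i j => by
    rw [hK]
    exact hes_FF_le S A i j w
  have t1 : (1 / 2) * (∑ k, ∑ A, S.LG ξ k A w ^ 2) - (∑ _k : Fin 3, ∑ _A : Fin d, K) * ‖w‖ ^ 4 ≤
      ∑ k, ∑ A, S.GG 1 k A (ξ + w) ^ 2 := by
    rw [Finset.mul_sum, Finset.sum_mul, ← Finset.sum_sub_distrib]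
    refine Finset.sum_le_sum fun k _ => ?_
    rw [Finset.mul_sum, Finset.sum_mul, ← Finset.sum_sub_distrib]
    refine Finset.sum_le_sum fun A _ => ?_
    have e : S.GG 1 k A (ξ + w) = S.LG ξ k A w + S.FF A (c3 (k + 1)) (c3 (k + 2)) w := by
      have h4 := h1 k A
      unfold Setup.GG at h4 ⊢
      unfold Setup.LG
      rw [hes_FF_add, PiLp.add_apply]
      linarith
    rw [e]
    nlinarith [hle A (c3 (k + 1)) (c3 (k + 2)),
      sq_nonneg (S.LG ξ k A w + 2 * S.FF A (c3 (k + 1)) (c3 (k + 2)) w)]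
  have t2 : ∑ i : Fin 9, ∑ A, (if i.val < 3 then 0 else (ξ + w) (i, A) ^ 2 : ℝ) =
      ∑ i : Fin 9, ∑ A, (if i.val < 3 then 0 else w (i, A) ^ 2 : ℝ) := by
    refine Finset.sum_congr rfl fun i _ => Finset.sum_congr rfl fun A _ => ?_
    by_cases hi : i.val < 3
    · rw [if_pos hi, if_pos hi]
    · rw [if_neg hi, if_neg hi, PiLp.add_apply, h2 i A hi, zero_add]
  have t3 : (1 / 2) * (∑ i : Fin 9, ∑ j : Fin 9, ∑ A,
      (if i.val < 3 ∧ j.val < 3 then 0 else S.LF ξ A i j w ^ 2)) -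
      (∑ _i : Fin 9, ∑ _j : Fin 9, ∑ _A : Fin d, K) * ‖w‖ ^ 4 ≤
      ∑ i : Fin 9, ∑ j : Fin 9, ∑ A,
        (if i.val < 3 ∧ j.val < 3 then 0 else S.FF A i j (ξ + w) ^ 2) := by
    rw [Finset.mul_sum, Finset.sum_mul, ← Finset.sum_sub_distrib]
    refine Finset.sum_le_sum fun i _ => ?_
    rw [Finset.mul_sum, Finset.sum_mul, ← Finset.sum_sub_distrib]
    refine Finset.sum_le_sum fun j _ => ?_
    rw [Finset.mul_sum, Finset.sum_mul, ← Finset.sum_sub_distrib]
    refine Finset.sum_le_sum fun A _ => ?_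
    by_cases hij : i.val < 3 ∧ j.val < 3
    · rw [if_pos hij, if_pos hij]
      have : 0 ≤ K * ‖w‖ ^ 4 := by positivity
      linarith
    · rw [if_neg hij, if_neg hij, hes_FF_add, h3 i j A hij, zero_add]
      nlinarith [hle A i j, sq_nonneg (S.LF ξ A i j w + 2 * S.FF A i j w)]
  have t4 : 0 ≤ ∑ i : Fin 9, ∑ A, (if i.val < 3 then 0 else w (i, A) ^ 2 : ℝ) := by
    refine Finset.sum_nonneg fun i _ => Finset.sum_nonneg fun A _ => ?_
    split_ifs
    · exact le_rfl
    · exact sq_nonneg _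
  rw [sq_stmt S 1 (ξ + w), t2]
  unfold Setup.hq
  nlinarith [t1, t3, t4]

/-! ### nondegeneracy -/

/-- `D_i = -(κ/2) ad ξ_i` -/
noncomputable def hesD (ξ : Cfg d) (k : Fin 3) : Matrix (Fin d) (Fin d) ℝ :=
  Matrix.of fun A C => -(S.κ / 2) * ∑ B, S.f A B C * ξ (c3 k, B)

theorem hesD_mulVec (ξ : Cfg d) (k : Fin 3) (v : Fin d → ℝ) (A : Fin d) :
    (hesD S ξ k).mulVec v A = -(S.κ / 2) * ∑ B, ∑ C, S.f A B C * ξ (c3 k, B) * v C := by
  rw [Finset.sum_comm, Finset.mul_sum]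
  change ∑ C, (-(S.κ / 2) * ∑ B, S.f A B C * ξ (c3 k, B)) * v C = _
  refine Finset.sum_congr rfl fun C _ => ?_
  rw [mul_assoc, Finset.sum_mul]

theorem hesD_transpose (ξ : Cfg d) (k : Fin 3) : (hesD S ξ k).transpose = - hesD S ξ k := by
  ext A C
  rw [Matrix.transpose_apply, Matrix.neg_apply, hesD, Matrix.of_apply, Matrix.of_apply,
    ← mul_neg, ← Finset.sum_neg_distrib]
  congr 1
  refine Finset.sum_congr rfl fun B _ => ?_
  rw [S.f_swap C B A, S.f_cyc B C A, S.f_cyc C A B]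
  ring

theorem hesD_comm {ξ : Cfg d} (h : ∀ k A, S.GG 1 k A ξ = 0) (k : Fin 3) :
    hesD S ξ (k + 1) * hesD S ξ (k + 2) - hesD S ξ (k + 2) * hesD S ξ (k + 1) = hesD S ξ k := by
  ext A C
  have hb : ∀ E, ∑ B, ∑ B', S.f E B B' * ξ (c3 (k + 1), B) * ξ (c3 (k + 2), B') =
      -(2 / S.κ) * ξ (c3 k, E) := by
    intro E
    have h1 := h k E
    unfold Setup.GG Setup.FF at h1
    have h2 := S.κ_pos.ne'
    field_simp
    linarith
  have hj : ∀ B B', ∑ E, (S.f A B E * S.f E B' C - S.f A B' E * S.f E B C) =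
      - ∑ E, S.f B B' E * S.f E A C := by
    intro B B'
    have h1 := S.f_jac A B B' C
    rw [← Finset.sum_neg_distrib, ← sub_eq_zero, ← Finset.sum_sub_distrib, ← h1]
    refine Finset.sum_congr rfl fun E _ => ?_
    rw [S.f_swap B' A E]
    ring
  have hexp : ∀ (p q : Fin 3), (hesD S ξ p * hesD S ξ q) A C = (S.κ ^ 2 / 4) *
      ∑ B, ∑ B', ξ (c3 p, B) * ξ (c3 q, B') * ∑ E, S.f A B E * S.f E B' C := by
    intro p q
    rw [Matrix.mul_apply]
    simp only [hesD, Matrix.of_apply]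
    have h1 : ∀ E, -(S.κ / 2) * (∑ B, S.f A B E * ξ (c3 p, B)) *
        (-(S.κ / 2) * ∑ B', S.f E B' C * ξ (c3 q, B')) = (S.κ ^ 2 / 4) *
        ∑ B, ∑ B', ξ (c3 p, B) * ξ (c3 q, B') * (S.f A B E * S.f E B' C) := by
      intro E
      have h2 : (∑ B, S.f A B E * ξ (c3 p, B)) * (∑ B', S.f E B' C * ξ (c3 q, B')) =
          ∑ B, ∑ B', ξ (c3 p, B) * ξ (c3 q, B') * (S.f A B E * S.f E B' C) := by
        rw [Finset.sum_mul_sum]
        exact Finset.sum_congr rfl fun B _ => Finset.sum_congr rfl fun B' _ => by ring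
      rw [← h2]
      ring
    simp only [h1]
    rw [← Finset.mul_sum, Finset.sum_comm]
    congr 1
    refine Finset.sum_congr rfl fun B _ => ?_
    rw [Finset.sum_comm]
    refine Finset.sum_congr rfl fun B' _ => ?_
    rw [Finset.mul_sum]
  have hsw : ∑ B, ∑ B', ξ (c3 (k + 2), B) * ξ (c3 (k + 1), B') * ∑ E, S.f A B E * S.f E B' C =
      ∑ B, ∑ B', ξ (c3 (k + 1), B) * ξ (c3 (k + 2), B') * ∑ E, S.f A B' E * S.f E B C := by
    rw [Finset.sum_comm]
    exact Finset.sum_congr rfl fun B _ => Finset.sum_congr rfl fun B' _ => by ring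
  rw [Matrix.sub_apply, hexp, hexp, hsw, ← mul_sub, ← Finset.sum_sub_distrib]
  have h3 : ∀ B, (∑ B', ξ (c3 (k + 1), B) * ξ (c3 (k + 2), B') * ∑ E, S.f A B E * S.f E B' C) -
      (∑ B', ξ (c3 (k + 1), B) * ξ (c3 (k + 2), B') * ∑ E, S.f A B' E * S.f E B C) =
      ∑ B', - ∑ E, (S.f E B B' * ξ (c3 (k + 1), B) * ξ (c3 (k + 2), B')) * S.f E A C := by
    intro B
    rw [← Finset.sum_sub_distrib]
    refine Finset.sum_congr rfl fun B' _ => ?_
    rw [← mul_sub, ← Finset.sum_sub_distrib, hj, mul_neg, Finset.mul_sum]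
    congr 1
    refine Finset.sum_congr rfl fun E _ => ?_
    rw [S.f_cyc B B' E, S.f_cyc B' E B]
    ring
  have h4 : ∑ B, ∑ B', - ∑ E, (S.f E B B' * ξ (c3 (k + 1), B) * ξ (c3 (k + 2), B')) *
      S.f E A C = (2 / S.κ) * ∑ E, ξ (c3 k, E) * S.f E A C := by
    have h5 : ∑ B, ∑ B', ∑ E, (S.f E B B' * ξ (c3 (k + 1), B) * ξ (c3 (k + 2), B')) *
        S.f E A C = ∑ E, (-(2 / S.κ) * ξ (c3 k, E)) * S.f E A C := by
      have h6 : ∀ B, ∑ B', ∑ E, (S.f E B B' * ξ (c3 (k + 1), B) * ξ (c3 (k + 2), B')) *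
          S.f E A C = ∑ E, (∑ B', S.f E B B' * ξ (c3 (k + 1), B) * ξ (c3 (k + 2), B')) *
          S.f E A C := by
        intro B
        rw [Finset.sum_comm]
        exact Finset.sum_congr rfl fun E _ => (Finset.sum_mul _ _ _).symm
      simp only [h6]
      rw [Finset.sum_comm]
      refine Finset.sum_congr rfl fun E _ => ?_
      rw [← Finset.sum_mul, hb]
    simp only [Finset.sum_neg_distrib]
    rw [h5, ← Finset.sum_neg_distrib, Finset.mul_sum]
    exact Finset.sum_congr rfl fun E _ => by ring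
  simp only [h3]
  rw [h4]
  simp only [hesD, Matrix.of_apply]
  have h7 : ∑ E, ξ (c3 k, E) * S.f E A C = - ∑ B, S.f A B C * ξ (c3 k, B) := by
    rw [← Finset.sum_neg_distrib]
    refine Finset.sum_congr rfl fun E _ => ?_
    rw [S.f_swap E A C]
    ring
  rw [h7]
  have h8 := S.κ_pos.ne'
  field_simp
  ring

/-- abstract core of the nondegeneracy -/
theorem hes_core (D0 D1 D2 : Matrix (Fin d) (Fin d) ℝ) (w0 w1 w2 : Fin d → ℝ)
    (c1 : D2 * D0 - D0 * D2 = D1) (c2 : D0 * D1 - D1 * D0 = D2)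
    (h0 : w0 = D1.mulVec w2 - D2.mulVec w1) (h1 : w1 = D2.mulVec w0 - D0.mulVec w2)
    (h2 : w2 = D0.mulVec w1 - D1.mulVec w0)
    (hd : D0.mulVec w0 + D1.mulVec w1 + D2.mulVec w2 = 0) :
    D0.mulVec (D0.mulVec w0) + D1.mulVec (D1.mulVec w0) + D2.mulVec (D2.mulVec w0) = 0 := by
  have e1 : D1.mulVec w2 = D1.mulVec (D0.mulVec w1) - D1.mulVec (D1.mulVec w0) := by
    conv_lhs => rw [h2]
    rw [Matrix.mulVec_sub]
  have e2 : D2.mulVec w1 = D2.mulVec (D2.mulVec w0) - D2.mulVec (D0.mulVec w2) := by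
    conv_lhs => rw [h1]
    rw [Matrix.mulVec_sub]
  have e3 : D0.mulVec (D1.mulVec w1) - D1.mulVec (D0.mulVec w1) = D2.mulVec w1 := by
    rw [Matrix.mulVec_mulVec, Matrix.mulVec_mulVec, ← Matrix.sub_mulVec, c2]
  have e4 : D2.mulVec (D0.mulVec w2) - D0.mulVec (D2.mulVec w2) = D1.mulVec w2 := by
    rw [Matrix.mulVec_mulVec, Matrix.mulVec_mulVec, ← Matrix.sub_mulVec, c1]
  have e5 : D0.mulVec (D0.mulVec w0) + D0.mulVec (D1.mulVec w1) + D0.mulVec (D2.mulVec w2) = 0 := by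
    rw [← Matrix.mulVec_add, ← Matrix.mulVec_add, hd, Matrix.mulVec_zero]
  funext A
  have e1' := congrFun e1 A
  have e2' := congrFun e2 A
  have e3' := congrFun e3 A
  have e4' := congrFun e4 A
  have e5' := congrFun e5 A
  have h0' := congrFun h0 A
  simp only [Pi.add_apply, Pi.sub_apply, Pi.zero_apply] at *
  linarith

theorem hes_pos (D0 D1 D2 : Matrix (Fin d) (Fin d) ℝ) (t0 : D0.transpose = -D0)
    (t1 : D1.transpose = -D1) (t2 : D2.transpose = -D2) (w : Fin d → ℝ)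
    (h : D0.mulVec (D0.mulVec w) + D1.mulVec (D1.mulVec w) + D2.mulVec (D2.mulVec w) = 0) :
    D0.mulVec w = 0 ∧ D1.mulVec w = 0 ∧ D2.mulVec w = 0 := by
  have key : ∀ D : Matrix (Fin d) (Fin d) ℝ, D.transpose = -D →
      w ⬝ᵥ D.mulVec (D.mulVec w) = -(D.mulVec w ⬝ᵥ D.mulVec w) := by
    intro D hD
    rw [Matrix.dotProduct_mulVec, ← Matrix.mulVec_transpose, hD, Matrix.neg_mulVec,
      neg_dotProduct]
  have h1 : w ⬝ᵥ (D0.mulVec (D0.mulVec w) + D1.mulVec (D1.mulVec w) +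
      D2.mulVec (D2.mulVec w)) = 0 := by
    rw [h, dotProduct_zero]
  rw [dotProduct_add, dotProduct_add, key D0 t0, key D1 t1, key D2 t2] at h1
  have n0 : 0 ≤ D0.mulVec w ⬝ᵥ D0.mulVec w := Finset.sum_nonneg fun i _ => mul_self_nonneg _
  have n1 : 0 ≤ D1.mulVec w ⬝ᵥ D1.mulVec w := Finset.sum_nonneg fun i _ => mul_self_nonneg _
  have n2 : 0 ≤ D2.mulVec w ⬝ᵥ D2.mulVec w := Finset.sum_nonneg fun i _ => mul_self_nonneg _
  exact ⟨dotProduct_self_eq_zero.1 (by linarith), dotProduct_self_eq_zero.1 (by linarith),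
    dotProduct_self_eq_zero.1 (by linarith)⟩

/-- the linearised equation -/
theorem hes_lin {ξ w : Cfg d} (h : ∀ k A, S.LG ξ k A w = 0) (k : Fin 3) :
    (fun A => w (c3 k, A)) = (hesD S ξ (k + 1)).mulVec (fun A => w (c3 (k + 2), A)) -
      (hesD S ξ (k + 2)).mulVec (fun A => w (c3 (k + 1), A)) := by
  funext A
  rw [Pi.sub_apply, hesD_mulVec, hesD_mulVec]
  have h1 := h k A
  unfold Setup.LG Setup.LF at h1
  have h2 : ∑ B, ∑ C, S.f A B C * (ξ (c3 (k + 1), B) * w (c3 (k + 2), C) +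
      w (c3 (k + 1), B) * ξ (c3 (k + 2), C)) =
      ∑ B, ∑ C, S.f A B C * ξ (c3 (k + 1), B) * w (c3 (k + 2), C) -
      ∑ B, ∑ C, S.f A B C * ξ (c3 (k + 2), B) * w (c3 (k + 1), C) := by
    rw [Finset.sum_comm (f := fun B C => S.f A B C * ξ (c3 (k + 2), B) * w (c3 (k + 1), C)),
      ← Finset.sum_sub_distrib]
    refine Finset.sum_congr rfl fun B _ => ?_
    rw [← Finset.sum_sub_distrib]
    refine Finset.sum_congr rfl fun C _ => ?_
    rw [S.f_swap' A B C]
    ring
  rw [h2] at h1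
  linarith

theorem hes_perp {ξ w : Cfg d} (h : S.Perp ξ w)
    (h2 : ∀ i : Fin 9, ∀ A, ¬ i.val < 3 → ξ (i, A) = 0) :
    (hesD S ξ 0).mulVec (fun A => w (c3 0, A)) + (hesD S ξ 1).mulVec (fun A => w (c3 1, A)) +
      (hesD S ξ 2).mulVec (fun A => w (c3 2, A)) = 0 := by
  funext C
  have h1 := h C
  rw [hes_sum9 fun i => ∑ A, ∑ B, S.f C A B * ξ (i, A) * w (i, B)] at h1
  have h3 : ∑ i : Fin 9, (if i.val < 3 then 0 else
      ∑ A, ∑ B, S.f C A B * ξ (i, A) * w (i, B)) = 0 := by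
    refine Finset.sum_eq_zero fun i _ => ?_
    by_cases hi : i.val < 3
    · rw [if_pos hi]
    · rw [if_neg hi]
      refine Finset.sum_eq_zero fun A _ => Finset.sum_eq_zero fun B _ => ?_
      rw [h2 i A hi, mul_zero, zero_mul]
  rw [h3, add_zero, Fin.sum_univ_three] at h1
  simp only [Pi.add_apply, Pi.zero_apply, hesD_mulVec]
  rw [← mul_add, ← mul_add, h1, mul_zero]

/-- **C-Hes** -/
theorem hes_stmt : HesStmt S := by
  intro ξ w h hq hperp
  obtain ⟨z1, z2, z3⟩ := hes_zero S h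
  -- consequences of `hq = 0`
  have m2 : ∀ (i : Fin 9) (A : Fin d), 0 ≤ (if i.val < 3 then 0 else w (i, A) ^ 2 : ℝ) := by
    intro i A
    split_ifs
    · exact le_rfl
    · exact sq_nonneg _
  have n1 : 0 ≤ ∑ k, ∑ A, S.LG ξ k A w ^ 2 :=
    Finset.sum_nonneg fun k _ => Finset.sum_nonneg fun A _ => sq_nonneg _
  have n2 : 0 ≤ ∑ i : Fin 9, ∑ A, (if i.val < 3 then 0 else w (i, A) ^ 2 : ℝ) :=
    Finset.sum_nonneg fun i _ => Finset.sum_nonneg fun A _ => m2 i A
  have n3 : 0 ≤ ∑ i : Fin 9, ∑ j : Fin 9, ∑ A,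
      (if i.val < 3 ∧ j.val < 3 then 0 else S.LF ξ A i j w ^ 2 : ℝ) := by
    refine Finset.sum_nonneg fun i _ => Finset.sum_nonneg fun j _ =>
      Finset.sum_nonneg fun A _ => ?_
    split_ifs
    · exact le_rfl
    · exact sq_nonneg _
  unfold Setup.hq at hq
  have q1 : ∑ k, ∑ A, S.LG ξ k A w ^ 2 = 0 := by linarith
  have q2 : ∑ i : Fin 9, ∑ A, (if i.val < 3 then 0 else w (i, A) ^ 2 : ℝ) = 0 := by linarith
  have hLG : ∀ k A, S.LG ξ k A w = 0 := by
    intro k A
    have h1 := (Finset.sum_eq_zero_iff_of_nonneg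
      (fun k _ => Finset.sum_nonneg fun A _ => sq_nonneg _)).1 q1 k (Finset.mem_univ _)
    have h2 := (Finset.sum_eq_zero_iff_of_nonneg (fun A _ => sq_nonneg _)).1 h1 A
      (Finset.mem_univ _)
    exact pow_eq_zero_iff two_ne_zero |>.1 h2
  have hw6 : ∀ i : Fin 9, ∀ A, ¬ i.val < 3 → w (i, A) = 0 := by
    intro i A hi
    have h1 := (Finset.sum_eq_zero_iff_of_nonneg
      (fun i _ => Finset.sum_nonneg fun A _ => m2 i A)).1 q2 i (Finset.mem_univ _)
    have h2 := (Finset.sum_eq_zero_iff_of_nonneg (fun A _ => m2 i A)).1 h1 A (Finset.mem_univ _)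
    rw [if_neg hi] at h2
    exact pow_eq_zero_iff two_ne_zero |>.1 h2
  have l0 := hes_lin S hLG 0
  have l1 := hes_lin S hLG 1
  have l2 := hes_lin S hLG 2
  have k0 := hesD_comm S z1 0
  have k1 := hesD_comm S z1 1
  have k2 := hesD_comm S z1 2
  have e1 : (0 : Fin 3) + 1 = 1 := rfl
  have e2 : (0 : Fin 3) + 2 = 2 := rfl
  have e3 : (1 : Fin 3) + 1 = 2 := rfl
  have e4 : (1 : Fin 3) + 2 = 0 := rfl
  have e5 : (2 : Fin 3) + 1 = 0 := rfl
  have e6 : (2 : Fin 3) + 2 = 1 := rfl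
  rw [e1, e2] at l0 k0
  rw [e3, e4] at l1 k1
  rw [e5, e6] at l2 k2
  have hp := hes_perp S hperp z2
  have t := hesD_transpose S ξ
  have hp1 : (hesD S ξ 1).mulVec (fun A => w (c3 1, A)) +
      (hesD S ξ 2).mulVec (fun A => w (c3 2, A)) +
      (hesD S ξ 0).mulVec (fun A => w (c3 0, A)) = 0 := by
    rw [← hp]; abel
  have hp2 : (hesD S ξ 2).mulVec (fun A => w (c3 2, A)) +
      (hesD S ξ 0).mulVec (fun A => w (c3 0, A)) +
      (hesD S ξ 1).mulVec (fun A => w (c3 1, A)) = 0 := by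
    rw [← hp]; abel
  have r0 := hes_pos _ _ _ (t 0) (t 1) (t 2) _ (hes_core _ _ _ _ _ _ k1 k2 l0 l1 l2 hp)
  have r1 := hes_pos _ _ _ (t 1) (t 2) (t 0) _ (hes_core _ _ _ _ _ _ k2 k0 l1 l2 l0 hp1)
  have r2 := hes_pos _ _ _ (t 2) (t 0) (t 1) _ (hes_core _ _ _ _ _ _ k0 k1 l2 l0 l1 hp2)
  rw [r2.2.2, r1.2.1, sub_zero] at l0
  rw [r0.2.2, r2.2.1, sub_zero] at l1
  rw [r1.2.2, r0.2.1, sub_zero] at l2
  ext p
  obtain ⟨i, A⟩ := p
  rw [PiLp.zero_apply]
  by_cases hi : i.val < 3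
  · obtain ⟨k, rfl⟩ : ∃ k : Fin 3, i = c3 k := ⟨⟨i.val, hi⟩, rfl⟩
    fin_cases k
    · exact congrFun l0 A
    · exact congrFun l1 A
    · exact congrFun l2 A
  · exact hw6 i A hi

end

end Vale.Agent.P353.Z.U
end

section

/-! # P353, C-L1 for general `N`: the data of the scalar Liouville lemma at a zero `ξ` of `V_1` -/

open MeasureTheory Filter Topology
open scoped ContDiff ComplexConjugate

namespace Vale.Agent.P353.Z.U

variable {dc : ℕ}

variable {F : Type*} [NormedAddCommGroup F] [InnerProductSpace ℂ F]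

variable (S : Setup dc F)

/-- the gauge directions at `ξ` -/
noncomputable def l1tau (ξ : Cfg dc) (C : Fin dc) : Cfg dc :=
  ∑ i, ∑ A, ∑ B, (S.f C A B * ξ (i, A)) • l1e (i, B)

theorem l1_inner_tau (ξ : Cfg dc) (C : Fin dc) (x : Cfg dc) : inner ℝ (l1tau S ξ C) x =
    ∑ i, ∑ A, ∑ B, S.f C A B * ξ (i, A) * x (i, B) := by
  unfold l1tau
  simp only [sum_inner, real_inner_smul_left]
  refine Finset.sum_congr rfl fun i _ => Finset.sum_congr rfl fun A _ =>
    Finset.sum_congr rfl fun B _ => ?_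
  rw [real_inner_comm, l1_inner_e]

theorem l1_tau_apply (ξ : Cfg dc) (C : Fin dc) (j : Fin 9) (D : Fin dc) :
    l1tau S ξ C (j, D) = ∑ A, S.f C A D * ξ (j, A) := by
  rw [← l1_inner_e (l1tau S ξ C), l1_inner_tau]
  simp only [l1e, PiLp.single_apply, Prod.mk.injEq]
  rw [Finset.sum_eq_single j]
  · refine Finset.sum_congr rfl fun A _ => ?_
    rw [Finset.sum_eq_single D]
    · simp
    · intro B _ hB
      simp [hB]
    · intro h; exact absurd (Finset.mem_univ _) h
  · intro i _ hi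
    refine Finset.sum_eq_zero fun A _ => Finset.sum_eq_zero fun B _ => ?_
    simp [hi]
  · intro h; exact absurd (Finset.mem_univ _) h

theorem l1_jac (A B C D : Fin dc) : ∑ E, S.f A B E * S.f C D E =
    ∑ E, S.f A C E * S.f B D E - ∑ E, S.f A D E * S.f B C E := by
  have h := S.f_jac A B C D
  simp only [Finset.sum_add_distrib] at h
  have e1 : ∀ E, S.f A B E * S.f E C D = S.f A B E * S.f C D E := fun E => by
    rw [S.f_cyc E C D]
  have e2 : ∀ E, S.f B C E * S.f E A D = S.f A D E * S.f B C E := fun E => by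
    rw [S.f_cyc E A D]; ring
  have e3 : ∀ E, S.f C A E * S.f E B D = -(S.f A C E * S.f B D E) := fun E => by
    rw [S.f_cyc E B D, S.f_swap C A E]; ring
  simp only [e1, e2, e3, Finset.sum_neg_distrib] at h
  linarith

theorem l1_LF_tau (ξ : Cfg dc) (C A : Fin dc) (i j : Fin 9) :
    S.LF ξ A i j (l1tau S ξ C) = ∑ E, S.f A C E * S.FF E i j ξ := by
  unfold Setup.LF Setup.FF
  simp only [l1_tau_apply]
  have hL : ∑ B, ∑ D, S.f A B D * (ξ (i, B) * ∑ E, S.f C E D * ξ (j, E) +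
      (∑ E, S.f C E B * ξ (i, E)) * ξ (j, D)) =
      ∑ B, ∑ D, (∑ E, S.f A B E * S.f C D E - ∑ E, S.f A D E * S.f C B E) *
        (ξ (i, B) * ξ (j, D)) := by
    have h1 : ∑ B, ∑ D, S.f A B D * (ξ (i, B) * ∑ E, S.f C E D * ξ (j, E)) =
        ∑ B, ∑ D, (∑ E, S.f A B E * S.f C D E) * (ξ (i, B) * ξ (j, D)) := by
      refine Finset.sum_congr rfl fun B _ => ?_
      simp only [Finset.mul_sum, Finset.sum_mul]
      rw [Finset.sum_comm]
      refine Finset.sum_congr rfl fun D _ => Finset.sum_congr rfl fun E _ => ?_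
      ring
    have h2 : ∑ B, ∑ D, S.f A B D * ((∑ E, S.f C E B * ξ (i, E)) * ξ (j, D)) =
        -∑ B, ∑ D, (∑ E, S.f A D E * S.f C B E) * (ξ (i, B) * ξ (j, D)) := by
      rw [Finset.sum_comm]
      conv_rhs => rw [Finset.sum_comm]
      rw [← Finset.sum_neg_distrib]
      refine Finset.sum_congr rfl fun D _ => ?_
      rw [← Finset.sum_neg_distrib]
      simp only [Finset.mul_sum, Finset.sum_mul]
      rw [Finset.sum_comm]
      refine Finset.sum_congr rfl fun B _ => ?_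
      rw [← Finset.sum_neg_distrib]
      refine Finset.sum_congr rfl fun E _ => ?_
      rw [S.f_swap' A D E]
      ring
    simp only [mul_add, Finset.sum_add_distrib, sub_mul, Finset.sum_sub_distrib]
    rw [h1, h2]
    ring
  rw [hL]
  have hR : ∑ E, S.f A C E * (S.κ * ∑ B, ∑ D, S.f E B D * ξ (i, B) * ξ (j, D)) =
      S.κ * ∑ B, ∑ D, (∑ E, S.f A C E * S.f B D E) * (ξ (i, B) * ξ (j, D)) := by
    simp only [Finset.mul_sum, Finset.sum_mul]
    rw [Finset.sum_comm]
    refine Finset.sum_congr rfl fun B _ => ?_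
    rw [Finset.sum_comm]
    refine Finset.sum_congr rfl fun D _ => Finset.sum_congr rfl fun E _ => ?_
    rw [S.f_cyc E B D]
    ring
  rw [hR]
  congr 1
  refine Finset.sum_congr rfl fun B _ => Finset.sum_congr rfl fun D _ => ?_
  rw [l1_jac S A C B D]

theorem l1_zero_parts (hSq : SqStmt S) {ξ : Cfg dc} (hξ : S.Vm 1 ξ = 0) :
    (∀ k A, S.GG 1 k A ξ = 0) ∧ (∀ (i : Fin 9) A, ¬ i.val < 3 → ξ (i, A) = 0) ∧
      ∀ (i j : Fin 9) A, ¬ (i.val < 3 ∧ j.val < 3) → S.FF A i j ξ = 0 := by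
  have h := hSq 1 ξ
  rw [hξ] at h
  have p1 : 0 ≤ ∑ k, ∑ A, S.GG 1 k A ξ ^ 2 :=
    Finset.sum_nonneg fun _ _ => Finset.sum_nonneg fun _ _ => sq_nonneg _
  have p2 : 0 ≤ ∑ i : Fin 9, ∑ A, if i.val < 3 then 0 else ξ (i, A) ^ 2 :=
    Finset.sum_nonneg fun _ _ => Finset.sum_nonneg fun _ _ => by split_ifs <;> positivity
  have p3 : 0 ≤ ∑ i : Fin 9, ∑ j : Fin 9, ∑ A,
      if i.val < 3 ∧ j.val < 3 then 0 else S.FF A i j ξ ^ 2 :=
    Finset.sum_nonneg fun _ _ => Finset.sum_nonneg fun _ _ => Finset.sum_nonneg fun _ _ => by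
      split_ifs <;> positivity
  have q1 : ∑ k, ∑ A, S.GG 1 k A ξ ^ 2 = 0 := by linarith
  have q2 : (∑ i : Fin 9, ∑ A, if i.val < 3 then 0 else ξ (i, A) ^ 2) = 0 := by linarith
  have q3 : (∑ i : Fin 9, ∑ j : Fin 9, ∑ A,
      if i.val < 3 ∧ j.val < 3 then 0 else S.FF A i j ξ ^ 2) = 0 := by linarith
  refine ⟨fun k A => ?_, fun i A hi => ?_, fun i j A hij => ?_⟩
  · rw [Finset.sum_eq_zero_iff_of_nonneg
      (fun _ _ => Finset.sum_nonneg fun _ _ => sq_nonneg _)] at q1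
    have q := q1 k (Finset.mem_univ _)
    rw [Finset.sum_eq_zero_iff_of_nonneg (fun _ _ => sq_nonneg _)] at q
    exact pow_eq_zero_iff two_ne_zero |>.mp (q A (Finset.mem_univ _))
  · rw [Finset.sum_eq_zero_iff_of_nonneg
      (fun _ _ => Finset.sum_nonneg fun _ _ => by split_ifs <;> positivity)] at q2
    have q := q2 i (Finset.mem_univ _)
    rw [Finset.sum_eq_zero_iff_of_nonneg (fun _ _ => by split_ifs <;> positivity)] at q
    have q' := q A (Finset.mem_univ _)
    rw [if_neg hi] at q'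
    exact pow_eq_zero_iff two_ne_zero |>.mp q'
  · rw [Finset.sum_eq_zero_iff_of_nonneg
      (fun _ _ => Finset.sum_nonneg fun _ _ => Finset.sum_nonneg fun _ _ => by
        split_ifs <;> positivity)] at q3
    have q := q3 i (Finset.mem_univ _)
    rw [Finset.sum_eq_zero_iff_of_nonneg
      (fun _ _ => Finset.sum_nonneg fun _ _ => by split_ifs <;> positivity)] at q
    have q' := q j (Finset.mem_univ _)
    rw [Finset.sum_eq_zero_iff_of_nonneg (fun _ _ => by split_ifs <;> positivity)] at q'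
    have q'' := q' A (Finset.mem_univ _)
    rw [if_neg hij] at q''
    exact pow_eq_zero_iff two_ne_zero |>.mp q''

/-- the Hessian vanishes on the gauge directions -/
theorem l1_hq_tau (hSq : SqStmt S) {ξ : Cfg dc} (hξ : S.Vm 1 ξ = 0) (C : Fin dc) :
    S.hq ξ (l1tau S ξ C) = 0 := by
  obtain ⟨h1, h2, h3⟩ := l1_zero_parts S hSq hξ
  have hG : ∀ k A, S.LG ξ k A (l1tau S ξ C) = 0 := by
    intro k A
    unfold Setup.LG
    rw [l1_LF_tau, l1_tau_apply]
    have e : ∑ E, S.f A C E * S.FF E (Setup.c3 (k + 1)) (Setup.c3 (k + 2)) ξ +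
        2 * ∑ E, S.f C E A * ξ (Setup.c3 k, E) = ∑ E, S.f A C E * S.GG 1 k E ξ := by
      rw [Finset.mul_sum, ← Finset.sum_add_distrib]
      refine Finset.sum_congr rfl fun E _ => ?_
      unfold Setup.GG
      rw [← S.f_cyc A C E]
      ring
    rw [e]
    exact Finset.sum_eq_zero fun E _ => by rw [h1, mul_zero]
  unfold Setup.hq
  have e1 : ∑ k, ∑ A, S.LG ξ k A (l1tau S ξ C) ^ 2 = 0 :=
    Finset.sum_eq_zero fun k _ => Finset.sum_eq_zero fun A _ => by rw [hG]; ring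
  have e2 : (∑ i : Fin 9, ∑ A, if i.val < 3 then 0 else (l1tau S ξ C) (i, A) ^ 2) = 0 := by
    refine Finset.sum_eq_zero fun i _ => Finset.sum_eq_zero fun A _ => ?_
    split_ifs with h
    · rfl
    · rw [l1_tau_apply, Finset.sum_eq_zero fun E _ => by rw [h2 i E h, mul_zero]]
      ring
  have e3 : (∑ i : Fin 9, ∑ j : Fin 9, ∑ A,
      if i.val < 3 ∧ j.val < 3 then 0 else S.LF ξ A i j (l1tau S ξ C) ^ 2) = 0 := by
    refine Finset.sum_eq_zero fun i _ => Finset.sum_eq_zero fun j _ =>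
      Finset.sum_eq_zero fun A _ => ?_
    split_ifs with h
    · rfl
    · rw [l1_LF_tau, Finset.sum_eq_zero fun E _ => by rw [h3 i j E h, mul_zero]]
      ring
  rw [e1, e2, e3]
  ring

theorem l1_K_tau (hSq : SqStmt S) {ξ : Cfg dc} (hξ : S.Vm 1 ξ = 0) {K : Cfg dc →L[ℝ] Cfg dc}
    (hK : S.IsK ξ K) (C : Fin dc) : K (l1tau S ξ C) = 0 := by
  have h := hK.sq (l1tau S ξ C)
  rw [l1_hq_tau S hSq hξ, mul_zero] at h
  exact norm_eq_zero.mp (pow_eq_zero_iff two_ne_zero |>.mp h)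

/-- the space of gauge directions -/
noncomputable def l1T (ξ : Cfg dc) : Submodule ℝ (Cfg dc) :=
  Submodule.span ℝ (Set.range (l1tau S ξ))

theorem l1_K_T (hSq : SqStmt S) {ξ : Cfg dc} (hξ : S.Vm 1 ξ = 0) {K : Cfg dc →L[ℝ] Cfg dc}
    (hK : S.IsK ξ K) {v : Cfg dc} (hv : v ∈ l1T S ξ) : K v = 0 := by
  refine Submodule.span_induction (p := fun v _ => K v = 0) ?_ ?_ ?_ ?_ hv
  · rintro _ ⟨C, rfl⟩
    exact l1_K_tau S hSq hξ hK C
  · exact map_zero K
  · intro x y _ _ hx hy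
    rw [map_add, hx, hy, add_zero]
  · intro a x _ hx
    rw [map_smul, hx, smul_zero]

/-- a positive symmetric operator vanishes where its quadratic form vanishes -/
theorem l1_pos_zero {K : Cfg dc →L[ℝ] Cfg dc} (hs : ∀ x y, inner ℝ (K x) y = inner ℝ x (K y))
    (hp : ∀ x, 0 ≤ inner ℝ x (K x)) {x : Cfg dc} (hx : inner ℝ x (K x) = 0) : K x = 0 := by
  set a : ℝ := ‖K x‖ ^ 2 with ha
  set C : ℝ := inner ℝ (K x) (K (K x)) with hC
  have hC0 : 0 ≤ C := hp (K x)
  have h1 : ∀ t : ℝ, 0 ≤ 2 * t * a + t ^ 2 * C := by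
    intro t
    have h := hp (x + t • K x)
    rw [map_add, map_smul, inner_add_left, inner_add_right, inner_add_right, hx,
      real_inner_smul_left, real_inner_smul_left, real_inner_smul_right, real_inner_smul_right,
      ← hs x (K x), real_inner_self_eq_norm_sq] at h
    rw [← ha, ← hC] at h
    linarith
  have h2 := h1 (-a / (C + 1))
  have hC1 : 0 < C + 1 := by linarith
  have h3 : 2 * (-a / (C + 1)) * a + (-a / (C + 1)) ^ 2 * C =
      -(a ^ 2 * (C + 2)) / (C + 1) ^ 2 := by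
    field_simp
    ring
  rw [h3] at h2
  have h4 : a ^ 2 * (C + 2) ≤ 0 := by
    by_contra h5
    push Not at h5
    have : -(a ^ 2 * (C + 2)) / (C + 1) ^ 2 < 0 :=
      div_neg_of_neg_of_pos (by linarith) (by positivity)
    linarith
  have h5 : a ^ 2 ≤ 0 := by
    by_contra h6
    push Not at h6
    have : 0 < a ^ 2 * (C + 2) := mul_pos h6 (by linarith)
    linarith
  have h6 : a = 0 := by
    have : a ^ 2 = 0 := le_antisymm h5 (sq_nonneg a)
    exact pow_eq_zero_iff two_ne_zero |>.mp this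
  exact norm_eq_zero.mp (pow_eq_zero_iff two_ne_zero |>.mp h6)

/-- the rescaled orthonormal basis of the gauge directions -/
noncomputable def l1bas (ξ : Cfg dc) (j : Fin (Module.finrank ℝ (l1T S ξ))) : Cfg dc :=
  Real.sqrt 2 • ((stdOrthonormalBasis ℝ (l1T S ξ) j : l1T S ξ) : Cfg dc)

theorem l1_bas_mem (ξ : Cfg dc) (j : Fin (Module.finrank ℝ (l1T S ξ))) :
    l1bas S ξ j ∈ l1T S ξ :=
  (l1T S ξ).smul_mem _ (stdOrthonormalBasis ℝ (l1T S ξ) j).2

theorem l1_bas_bas (ξ : Cfg dc) (i j : Fin (Module.finrank ℝ (l1T S ξ))) :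
    inner ℝ (l1bas S ξ i) (l1bas S ξ j) = if i = j then 2 else 0 := by
  unfold l1bas
  rw [real_inner_smul_left, real_inner_smul_right, ← mul_assoc,
    Real.mul_self_sqrt (by norm_num), ← Submodule.coe_inner,
    orthonormal_iff_ite.mp (stdOrthonormalBasis ℝ (l1T S ξ)).orthonormal i j]
  split_ifs <;> simp

theorem l1_perp (ξ : Cfg dc) {x : Cfg dc}
    (hx : ∀ j, inner ℝ (l1bas S ξ j) x = 0) : S.Perp ξ x := by
  have h1 : ∀ v : l1T S ξ, inner ℝ (v : Cfg dc) x = 0 := by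
    intro v
    have h2 := (stdOrthonormalBasis ℝ (l1T S ξ)).sum_repr v
    have h3 : (v : Cfg dc) = ∑ j, (stdOrthonormalBasis ℝ (l1T S ξ)).repr v j •
        ((stdOrthonormalBasis ℝ (l1T S ξ) j : l1T S ξ) : Cfg dc) := by
      conv_lhs => rw [← h2]
      simp
    rw [h3, sum_inner]
    refine Finset.sum_eq_zero fun j _ => ?_
    have h4 := hx j
    unfold l1bas at h4
    rw [real_inner_smul_left] at h4
    rw [real_inner_smul_left]
    rcases mul_eq_zero.mp h4 with h5 | h5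
    · have : (0 : ℝ) < Real.sqrt 2 := Real.sqrt_pos.mpr (by norm_num)
      exact absurd h5 this.ne'
    · rw [h5, mul_zero]
  intro C
  rw [← l1_inner_tau]
  exact h1 ⟨l1tau S ξ C, Submodule.subset_span ⟨C, rfl⟩⟩

theorem l1_exists_low (hHes : HesStmt S) {ξ : Cfg dc} (hξ : S.Vm 1 ξ = 0)
    {K : Cfg dc →L[ℝ] Cfg dc} (hK : S.IsK ξ K) : ∃ c : ℝ, 0 < c ∧ ∀ x,
      c * ‖x‖ ^ 2 ≤ inner ℝ x (K x) + (1 / 2) * ∑ j, inner ℝ (l1bas S ξ j) x ^ 2 := by
  let q : Cfg dc → ℝ := fun x => inner ℝ x (K x) + (1 / 2) * ∑ j, inner ℝ (l1bas S ξ j) x ^ 2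
  have hq0 : ∀ x, q x = 0 → x = 0 := by
    intro x hx
    have p1 := hK.pos x
    have p2 : 0 ≤ ∑ j, inner ℝ (l1bas S ξ j) x ^ 2 := Finset.sum_nonneg fun _ _ => sq_nonneg _
    have hx' : inner ℝ x (K x) + (1 / 2) * ∑ j, inner ℝ (l1bas S ξ j) x ^ 2 = 0 := hx
    have e1 : inner ℝ x (K x) = 0 := by linarith
    have e2 : ∑ j, inner ℝ (l1bas S ξ j) x ^ 2 = 0 := by linarith
    have e3 : ∀ j, inner ℝ (l1bas S ξ j) x = 0 := by
      intro j
      rw [Finset.sum_eq_zero_iff_of_nonneg (fun _ _ => sq_nonneg _)] at e2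
      exact pow_eq_zero_iff two_ne_zero |>.mp (e2 j (Finset.mem_univ _))
    have e4 := l1_pos_zero hK.symm hK.pos e1
    have e5 := hK.sq x
    rw [e4, norm_zero] at e5
    have e6 : S.hq ξ x = 0 := by
      have : (0 : ℝ) ^ 2 = 0 := by norm_num
      linarith
    exact hHes ξ x hξ e6 (l1_perp S ξ e3)
  have hqnn : ∀ x, 0 ≤ q x := fun x => by
    have p1 := hK.pos x
    have p2 : 0 ≤ ∑ j, inner ℝ (l1bas S ξ j) x ^ 2 := Finset.sum_nonneg fun _ _ => sq_nonneg _
    have : q x = inner ℝ x (K x) + (1 / 2) * ∑ j, inner ℝ (l1bas S ξ j) x ^ 2 := rfl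
    rw [this]
    linarith
  have hqc : Continuous q := by
    have := K.continuous
    fun_prop
  have hqs : ∀ (t : ℝ) x, q (t • x) = t ^ 2 * q x := by
    intro t x
    simp only [q, map_smul, real_inner_smul_left, real_inner_smul_right, mul_pow]
    rw [← Finset.mul_sum]
    ring
  rcases (Metric.sphere (0 : Cfg dc) 1).eq_empty_or_nonempty with he | hne
  · refine ⟨1, one_pos, fun x => ?_⟩
    have hx : x = 0 := by
      by_contra h
      have h1 : ‖x‖ ≠ 0 := norm_ne_zero_iff.mpr h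
      have h2 : ‖x‖⁻¹ • x ∈ Metric.sphere (0 : Cfg dc) 1 := by
        rw [mem_sphere_zero_iff_norm, norm_smul, norm_inv, norm_norm, inv_mul_cancel₀ h1]
      rw [he] at h2
      exact h2
    subst hx
    simp
  · obtain ⟨x0, hx0, hmin⟩ := (isCompact_sphere (0 : Cfg dc) 1).exists_isMinOn hne
      hqc.continuousOn
    have hx0n : ‖x0‖ = 1 := mem_sphere_zero_iff_norm.mp hx0
    have hpos : 0 < q x0 := by
      refine lt_of_le_of_ne (hqnn x0) fun h => ?_
      have := hq0 x0 h.symm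
      rw [this, norm_zero] at hx0n
      exact zero_ne_one hx0n
    refine ⟨q x0, hpos, fun x => ?_⟩
    change q x0 * ‖x‖ ^ 2 ≤ q x
    by_cases hx : x = 0
    · subst hx
      have := hqnn 0
      simpa using this
    · have h1 : ‖x‖ ≠ 0 := norm_ne_zero_iff.mpr hx
      have h2 : ‖x‖⁻¹ • x ∈ Metric.sphere (0 : Cfg dc) 1 := by
        rw [mem_sphere_zero_iff_norm, norm_smul, norm_inv, norm_norm, inv_mul_cancel₀ h1]
      have h3 : q x0 ≤ q (‖x‖⁻¹ • x) := hmin h2
      rw [hqs] at h3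
      have h4 : q x = ‖x‖ ^ 2 * (‖x‖⁻¹ ^ 2 * q x) := by
        rw [← mul_assoc, ← mul_pow, mul_inv_cancel₀ h1]
        ring
      rw [h4, mul_comm (q x0)]
      exact mul_le_mul_of_nonneg_left h3 (by positivity)

/-- the data at `ξ` -/
theorem l1_exists_data (hSq : SqStmt S) (hHes : HesStmt S) {ξ : Cfg dc} (hξ : S.Vm 1 ξ = 0)
    {K : Cfg dc →L[ℝ] Cfg dc} (hK : S.IsK ξ K) :
    ∃ D : L1D dc (Fin (Module.finrank ℝ (l1T S ξ))), D.A = K ∧ D.τ = l1bas S ξ := by
  obtain ⟨c, hc, hlow⟩ := l1_exists_low S hHes hξ hK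
  exact ⟨{ A := K
           τ := l1bas S ξ
           symm := hK.symm
           Aτ := fun j => l1_K_T S hSq hξ hK (l1_bas_mem S ξ j)
           ττ := l1_bas_bas S ξ
           c0 := c
           c0_pos := hc
           low := hlow
           pos := hK.pos }, rfl, rfl⟩

end Vale.Agent.P353.Z.U
end

section

/-! # P353, general `N`: finite dimensional Hermitian `sl₂` triples

Two Hermitian `sl₂` triples on inner product spaces of the same finite dimension with the same multiplicities of highest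
weights are unitarily equivalent, and the multiplicities `μ_n` satisfy `∑ μ_n (n+1) = N`. -/

namespace Vale.Agent.P353.Z.U.Cnt

variable {E : Type*} [NormedAddCommGroup E] [InnerProductSpace ℂ E]

/-- a Hermitian `sl₂` triple on an inner product space -/
structure HTr (h e f : E →ₗ[ℂ] E) : Prop where
  hs : ∀ x y, inner ℂ (h x) y = inner ℂ x (h y)
  ef : ∀ x y, inner ℂ (e x) y = inner ℂ x (f y)
  he : ∀ x, h (e x) = e (h x) + (2 : ℂ) • e x
  hf : ∀ x, h (f x) = f (h x) - (2 : ℂ) • f x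
  hef : ∀ x, e (f x) = f (e x) + h x

/-- highest weight vectors of weight `n` -/
def hw (h e : E →ₗ[ℂ] E) (n : ℕ) : Submodule ℂ E :=
  LinearMap.ker e ⊓ Module.End.eigenspace h (n : ℂ)

lemma mem_hw {h e : E →ₗ[ℂ] E} {n : ℕ} {v : E} : v ∈ hw h e n ↔ e v = 0 ∧ h v = (n : ℂ) • v := by
  simp [hw, Submodule.mem_inf]

/-- Gram coefficients -/
noncomputable def gc (m r : ℕ) : ℂ := ∏ k ∈ Finset.range r, (((k : ℂ) + 1) * ((m : ℂ) - k))

lemma gc_succ (m r : ℕ) : gc m (r + 1) = gc m r * (((r : ℂ) + 1) * ((m : ℂ) - r)) := by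
  simp [gc, Finset.prod_range_succ]

lemma gc_ne {m r : ℕ} (hr : r ≤ m) : gc m r ≠ 0 := by
  unfold gc
  rw [Finset.prod_ne_zero_iff]
  intro k hk
  have hk' : k < m := lt_of_lt_of_le (Finset.mem_range.1 hk) hr
  refine mul_ne_zero (by exact_mod_cast Nat.succ_ne_zero k) ?_
  rw [sub_ne_zero]
  exact_mod_cast hk'.ne'

lemma gc_zero {m r : ℕ} (hr : m < r) : gc m r = 0 := by
  unfold gc
  rw [Finset.prod_eq_zero_iff]
  exact ⟨m, Finset.mem_range.2 hr, by simp⟩

namespace HTr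

variable {h e f : E →ₗ[ℂ] E} (T : HTr h e f)
include T

lemma fe (x y : E) : inner ℂ (f x) y = inner ℂ x (e y) := by
  rw [← inner_conj_symm, ← T.ef, inner_conj_symm]

lemma h_pow {v : E} {μ : ℂ} (hv : h v = μ • v) (k : ℕ) :
    h ((f ^ k) v) = (μ - 2 * k) • (f ^ k) v := by
  induction k with
  | zero => simpa using hv
  | succ k ih =>
    rw [pow_succ', Module.End.mul_apply, T.hf, ih, map_smul, ← sub_smul]
    congr 1; push_cast; ring

lemma e_pow {v : E} {μ : ℂ} (hv : h v = μ • v) (he : e v = 0) (k : ℕ) :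
    e ((f ^ (k + 1)) v) = (((k : ℂ) + 1) * (μ - k)) • (f ^ k) v := by
  induction k with
  | zero => simp [T.hef, he, hv]
  | succ k ih =>
    rw [pow_succ', Module.End.mul_apply, T.hef, ih, T.h_pow hv, map_smul, ← Module.End.mul_apply f,
      ← pow_succ', ← add_smul]
    congr 1; push_cast; ring

lemma gram {n m : ℕ} {v w : E} (hv : v ∈ hw h e n) (hw' : w ∈ hw h e m) (r s : ℕ) :
    inner ℂ ((f ^ r) v) ((f ^ s) w) = if r = s then gc m r * inner ℂ v w else 0 := by
  rw [mem_hw] at hv hw'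
  induction r generalizing s with
  | zero =>
    cases s with
    | zero => simp [gc]
    | succ s =>
      rw [if_neg (by omega), pow_succ', Module.End.mul_apply, ← T.ef]
      simp [hv.1]
  | succ r ih =>
    cases s with
    | zero =>
      rw [if_neg (by omega), pow_succ', Module.End.mul_apply, T.fe]
      simp [hw'.1]
    | succ s =>
      rw [pow_succ' f r, Module.End.mul_apply, T.fe, T.e_pow hw'.2 hw'.1, inner_smul_right, ih s]
      by_cases hrs : r = s
      · subst hrs; rw [if_pos rfl, if_pos rfl, gc_succ]; ring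
      · rw [if_neg hrs, if_neg (by omega), mul_zero]

lemma orth {n m : ℕ} {v w : E} (hv : v ∈ hw h e n) (hw' : w ∈ hw h e m) (hnm : n ≠ m) :
    inner ℂ v w = 0 := by
  rw [mem_hw] at hv hw'
  have h1 := T.hs v w
  rw [hv.2, hw'.2, inner_smul_left, inner_smul_right, Complex.conj_natCast] at h1
  have h2 : ((n : ℂ) - m) * inner ℂ v w = 0 := by linear_combination h1
  rcases mul_eq_zero.1 h2 with h3 | h3
  · exact absurd (by exact_mod_cast sub_eq_zero.1 h3) hnm
  · exact h3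

lemma pow_zero_of {n : ℕ} {v : E} (hv : v ∈ hw h e n) {r : ℕ} (hr : n < r) : (f ^ r) v = 0 := by
  have := T.gram hv hv r r
  rw [if_pos rfl, gc_zero hr, zero_mul] at this
  exact inner_self_eq_zero.1 this

/-- eigenvalues of lowering / raising chains: some power kills -/
lemma exists_pow_zero [FiniteDimensional ℂ E] {v : E} {μ : ℂ} (hv : h v = μ • v) :
    ∃ k : ℕ, (e ^ k) v = 0 := by
  by_contra! hcon
  have hpow : ∀ k : ℕ, h ((e ^ k) v) = (μ + 2 * k) • (e ^ k) v := by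
    intro k
    induction k with
    | zero => simpa using hv
    | succ k ih =>
      rw [pow_succ', Module.End.mul_apply, T.he, ih, map_smul, ← add_smul]
      congr 1; push_cast; ring
  have hfin : {μ : ℂ | Module.End.HasEigenvalue h μ}.Finite := Module.End.finite_hasEigenvalue h
  have hinj : Function.Injective (fun k : ℕ => μ + 2 * (k : ℂ)) := by
    intro a b hab
    simpa using hab
  refine (Set.infinite_range_of_injective hinj) (hfin.subset ?_)
  rintro _ ⟨k, rfl⟩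
  exact Module.End.hasEigenvalue_of_hasEigenvector
    ⟨Module.End.mem_eigenspace_iff.2 (hpow k), hcon k⟩

/-- weights of highest weight vectors are natural numbers -/
lemma weight_nat {v : E} {μ : ℂ} (hv0 : v ≠ 0) (hv : h v = μ • v) (he : e v = 0)
    [FiniteDimensional ℂ E] : ∃ n : ℕ, μ = n := by
  have h1 : ∃ k : ℕ, (f ^ k) v = 0 := by
    by_contra! hcon
    have hfin : {μ : ℂ | Module.End.HasEigenvalue h μ}.Finite := Module.End.finite_hasEigenvalue h
    have hinj : Function.Injective (fun k : ℕ => μ - 2 * (k : ℂ)) := by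
      intro a b hab
      simpa using hab
    refine (Set.infinite_range_of_injective hinj) (hfin.subset ?_)
    rintro _ ⟨k, rfl⟩
    exact Module.End.hasEigenvalue_of_hasEigenvector
      ⟨Module.End.mem_eigenspace_iff.2 (T.h_pow hv k), hcon k⟩
  obtain ⟨n, hn1, hn2⟩ := Nat.exists_not_and_succ_of_not_zero_of_exists
    (p := fun k => (f ^ k) v = 0) (by simpa using hv0) h1
  have h2 := T.e_pow hv he n
  rw [hn2, map_zero, eq_comm, smul_eq_zero] at h2
  rcases h2 with h2 | h2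
  · rcases mul_eq_zero.1 h2 with h3 | h3
    · exact absurd (by exact_mod_cast h3) (Nat.succ_ne_zero n)
    · exact ⟨n, sub_eq_zero.1 h3⟩
  · exact absurd h2 hn1

/-- an invariant nonzero subspace contains a highest weight vector -/
lemma exists_hw [FiniteDimensional ℂ E] (K : Submodule ℂ E) (hK : K ≠ ⊥)
    (Kh : ∀ x ∈ K, h x ∈ K) (Ke : ∀ x ∈ K, e x ∈ K) :
    ∃ n : ℕ, ∃ v ∈ K, v ≠ 0 ∧ v ∈ hw h e n := by
  have : Nontrivial K := Submodule.nontrivial_iff_ne_bot.2 hK
  obtain ⟨μ, hμ⟩ := Module.End.exists_eigenvalue (h.restrict Kh)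
  obtain ⟨w, hw1, hw0⟩ := hμ.exists_hasEigenvector
  have hw2 : h (w : E) = μ • (w : E) := by
    have := Module.End.mem_eigenspace_iff.1 hw1
    exact congrArg Subtype.val this
  have hw3 : (w : E) ≠ 0 := by simpa using hw0
  obtain ⟨k, hk1, hk2⟩ := Nat.exists_not_and_succ_of_not_zero_of_exists
    (p := fun k => (e ^ k) (w : E) = 0) (by simpa using hw3) (T.exists_pow_zero hw2)
  have hpow : ∀ k : ℕ, h ((e ^ k) (w : E)) = (μ + 2 * k) • (e ^ k) (w : E) := by
    intro k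
    induction k with
    | zero => simpa using hw2
    | succ k ih =>
      rw [pow_succ', Module.End.mul_apply, T.he, ih, map_smul, ← add_smul]
      congr 1; push_cast; ring
  have hKe : ∀ k : ℕ, (e ^ k) (w : E) ∈ K := by
    intro k
    induction k with
    | zero => simp
    | succ k ih => rw [pow_succ', Module.End.mul_apply]; exact Ke _ ih
  have he0 : e ((e ^ k) (w : E)) = 0 := by
    rw [← Module.End.mul_apply, ← pow_succ']; exact hk2
  obtain ⟨n, hn⟩ := T.weight_nat hk1 (hpow k) he0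
  exact ⟨n, _, hKe k, hk1, mem_hw.2 ⟨he0, by rw [hpow k, hn]⟩⟩

lemma weight_lt [FiniteDimensional ℂ E] {n : ℕ} {v : E} (hv : v ∈ hw h e n) (hv0 : v ≠ 0) :
    n < Module.finrank ℂ E := by
  have hli : LinearIndependent ℂ (fun r : Fin (n + 1) => (f ^ r.val) v) := by
    refine linearIndependent_of_ne_zero_of_inner_eq_zero ?_ ?_
    · intro r hr
      have h1 := T.gram hv hv r.val r.val
      rw [if_pos rfl, hr, inner_zero_left] at h1
      rcases mul_eq_zero.1 h1.symm with h2 | h2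
      · exact gc_ne (Nat.lt_succ_iff.1 r.2) h2
      · exact hv0 (inner_self_eq_zero.1 h2)
    · intro r s hrs
      show inner ℂ ((f ^ r.val) v) ((f ^ s.val) v) = 0
      rw [T.gram hv hv, if_neg]
      intro h1
      exact hrs (Fin.ext h1)
  have := hli.fintype_card_le_finrank
  rw [Fintype.card_fin] at this
  omega

/-- the span of all lowered highest weight vectors -/
lemma span_top [FiniteDimensional ℂ E] :
    Submodule.span ℂ {x : E | ∃ n : ℕ, ∃ v ∈ hw h e n, ∃ r : ℕ, x = (f ^ r) v} = ⊤ := by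
  set S := Submodule.span ℂ {x : E | ∃ n : ℕ, ∃ v ∈ hw h e n, ∃ r : ℕ, x = (f ^ r) v} with hS
  have Sf : ∀ x ∈ S, f x ∈ S := by
    intro x hx
    induction hx using Submodule.span_induction with
    | mem x hx =>
      obtain ⟨n, v, hv, r, rfl⟩ := hx
      rw [← Module.End.mul_apply, ← pow_succ']
      exact Submodule.subset_span ⟨n, v, hv, r + 1, rfl⟩
    | zero => rw [map_zero]; exact Submodule.zero_mem _
    | add x y _ _ hx hy => rw [map_add]; exact Submodule.add_mem _ hx hy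
    | smul c x _ hx => rw [map_smul]; exact Submodule.smul_mem _ _ hx
  have Sh : ∀ x ∈ S, h x ∈ S := by
    intro x hx
    induction hx using Submodule.span_induction with
    | mem x hx =>
      obtain ⟨n, v, hv, r, rfl⟩ := hx
      rw [T.h_pow (mem_hw.1 hv).2]
      exact Submodule.smul_mem _ _ (Submodule.subset_span ⟨n, v, hv, r, rfl⟩)
    | zero => rw [map_zero]; exact Submodule.zero_mem _
    | add x y _ _ hx hy => rw [map_add]; exact Submodule.add_mem _ hx hy
    | smul c x _ hx => rw [map_smul]; exact Submodule.smul_mem _ _ hx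
  have Oh : ∀ x ∈ Sᗮ, h x ∈ Sᗮ := by
    intro x hx
    rw [Submodule.mem_orthogonal] at hx ⊢
    intro y hy
    rw [← T.hs]
    exact hx _ (Sh y hy)
  have Oe : ∀ x ∈ Sᗮ, e x ∈ Sᗮ := by
    intro x hx
    rw [Submodule.mem_orthogonal] at hx ⊢
    intro y hy
    rw [← T.fe]
    exact hx _ (Sf y hy)
  by_contra hne
  have hO : Sᗮ ≠ ⊥ := fun h0 => hne ((Submodule.orthogonal_eq_bot_iff).1 h0)
  obtain ⟨n, v, hvK, hv0, hv⟩ := T.exists_hw Sᗮ hO Oh Oe
  have hvS : v ∈ S := Submodule.subset_span ⟨n, v, hv, 0, by simp⟩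
  rw [Submodule.mem_orthogonal] at hvK
  exact hv0 (inner_self_eq_zero.1 (hvK v hvS))

end HTr

/-- index type of a basis with multiplicities `μ` -/
abbrev Ix {N : ℕ} (μ : Fin N → ℕ) : Type := Σ n : Fin N, Fin (μ n) × Fin (n.val + 1)

theorem HTr.exists_basis [FiniteDimensional ℂ E] {h e f : E →ₗ[ℂ] E} (T : HTr h e f) {N : ℕ}
    (hN : Module.finrank ℂ E = N) (μ : Fin N → ℕ)
    (hμ : ∀ n : Fin N, Module.finrank ℂ (hw h e n.val) = μ n) :
    ∃ a : (n : Fin N) → Fin (μ n) → E, (∀ n k, a n k ∈ hw h e n.val) ∧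
      (∀ n k l, inner ℂ (a n k) (a n l) = if k = l then (1 : ℂ) else 0) ∧
      ∃ b : Module.Basis (Ix μ) ℂ E, ∀ i : Ix μ, b i = (f ^ i.2.2.val) (a i.1 i.2.1) := by
  let o : (n : Fin N) → OrthonormalBasis (Fin (μ n)) ℂ (hw h e n.val) := fun n =>
    (stdOrthonormalBasis ℂ (hw h e n.val)).reindex (finCongr (hμ n))
  let a : (n : Fin N) → Fin (μ n) → E := fun n k => (o n k : E)
  have ha1 : ∀ n k, a n k ∈ hw h e n.val := fun n k => (o n k).2
  have ha2 : ∀ n k l, inner ℂ (a n k) (a n l) = if k = l then (1 : ℂ) else 0 := by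
    intro n k l
    have h1 := (orthonormal_iff_ite.1 (o n).orthonormal) k l
    rw [Submodule.coe_inner] at h1
    exact h1
  refine ⟨a, ha1, ha2, ?_⟩
  have hli : LinearIndependent ℂ (fun i : Ix μ => (f ^ i.2.2.val) (a i.1 i.2.1)) := by
    refine linearIndependent_of_ne_zero_of_inner_eq_zero ?_ ?_
    · rintro ⟨n, k, r⟩ hr
      have h1 := T.gram (ha1 n k) (ha1 n k) r.val r.val
      simp only at hr
      rw [if_pos rfl, hr, inner_zero_left, ha2, if_pos rfl, mul_one] at h1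
      exact gc_ne (Nat.lt_succ_iff.1 r.2) h1.symm
    · rintro ⟨n, k, r⟩ ⟨m, l, s⟩ hne
      show inner ℂ ((f ^ r.val) (a n k)) ((f ^ s.val) (a m l)) = 0
      rw [T.gram (ha1 n k) (ha1 m l)]
      split_ifs with hrs
      · by_cases hnm : n = m
        · subst hnm
          rw [ha2, if_neg, mul_zero]
          intro hkl
          apply hne
          rw [hkl, Fin.ext hrs]
        · rw [T.orth (ha1 n k) (ha1 m l) (fun h1 => hnm (Fin.ext h1)), mul_zero]
      · rfl
  have hsp : ⊤ ≤ Submodule.span ℂ (Set.range (fun i : Ix μ => (f ^ i.2.2.val) (a i.1 i.2.1))) := by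
    rw [← T.span_top, Submodule.span_le]
    rintro x ⟨n, v, hv, r, rfl⟩
    by_cases hv0 : v = 0
    · rw [hv0, map_zero]; exact Submodule.zero_mem _
    have hnN : n < N := hN ▸ T.weight_lt hv hv0
    by_cases hr : n < r
    · rw [T.pow_zero_of hv hr]; exact Submodule.zero_mem _
    push Not at hr
    have hsum := (o ⟨n, hnN⟩).sum_repr ⟨v, hv⟩
    have hsum' : v = ∑ k, (o ⟨n, hnN⟩).repr ⟨v, hv⟩ k • a ⟨n, hnN⟩ k := by
      have := congrArg Subtype.val hsum
      rw [Submodule.coe_sum] at this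
      exact this.symm
    rw [hsum', map_sum]
    refine Submodule.sum_mem _ fun k _ => ?_
    rw [map_smul]
    refine Submodule.smul_mem _ _ (Submodule.subset_span ?_)
    exact ⟨⟨⟨n, hnN⟩, k, ⟨r, Nat.lt_succ_of_le hr⟩⟩, rfl⟩
  exact ⟨Module.Basis.mk hli hsp, fun i => by rw [Module.Basis.mk_apply]⟩

/-- the multiplicities determine the dimension -/
theorem HTr.sum_mult [FiniteDimensional ℂ E] {h e f : E →ₗ[ℂ] E} (T : HTr h e f) {N : ℕ}
    (hN : Module.finrank ℂ E = N) :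
    ∑ n : Fin N, Module.finrank ℂ (hw h e n.val) * (n.val + 1) = N := by
  obtain ⟨a, -, -, b, -⟩ := T.exists_basis hN (fun n => Module.finrank ℂ (hw h e n.val))
    (fun n => rfl)
  have h1 := Module.finrank_eq_card_basis b
  rw [hN, Fintype.card_sigma] at h1
  simpa [Fintype.card_prod, Fintype.card_fin] using h1.symm

/-- uniqueness -/
theorem HTr.equiv {E' : Type*} [NormedAddCommGroup E'] [InnerProductSpace ℂ E']
    [FiniteDimensional ℂ E] [FiniteDimensional ℂ E'] {h e f : E →ₗ[ℂ] E} (T : HTr h e f)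
    {h' e' f' : E' →ₗ[ℂ] E'} (T' : HTr h' e' f') {N : ℕ}
    (hN : Module.finrank ℂ E = N) (hN' : Module.finrank ℂ E' = N)
    (hmu : ∀ n : Fin N, Module.finrank ℂ (hw h e n.val) = Module.finrank ℂ (hw h' e' n.val)) :
    ∃ U : E ≃ₗᵢ[ℂ] E', (∀ x, U (h x) = h' (U x)) ∧ (∀ x, U (e x) = e' (U x)) ∧
      ∀ x, U (f x) = f' (U x) := by
  obtain ⟨a, ha1, ha2, b, hb⟩ := T.exists_basis hN (fun n => Module.finrank ℂ (hw h e n.val))
    (fun n => rfl)
  obtain ⟨a', ha1', ha2', b', hb'⟩ := T'.exists_basis hN'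
    (fun n => Module.finrank ℂ (hw h e n.val)) (fun n => (hmu n).symm)
  let L : E ≃ₗ[ℂ] E' := b.equiv b' (Equiv.refl _)
  have hL : ∀ i, L (b i) = b' i := fun i => by simp [L]
  have hpow : ∀ n k (r : ℕ), L ((f ^ r) (a n k)) = (f' ^ r) (a' n k) := by
    intro n k r
    by_cases hr : n.val < r
    · rw [T.pow_zero_of (ha1 n k) hr, T'.pow_zero_of (ha1' n k) hr, map_zero]
    · have h1 := hL ⟨n, k, ⟨r, by omega⟩⟩
      rw [hb, hb'] at h1
      exact h1
  have hgram : ∀ i j, inner ℂ (b' i) (b' j) = inner ℂ (b i) (b j) := by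
    rintro ⟨n, k, r⟩ ⟨m, l, s⟩
    rw [hb, hb, hb', hb', T.gram (ha1 n k) (ha1 m l), T'.gram (ha1' n k) (ha1' m l)]
    by_cases hnm : n = m
    · subst hnm
      rw [ha2, ha2']
    · rw [T.orth (ha1 n k) (ha1 m l) (fun h1 => hnm (Fin.ext h1)),
        T'.orth (ha1' n k) (ha1' m l) (fun h1 => hnm (Fin.ext h1))]
  have hinner1 : ∀ i y, inner ℂ (L (b i)) (L y) = inner ℂ (b i) y := by
    intro i y
    have : (innerₛₗ ℂ (L (b i))).comp L.toLinearMap = innerₛₗ ℂ (b i) := by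
      refine b.ext fun j => ?_
      simp only [LinearMap.comp_apply, LinearEquiv.coe_coe, innerₛₗ_apply_apply, hL]
      exact hgram i j
    exact LinearMap.congr_fun this y
  have hinner : ∀ x y, inner ℂ (L x) (L y) = inner ℂ x y := by
    intro x y
    have : (innerₛₗ ℂ (L y)).comp L.toLinearMap = innerₛₗ ℂ y := by
      refine b.ext fun j => ?_
      simp only [LinearMap.comp_apply, LinearEquiv.coe_coe, innerₛₗ_apply_apply]
      rw [← inner_conj_symm, hinner1, inner_conj_symm]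
    have h1 := LinearMap.congr_fun this x
    simp only [LinearMap.comp_apply, LinearEquiv.coe_coe, innerₛₗ_apply_apply] at h1
    rw [← inner_conj_symm, h1, inner_conj_symm]
  have hf1 : ∀ x, L (f x) = f' (L x) := by
    intro x
    have : L.toLinearMap.comp f = f'.comp L.toLinearMap := by
      refine b.ext fun j => ?_
      obtain ⟨n, k, r⟩ := j
      simp only [LinearMap.comp_apply, LinearEquiv.coe_coe, hb]
      rw [hpow, ← Module.End.mul_apply, ← pow_succ', hpow, ← Module.End.mul_apply, ← pow_succ']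
    exact LinearMap.congr_fun this x
  have hh1 : ∀ x, L (h x) = h' (L x) := by
    intro x
    have : L.toLinearMap.comp h = h'.comp L.toLinearMap := by
      refine b.ext fun j => ?_
      obtain ⟨n, k, r⟩ := j
      simp only [LinearMap.comp_apply, LinearEquiv.coe_coe, hb]
      rw [hpow, T.h_pow (mem_hw.1 (ha1 n k)).2, T'.h_pow (mem_hw.1 (ha1' n k)).2, map_smul, hpow]
    exact LinearMap.congr_fun this x
  have he1 : ∀ x, L (e x) = e' (L x) := by
    intro x
    refine ext_inner_right ℂ fun y => ?_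
    obtain ⟨z, rfl⟩ := L.surjective y
    rw [hinner, T.ef, T'.ef, ← hf1, hinner]
  exact ⟨L.isometryOfInner hinner, hh1, he1, hf1⟩

end Vale.Agent.P353.Z.U.Cnt
end

section

/-! # P353, general `N`: every model has a setup -/

open MeasureTheory Filter Topology
open scoped ContDiff

namespace Vale.Agent.P353.Z.U

variable {N d : ℕ} {F : Type*} [NormedAddCommGroup F] [InnerProductSpace ℂ F]

section structureConstants

variable (M : BFSS.Model N d F)

/-- the structure constants are traces of commutators -/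
lemma mf_trace (A B C : Fin d) : ((M.T A * M.T B - M.T B * M.T A) * M.T C).trace =
    Complex.I * (M.f A B C : ℂ) := by
  rw [M.T_comm, Finset.sum_mul, Matrix.trace_sum]
  simp only [Matrix.smul_mul, Matrix.trace_smul, M.T_orthonormal, smul_eq_mul, mul_ite, mul_one,
    mul_zero, Finset.sum_ite_eq', Finset.mem_univ, if_true]

/-- the structure constants are antisymmetric in the first two indices -/
lemma mf_swap (A B C : Fin d) : M.f A B C = - M.f B A C := by
  have h1 := mf_trace M A B C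
  have h2 := mf_trace M B A C
  have h3 : ((M.T A * M.T B - M.T B * M.T A) * M.T C).trace =
      -((M.T B * M.T A - M.T A * M.T B) * M.T C).trace := by
    rw [← Matrix.trace_neg, ← Matrix.neg_mul, neg_sub]
  rw [h1, h2] at h3
  have h4 : Complex.I * ((M.f A B C : ℂ) + (M.f B A C : ℂ)) = 0 := by linear_combination h3
  have h5 : ((M.f A B C : ℂ) + (M.f B A C : ℂ)) = 0 := by
    rcases mul_eq_zero.mp h4 with h | h
    · exact absurd h Complex.I_ne_zero
    · exact h
  have h6 : M.f A B C + M.f B A C = 0 := by exact_mod_cast h5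
  linarith

/-- the structure constants are invariant under cyclic permutations -/
lemma mf_cyc (A B C : Fin d) : M.f A B C = M.f B C A := by
  have h1 := mf_trace M A B C
  have h2 := mf_trace M B C A
  have h3 : ((M.T A * M.T B - M.T B * M.T A) * M.T C).trace =
      ((M.T B * M.T C - M.T C * M.T B) * M.T A).trace := by
    rw [Matrix.sub_mul, Matrix.sub_mul, Matrix.trace_sub, Matrix.trace_sub]
    have e1 : (M.T A * M.T B * M.T C).trace = (M.T B * M.T C * M.T A).trace := by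
      rw [mul_assoc, Matrix.trace_mul_comm]
    have e2 : (M.T B * M.T A * M.T C).trace = (M.T C * M.T B * M.T A).trace := by
      rw [Matrix.trace_mul_comm, ← mul_assoc]
    rw [e1, e2]
  rw [h1, h2] at h3
  have h4 : Complex.I * ((M.f A B C : ℂ) - (M.f B C A : ℂ)) = 0 := by linear_combination h3
  have h5 : ((M.f A B C : ℂ) - (M.f B C A : ℂ)) = 0 := by
    rcases mul_eq_zero.mp h4 with h | h
    · exact absurd h Complex.I_ne_zero
    · exact h
  have h6 : M.f A B C - M.f B C A = 0 := by exact_mod_cast h5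
  linarith

/-- traces of double commutators -/
lemma mf_trace2 (A B C D : Fin d) :
    (((M.T A * M.T B - M.T B * M.T A) * M.T C - M.T C * (M.T A * M.T B - M.T B * M.T A)) *
      M.T D).trace = -((∑ E, M.f A B E * M.f E C D : ℝ) : ℂ) := by
  have h1 : (M.T A * M.T B - M.T B * M.T A) * M.T C -
      M.T C * (M.T A * M.T B - M.T B * M.T A) =
      ∑ E, (Complex.I * (M.f A B E : ℂ)) • (M.T E * M.T C - M.T C * M.T E) := by
    rw [M.T_comm A B, Finset.sum_mul, Finset.mul_sum, ← Finset.sum_sub_distrib]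
    refine Finset.sum_congr rfl fun E _ => ?_
    rw [Matrix.smul_mul, Matrix.mul_smul, smul_sub]
  rw [h1, Finset.sum_mul, Matrix.trace_sum]
  push_cast
  rw [← Finset.sum_neg_distrib]
  refine Finset.sum_congr rfl fun E _ => ?_
  rw [Matrix.smul_mul, Matrix.trace_smul, mf_trace, smul_eq_mul]
  linear_combination ((M.f A B E : ℂ) * (M.f E C D : ℂ)) * Complex.I_sq

/-- the Jacobi identity -/
lemma mf_jac (A B C D : Fin d) :
    ∑ E, (M.f A B E * M.f E C D + M.f B C E * M.f E A D + M.f C A E * M.f E B D) = 0 := by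
  have h0 : ((M.T A * M.T B - M.T B * M.T A) * M.T C -
        M.T C * (M.T A * M.T B - M.T B * M.T A)) +
      ((M.T B * M.T C - M.T C * M.T B) * M.T A -
        M.T A * (M.T B * M.T C - M.T C * M.T B)) +
      ((M.T C * M.T A - M.T A * M.T C) * M.T B -
        M.T B * (M.T C * M.T A - M.T A * M.T C)) = 0 := by
    noncomm_ring
  have h1 := congrArg (fun X => (X * M.T D).trace) h0
  simp only [Matrix.add_mul, Matrix.trace_add, mf_trace2, Matrix.zero_mul,
    Matrix.trace_zero] at h1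
  rw [Finset.sum_add_distrib, Finset.sum_add_distrib]
  have h2 : (((∑ E, M.f A B E * M.f E C D) + (∑ E, M.f B C E * M.f E A D) +
      ∑ E, M.f C A E * M.f E B D : ℝ) : ℂ) = 0 := by
    push_cast
    push_cast at h1
    linear_combination -h1
  exact_mod_cast h2

end structureConstants

/-- the real gamma matrices as complex matrices -/
noncomputable def gamC (M : BFSS.Model N d F) (i : Fin 9) : Matrix (Fin 16) (Fin 16) ℂ :=
  (M.γ i).map Complex.ofRealHom

/-- the setup of a model -/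
noncomputable def ofModel (M : BFSS.Model N d F) : Setup d F where
  g := gamC M
  g_symm := by
    intro i
    rw [gamC, ← Matrix.transpose_map, M.γ_symm]
  g_anti := by
    intro i j
    rw [gamC, gamC, ← Matrix.map_mul, ← Matrix.map_mul, ← Matrix.map_add _ (map_add _),
      M.γ_anticomm]
    split_ifs
    · ext α β
      by_cases h : α = β
      · simp [Matrix.ofNat_apply, h]
      · simp [Matrix.ofNat_apply, h]
    · simp
  th := M.θ
  th_anti := by
    intro α A β B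
    ext v
    have h := M.θ_anticomm α A β B v
    rw [_root_.add_apply]
    refine h.trans ?_
    split_ifs
    · rfl
    · rfl
  κ := 1
  κ_pos := one_pos
  f := M.f
  f_swap := mf_swap M
  f_cyc := mf_cyc M
  f_jac := mf_jac M
  g_real := by
    intro i α β
    simp [gamC]
  th_sa := M.θ_selfAdjoint

lemma ofModel_rep (M : BFSS.Model N d F) : Rep M (ofModel M) where
  hκ := rfl
  hf := rfl
  hg := fun _ _ _ => rfl
  hth := rfl

/-- **M-Set** -/
theorem setS (M : BFSS.Model N d F) : SetStmt M := ⟨ofModel M, ofModel_rep M⟩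

end Vale.Agent.P353.Z.U
end

section

/-! # P353, general `N`: simple ground state of a nondegenerate quadratic fermionic Hamiltonian -/

open MeasureTheory Filter Topology
open scoped ContDiff

namespace Vale.Agent.P353.Z.U

section Spec

variable {P : Type*} [Fintype P] [DecidableEq P]

/-- spectral decomposition of `i R` for a real antisymmetric invertible matrix -/
theorem qua_spec (R : Matrix P P ℝ) (hR : R.transpose = -R)
    (hinv : ∀ z : P → ℝ, R.mulVec z = 0 → z = 0) : ∃ (e : P → P → ℂ) (lam : P → ℝ),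
    (∀ p q, Complex.I * (R p q : ℂ) =
      ∑ j, (lam j : ℂ) * (e j p * (starRingEnd ℂ) (e j q))) ∧
    (∀ j, ∑ p, e j p * (starRingEnd ℂ) (e j p) = 1) ∧
    (∀ j, lam j ≠ 0) ∧
    (∀ i j, lam i + lam j ≠ 0 → ∑ p, e i p * e j p = 0) ∧
    (∀ z : P → ℂ, z = ∑ j, (∑ p, z p * (starRingEnd ℂ) (e j p)) • e j) := by
  obtain ⟨A, hAd⟩ : ∃ A : Matrix P P ℂ, A = Matrix.of fun p q => Complex.I * (R p q : ℂ) :=
    ⟨_, rfl⟩
  have hAe : ∀ p q, A p q = Complex.I * (R p q : ℂ) := fun p q => by rw [hAd]; rfl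
  have hRs : ∀ p q, R q p = -R p q := fun p q => by
    have := congrFun (congrFun hR p) q
    simpa using this
  have hA : A.IsHermitian := by
    ext p q
    rw [Matrix.conjTranspose_apply, hAe, hAe, hRs p q]
    simp
  let E := hA.eigenvectorBasis
  let e : P → P → ℂ := fun j p => E j p
  let lam : P → ℝ := hA.eigenvalues
  have hE : ∀ j p, ∑ q, A p q * e j q = (lam j : ℂ) * e j p := by
    intro j p
    have h := congrFun (hA.mulVec_eigenvectorBasis j) p
    simpa [Matrix.mulVec, dotProduct] using h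
  have hexp : ∀ z : P → ℂ, z = ∑ j, (∑ p, z p * (starRingEnd ℂ) (e j p)) • e j := by
    intro z
    have h := E.sum_repr' (WithLp.toLp 2 z)
    have h1 := congrArg (fun w : EuclideanSpace ℂ P => (WithLp.ofLp w : P → ℂ)) h
    simp only [WithLp.ofLp_sum, WithLp.ofLp_smul] at h1
    refine h1.symm.trans (Finset.sum_congr rfl fun j _ => ?_)
    rw [PiLp.inner_apply]
    rfl
  have hn : ∀ j, ∑ p, e j p * (starRingEnd ℂ) (e j p) = 1 := by
    intro j
    have h := E.orthonormal.1 j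
    have h1 : inner ℂ (E j) (E j) = (1 : ℂ) := by
      rw [inner_self_eq_norm_sq_to_K, h]; simp
    rw [PiLp.inner_apply] at h1
    exact h1
  have hRe : ∀ j p, ∑ q, (R p q : ℂ) * e j q = -Complex.I * ((lam j : ℂ) * e j p) := by
    intro j p
    rw [← hE j p, Finset.mul_sum]
    refine Finset.sum_congr rfl fun q _ => ?_
    rw [hAe]
    linear_combination ((R p q : ℂ) * e j q) * Complex.I_mul_I
  refine ⟨e, lam, ?_, hn, ?_, ?_, hexp⟩
  · intro p q
    have h := hexp (Pi.single q 1)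
    have h1 : ∑ r, A p r * (Pi.single q 1 : P → ℂ) r = A p q := by
      simp [Pi.single_apply]
    rw [← hAe, ← h1]
    have h2 : ∀ j, ∑ r, (Pi.single q 1 : P → ℂ) r * (starRingEnd ℂ) (e j r) =
        (starRingEnd ℂ) (e j q) := by
      intro j
      simp [Pi.single_apply]
    simp only [h2] at h
    have h3 : ∀ r, (Pi.single q 1 : P → ℂ) r = ∑ j, (starRingEnd ℂ) (e j q) * e j r := by
      intro r
      have := congrFun h r
      simpa [Finset.sum_apply] using this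
    simp only [h3, Finset.mul_sum]
    rw [Finset.sum_comm]
    refine Finset.sum_congr rfl fun j _ => ?_
    have h4 : (lam j : ℂ) * (e j p * (starRingEnd ℂ) (e j q)) =
        (starRingEnd ℂ) (e j q) * ((lam j : ℂ) * e j p) := by ring
    rw [h4, ← hE j p, Finset.mul_sum]
    refine Finset.sum_congr rfl fun r _ => by ring
  · intro j hj
    have h1 : ∀ p, ∑ q, (R p q : ℂ) * e j q = 0 := fun p => by rw [hRe, hj]; simp
    have hre : (fun q => (e j q).re) = 0 := by
      apply hinv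
      funext p
      have := congrArg Complex.re (h1 p)
      simpa [Matrix.mulVec, dotProduct] using this
    have him : (fun q => (e j q).im) = 0 := by
      apply hinv
      funext p
      have := congrArg Complex.im (h1 p)
      simpa [Matrix.mulVec, dotProduct] using this
    have h0 : ∀ p, e j p = 0 := fun p => Complex.ext (congrFun hre p) (congrFun him p)
    have h2 := hn j
    simp [h0] at h2
  · intro i j hij
    have h1 : ∑ p, (∑ q, (R p q : ℂ) * e i q) * e j p =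
        -∑ p, e i p * ∑ q, (R p q : ℂ) * e j q := by
      simp only [Finset.sum_mul, Finset.mul_sum]
      rw [Finset.sum_comm, ← Finset.sum_neg_distrib]
      refine Finset.sum_congr rfl fun q _ => ?_
      rw [← Finset.sum_neg_distrib]
      refine Finset.sum_congr rfl fun p _ => ?_
      rw [hRs q p]
      push_cast
      ring
    simp only [hRe] at h1
    have h2 : (-Complex.I) * (((lam i + lam j : ℝ) : ℂ) * ∑ p, e i p * e j p) = 0 := by
      have h3 : ∑ p, -Complex.I * ((lam i : ℂ) * e i p) * e j p =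
          -Complex.I * ((lam i : ℂ) * ∑ p, e i p * e j p) := by
        rw [Finset.mul_sum, Finset.mul_sum]
        exact Finset.sum_congr rfl fun p _ => by ring
      have h4 : ∑ p, e i p * (-Complex.I * ((lam j : ℂ) * e j p)) =
          -Complex.I * ((lam j : ℂ) * ∑ p, e i p * e j p) := by
        rw [Finset.mul_sum, Finset.mul_sum]
        exact Finset.sum_congr rfl fun p _ => by ring
      rw [h3, h4] at h1
      push_cast
      linear_combination h1
    rcases mul_eq_zero.1 h2 with h | h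
    · exact absurd (neg_eq_zero.1 h) Complex.I_ne_zero
    · rcases mul_eq_zero.1 h with h | h
      · exact absurd (Complex.ofReal_eq_zero.1 h) hij
      · exact h

end Spec


variable {d : ℕ} {F : Type*} [NormedAddCommGroup F] [InnerProductSpace ℂ F]

/-- `θ(a) v` -/
noncomputable def QuaT (S : Setup d F) (a : Fin 16 × Fin d → ℂ) (v : F) : F :=
  ∑ p : Fin 16 × Fin d, a p • S.th p.1 p.2 v

theorem QuaT_th_anti (S : Setup d F) (p q : Fin 16 × Fin d) (v : F) :
    S.th p.1 p.2 (S.th q.1 q.2 v) + S.th q.1 q.2 (S.th p.1 p.2 v) = if p = q then v else 0 := by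
  have h := congrArg (fun A : F →L[ℂ] F => A v) (S.th_anti p.1 p.2 q.1 q.2)
  have h' : S.th p.1 p.2 (S.th q.1 q.2 v) + S.th q.1 q.2 (S.th p.1 p.2 v) =
      (if p.1 = q.1 ∧ p.2 = q.2 then (1 : F →L[ℂ] F) else 0) v := h
  rw [h']
  by_cases hpq : p = q
  · subst hpq
    simp
  · rw [if_neg hpq, if_neg (fun h => hpq (Prod.ext h.1 h.2))]
    rfl

/-- `θ(a) θ(b) v` -/
theorem QuaT_comp (S : Setup d F) (a b : Fin 16 × Fin d → ℂ) (v : F) :
    QuaT S a (QuaT S b v) = ∑ p, ∑ q, (a p * b q) • S.th p.1 p.2 (S.th q.1 q.2 v) := by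
  unfold QuaT
  refine Finset.sum_congr rfl fun p _ => ?_
  rw [map_sum, Finset.smul_sum]
  refine Finset.sum_congr rfl fun q _ => ?_
  rw [map_smul, mul_smul]

/-- `{θ(a), θ(b)} = ∑ a_p b_p` -/
theorem QuaT_anti (S : Setup d F) (a b : Fin 16 × Fin d → ℂ) (v : F) :
    QuaT S a (QuaT S b v) + QuaT S b (QuaT S a v) = (∑ p, a p * b p) • v := by
  have h2 : QuaT S b (QuaT S a v) = ∑ p, ∑ q, (a p * b q) • S.th q.1 q.2 (S.th p.1 p.2 v) := by
    rw [QuaT_comp, Finset.sum_comm]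
    refine Finset.sum_congr rfl fun q _ => Finset.sum_congr rfl fun p _ => ?_
    rw [mul_comm (a q)]
  rw [QuaT_comp, h2, ← Finset.sum_add_distrib, Finset.sum_smul]
  refine Finset.sum_congr rfl fun p _ => ?_
  rw [← Finset.sum_add_distrib]
  simp only [← smul_add, QuaT_th_anti]
  rw [Finset.sum_eq_single p (fun q _ hq => by rw [if_neg (Ne.symm hq), smul_zero])
    (fun h => absurd (Finset.mem_univ p) h), if_pos rfl]

/-- `θ(a)† = θ(ā)` -/
theorem QuaT_adj (S : Setup d F) (a : Fin 16 × Fin d → ℂ) (v w : F) :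
    inner ℂ (QuaT S a v) w = inner ℂ v (QuaT S (fun p => (starRingEnd ℂ) (a p)) w) := by
  unfold QuaT
  rw [sum_inner, inner_sum]
  refine Finset.sum_congr rfl fun p _ => ?_
  rw [inner_smul_left, inner_smul_right, S.th_sa]

/-- `⟨v, θ(a) θ(ā) v⟩ = |θ(ā) v|²` -/
theorem QuaT_sq (S : Setup d F) (a : Fin 16 × Fin d → ℂ) (v : F) :
    inner ℂ v (QuaT S a (QuaT S (fun p => (starRingEnd ℂ) (a p)) v)) =
      ((‖QuaT S (fun p => (starRingEnd ℂ) (a p)) v‖ ^ 2 : ℝ) : ℂ) := by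
  have h := QuaT_adj S (fun p => (starRingEnd ℂ) (a p)) v
    (QuaT S (fun p => (starRingEnd ℂ) (a p)) v)
  simp only [Complex.conj_conj] at h
  rw [← h, inner_self_eq_norm_sq_to_K]
  simp

/-- `|θ(ā) v|² + |θ(a) v|² = |v|²` for unit vectors `a` -/
theorem QuaT_norm (S : Setup d F) (a : Fin 16 × Fin d → ℂ)
    (ha : ∑ p, a p * (starRingEnd ℂ) (a p) = 1) (v : F) :
    ‖QuaT S (fun p => (starRingEnd ℂ) (a p)) v‖ ^ 2 + ‖QuaT S a v‖ ^ 2 = ‖v‖ ^ 2 := by
  have h1 := QuaT_sq S a v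
  have h2 : inner ℂ v (QuaT S (fun p => (starRingEnd ℂ) (a p)) (QuaT S a v)) =
      ((‖QuaT S a v‖ ^ 2 : ℝ) : ℂ) := by
    have h := QuaT_sq S (fun p => (starRingEnd ℂ) (a p)) v
    simpa only [Complex.conj_conj] using h
  have h3 := congrArg (fun w => inner ℂ v w) (QuaT_anti S a (fun p => (starRingEnd ℂ) (a p)) v)
  have h4 : inner ℂ v v = ((‖v‖ ^ 2 : ℝ) : ℂ) := by
    rw [inner_self_eq_norm_sq_to_K]
    simp
  simp only [inner_add_right, h1, h2, ha, one_smul, h4] at h3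
  exact_mod_cast h3

/-- **C-Qua** -/
theorem qua (S : Setup d F) (hv : VacStmt S) : QuaStmt S := by
  intro hirr hF R c₀ hR hinv hpos
  obtain ⟨e, lam, hspec, hn, hlam, hbil, hexp⟩ := qua_spec R hR hinv
  -- the energy
  have hH : ∀ v : F, Complex.I • ∑ p : Fin 16 × Fin d, ∑ q : Fin 16 × Fin d, (R p q : ℂ) •
      S.th p.1 p.2 (S.th q.1 q.2 v) =
      ∑ j, (lam j : ℂ) • QuaT S (e j) (QuaT S (fun p => (starRingEnd ℂ) (e j p)) v) := by
    intro v
    simp only [QuaT_comp, Finset.smul_sum, smul_smul]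
    symm
    rw [Finset.sum_comm]
    refine Finset.sum_congr rfl fun p _ => ?_
    rw [Finset.sum_comm]
    refine Finset.sum_congr rfl fun q _ => ?_
    rw [← Finset.sum_smul, ← hspec]
  have hE : ∀ v : F, (inner ℂ v ((c₀ : ℂ) • v + Complex.I • ∑ p : Fin 16 × Fin d,
      ∑ q : Fin 16 × Fin d, (R p q : ℂ) • S.th p.1 p.2 (S.th q.1 q.2 v))).re =
      (c₀ + ∑ j, min (lam j) 0) * ‖v‖ ^ 2 + ∑ j, (if lam j < 0 then -lam j * ‖QuaT S (e j) v‖ ^ 2
        else lam j * ‖QuaT S (fun p => (starRingEnd ℂ) (e j p)) v‖ ^ 2) := by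
    intro v
    have h0 : inner ℂ v v = ((‖v‖ ^ 2 : ℝ) : ℂ) := by
      rw [inner_self_eq_norm_sq_to_K]
      simp
    rw [hH, inner_add_right, inner_smul_right, inner_sum, h0]
    have h1 : ∀ j, inner ℂ v ((lam j : ℂ) •
        QuaT S (e j) (QuaT S (fun p => (starRingEnd ℂ) (e j p)) v)) =
        ((lam j * ‖QuaT S (fun p => (starRingEnd ℂ) (e j p)) v‖ ^ 2 : ℝ) : ℂ) := by
      intro j
      rw [inner_smul_right, QuaT_sq]
      push_cast
      ring
    simp only [h1]
    rw [← Complex.ofReal_sum, Complex.add_re, Complex.ofReal_re]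
    have h2 : ((c₀ : ℂ) * ((‖v‖ ^ 2 : ℝ) : ℂ)).re = c₀ * ‖v‖ ^ 2 := by
      rw [← Complex.ofReal_mul, Complex.ofReal_re]
    have h3 : ∀ j, lam j * ‖QuaT S (fun p => (starRingEnd ℂ) (e j p)) v‖ ^ 2 =
        min (lam j) 0 * ‖v‖ ^ 2 + (if lam j < 0 then -lam j * ‖QuaT S (e j) v‖ ^ 2
          else lam j * ‖QuaT S (fun p => (starRingEnd ℂ) (e j p)) v‖ ^ 2) := by
      intro j
      have h4 := QuaT_norm S (e j) (hn j) v
      by_cases hj : lam j < 0
      · rw [if_pos hj, min_eq_left hj.le, ← h4]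
        ring
      · rw [if_neg hj, min_eq_right (not_lt.1 hj)]
        ring
    have h5 : (∑ j, lam j * ‖QuaT S (fun p => (starRingEnd ℂ) (e j p)) v‖ ^ 2) =
        (∑ j, min (lam j) 0) * ‖v‖ ^ 2 + ∑ j, (if lam j < 0 then -lam j * ‖QuaT S (e j) v‖ ^ 2
          else lam j * ‖QuaT S (fun p => (starRingEnd ℂ) (e j p)) v‖ ^ 2) := by
      rw [Finset.sum_mul, ← Finset.sum_add_distrib]
      exact Finset.sum_congr rfl fun j _ => h3 j
    rw [h5, h2]
    ring
  have hDn : ∀ (v : F) j, 0 ≤ (if lam j < 0 then -lam j * ‖QuaT S (e j) v‖ ^ 2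
      else lam j * ‖QuaT S (fun p => (starRingEnd ℂ) (e j p)) v‖ ^ 2) := by
    intro v j
    by_cases hj : lam j < 0
    · rw [if_pos hj]
      exact mul_nonneg (by linarith) (sq_nonneg _)
    · rw [if_neg hj]
      exact mul_nonneg (not_lt.1 hj) (sq_nonneg _)
  -- the isotropic subspace
  obtain ⟨𝒜, h𝒜⟩ : ∃ 𝒜 : Submodule ℂ (Fin 16 × Fin d → ℂ),
    𝒜 = Submodule.span ℂ {a | ∃ j, lam j < 0 ∧ a = e j} := ⟨_, rfl⟩
  have hmem : ∀ j, lam j < 0 → e j ∈ 𝒜 := fun j hj => by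
    rw [h𝒜]
    exact Submodule.subset_span ⟨j, hj, rfl⟩
  have hmem' : ∀ j, 0 < lam j → (fun p => (starRingEnd ℂ) (e j p)) ∈ 𝒜 := by
    intro j hj
    rw [hexp (fun p => (starRingEnd ℂ) (e j p))]
    refine Submodule.sum_mem _ fun i _ => ?_
    by_cases hi : lam i < 0
    · exact Submodule.smul_mem _ _ (hmem i hi)
    · have h1 : ∑ p, (starRingEnd ℂ) (e j p) * (starRingEnd ℂ) (e i p) = 0 := by
        have h2 := hbil j i (by linarith [not_lt.1 hi])
        have h3 := congrArg (starRingEnd ℂ) h2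
        simpa only [map_sum, map_mul, map_zero] using h3
      rw [h1, zero_smul]
      exact Submodule.zero_mem _
  have hiso : ∀ a ∈ 𝒜, ∀ b ∈ 𝒜, ∑ p, a p * b p = 0 := by
    intro a ha b hb
    rw [h𝒜] at ha hb
    refine Submodule.span_induction (p := fun a _ => ∑ p, a p * b p = 0) ?_ ?_ ?_ ?_ ha
    · rintro _ ⟨i, hi, rfl⟩
      refine Submodule.span_induction (p := fun b _ => ∑ p, e i p * b p = 0) ?_ ?_ ?_ ?_ hb
      · rintro _ ⟨j, hj, rfl⟩
        exact hbil i j (by linarith)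
      · simp
      · intro x y _ _ hx hy
        simp only [Pi.add_apply, mul_add, Finset.sum_add_distrib, hx, hy, add_zero]
      · intro c x _ hx
        simp only [Pi.smul_apply, smul_eq_mul]
        have : ∀ p, e i p * (c * x p) = c * (e i p * x p) := fun p => by ring
        simp only [this, ← Finset.mul_sum, hx, mul_zero]
    · simp
    · intro x y _ _ hx hy
      simp only [Pi.add_apply, add_mul, Finset.sum_add_distrib, hx, hy, add_zero]
    · intro c x _ hx
      simp only [Pi.smul_apply, smul_eq_mul, mul_assoc, ← Finset.mul_sum, hx, mul_zero]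
  have hmax : ∀ z : Fin 16 × Fin d → ℂ, ∃ a ∈ 𝒜, ∃ b ∈ 𝒜,
      z = a + fun p => (starRingEnd ℂ) (b p) := by
    intro z
    obtain ⟨c, hc⟩ : ∃ c : Fin 16 × Fin d → ℂ, z = ∑ j, c j • e j := ⟨_, hexp z⟩
    refine ⟨∑ j, if lam j < 0 then c j • e j else 0, Submodule.sum_mem _ fun j _ => ?_,
      ∑ j, if lam j < 0 then 0 else (starRingEnd ℂ) (c j) • (fun p => (starRingEnd ℂ) (e j p)),
      Submodule.sum_mem _ fun j _ => ?_, ?_⟩
    · split_ifs with hj
      · exact Submodule.smul_mem _ _ (hmem j hj)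
      · exact Submodule.zero_mem _
    · split_ifs with hj
      · exact Submodule.zero_mem _
      · exact Submodule.smul_mem _ _ (hmem' j (lt_of_le_of_ne (not_lt.1 hj) (Ne.symm (hlam j))))
    · funext p
      rw [hc, Pi.add_apply, Finset.sum_apply, Finset.sum_apply, Finset.sum_apply, map_sum,
        ← Finset.sum_add_distrib]
      refine Finset.sum_congr rfl fun j _ => ?_
      by_cases hj : lam j < 0
      · simp [hj]
      · simp [hj]
  obtain ⟨Ω, hΩ1, hΩA, hΩu⟩ := hv hirr hF 𝒜 hiso hmax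
  have hΩA' : ∀ a ∈ 𝒜, QuaT S a Ω = 0 := hΩA
  have hct : 0 ≤ c₀ + ∑ j, min (lam j) 0 := by
    have h1 := hpos Ω
    rw [hE, hΩ1] at h1
    have h2 : ∑ j, (if lam j < 0 then -lam j * ‖QuaT S (e j) Ω‖ ^ 2
        else lam j * ‖QuaT S (fun p => (starRingEnd ℂ) (e j p)) Ω‖ ^ 2) = 0 := by
      refine Finset.sum_eq_zero fun j _ => ?_
      by_cases hj : lam j < 0
      · rw [if_pos hj, hΩA' _ (hmem j hj)]
        simp
      · rw [if_neg hj, hΩA' _ (hmem' j (lt_of_le_of_ne (not_lt.1 hj) (Ne.symm (hlam j))))]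
        simp
    rw [h2] at h1
    linarith
  refine ⟨Ω, hΩ1, fun v h0 => hΩu v ?_⟩
  rw [hE] at h0
  have h1 : 0 ≤ (c₀ + ∑ j, min (lam j) 0) * ‖v‖ ^ 2 := mul_nonneg hct (sq_nonneg _)
  have h2 : ∑ j, (if lam j < 0 then -lam j * ‖QuaT S (e j) v‖ ^ 2
        else lam j * ‖QuaT S (fun p => (starRingEnd ℂ) (e j p)) v‖ ^ 2) = 0 :=
    le_antisymm (by linarith) (Finset.sum_nonneg fun j _ => hDn v j)
  rw [Finset.sum_eq_zero_iff_of_nonneg fun j _ => hDn v j] at h2
  have h3 : ∀ j, lam j < 0 → QuaT S (e j) v = 0 := by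
    intro j hj
    have h4 := h2 j (Finset.mem_univ j)
    rw [if_pos hj] at h4
    rcases mul_eq_zero.1 h4 with h | h
    · linarith
    · exact norm_eq_zero.1 (pow_eq_zero_iff two_ne_zero |>.1 h)
  intro a ha
  rw [h𝒜] at ha
  change QuaT S a v = 0
  refine Submodule.span_induction (p := fun a _ => QuaT S a v = 0) ?_ ?_ ?_ ?_ ha
  · rintro _ ⟨j, hj, rfl⟩
    exact h3 j hj
  · simp [QuaT]
  · intro x y _ _ hx hy
    have : QuaT S (x + y) v = QuaT S x v + QuaT S y v := by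
      unfold QuaT
      rw [← Finset.sum_add_distrib]
      exact Finset.sum_congr rfl fun p _ => add_smul _ _ _
    rw [this, hx, hy, add_zero]
  · intro c x _ hx
    have : QuaT S (c • x) v = c • QuaT S x v := by
      unfold QuaT
      rw [Finset.smul_sum]
      exact Finset.sum_congr rfl fun p _ => by rw [Pi.smul_apply, smul_eq_mul, mul_smul]
    rw [this, hx, smul_zero]

end Vale.Agent.P353.Z.U
end
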