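import Mathlib
import Vale.Agent.P353.BdZ.B2

set_option linter.all false

section

open MeasureTheory Filter Topology
open scoped ContDiff

namespace Vale.Agent.P353.Z

variable {d : ℕ}

variable {F : Type*} [NormedAddCommGroup F] [InnerProductSpace ℂ F]

lemma pd_comm {d : ℕ} {u : Cfg d → F} (hu : ContDiff ℝ ∞ u) (i j : Fin 9) (A B : Fin d)
    (x : Cfg d) : pd i A (pd j B u) x = pd j B (pd i A u) x := by
  have hs : IsSymmSndFDerivAt ℝ u x := by
    refine (hu.contDiffAt).isSymmSndFDerivAt ?_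
    simp only [minSmoothness_of_isRCLikeNormedField]
    exact WithTop.coe_le_coe.mpr le_top
  have hd : Differentiable ℝ (fderiv ℝ u) := (hu.fderiv_right (m := ∞) (by simp)).differentiable
    (by simp)
  have h : ∀ (a b : Cfg d), fderiv ℝ (fun y => fderiv ℝ u y a) x b = fderiv ℝ (fderiv ℝ u) x b a := by
    intro a b
    rw [fderiv_clm_apply (hd x) (differentiableAt_const a)]
    simp
  unfold pd
  rw [h, h]
  exact hs _ _

namespace Setup

variable (S : Setup d F)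

lemma hasFDerivAt_coord (p : Fin 9 × Fin d) (x : (Cfg d)) :
    HasFDerivAt (fun y : (Cfg d) => y p) (EuclideanSpace.proj (𝕜 := ℝ) p : (Cfg d) →L[ℝ] ℝ) x :=
  (EuclideanSpace.proj (𝕜 := ℝ) p : (Cfg d) →L[ℝ] ℝ).hasFDerivAt

lemma fderiv_FF (A : Fin d) (k l : Fin 9) (x : (Cfg d)) (j : Fin 9) (B : Fin d) :
    fderiv ℝ (S.FF A k l) x (EuclideanSpace.single (j, B) (1 : ℝ)) =
      S.κ * ((if j = k then ∑ D, S.f A B D * x (l, D) else 0)
        + (if j = l then ∑ C, S.f A C B * x (k, C) else 0)) := by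
  have hd : HasFDerivAt (S.FF A k l) (S.κ • ∑ C, ∑ D, (S.f A C D • (x (k, C) •
      (EuclideanSpace.proj (𝕜 := ℝ) (l, D) : (Cfg d) →L[ℝ] ℝ) + x (l, D) •
      (EuclideanSpace.proj (𝕜 := ℝ) (k, C) : (Cfg d) →L[ℝ] ℝ)))) x := by
    unfold FF
    refine HasFDerivAt.const_mul ?_ _
    refine HasFDerivAt.fun_sum fun C _ => HasFDerivAt.fun_sum fun D _ => ?_
    have h := ((hasFDerivAt_coord (k, C) x).mul (hasFDerivAt_coord (l, D) x)).const_mul
      (S.f A C D)
    refine h.congr_of_eventuallyEq ?_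
    filter_upwards with y
    simp [mul_assoc]
  rw [hd.fderiv]
  simp only [_root_.smul_apply, _root_.sum_apply, _root_.add_apply, PiLp.proj_apply,
    PiLp.single_apply, smul_eq_mul, Prod.mk.injEq, mul_ite, mul_one, mul_zero]
  congr 1
  simp only [mul_add, Finset.sum_add_distrib, mul_ite, mul_zero]
  rw [add_comm]
  congr 1
  · by_cases h : j = k
    · subst h
      simp only [true_and, if_true]
      rw [Finset.sum_comm]
      simp
    · have h' : ¬ k = j := fun h2 => h h2.symm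
      simp [h, h']
  · by_cases h : j = l
    · subst h
      simp only [true_and, if_true]
      simp
    · have h' : ¬ l = j := fun h2 => h h2.symm
      simp [h, h']

lemma fderiv_W (b : Fin 16) (x : (Cfg d)) (j : Fin 9) (B : Fin d) :
    fderiv ℝ (S.W b) x (EuclideanSpace.single (j, B) (1 : ℝ)) =
      (S.κ : ℂ) • ∑ A, ∑ l, ∑ D, ((S.f A B D : ℂ) * (x (l, D) : ℂ)) • S.vec (S.g2 j l) A b := by
  have hFF : ∀ A k l, DifferentiableAt ℝ (S.FF A k l) x := fun A k l =>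
    (S.contDiff_FF A k l).differentiable (by simp) x
  have hd : HasFDerivAt (S.W b) ((1 / 2 : ℂ) • ∑ A, ∑ k, ∑ l,
      ((Complex.ofRealCLM.comp (fderiv ℝ (S.FF A k l) x)).smulRight (S.vec (S.g2 k l) A b))) x := by
    have h0 : HasFDerivAt (fun y => ∑ A, ∑ k, ∑ l, ((S.FF A k l y : ℝ) : ℂ) •
        S.vec (S.g2 k l) A b) (∑ A, ∑ k, ∑ l,
      ((Complex.ofRealCLM.comp (fderiv ℝ (S.FF A k l) x)).smulRight (S.vec (S.g2 k l) A b))) x := by
      refine HasFDerivAt.fun_sum fun A _ => HasFDerivAt.fun_sum fun k _ =>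
        HasFDerivAt.fun_sum fun l _ => ?_
      have h1 := (Complex.ofRealCLM.hasFDerivAt (x := S.FF A k l x)).comp x (hFF A k l).hasFDerivAt
      exact h1.smul_const (S.vec (S.g2 k l) A b)
    have h1 := h0.const_smul (1 / 2 : ℂ)
    refine h1.congr_of_eventuallyEq (Filter.Eventually.of_forall fun y => ?_)
    simp only [W, Pi.smul_apply]
  rw [hd.fderiv]
  simp only [_root_.smul_apply, _root_.sum_apply, ContinuousLinearMap.smulRight_apply,
    ContinuousLinearMap.comp_apply, Complex.ofRealCLM_apply, fderiv_FF]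
  have key : ∀ A, ∑ k, ∑ l, (((S.κ * ((if j = k then ∑ D, S.f A B D * x (l, D) else 0)
        + (if j = l then ∑ C, S.f A C B * x (k, C) else 0)) : ℝ)) : ℂ) •
        S.vec (S.g2 k l) A b = (2 * S.κ : ℂ) • ∑ l, ∑ D, ((S.f A B D : ℂ) * (x (l, D) : ℂ)) •
          S.vec (S.g2 j l) A b := by
    intro A
    have he : ∀ C : Fin d, S.f A C B = - S.f A B C := fun C => S.f_swap' A B C
    simp only [mul_add, Complex.ofReal_add, add_smul, Finset.sum_add_distrib]
    have p1 : ∑ k, ∑ l, (((S.κ * (if j = k then ∑ D, S.f A B D * x (l, D) else 0) : ℝ)) : ℂ) •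
        S.vec (S.g2 k l) A b = (S.κ : ℂ) • ∑ l, ∑ D, ((S.f A B D : ℂ) * (x (l, D) : ℂ)) •
          S.vec (S.g2 j l) A b := by
      rw [Finset.sum_eq_single j]
      · simp only [if_true, Finset.smul_sum, smul_smul]
        refine Finset.sum_congr rfl fun l _ => ?_
        rw [← Finset.sum_smul]
        congr 1
        push_cast
        rw [Finset.mul_sum]
      · intro k _ hk
        have : ¬ j = k := fun h => hk h.symm
        simp [this]
      · intro h; exact absurd (Finset.mem_univ j) h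
    have p2 : ∑ k, ∑ l, (((S.κ * (if j = l then ∑ C, S.f A C B * x (k, C) else 0) : ℝ)) : ℂ) •
        S.vec (S.g2 k l) A b = (S.κ : ℂ) • ∑ l, ∑ D, ((S.f A B D : ℂ) * (x (l, D) : ℂ)) •
          S.vec (S.g2 j l) A b := by
      rw [Finset.sum_comm, Finset.sum_eq_single j]
      · simp only [if_true, Finset.smul_sum, smul_smul]
        refine Finset.sum_congr rfl fun l _ => ?_
        rw [← Finset.sum_smul, S.g2_swap l j, S.vec_neg, smul_neg, ← neg_smul]
        congr 1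
        simp only [he]
        push_cast
        rw [Finset.mul_sum, ← Finset.sum_neg_distrib]
        refine Finset.sum_congr rfl fun D _ => ?_
        ring
      · intro k _ hk
        have : ¬ j = k := fun h => hk h.symm
        simp [this]
      · intro h; exact absurd (Finset.mem_univ j) h
    rw [p1, p2, mul_smul, two_smul]
  rw [Finset.sum_congr rfl fun A _ => key A, ← Finset.smul_sum, smul_smul]
  congr 1
  ring

lemma pd_Q (b : Fin 16) {u : (Cfg d) → F} (hu : ContDiff ℝ ∞ u) (j : Fin 9) (B : Fin d) (x : (Cfg d)) :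
    pd j B (S.Q b u) x = (-Complex.I) • ∑ i, ∑ A, S.vec (S.g i) A b (pd j B (pd i A u) x)
      + (fderiv ℝ (S.W b) x (EuclideanSpace.single (j, B) (1 : ℝ))) (u x)
      + S.W b x (pd j B u x) := by
  have hd : ∀ i A, DifferentiableAt ℝ (pd i A u) x := fun i A =>
    (contDiff_pd hu).differentiable (by simp) x
  have hdv : ∀ i A, DifferentiableAt ℝ (fun y => S.vec (S.g i) A b (pd i A u y)) x := fun i A =>
    ((S.vec (S.g i) A b).restrictScalars ℝ).differentiableAt.comp x (hd i A)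
  have hWd : DifferentiableAt ℝ (S.W b) x := (S.contDiff_W b).differentiable (by simp) x
  have hud : DifferentiableAt ℝ u x := hu.differentiable (by simp) x
  have h1 : DifferentiableAt ℝ (fun y => (-Complex.I) • ∑ i, ∑ A, S.vec (S.g i) A b (pd i A u y)) x := by
    refine DifferentiableAt.const_smul ?_ _
    refine DifferentiableAt.fun_sum fun i _ => DifferentiableAt.fun_sum fun A _ => hdv i A
  have h2 : DifferentiableAt ℝ (fun y => S.W b y (u y)) x :=
    (contDiff_clm_apply' (S.contDiff_W b) hu).differentiable (by simp) x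
  have e : S.Q b u = fun y => (-Complex.I) • ∑ i, ∑ A, S.vec (S.g i) A b (pd i A u y)
      + S.W b y (u y) := rfl
  rw [e, pd_add h1 h2, pd_clm_apply hWd hud, ← add_assoc]
  congr 2
  have h3 : pd j B (fun y => (-Complex.I) • ∑ i, ∑ A, S.vec (S.g i) A b (pd i A u y)) x =
      (-Complex.I) • pd j B (fun y => ∑ i, ∑ A, S.vec (S.g i) A b (pd i A u y)) x := by
    unfold pd
    rw [fderiv_fun_const_smul]
    · rfl
    · exact DifferentiableAt.fun_sum fun i _ => DifferentiableAt.fun_sum fun A _ => hdv i A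
  rw [h3]
  congr 1
  rw [pd_sum _ (fun i _ => DifferentiableAt.fun_sum fun A _ => hdv i A)]
  refine Finset.sum_congr rfl fun i _ => ?_
  rw [pd_sum _ (fun A _ => hdv i A)]
  refine Finset.sum_congr rfl fun A _ => ?_
  rw [pd_clm _ (hd i A)]

/-- the second order part -/
lemma second_order (D : Fin 9 → Fin d → Fin 9 → Fin d → F)
    (hD : ∀ i A j B, D i A j B = D j B i A) :
    ∑ b, ∑ j, ∑ B, ∑ i, ∑ A, S.vec (S.g j) B b (S.vec (S.g i) A b (D j B i A)) =
      (8 : ℂ) • ∑ i, ∑ A, D i A i A := by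
  have h1 : ∑ b, ∑ j, ∑ B, ∑ i, ∑ A, S.vec (S.g j) B b (S.vec (S.g i) A b (D j B i A)) =
      ∑ j, ∑ B, ∑ i, ∑ A, S.bil (S.g j * S.g i) B A (D j B i A) := by
    rw [Finset.sum_comm]
    refine Finset.sum_congr rfl fun j _ => ?_
    rw [Finset.sum_comm]
    refine Finset.sum_congr rfl fun B _ => ?_
    rw [Finset.sum_comm]
    refine Finset.sum_congr rfl fun i _ => ?_
    rw [Finset.sum_comm]
    refine Finset.sum_congr rfl fun A _ => ?_
    have h := S.sum_vec_mul_vec (S.g j) (S.g i) B A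
    rw [S.g_symm] at h
    rw [← h]
    simp only [_root_.sum_apply]
    rfl
  have h2 : ∑ j, ∑ B, ∑ i, ∑ A, S.bil (S.g j * S.g i) B A (D j B i A) =
      ∑ j, ∑ B, ∑ i, ∑ A, S.bil (S.g i * S.g j) A B (D j B i A) := by
    have e1 : ∀ (f : Fin 9 → Fin d → Fin 9 → Fin d → F), ∑ j, ∑ B, ∑ i, ∑ A, f j B i A =
        ∑ p : Fin 9 × Fin d, ∑ q : Fin 9 × Fin d, f p.1 p.2 q.1 q.2 := by
      intro f
      simp only [Fintype.sum_prod_type]
    rw [e1 (fun j B i A => S.bil (S.g j * S.g i) B A (D j B i A)),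
      e1 (fun j B i A => S.bil (S.g i * S.g j) A B (D j B i A)), Finset.sum_comm]
    refine Finset.sum_congr rfl fun p _ => Finset.sum_congr rfl fun q _ => ?_
    rw [hD]
  have h3 : ∀ j B i A, S.bil (S.g j * S.g i) B A + S.bil (S.g i * S.g j) A B =
      (if B = A then (if j = i then (16 : ℂ) else 0) else 0) • (1 : F →L[ℂ] F) := by
    intro j B i A
    rw [S.bil_swap (S.g j * S.g i) B A]
    have : (S.g j * S.g i).transpose = S.g i * S.g j := by
      rw [Matrix.transpose_mul, S.g_symm, S.g_symm]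
    rw [this, S.trace_g_g]
    by_cases h : B = A <;> simp [h]
  have h4 : (2 : ℂ) • ∑ j, ∑ B, ∑ i, ∑ A, S.bil (S.g j * S.g i) B A (D j B i A) =
      (16 : ℂ) • ∑ i, ∑ A, D i A i A := by
    rw [two_smul]
    nth_rewrite 2 [h2]
    simp only [← Finset.sum_add_distrib, ← _root_.add_apply, h3]
    simp only [ite_smul, zero_smul, Finset.smul_sum]
    refine Finset.sum_congr rfl fun i _ => Finset.sum_congr rfl fun A _ => ?_
    rw [Finset.sum_eq_single i, Finset.sum_eq_single A]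
    · simp
    · intro B _ hB; simp [Ne.symm hB]
    · intro h; exact absurd (Finset.mem_univ _) h
    · intro k _ hk
      refine Finset.sum_eq_zero fun B _ => ?_
      simp [Ne.symm hk]
    · intro h; exact absurd (Finset.mem_univ _) h
  rw [h1]
  have h5 := congrArg (fun w => (1 / 2 : ℂ) • w) h4
  simp only [smul_smul] at h5
  norm_num at h5
  exact h5

lemma FF_swap (A : Fin d) (i j : Fin 9) (x : (Cfg d)) : S.FF A i j x = - S.FF A j i x := by
  unfold FF
  rw [← mul_neg, ← Finset.sum_neg_distrib, Finset.sum_comm]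
  congr 1
  refine Finset.sum_congr rfl fun B _ => ?_
  rw [← Finset.sum_neg_distrib]
  refine Finset.sum_congr rfl fun C _ => ?_
  have he : S.f A C B = - S.f A B C := S.f_swap' A B C
  rw [he]
  push_cast
  ring

/-- the matrix `(1/2) F^A_{ij} γ^{ij}` -/
noncomputable def NA (A : Fin d) (x : (Cfg d)) : Matrix (Fin 16) (Fin 16) ℂ :=
  (1 / 2 : ℂ) • ∑ i, ∑ j, ((S.FF A i j x : ℝ) : ℂ) • S.g2 i j

lemma W_eq_NA (b : Fin 16) (x : (Cfg d)) : S.W b x = ∑ A, S.vec (S.NA A x) A b := by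
  simp only [W, NA, S.vec_smul, S.vec_sum, Finset.smul_sum]

lemma NA_transpose (A : Fin d) (x : (Cfg d)) : (S.NA A x).transpose = - S.NA A x := by
  simp only [NA, Matrix.transpose_smul, Matrix.transpose_sum, S.g2_transpose', smul_neg,
    Finset.sum_neg_distrib]

lemma trace_g_NA (j : Fin 9) (A : Fin d) (x : (Cfg d)) : (S.g j * S.NA A x).trace = 0 := by
  simp only [NA, Matrix.mul_smul, Matrix.mul_sum, Matrix.trace_smul, Matrix.trace_sum,
    S.trace_g_g2E, smul_zero, Finset.sum_const_zero]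

lemma first_order (j : Fin 9) (B : Fin d) (x : (Cfg d)) :
    ∑ b, (S.vec (S.g j) B b * S.W b x + S.W b x * S.vec (S.g j) B b) = 0 := by
  have h : ∀ b, S.vec (S.g j) B b * S.W b x + S.W b x * S.vec (S.g j) B b =
      ∑ A, (if B = A then ((S.g j * (S.NA A x).transpose) b b) • (1 : F →L[ℂ] F) else 0) := by
    intro b
    rw [W_eq_NA, Finset.mul_sum, Finset.sum_mul, ← Finset.sum_add_distrib]
    simp only [S.vec_anti]
  simp only [h]
  rw [Finset.sum_comm]
  refine Finset.sum_eq_zero fun A _ => ?_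
  by_cases hA : B = A
  · simp only [hA, if_true, ← Finset.sum_smul]
    have h3 : ∑ b, (S.g j * (S.NA A x).transpose) b b = (S.g j * (S.NA A x).transpose).trace := rfl
    rw [h3, NA_transpose, Matrix.mul_neg, Matrix.trace_neg, S.trace_g_NA]
    simp
  · simp [hA]

lemma trace_NA_NA (A : Fin d) (x : (Cfg d)) :
    (S.NA A x * S.NA A x).trace = ((-8 * ∑ i, ∑ j, (S.FF A i j x) ^ 2 : ℝ) : ℂ) := by
  have h1 : (S.NA A x * S.NA A x).trace = (1 / 4 : ℂ) * ∑ i, ∑ j, ∑ k, ∑ l,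
      ((S.FF A i j x : ℝ) : ℂ) * ((S.FF A k l x : ℝ) : ℂ) * (S.g2 i j * S.g2 k l).trace := by
    simp only [NA, smul_mul_smul_comm, Matrix.trace_smul, Matrix.sum_mul, smul_eq_mul,
      Matrix.trace_sum]
    simp only [Matrix.mul_sum, Matrix.smul_mul, Matrix.mul_smul, Matrix.trace_smul, smul_eq_mul,
      Matrix.trace_sum]
    rw [show (1 / 2 : ℂ) * (1 / 2) = 1 / 4 by norm_num]
    congr 1
    refine Finset.sum_congr rfl fun i _ => Finset.sum_congr rfl fun j _ =>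
      Finset.sum_congr rfl fun k _ => Finset.sum_congr rfl fun l _ => ?_
    ring
  have h2 : ∀ i j, ∑ k, ∑ l,
      ((S.FF A i j x : ℝ) : ℂ) * ((S.FF A k l x : ℝ) : ℂ) * (S.g2 i j * S.g2 k l).trace =
      - 32 * ((S.FF A i j x : ℝ) : ℂ) ^ 2 := by
    intro i j
    simp only [S.trace_g2_g2, mul_sub, Finset.sum_sub_distrib]
    rw [Finset.sum_eq_single j, Finset.sum_eq_single i, Finset.sum_eq_single i,
      Finset.sum_eq_single j]
    · rw [S.FF_swap A j i x]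
      simp only [if_true]
      push_cast
      ring
    · intro l _ hl; simp [Ne.symm hl]
    · intro h; exact absurd (Finset.mem_univ _) h
    · intro k _ hk
      refine Finset.sum_eq_zero fun l _ => ?_
      simp [Ne.symm hk]
    · intro h; exact absurd (Finset.mem_univ _) h
    · intro l _ hl; simp [Ne.symm hl]
    · intro h; exact absurd (Finset.mem_univ _) h
    · intro k _ hk
      refine Finset.sum_eq_zero fun l _ => ?_
      simp [Ne.symm hk]
    · intro h; exact absurd (Finset.mem_univ _) h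
  rw [h1]
  simp only [h2, ← Finset.mul_sum]
  push_cast
  ring

lemma zero_order (x : (Cfg d)) :
    ∑ b, S.W b x * S.W b x = ((16 * S.V x : ℝ) : ℂ) • (1 : F →L[ℂ] F) := by
  have h1 : ∑ b, S.W b x * S.W b x = ∑ A, ∑ B,
        S.bil ((S.NA A x).transpose * S.NA B x) A B := by
    simp only [W_eq_NA, Finset.sum_mul_sum, ← S.sum_vec_mul_vec]
    rw [Finset.sum_comm]
    refine Finset.sum_congr rfl fun A _ => ?_
    rw [Finset.sum_comm]
  have h2 : ∑ A, ∑ B, S.bil ((S.NA A x).transpose * S.NA B x) A B = ∑ A, ∑ B,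
      S.bil ((S.NA B x).transpose * S.NA A x) B A := Finset.sum_comm
  have h3 : ∀ A B, S.bil ((S.NA A x).transpose * S.NA B x) A B +
      S.bil ((S.NA B x).transpose * S.NA A x) B A = if A = B then
        (((8 * ∑ i, ∑ j, (S.FF A i j x) ^ 2 : ℝ) : ℂ)) • (1 : F →L[ℂ] F) else 0 := by
    intro A B
    rw [S.bil_swap ((S.NA A x).transpose * S.NA B x) A B]
    have : ((S.NA A x).transpose * S.NA B x).transpose = (S.NA B x).transpose * S.NA A x := by
      rw [Matrix.transpose_mul, Matrix.transpose_transpose]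
    rw [this]
    by_cases h : A = B
    · subst h
      simp only [if_true, sub_add_cancel]
      rw [S.NA_transpose, Matrix.neg_mul, Matrix.trace_neg, S.trace_NA_NA]
      congr 1
      push_cast
      ring
    · simp [h]
  have h4 : (2 : ℂ) • ∑ A, ∑ B, S.bil ((S.NA A x).transpose * S.NA B x) A B =
      ∑ A, (((8 * ∑ i, ∑ j, (S.FF A i j x) ^ 2 : ℝ) : ℂ)) • (1 : F →L[ℂ] F) := by
    rw [two_smul]
    nth_rewrite 2 [h2]
    simp only [← Finset.sum_add_distrib, h3]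
    simp
  rw [h1]
  have h5 := congrArg (fun w => (1 / 2 : ℂ) • w) h4
  simp only [smul_smul] at h5
  norm_num at h5
  rw [h5, ← Finset.sum_smul, smul_smul]
  congr 1
  simp only [V]
  push_cast
  rw [← Finset.mul_sum]
  ring

lemma ferm_order (x : (Cfg d)) :
    (-Complex.I) • ∑ b, ∑ j, ∑ B, S.vec (S.g j) B b *
      (fderiv ℝ (S.W b) x (EuclideanSpace.single (j, B) (1 : ℝ))) = (16 : ℂ) • S.Fx x := by
  have e1 : ∀ (j : Fin 9) (l : Fin 9) (B A : Fin d), S.bil (S.g j * S.g2 j l) B A =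
      ∑ b, S.vec (S.g j) B b * S.vec (S.g2 j l) A b := by
    intro j l B A
    rw [S.sum_vec_mul_vec, S.g_symm]
  have h1 : ∑ b, ∑ j, ∑ B, S.vec (S.g j) B b *
      (fderiv ℝ (S.W b) x (EuclideanSpace.single (j, B) (1 : ℝ))) =
      ∑ B, ∑ j, (S.κ : ℂ) • ∑ A, ∑ l, ∑ D, ((S.f A B D : ℂ) * (x (l, D) : ℂ)) •
        S.bil (S.g j * S.g2 j l) B A := by
    rw [Finset.sum_comm]
    have : ∀ j, ∑ b, ∑ B, S.vec (S.g j) B b *
        (fderiv ℝ (S.W b) x (EuclideanSpace.single (j, B) (1 : ℝ))) = ∑ B,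
        (S.κ : ℂ) • ∑ A, ∑ l, ∑ D, ((S.f A B D : ℂ) * (x (l, D) : ℂ)) •
        S.bil (S.g j * S.g2 j l) B A := by
      intro j
      rw [Finset.sum_comm]
      refine Finset.sum_congr rfl fun B _ => ?_
      simp only [fderiv_W, mul_smul_comm, ← Finset.smul_sum, Finset.mul_sum]
      congr 1
      rw [Finset.sum_comm]
      refine Finset.sum_congr rfl fun A _ => ?_
      rw [Finset.sum_comm]
      refine Finset.sum_congr rfl fun l _ => ?_
      rw [Finset.sum_comm]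
      refine Finset.sum_congr rfl fun D _ => ?_
      rw [e1, Finset.smul_sum]
    simp only [this]
    rw [Finset.sum_comm]
  have h2 : ∀ B, ∑ j, (S.κ : ℂ) • ∑ A, ∑ l, ∑ D, ((S.f A B D : ℂ) * (x (l, D) : ℂ)) •
        S.bil (S.g j * S.g2 j l) B A = (8 * S.κ : ℂ) • ∑ A, ∑ l, ∑ D,
        ((S.f A B D : ℂ) * (x (l, D) : ℂ)) • S.bil (S.g l) B A := by
    intro B
    rw [← Finset.smul_sum, mul_comm (8 : ℂ), mul_smul]
    congr 1
    rw [Finset.sum_comm, Finset.smul_sum]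
    refine Finset.sum_congr rfl fun A _ => ?_
    rw [Finset.sum_comm, Finset.smul_sum]
    refine Finset.sum_congr rfl fun l _ => ?_
    rw [Finset.sum_comm, Finset.smul_sum]
    refine Finset.sum_congr rfl fun D _ => ?_
    rw [← Finset.smul_sum, ← S.bil_sum, S.sum_g_g2, S.bil_smul, smul_comm]
  rw [h1]
  simp only [h2, ← Finset.smul_sum]
  rw [Fx, smul_smul, smul_smul]
  have h3 : ∑ B, ∑ A, ∑ l, ∑ D, ((S.f A B D : ℂ) * (x (l, D) : ℂ)) • S.bil (S.g l) B A =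
      - ∑ q, ∑ A, ∑ B, ∑ C, ((S.f A B C : ℂ) * (x (q, C) : ℂ)) • S.bil (S.g q) A B := by
    have he : ∀ A B C : Fin d, S.f A B C = - S.f B A C := S.f_swap
    rw [← Finset.sum_neg_distrib]
    calc _ = ∑ B, ∑ l, ∑ A, ∑ D, ((S.f A B D : ℂ) * (x (l, D) : ℂ)) • S.bil (S.g l) B A := by
          refine Finset.sum_congr rfl fun B _ => ?_
          rw [Finset.sum_comm]
      _ = ∑ l, ∑ B, ∑ A, ∑ D, ((S.f A B D : ℂ) * (x (l, D) : ℂ)) • S.bil (S.g l) B A := by
          rw [Finset.sum_comm]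
      _ = _ := by
          refine Finset.sum_congr rfl fun l _ => ?_
          rw [← Finset.sum_neg_distrib]
          refine Finset.sum_congr rfl fun A _ => ?_
          rw [← Finset.sum_neg_distrib]
          refine Finset.sum_congr rfl fun B _ => ?_
          rw [← Finset.sum_neg_distrib]
          refine Finset.sum_congr rfl fun D _ => ?_
          rw [he B A D, ← neg_smul]
          congr 1
          push_cast
          ring
  rw [h3, smul_neg, ← neg_smul]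
  congr 1
  ring

/-- `∑_b Q_b Q_b u = -8 Δ u + 16 V u + 16 F(x) u` -/
theorem sum_QQ {u : (Cfg d) → F} (hu : ContDiff ℝ ∞ u) (x : (Cfg d)) :
    ∑ b, S.Q b (S.Q b u) x = -((8 : ℂ) • ∑ i, ∑ A, pd i A (pd i A u) x) +
      ((16 * S.V x : ℝ) : ℂ) • u x + (16 : ℂ) • S.Fx x (u x) := by
  have h0 : ∀ b, S.Q b (S.Q b u) x =
      -(∑ j, ∑ B, ∑ i, ∑ A, S.vec (S.g j) B b (S.vec (S.g i) A b (pd j B (pd i A u) x)))
      + ((-Complex.I) • ∑ j, ∑ B, S.vec (S.g j) B b *
        (fderiv ℝ (S.W b) x (EuclideanSpace.single (j, B) (1 : ℝ)))) (u x)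
      + (-Complex.I) • ∑ j, ∑ B, (S.vec (S.g j) B b * S.W b x + S.W b x * S.vec (S.g j) B b)
          (pd j B u x)
      + (S.W b x * S.W b x) (u x) := by
    intro b
    conv_lhs => rw [Q]
    simp only [pd_Q S b hu]
    rw [Q]
    simp only [map_add, map_smul, map_sum, Finset.sum_add_distrib, smul_add,
      _root_.smul_apply, _root_.sum_apply, _root_.add_apply, mul_apply_eq_comp,
      ← Finset.smul_sum, smul_smul]
    have hI : (-Complex.I) * (-Complex.I) = -1 := by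
      rw [neg_mul_neg, Complex.I_mul_I]
    rw [hI, neg_one_smul]
    abel
  simp only [h0, Finset.sum_add_distrib, Finset.sum_neg_distrib]
  rw [S.second_order (fun j B i A => pd j B (pd i A u) x)
    (fun i A j B => pd_comm hu i j A B x)]
  have h1 : ∑ b, ((-Complex.I) • ∑ j, ∑ B, S.vec (S.g j) B b *
        (fderiv ℝ (S.W b) x (EuclideanSpace.single (j, B) (1 : ℝ)))) (u x) =
        (16 : ℂ) • S.Fx x (u x) := by
    rw [← _root_.sum_apply, ← Finset.smul_sum, S.ferm_order x]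
    rfl
  have h2 : ∑ b, (-Complex.I) • ∑ j, ∑ B, (S.vec (S.g j) B b * S.W b x +
      S.W b x * S.vec (S.g j) B b) (pd j B u x) = 0 := by
    rw [← Finset.smul_sum, Finset.sum_comm]
    have : ∀ j, ∑ b, ∑ B, (S.vec (S.g j) B b * S.W b x +
      S.W b x * S.vec (S.g j) B b) (pd j B u x) = 0 := by
      intro j
      rw [Finset.sum_comm]
      refine Finset.sum_eq_zero fun B _ => ?_
      rw [← _root_.sum_apply, S.first_order]
      rfl
    simp only [this, Finset.sum_const_zero, smul_zero]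
  have h3 : ∑ b, (S.W b x * S.W b x) (u x) = ((16 * S.V x : ℝ) : ℂ) • u x := by
    rw [← _root_.sum_apply, S.zero_order]
    rfl
  rw [h1, h2, h3]
  abel

end Setup

lemma re_inner_self (v : F) : (inner ℂ v v).re = ‖v‖ ^ 2 := by
  rw [inner_self_eq_norm_sq_to_K]
  norm_cast

lemma contDiff_V (S : Setup d F) : ContDiff ℝ ∞ S.V := by
  unfold Setup.V
  refine contDiff_const.mul (ContDiff.sum fun A _ => ContDiff.sum fun i _ =>
    ContDiff.sum fun j _ => (S.contDiff_FF A i j).pow 2)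

lemma contDiff_Fx (S : Setup d F) : ContDiff ℝ ∞ S.Fx := by
  unfold Setup.Fx
  refine ContDiff.const_smul _ (ContDiff.sum fun q _ => ContDiff.sum fun A _ =>
    ContDiff.sum fun B _ => ContDiff.sum fun C _ => ?_)
  exact (contDiff_const.mul (Setup.contDiff_ofReal (Setup.contDiff_coord _))).smul contDiff_const

theorem energy_formula (S : Setup d F) (u : (Cfg d) → F) (hu : Setup.Tst u) :
    (1 / 16 : ℝ) * ∑ β, ∫ x, ‖S.Q β u x‖ ^ 2 =
      (1 / 2) * (∑ i, ∑ A, ∫ x, ‖pd i A u x‖ ^ 2) + (∫ x, S.V x * ‖u x‖ ^ 2)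
        + (∫ x, (inner ℂ (u x) (S.Fx x (u x))).re) := by
  have hI : ∀ v : (Cfg d) → F, Setup.Tst v → ((∫ x, ‖v x‖ ^ 2 : ℝ) : ℂ) = ∫ x, inner ℂ (v x) (v x) := by
    intro v _
    rw [← integral_complex_ofReal]
    congr 1
    ext x
    rw [inner_self_eq_norm_sq_to_K]
    norm_cast
  have h1 : (((1 / 16 : ℝ) * ∑ β, ∫ x, ‖S.Q β u x‖ ^ 2 : ℝ) : ℂ) =
      (1 / 16 : ℂ) * ∫ x, inner ℂ (u x) (∑ b, S.Q b (S.Q b u) x) := by
    push_cast
    congr 1
    simp only [inner_sum]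
    rw [integral_finsetSum]
    · refine Finset.sum_congr rfl fun b _ => ?_
      have := hI _ (hu.Q S b)
      rw [this, Q_symm S b u _ hu (S.contDiff_Q b hu.1)]
    · intro b _
      exact hu.inner_int (S.contDiff_Q b (S.contDiff_Q b hu.1)).continuous
  have hc1 : Continuous (fun x => S.V x) := (contDiff_V S).continuous
  have hF : Setup.Tst (fun x => S.Fx x (u x)) := hu.clm (contDiff_Fx S)
  have h2 : ∀ x, inner ℂ (u x) (∑ b, S.Q b (S.Q b u) x) =
      -(8 : ℂ) * ∑ i, ∑ A, inner ℂ (u x) (pd i A (pd i A u) x) +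
      (16 : ℂ) * ((S.V x * ‖u x‖ ^ 2 : ℝ) : ℂ) + (16 : ℂ) * inner ℂ (u x) (S.Fx x (u x)) := by
    intro x
    rw [S.sum_QQ hu.1, inner_add_right, inner_add_right, inner_neg_right, inner_smul_right,
      inner_smul_right, inner_smul_right]
    simp only [inner_sum, inner_self_eq_norm_sq_to_K]
    push_cast
    simp only [Complex.coe_algebraMap]
    ring
  have h3 : (∫ x, inner ℂ (u x) (∑ b, S.Q b (S.Q b u) x)) =
      (8 : ℂ) * ∑ i, ∑ A, ((∫ x, ‖pd i A u x‖ ^ 2 : ℝ) : ℂ) +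
      (16 : ℂ) * ((∫ x, S.V x * ‖u x‖ ^ 2 : ℝ) : ℂ) +
      (16 : ℂ) * ∫ x, inner ℂ (u x) (S.Fx x (u x)) := by
    simp only [h2]
    have i1 : ∀ i A, Integrable (fun x => inner ℂ (u x) (pd i A (pd i A u) x)) := fun i A =>
      hu.inner_int (contDiff_pd (contDiff_pd hu.1)).continuous
    have i1' : Integrable (fun x => -(8 : ℂ) * ∑ i, ∑ A, inner ℂ (u x) (pd i A (pd i A u) x)) :=
      (integrable_finsetSum _ fun i _ => integrable_finsetSum _ fun A _ => i1 i A).const_mul _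
    have i2 : Integrable (fun x => (16 : ℂ) * ((S.V x * ‖u x‖ ^ 2 : ℝ) : ℂ)) :=
      (hu.mul_norm_sq_int hc1).ofReal.const_mul _
    have i3 : Integrable (fun x => (16 : ℂ) * inner ℂ (u x) (S.Fx x (u x))) :=
      (hu.inner_int hF.1.continuous).const_mul _
    have i12 : Integrable (fun x => -(8 : ℂ) * ∑ i, ∑ A, inner ℂ (u x) (pd i A (pd i A u) x) +
        (16 : ℂ) * ((S.V x * ‖u x‖ ^ 2 : ℝ) : ℂ)) := i1'.add i2
    rw [integral_add i12 i3, integral_add i1' i2, integral_const_mul, integral_const_mul,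
      integral_const_mul, integral_complex_ofReal]
    congr 2
    rw [integral_finsetSum _ fun i _ => integrable_finsetSum _ fun A _ => i1 i A, neg_mul,
      ← mul_neg, ← Finset.sum_neg_distrib]
    congr 1
    refine Finset.sum_congr rfl fun i _ => ?_
    rw [integral_finsetSum _ fun A _ => i1 i A, ← Finset.sum_neg_distrib]
    refine Finset.sum_congr rfl fun A _ => ?_
    rw [← integral_inner_pd u (pd i A u) (hu.1.of_le (by simp)) ((contDiff_pd hu.1).of_le (by simp))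
      hu.2 i A, hI _ (hu.pd i A)]
  have h4 := h1.trans (congrArg (fun z => (1 / 16 : ℂ) * z) h3)
  have h5 := congrArg Complex.re h4
  have h6 : (∫ x, inner ℂ (u x) (S.Fx x (u x))).re = ∫ x, (inner ℂ (u x) (S.Fx x (u x))).re := by
    have := integral_re (hu.inner_int hF.1.continuous)
    exact this.symm
  rw [Complex.ofReal_re] at h5
  rw [h5, ← h6]
  simp only [Complex.mul_re, Complex.add_re, Complex.add_im, Complex.mul_im, Complex.ofReal_re,
    Complex.ofReal_im, ← Complex.ofReal_sum]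
  norm_num [Complex.div_re, Complex.div_im]
  ring

end Vale.Agent.P353.Z
end

section

/-! # P353, uniqueness for general `N`: statements of part A (algebra)

Every `…Stmt` is a proposition; a prover delivers `theorem … : …Stmt …` in a file of its own. -/

open MeasureTheory Filter Topology
open scoped ContDiff

namespace Vale.Agent.P353.Z.U

variable {d : ℕ}

variable {F : Type*} [NormedAddCommGroup F] [InnerProductSpace ℂ F]

/-- **A-F10** (ten dimensional Fierz identity)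
`∑_i (γ^i_{αβ} γ^i_{γδ} + γ^i_{βγ} γ^i_{αδ} + γ^i_{γα} γ^i_{βδ}) = δ_{αβ}δ_{γδ} + δ_{βγ}δ_{αδ} + δ_{γα}δ_{βδ}`.
PROOF (norm trick). All entries are real, let `T_{αβγδ}` = LHS - RHS; show `∑ T² = 0`.
With `E_{αβγδ} = ∑_i γ^i_{αβ}γ^i_{γδ} - δ_{αβ}δ_{γδ}`, `T = E_{αβγδ}+E_{βγαδ}+E_{γααβ…}` (cyclic in
`αβγ`), so `∑T² = 3 ∑ E_{αβγδ}² + 6 ∑ E_{αβγδ}E_{βγαδ}`.  `∑E² = ∑_{ij} (tr γ^iγ^j)² - 0 + 256`
`= 9·256 + 256 - 2·∑_i (tr γ^i)² = 2560`, using `tr γ^i = 0`, and
`∑E_{αβγδ}E_{βγαδ} = ∑_{ij} tr(γ^iγ^jγ^iγ^j)-type contractions = tr ∑_{ij} γ^iγ^jγ^iγ^j - 2 ∑_i tr(γ^iγ^i) + 16`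
`= 16(9 - 72) - 2·144 + 16 = -1280`. Sum: `3·2560 - 6·1280 = 0`. -/
def F10Stmt (S : Setup d F) : Prop := ∀ α β γ δ : Fin 16,
  ∑ i, (S.g i α β * S.g i γ δ + S.g i β γ * S.g i α δ + S.g i γ α * S.g i β δ) =
    (if α = β ∧ γ = δ then 1 else 0) + (if β = γ ∧ α = δ then 1 else 0) +
      (if γ = α ∧ β = δ then 1 else 0)

/-- **A-FBMN** (the Fierz identity behind the BMN deformation), verified numerically:
`-i ∑_{i,A} a_i [(γ^iθ^A)_α (γ^iΓθ^A)_β + (γ^iθ^A)_β (γ^iΓθ^A)_α]`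
`   = ∑_{ij} rc_{ij} (Γγ^{ij})_{αβ} S_{ij} - (3/2) δ_{αβ} iθΓθ`.
PROOF. Both sides are `∑_A θ^A K θ^A`-type (`K` = 16×16 matrix depending on `α,β`) plus a scalar:
LHS `= -i∑ a_i ∑_{γδ} (γ^i_{αγ}(γ^iΓ)_{βδ} + (α↔β)) θ_γθ_δ`, RHS = `∑_{ij} rc_{ij}(Γγ^{ij})_{αβ}(-i/4)(γ^{ij})_{γδ}θ_γθ_δ
 - (3/2)δ_{αβ} i Γ_{γδ}θ_γθ_δ`.
The scalar part vanishes since `∑_i a_i (γ^i (γ^iΓ)ᵀ)_{αβ} + sym = -∑a_i(γ^iΓγ^i) + sym` is symmetric part of
an antisymmetric matrix (`γ^iΓγ^i = ±Γ`), i.e. `0`. The antisymmetric (in `γδ`) part of the coefficient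
gives the identity of c-numbers
`(1/2)∑_i a_i[γ^i_{αγ}(γ^iΓ)_{βδ} - γ^i_{αδ}(γ^iΓ)_{βγ} + (α↔β)] = (1/4)∑ rc_{ij}(Γγ^{ij})_{αβ}(γ^{ij})_{γδ}·… + (3/2)δ_{αβ}Γ_{γδ}`
(multiply out the factor `-i`). It can be derived from **A-F10** by multiplication with `Γ` on some
indices, or by the norm trick: the sum over all indices of the square of the difference is a
combination of traces of products of gamma matrices and equals `0`; or use completeness: contract
both sides in `γδ` with `Γ`, `γ^{kl}`, `Γγ^k`, … (the antisymmetric 16×16 matrices are spanned by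
`γ^{kl}` (36) and `γ^{klm}` (84)). Any rigorous method is fine, e.g. an explicit proof on a concrete
representation is NOT enough unless unitary equivalence of representations is also proved. -/
def FBmnStmt (S : Setup d F) : Prop := ∀ α β : Fin 16,
  (-Complex.I) • ∑ i, ∑ A, (aw i : ℂ) •
      (S.vec (S.g i) A α * S.vec (S.g i * S.Gam) A β +
        S.vec (S.g i) A β * S.vec (S.g i * S.Gam) A α) =
    (∑ i, ∑ j, ((rc i j : ℂ) * (S.Gam * S.g2 i j) α β) • S.Skl i j) -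
      (if α = β then (3 / 2 : ℂ) • S.FG else 0)

/-- **A1a** the anticommutator of the undeformed supercharges, for all `α, β`:
`Q_αQ_β u + Q_βQ_α u = 2 δ_{αβ} H_0 u + 2κ ∑_{j,C} γ^j_{αβ} x_j^C G_C u`, where `H_0 = Hm 0`.
PROOF. second order: `-{(γ^iθ^A)_α,(γ^jθ^B)_β}∂∂ = -δ_{αβ}Δ` (symmetrise in `(i,A),(j,B)`).
First order: `-i({(γ^iθ^A)_α, W_β} + {(γ^iθ^A)_β, W_α})∂_i^A` with
`{(γ^iθ^A)_α,(γ^{jk}θ^B)_β} = δ_{AB}(γ^i(γ^{jk})ᵀ)_{αβ} = -δ_{AB}(γ^iγ^{jk})_{αβ}`; symmetrised in `α,β`: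
`-(γ^iγ^{jk} - γ^{jk}γ^i) = -2(δ_{ij}γ^k - δ_{ik}γ^j)`; this is the orbital part of `2κγ^jx_jG`.
Zero order from `∂W`: `-i(γ^iθ^A)_α(∂_i^AW_β) + (α↔β)`, `∂_j^B W_β = κ ε_{ABD} x_l^D (γ^{jl}θ^A)_β`
(`fderiv_W`); by **A-F10** it equals `2δ_{αβ}F(x) + 2κγ^j_{αβ}x_j^C 𝒮_C`.
`{W_α,W_β} = ½·F^A_{ij}F^A_{kl}(γ^{ij}(γ^{kl})ᵀ)-symmetrised = 2δ_{αβ}V` (the 4-form part
vanishes by the Jacobi identity `ε_{ABC}ε_{ADE}`-type and the antisymmetry, as in the landed
`Energy.lean` for the sum over `α=β`). -/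
def A1aStmt (S : Setup d F) : Prop := ∀ (α β : Fin 16) (u : (Cfg d) → F), ContDiff ℝ ∞ u → ∀ x,
  S.Q α (S.Q β u) x + S.Q β (S.Q α u) x = (if α = β then (2 : ℂ) • S.Hm 0 u x else 0) +
    (2 * S.κ : ℂ) • ∑ j, ∑ C, (S.g j α β * (x (j, C) : ℂ)) • S.G C u x

/-- **A1b** the part linear in `m`:
`Q_α(M_βu) + M_αQ_βu + Q_β(M_αu) + M_βQ_αu = ∑_{ij} rc_{ij}(Γγ^{ij})_{αβ}J_{ij}u`
`  + 2δ_{αβ}(6κ det3 - (3/4) iθΓθ) u`.
PROOF. First order: `-i∑ ({(γ^iθ^A)_α,(γ^jΓθ^A)_β} a_j x_j^A ∂_i^A + (α↔β))`,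
`{(γ^iθ^A)_α,(γ^jΓθ^A)_β} = (γ^iΓᵀγ^j)_{αβ} = -(γ^iΓγ^j)_{αβ}`, symmetrised: `-(γ^iΓγ^j)+…`: for
`i,j` in the same block `-(γ^iΓγ^j) - (γ^iΓγ^j)ᵀ = -γ^iΓγ^j + γ^jΓγ^i = ∓2Γγ^{ij}`, for different
blocks it is `0` (then `γ^iΓγ^j` is antisymmetric up to sign: check).  Orbital part of the
`J_{ij}`. `-i(γ^iθ^A)_α(∂_i^AM_β) + sym`: **A-FBMN** (Note `∂_i^A M_β = a_i(γ^iΓθ^A)_β`.)
Zero order `{W_α,M_β}+{W_β,M_α}`: `½F^A_{ij}a_kx_k^A[(γ^{ij}(γ^kΓ)ᵀ) + sym]`; for `i,j,k ∈ I3` all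
different it gives `2δ_{αβ}·6κ det3`-part, all other parts vanish: the terms with `k=i` by
antisymmetry/`x_i·(x_i×x_j)=0`, the totally antisymmetric mixed parts because `ε_{ABC}x_i^Ax_j^Bx_k^C` is
totally antisymmetric and `a_k` is summed over the three positions with signs: for one index in
`I3`, two in `I6`: coefficient `a_{I3} - 2a_{I6} = 0`; two in `I3`, one in `I6`: symmetrised matrix vanishes
or cancels similarly (`(γ^{ij}Γγ^k)` symmetric part), three in `I6`: the symmetrised matrix vanishes. -/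
def A1bStmt (S : Setup d F) : Prop := ∀ (α β : Fin 16) (u : (Cfg d) → F), ContDiff ℝ ∞ u → ∀ x,
  S.Q α (fun y => S.MM β y (u y)) x + S.MM α x (S.Q β u x) +
    S.Q β (fun y => S.MM α y (u y)) x + S.MM β x (S.Q α u x) =
  (∑ i, ∑ j, ((rc i j : ℂ) * (S.Gam * S.g2 i j) α β) • S.J i j u x) +
    (if α = β then (2 : ℂ) • (((6 * S.κ * S.det3 x : ℝ) : ℂ) • u x - (3 / 4 : ℂ) • S.FG (u x)) else 0)

/-- **A1** the full anticommutator
`Q_αQ_β + Q_βQ_α = 2δ_{αβ}H_m + m∑ rc_{ij}(Γγ^{ij})_{αβ}J_{ij} + 2κ∑γ^j_{αβ}x_j^CG_C` for `Q = Qm m`.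
PROOF: A1a + m A1b + m²{M_α,M_β}, `{M_α,M_β} = δ_{αβ}∑(a_ix_i^A)²` (from `CS.vec_anti`, `Γ² = -1`,
`Γᵀ = -Γ`). -/
def A1Stmt (S : Setup d F) : Prop := ∀ (m : ℝ) (α β : Fin 16) (u : (Cfg d) → F), ContDiff ℝ ∞ u → ∀ x,
  S.Qm m α (S.Qm m β u) x + S.Qm m β (S.Qm m α u) x =
    (if α = β then (2 : ℂ) • S.Hm m u x else 0) +
    (m : ℂ) • (∑ i, ∑ j, ((rc i j : ℂ) * (S.Gam * S.g2 i j) α β) • S.J i j u x) +
    (2 * S.κ : ℂ) • ∑ j, ∑ C, (S.g j α β * (x (j, C) : ℂ)) • S.G C u x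

/-- **A2** `[J_kl, Q_α] = (i/2)(γ^{kl}Q)_α` for `k,l` in the same block. -/
def A2Stmt (S : Setup d F) : Prop := ∀ (m : ℝ) (k l : Fin 9), Same k l → ∀ (α : Fin 16) (u : (Cfg d) → F),
  ContDiff ℝ ∞ u → ∀ x, S.J k l (S.Qm m α u) x - S.Qm m α (S.J k l u) x =
    (Complex.I / 2) • ∑ β, S.g2 k l α β • S.Qm m β u x

/-- **A3** `[G_C, Q_α] = 0` -/
def A3Stmt (S : Setup d F) : Prop := ∀ (m : ℝ) (C : Fin d) (α : Fin 16) (u : (Cfg d) → F),
  ContDiff ℝ ∞ u → ∀ x, S.G C (S.Qm m α u) x = S.Qm m α (S.G C u) x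

/-- **A4** `[H_m, Q_α] = -(im/2)(ΓQ)_α - iκ∑_C θ_α^C G_C`.
PROOF from A1–A3: `16H = ∑_β Q_β²` (A1 with `α=β` summed: `tr(Γγ^{ij}) = 0`, `tr γ^j = 0`), so
`16[H,Q_γ] = ∑_β [Q_β, {Q_β,Q_γ}] = 2[Q_γ,H] + ∑_β [Q_β, m∑rc(Γγ^{ij})_{βγ}J_{ij} + 2κ∑γ^j_{βγ}x_j^CG_C]`,
hence `18[H,Q_γ] = …`; `∑_β(Γγ^{ij})_{βγ}[Q_β,J_{ij}] = -(i/2)((Γγ^{ij})ᵀγ^{ij}Q)_γ = -(i/2)(γ^{ij}Γγ^{ij}Q)_γ`
`= (i/2)(ΓQ)_γ` for `i≠j` in one block; total `(i/2)m(6·2 - 30)(ΓQ)_γ = -9im(ΓQ)_γ`;
`[Q_β, x_j^C] = -i(γ^jθ^C)_β`, `∑_βγ^j_{βγ}(γ^jθ^C)_β` summed over `j` `= 9θ_γ^C`, giving `-18iκθ^C_γG_C`. -/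
def A4Stmt (S : Setup d F) : Prop := ∀ (m : ℝ) (α : Fin 16) (u : (Cfg d) → F), ContDiff ℝ ∞ u → ∀ x,
  S.Hm m (S.Qm m α u) x - S.Qm m α (S.Hm m u) x =
    (-(Complex.I * m / 2)) • (∑ β, S.Gam α β • S.Qm m β u x)
      - (Complex.I * S.κ) • ∑ C, S.th α C (S.G C u x)

/-- **A5** spinors for the gap argument: there are `ζ, η ∈ ℂ^16`, `ζ ≠ 0`, `η ≠ 0`, with `iΓζ = ζ`, `iΓη = η`,
`⟨η,ζ⟩ = 0`, `∑_{kl} rc_{kl} (ζ†Γγ^{kl}ζ) (-i/2) γ^{kl}η = -5 |ζ|² η`.
PROOF. The matrices `iΓ`, `iγ^{12}` (indices `1,2 ∈ I3`), `iγ^{34}, iγ^{56}, iγ^{78}` commute, are Hermitian with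
square `1`. (0-based indices: `I3 = {0,1,2}`.) Take a joint eigenvector `ζ` with `iΓζ = ζ` (exists:
`iΓ ≠ -1` since it is traceless, then diagonalise the others), eigenvalues `s_0,…,s_3 = ±1`. Then
`ζ†Γγ^{kl}ζ = -iζ†γ^{kl}ζ` vanishes unless `{k,l}` is one of the four planes (the other `γ^{kl}`
anticommute with one of the four matrices). Put `η = γ^{01}ζ` or `γ^{02}ζ` (which anticommutes with
`iγ^{12}` and commutes with the rest); then `iΓη = η`, `⟨η,ζ⟩=0`, and the sum is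
`∑_{planes} 2 rc (−i)(−i s_p)(−i/2)… η` with `iγ^{12}η = -s_0η`, `iγ^{p}η = s_pη`:
contributions: plane `12`: `-2`, planes in `I6`: `-1` each — total `-5` (verified numerically). -/
def A5Stmt (S : Setup d F) : Prop := ∃ ζ η : Fin 16 → ℂ, ζ ≠ 0 ∧ η ≠ 0 ∧
  (∀ α, Complex.I * ∑ β, S.Gam α β * ζ β = ζ α) ∧ (∀ α, Complex.I * ∑ β, S.Gam α β * η β = η α) ∧
  ∑ α, (starRingEnd ℂ) (η α) * ζ α = 0 ∧
  ∀ α, ∑ k, ∑ l, (rc k l : ℂ) * (∑ β, ∑ γ, (starRingEnd ℂ) (ζ β) * (S.Gam * S.g2 k l) β γ * ζ γ) *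
    (-Complex.I / 2) * (∑ β, S.g2 k l α β * η β) =
      -5 * (∑ β, (starRingEnd ℂ) (ζ β) * ζ β) * η α

/-- **A6** energy formula. For test functions
`∑_β‖Q_βu‖² = 8∑‖∂_i^Au‖² + 16∫V_m|u|² + 16 Re∫⟨u,F(x)u⟩ - 12m Re∫⟨u,iθΓθ u⟩`.
PROOF: integrate by parts (`Ana.lean`), `∑_β‖Q_βu‖² = ∑_β⟨u,Q_βQ_βu⟩`, use A1 with `α=β`, or directly:
`∑_β Q_β² = 16 H_m` only needs the diagonal computations (landed for `m=0` in `Energy.lean`). -/
def A6Stmt (S : Setup d F) : Prop := ∀ (m : ℝ) (u : (Cfg d) → F), Setup.Tst u →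
  ∑ β, nsq (S.Qm m β u) = 8 * ∑ i, ∑ A, nsq (pd i A u) + 16 * (∫ x, S.Vm m x * ‖u x‖ ^ 2) +
    16 * (∫ x, inner ℂ (u x) (S.Fx x (u x))).re - 12 * m * (∫ x, inner ℂ (u x) (S.FG (u x))).re

/-- **A7** `∑_β Q_βQ_β = 16 H_m` pointwise on smooth functions. -/
def A7Stmt (S : Setup d F) : Prop := ∀ (m : ℝ) (u : (Cfg d) → F), ContDiff ℝ ∞ u → ∀ x,
  ∑ β, S.Qm m β (S.Qm m β u) x = (16 : ℂ) • S.Hm m u x

/-- **A8** free energy: `∑_β‖Q0_βu‖² = 8∑‖∂_i^Au‖²` -/
def A8Stmt (S : Setup d F) : Prop := ∀ (u : (Cfg d) → F), Setup.Tst u →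
  ∑ β, nsq (S.Q0 β u) = 8 * ∑ i, ∑ A, nsq (pd i A u)

end Vale.Agent.P353.Z.U
end

section

/-! # P353, general `N`: statement A1b (the part of the anticommutator linear in `m`) -/

open MeasureTheory Filter Topology
open scoped ContDiff Matrix

namespace Vale.Agent.P353.Z.U

variable {dc : ℕ}

variable {F : Type*} [NormedAddCommGroup F] [InnerProductSpace ℂ F]

namespace A1b

/-- sign: `γ^i Γ = sg i • Γ γ^i` -/
noncomputable def sg (i : Fin 9) : ℂ := if i.val < 3 then 1 else -1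

/-- `t_{ijk} = det (x_i, x_j, x_k)` -/
noncomputable def tt (S : Setup dc F) (x : (Cfg dc)) (i j k : Fin 9) : ℝ :=
  ∑ A, ∑ B, ∑ C, (S.f A B C) * x (i, A) * x (j, B) * x (k, C)

lemma tt_swap12 (S : Setup dc F) (x : (Cfg dc)) (i j k : Fin 9) : tt S x j i k = -tt S x i j k := by
  unfold tt
  rw [Finset.sum_comm, ← Finset.sum_neg_distrib]
  refine Finset.sum_congr rfl fun A _ => ?_
  rw [← Finset.sum_neg_distrib]
  refine Finset.sum_congr rfl fun B _ => ?_
  rw [← Finset.sum_neg_distrib]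
  refine Finset.sum_congr rfl fun C _ => ?_
  have he : S.f B A C = -S.f A B C := S.f_swap B A C
  rw [he]; ring

lemma tt_swap23 (S : Setup dc F) (x : (Cfg dc)) (i j k : Fin 9) : tt S x i k j = -tt S x i j k := by
  unfold tt
  rw [← Finset.sum_neg_distrib]
  refine Finset.sum_congr rfl fun A _ => ?_
  rw [Finset.sum_comm, ← Finset.sum_neg_distrib]
  refine Finset.sum_congr rfl fun B _ => ?_
  rw [← Finset.sum_neg_distrib]
  refine Finset.sum_congr rfl fun C _ => ?_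
  have he : S.f A C B = -S.f A B C := S.f_swap' A B C
  rw [he]; ring

lemma tt_12 (S : Setup dc F) (x : (Cfg dc)) (i k : Fin 9) : tt S x i i k = 0 := by
  have := tt_swap12 S x i i k
  linarith

lemma tt_23 (S : Setup dc F) (x : (Cfg dc)) (i k : Fin 9) : tt S x i k k = 0 := by
  have := tt_swap23 S x i k k
  linarith

lemma tt_13 (S : Setup dc F) (x : (Cfg dc)) (i k : Fin 9) : tt S x i k i = 0 := by
  have h1 := tt_swap12 S x i k i
  have h2 := tt_23 S x k i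
  rw [h2] at h1
  linarith

lemma tt_FF (S : Setup dc F) (x : (Cfg dc)) (i j k : Fin 9) :
    ∑ A, S.FF A i j x * x (k, A) = S.κ * tt S x i j k := by
  have h : tt S x i j k = tt S x k i j := by
    rw [tt_swap12 S x i k j, tt_swap23 S x i j k, neg_neg]
  rw [h]
  unfold tt Setup.FF
  rw [Finset.mul_sum]
  refine Finset.sum_congr rfl fun A _ => ?_
  rw [mul_assoc, Finset.sum_mul]
  congr 1
  refine Finset.sum_congr rfl fun B _ => ?_
  rw [Finset.sum_mul]
  refine Finset.sum_congr rfl fun C _ => ?_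
  ring

lemma tt_det3 (S : Setup dc F) (x : (Cfg dc)) : tt S x 0 1 2 = S.det3 x := rfl

variable (S : Setup dc F)

lemma g_Gam (i : Fin 9) : S.g i * S.Gam = sg i • (S.Gam * S.g i) := by
  unfold sg
  split_ifs with h
  · rw [S.g_Gam_comm h, one_smul]
  · rw [S.g_Gam_anti (by omega), neg_smul, one_smul]

/-- matrix identity for the first order terms -/
lemma first_mat (i j : Fin 9) :
    (aw j : ℂ) • (S.g i * S.Gam * S.g j - S.g j * S.Gam * S.g i) =
      (2 * (rc i j : ℂ)) • (S.Gam * S.g2 i j) := by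
  rw [g_Gam S i, g_Gam S j, Matrix.smul_mul, Matrix.smul_mul, mul_assoc, mul_assoc]
  unfold sg aw rc CS.g2
  by_cases hi : i.val < 3 <;> by_cases hj : j.val < 3
  · rw [if_pos hi, if_pos hj, if_pos hj, if_pos ⟨hi, hj⟩, one_smul, one_smul, Matrix.mul_smul,
      smul_smul, mul_sub]
    congr 1
    norm_num
  · have hne : i ≠ j := by rintro rfl; exact hj hi
    have h1 : ¬ (3 ≤ i.val ∧ 3 ≤ j.val) := by omega
    rw [if_pos hi, if_neg hj, if_neg hj, if_neg (by tauto), if_neg h1, S.g_ac hne]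
    simp
  · have hne : i ≠ j := by rintro rfl; exact hi hj
    have h1 : ¬ (3 ≤ i.val ∧ 3 ≤ j.val) := by omega
    rw [if_neg hi, if_pos hj, if_pos hj, if_neg (by tauto), if_neg h1, S.g_ac hne]
    simp
  · have h1 : (3 ≤ i.val ∧ 3 ≤ j.val) := by omega
    rw [if_neg hi, if_neg hj, if_neg hj, if_neg (by tauto), if_pos h1, Matrix.mul_smul,
      smul_smul, mul_sub]
    rw [← smul_sub, smul_smul]
    congr 1
    norm_num

/-- `t_{ijk} γ^i γ^j γ^k` -/
noncomputable def PP (x : (Cfg dc)) (i j k : Fin 9) : Matrix (Fin 16) (Fin 16) ℂ :=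
  ((tt S x i j k : ℝ) : ℂ) • (S.g i * S.g j * S.g k)

lemma PP_swap12 (x : (Cfg dc)) (i j k : Fin 9) : PP S x j i k = PP S x i j k := by
  unfold PP
  by_cases h : i = j
  · subst h; rfl
  · rw [tt_swap12, S.g_ac h]
    simp

lemma PP_swap23 (x : (Cfg dc)) (i j k : Fin 9) : PP S x i k j = PP S x i j k := by
  unfold PP
  by_cases h : j = k
  · subst h; rfl
  · rw [tt_swap23, mul_assoc, mul_assoc, S.g_ac h]
    simp

lemma PP_cyc (x : (Cfg dc)) (i j k : Fin 9) : PP S x j k i = PP S x i j k := by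
  rw [← PP_swap23 S x j k i, PP_swap12]

lemma PP_12 (x : (Cfg dc)) (i k : Fin 9) : PP S x i i k = 0 := by
  unfold PP; rw [tt_12]; simp

lemma PP_23 (x : (Cfg dc)) (i k : Fin 9) : PP S x i k k = 0 := by
  unfold PP; rw [tt_23]; simp

lemma PP_13 (x : (Cfg dc)) (i k : Fin 9) : PP S x i k i = 0 := by
  unfold PP; rw [tt_13]; simp

lemma term_eq (x : (Cfg dc)) (i j k : Fin 9) :
    ((tt S x i j k : ℝ) : ℂ) • (S.g2 i j * S.Gam * S.g k + S.g k * S.Gam * S.g2 i j) =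
      (sg i * sg j + sg k) • (S.Gam * PP S x i j k) := by
  by_cases hij : i = j
  · subst hij; rw [PP_12, tt_12]; simp
  by_cases hjk : j = k
  · subst hjk; rw [PP_23, tt_23]; simp
  by_cases hik : i = k
  · subst hik; rw [PP_13, tt_13]; simp
  have h2 : S.g2 i j = S.g i * S.g j := by rw [CS.g2_eq, if_neg hij]; simp
  have e1 : S.g2 i j * S.Gam * S.g k = (sg i * sg j) • (S.Gam * (S.g i * S.g j * S.g k)) := by
    rw [h2, mul_assoc (S.g i), g_Gam S j, Matrix.mul_smul, ← mul_assoc (S.g i), g_Gam S i]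
    simp only [Matrix.smul_mul, smul_smul, mul_assoc]
    rw [mul_comm (sg j)]
  have e2 : S.g k * S.Gam * S.g2 i j = sg k • (S.Gam * (S.g i * S.g j * S.g k)) := by
    rw [h2, g_Gam S k, Matrix.smul_mul]
    congr 1
    rw [mul_assoc, ← mul_assoc (S.g k), S.g_ac (Ne.symm hik), neg_mul, mul_assoc (S.g i),
      S.g_ac (Ne.symm hjk)]
    simp only [mul_neg, neg_neg, mul_assoc]
  rw [e1, e2, ← add_smul, smul_comm]
  congr 1
  unfold PP
  rw [Matrix.mul_smul]

lemma sum3 {M : Type*} [AddCommMonoid M] (f : Fin 9 → M) :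
    ∑ i : Fin 9, (if i.val < 3 then f i else 0) = f 0 + f 1 + f 2 := by
  rw [Fin.sum_univ_castSucc, Fin.sum_univ_castSucc, Fin.sum_univ_castSucc, Fin.sum_univ_castSucc,
    Fin.sum_univ_castSucc, Fin.sum_univ_castSucc, Fin.sum_univ_three]
  simp [Fin.last]

/-- the weight of `P_{ijk}` after symmetrisation -/
lemma weight (i j k : Fin 9) :
    (aw k : ℂ) * (sg i * sg j + sg k) + (aw i : ℂ) * (sg j * sg k + sg i) +
      (aw j : ℂ) * (sg k * sg i + sg j) =
      12 * ((if i.val < 3 then 1 else 0) * (if j.val < 3 then 1 else 0) *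
        (if k.val < 3 then 1 else 0)) := by
  unfold aw sg
  by_cases hi : i.val < 3 <;> by_cases hj : j.val < 3 <;> by_cases hk : k.val < 3 <;>
    simp only [hi, hj, hk, if_true, if_false] <;> push_cast <;> norm_num

/-- cyclic relabelling of a triple sum -/
lemma sum_cyc {M : Type*} [AddCommMonoid M] (f : Fin 9 → Fin 9 → Fin 9 → M) :
    ∑ i, ∑ j, ∑ k, f j k i = ∑ i, ∑ j, ∑ k, f i j k := by
  calc ∑ i, ∑ j, ∑ k, f j k i = ∑ j, ∑ i, ∑ k, f j k i := Finset.sum_comm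
    _ = ∑ j, ∑ k, ∑ i, f j k i := Finset.sum_congr rfl fun j _ => Finset.sum_comm

lemma sum_PP (x : (Cfg dc)) :
    ∑ i : Fin 9, ∑ j : Fin 9, ∑ k : Fin 9,
      (((if i.val < 3 then 1 else 0) * (if j.val < 3 then 1 else 0) *
        (if k.val < 3 then 1 else 0) : ℂ)) • PP S x i j k = (6 : ℂ) • PP S x 0 1 2 := by
  have h1 : ∀ i j k : Fin 9, (((if i.val < 3 then 1 else 0) * (if j.val < 3 then 1 else 0) *
        (if k.val < 3 then 1 else 0) : ℂ)) • PP S x i j k =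
        if i.val < 3 then (if j.val < 3 then (if k.val < 3 then PP S x i j k else 0) else 0)
        else 0 := by
    intro i j k
    by_cases hi : i.val < 3 <;> by_cases hj : j.val < 3 <;> by_cases hk : k.val < 3 <;>
      simp [hi, hj, hk]
  simp only [h1]
  have h2 : ∀ i j : Fin 9, ∑ k : Fin 9, (if i.val < 3 then (if j.val < 3 then
      (if k.val < 3 then PP S x i j k else 0) else 0) else 0) =
      if i.val < 3 then (if j.val < 3 then
        (PP S x i j 0 + PP S x i j 1 + PP S x i j 2) else 0) else 0 := by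
    intro i j
    by_cases hi : i.val < 3 <;> by_cases hj : j.val < 3
    · simp only [hi, hj, if_true]; rw [sum3]
    · simp [hi, hj]
    · simp [hi]
    · simp [hi]
  simp only [h2]
  have h3 : ∀ i : Fin 9, ∑ j : Fin 9, (if i.val < 3 then (if j.val < 3 then
        (PP S x i j 0 + PP S x i j 1 + PP S x i j 2) else 0) else 0) =
      if i.val < 3 then ((PP S x i 0 0 + PP S x i 0 1 + PP S x i 0 2) +
        (PP S x i 1 0 + PP S x i 1 1 + PP S x i 1 2) +
        (PP S x i 2 0 + PP S x i 2 1 + PP S x i 2 2)) else 0 := by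
    intro i
    by_cases hi : i.val < 3
    · simp only [hi, if_true]; rw [sum3]
    · simp [hi]
  simp only [h3]
  rw [sum3]
  have a1 : PP S x 0 2 1 = PP S x 0 1 2 := PP_swap23 S x 0 1 2
  have a2 : PP S x 1 0 2 = PP S x 0 1 2 := PP_swap12 S x 0 1 2
  have a3 : PP S x 1 2 0 = PP S x 0 1 2 := PP_cyc S x 0 1 2
  have a4 : PP S x 2 0 1 = PP S x 0 1 2 := (PP_cyc S x 2 0 1).symm
  have a5 : PP S x 2 1 0 = PP S x 0 1 2 := by rw [PP_swap12 S x 1 2 0, a3]
  simp only [PP_12, PP_23, PP_13, a1, a2, a3, a4, a5]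
  module

/-- the matrix identity for the zero order terms -/
lemma zero_mat (x : (Cfg dc)) :
    ∑ i, ∑ j, ∑ k, ((aw k : ℂ) * ((tt S x i j k : ℝ) : ℂ)) •
      (S.g2 i j * S.Gam * S.g k + S.g k * S.Gam * S.g2 i j) =
      (-(24 * S.det3 x : ℝ) : ℂ) • 1 := by
  have h1 : ∀ i j k, ((aw k : ℂ) * ((tt S x i j k : ℝ) : ℂ)) •
      (S.g2 i j * S.Gam * S.g k + S.g k * S.Gam * S.g2 i j) =
      S.Gam * (((aw k : ℂ) * (sg i * sg j + sg k)) • PP S x i j k) := by
    intro i j k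
    rw [mul_smul, term_eq, smul_smul, Matrix.mul_smul]
  simp only [h1, ← Matrix.mul_sum]
  have h2 : (3 : ℂ) • ∑ i, ∑ j, ∑ k, ((aw k : ℂ) * (sg i * sg j + sg k)) • PP S x i j k =
      (12 * 6 : ℂ) • PP S x 0 1 2 := by
    have e4 : (3 : ℂ) • ∑ i, ∑ j, ∑ k, ((aw k : ℂ) * (sg i * sg j + sg k)) • PP S x i j k =
      ∑ i, ∑ j, ∑ k, (12 * ((if i.val < 3 then 1 else 0) * (if j.val < 3 then 1 else 0) *
        (if k.val < 3 then 1 else 0)) : ℂ) • PP S x i j k := by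
      have : ∀ i j k, (12 * ((if i.val < 3 then 1 else 0) * (if j.val < 3 then 1 else 0) *
        (if k.val < 3 then 1 else 0)) : ℂ) • PP S x i j k =
        ((aw k : ℂ) * (sg i * sg j + sg k)) • PP S x i j k +
        ((aw i : ℂ) * (sg j * sg k + sg i)) • PP S x j k i +
        ((aw j : ℂ) * (sg k * sg i + sg j)) • PP S x k i j := by
        intro i j k
        rw [← weight, PP_cyc S x i j k,
          show PP S x k i j = PP S x i j k from (PP_cyc S x k i j).symm]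
        module
      simp only [this, Finset.sum_add_distrib]
      have f1 : ∑ i, ∑ j, ∑ k, ((aw i : ℂ) * (sg j * sg k + sg i)) • PP S x j k i =
          ∑ i, ∑ j, ∑ k, ((aw k : ℂ) * (sg i * sg j + sg k)) • PP S x i j k :=
        sum_cyc (fun j k i => ((aw i : ℂ) * (sg j * sg k + sg i)) • PP S x j k i)
      have f2 : ∑ i, ∑ j, ∑ k, ((aw j : ℂ) * (sg k * sg i + sg j)) • PP S x k i j =
          ∑ i, ∑ j, ∑ k, ((aw k : ℂ) * (sg i * sg j + sg k)) • PP S x i j k :=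
        (sum_cyc (fun i j k => ((aw j : ℂ) * (sg k * sg i + sg j)) • PP S x k i j)).symm
      rw [f1, f2]
      module
    rw [e4, mul_smul, ← sum_PP S x]
    simp only [Finset.smul_sum, smul_smul]
  have h3 : ∑ i, ∑ j, ∑ k, ((aw k : ℂ) * (sg i * sg j + sg k)) • PP S x i j k =
      (24 : ℂ) • PP S x 0 1 2 := by
    have := congrArg (fun w => (1 / 3 : ℂ) • w) h2
    simp only [smul_smul] at this
    norm_num at this
    exact this
  rw [h3, PP, tt_det3]
  have h4 : S.g 0 * S.g 1 * S.g 2 = S.Gam := rfl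
  rw [h4, Matrix.mul_smul, Matrix.mul_smul, S.Gam_sq, smul_neg, smul_neg, smul_smul, ← neg_smul]
  congr 1
  push_cast
  ring

/-- `{(Nθ^A)_α, M_β(x)}` -/
lemma vec_MM (N : Matrix (Fin 16) (Fin 16) ℂ) (A : Fin dc) (α β : Fin 16) (x : (Cfg dc)) :
    S.vec N A α * S.MM β x + S.MM β x * S.vec N A α =
      (-(∑ j, ((aw j * x (j, A) : ℝ) : ℂ) * (N * S.Gam * S.g j) α β)) • (1 : F →L[ℂ] F) := by
  unfold Setup.MM
  rw [Finset.mul_sum, Finset.sum_mul, ← Finset.sum_add_distrib, neg_smul, Finset.sum_smul,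
    ← Finset.sum_neg_distrib]
  refine Finset.sum_congr rfl fun j _ => ?_
  rw [Finset.mul_sum, Finset.sum_mul, ← Finset.sum_add_distrib]
  simp only [mul_smul_comm, smul_mul_assoc, ← smul_add, S.vec_anti, smul_ite, smul_zero,
    Finset.sum_ite_eq, Finset.mem_univ, if_true]
  have h : N * (S.g j * S.Gam)ᵀ = -(N * S.Gam * S.g j) := by
    rw [Matrix.transpose_mul, S.Gam_transpose, S.g_symm, neg_mul, mul_neg, mul_assoc]
  rw [h, Matrix.neg_apply, neg_smul, smul_neg, smul_smul]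

lemma fderiv_MM (b : Fin 16) (x : (Cfg dc)) (i : Fin 9) (A : Fin dc) :
    fderiv ℝ (S.MM b) x (EuclideanSpace.single (i, A) (1 : ℝ)) =
      (aw i : ℂ) • S.vec (S.g i * S.Gam) A b := by
  have hd : HasFDerivAt (S.MM b) (∑ k, ∑ B, ((Complex.ofRealCLM.comp (aw k •
      (EuclideanSpace.proj (𝕜 := ℝ) (k, B) : (Cfg dc) →L[ℝ] ℝ))).smulRight
        (S.vec (S.g k * S.Gam) B b))) x := by
    unfold Setup.MM
    refine HasFDerivAt.fun_sum fun k _ => HasFDerivAt.fun_sum fun B _ => ?_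
    have h1 := (Complex.ofRealCLM.hasFDerivAt (x := aw k * x (k, B))).comp x
      ((Setup.hasFDerivAt_coord (k, B) x).const_mul (aw k))
    exact h1.smul_const (S.vec (S.g k * S.Gam) B b)
  rw [hd.fderiv]
  simp only [_root_.sum_apply, ContinuousLinearMap.smulRight_apply,
    ContinuousLinearMap.comp_apply, Complex.ofRealCLM_apply, _root_.smul_apply, PiLp.proj_apply,
    PiLp.single_apply, smul_eq_mul, Prod.mk.injEq, mul_ite, mul_one, mul_zero]
  rw [Finset.sum_eq_single i, Finset.sum_eq_single A]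
  · simp
  · intro B _ hB; simp [hB]
  · intro h; exact absurd (Finset.mem_univ _) h
  · intro k _ hk; simp [hk]
  · intro h; exact absurd (Finset.mem_univ _) h

lemma contDiff_MM (b : Fin 16) : ContDiff ℝ ∞ (S.MM b) := by
  unfold Setup.MM
  refine ContDiff.sum fun i _ => ContDiff.sum fun A _ => ?_
  exact (Setup.contDiff_ofReal (contDiff_const.mul (Setup.contDiff_coord _))).smul contDiff_const

lemma pd_MM (b : Fin 16) {u : (Cfg dc) → F} (hu : ContDiff ℝ ∞ u) (i : Fin 9) (A : Fin dc) (x : (Cfg dc)) :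
    pd i A (fun y => S.MM b y (u y)) x =
      (aw i : ℂ) • S.vec (S.g i * S.Gam) A b (u x) + S.MM b x (pd i A u x) := by
  rw [pd_clm_apply ((contDiff_MM S b).differentiable (by simp) x)
    (hu.differentiable (by simp) x), fderiv_MM]
  rfl

lemma Q_MM (a b : Fin 16) {u : (Cfg dc) → F} (hu : ContDiff ℝ ∞ u) (x : (Cfg dc)) :
    S.Q a (fun y => S.MM b y (u y)) x + S.MM b x (S.Q a u x) =
      ((-Complex.I) • ∑ i, ∑ A, (aw i : ℂ) •
        (S.vec (S.g i) A a * S.vec (S.g i * S.Gam) A b)) (u x) +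
      (-Complex.I) • ∑ i, ∑ A, (S.vec (S.g i) A a * S.MM b x + S.MM b x * S.vec (S.g i) A a)
        (pd i A u x) + (S.W a x * S.MM b x + S.MM b x * S.W a x) (u x) := by
  unfold Setup.Q
  simp only [pd_MM S b hu, map_add, map_smul, map_sum, Finset.sum_add_distrib, smul_add,
    _root_.smul_apply, _root_.sum_apply, _root_.add_apply, mul_apply_eq_comp]
  abel

lemma mat_anti {M : Matrix (Fin 16) (Fin 16) ℂ} {N : Matrix (Fin 16) (Fin 16) ℂ} (h : Mᵀ = N)
    (a b : Fin 16) : M b a = N a b := by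
  rw [← h]; rfl

lemma first_coef (a b : Fin 16) (x : (Cfg dc)) (i : Fin 9) (A : Fin dc) :
    (S.vec (S.g i) A a * S.MM b x + S.MM b x * S.vec (S.g i) A a) +
      (S.vec (S.g i) A b * S.MM a x + S.MM a x * S.vec (S.g i) A b) =
      (-(2 * ∑ j, (x (j, A) : ℂ) * ((rc i j : ℂ) * (S.Gam * S.g2 i j) a b))) •
        (1 : F →L[ℂ] F) := by
  rw [vec_MM, vec_MM, ← add_smul]
  congr 1
  rw [← neg_add, ← Finset.sum_add_distrib, Finset.mul_sum]
  congr 1
  refine Finset.sum_congr rfl fun j _ => ?_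
  have h1 : (S.g i * S.Gam * S.g j)ᵀ = -(S.g j * S.Gam * S.g i) := by
    rw [Matrix.transpose_mul, Matrix.transpose_mul, S.Gam_transpose, S.g_symm, S.g_symm, neg_mul,
      mul_neg, mul_assoc]
  rw [mat_anti h1 a b]
  have h2 := congrFun (congrFun (first_mat S i j) a) b
  simp only [Matrix.smul_apply, Matrix.sub_apply, smul_eq_mul] at h2
  rw [Matrix.neg_apply]
  push_cast
  linear_combination (x (j, A) : ℂ) * h2

/-- orbital part of the rotation generators -/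
lemma first_sum (a b : Fin 16) (x : (Cfg dc)) (D : Fin 9 → Fin dc → F) :
    ∑ i, ∑ A, (-(2 * ∑ j, (x (j, A) : ℂ) * ((rc i j : ℂ) * (S.Gam * S.g2 i j) a b))) • D i A =
      ∑ i, ∑ j, ((rc i j : ℂ) * (S.Gam * S.g2 i j) a b) •
        ∑ A, ((x (i, A) : ℂ) • D j A - (x (j, A) : ℂ) • D i A) := by
  have hrc : ∀ i j : Fin 9, rc j i = rc i j := by
    intro i j
    unfold rc
    by_cases hi : i.val < 3 <;> by_cases hj : j.val < 3 <;> simp [hi, hj, and_comm]
  have e1 : ∑ i, ∑ j, ((rc i j : ℂ) * (S.Gam * S.g2 i j) a b) • ∑ A, (x (i, A) : ℂ) • D j A =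
      -∑ i, ∑ j, ((rc i j : ℂ) * (S.Gam * S.g2 i j) a b) • ∑ A, (x (j, A) : ℂ) • D i A := by
    rw [Finset.sum_comm, ← Finset.sum_neg_distrib]
    refine Finset.sum_congr rfl fun i _ => ?_
    rw [← Finset.sum_neg_distrib]
    refine Finset.sum_congr rfl fun j _ => ?_
    rw [hrc i j, S.g2_swap j i, mul_neg, Matrix.neg_apply, mul_neg, neg_smul]
  simp only [Finset.sum_sub_distrib, smul_sub, e1]
  rw [← neg_add', ← two_smul ℂ, Finset.smul_sum, ← Finset.sum_neg_distrib]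
  refine Finset.sum_congr rfl fun i _ => ?_
  simp only [Finset.smul_sum, smul_smul]
  rw [Finset.sum_comm, ← Finset.sum_neg_distrib]
  refine Finset.sum_congr rfl fun A _ => ?_
  rw [← Finset.sum_smul, ← neg_smul, Finset.mul_sum]
  congr 2
  refine Finset.sum_congr rfl fun j _ => ?_
  ring

lemma zero_coef (a b : Fin 16) (x : (Cfg dc)) :
    (S.W a x * S.MM b x + S.MM b x * S.W a x) + (S.W b x * S.MM a x + S.MM a x * S.W b x) =
      (if a = b then ((12 * S.κ * S.det3 x : ℝ) : ℂ) else 0) • (1 : F →L[ℂ] F) := by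
  have h1 : ∀ a b, S.W a x * S.MM b x + S.MM b x * S.W a x =
      (-(∑ A, ∑ j, ((aw j * x (j, A) : ℝ) : ℂ) * (S.NA A x * S.Gam * S.g j) a b)) •
        (1 : F →L[ℂ] F) := by
    intro a b
    rw [S.W_eq_NA, Finset.sum_mul, Finset.mul_sum, ← Finset.sum_add_distrib]
    simp only [vec_MM]
    rw [← Finset.sum_smul, Finset.sum_neg_distrib]
  rw [h1 a b, h1 b a, ← add_smul]
  congr 1
  rw [← neg_add, ← Finset.sum_add_distrib]
  simp only [← Finset.sum_add_distrib, ← mul_add]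
  have h2 : ∀ A j, (S.NA A x * S.Gam * S.g j) a b + (S.NA A x * S.Gam * S.g j) b a =
      (1 / 2 : ℂ) * ∑ i, ∑ k, ((S.FF A i k x : ℝ) : ℂ) *
        (S.g2 i k * S.Gam * S.g j + S.g j * S.Gam * S.g2 i k) a b := by
    intro A j
    have ht : (S.NA A x * S.Gam * S.g j)ᵀ = S.g j * S.Gam * S.NA A x := by
      rw [Matrix.transpose_mul, Matrix.transpose_mul, S.Gam_transpose, S.g_symm, S.NA_transpose,
        neg_mul_neg, mul_assoc]
    rw [mat_anti ht a b, ← Matrix.add_apply]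
    have e : S.NA A x * S.Gam * S.g j + S.g j * S.Gam * S.NA A x =
        (1 / 2 : ℂ) • ∑ i, ∑ k, ((S.FF A i k x : ℝ) : ℂ) •
        (S.g2 i k * S.Gam * S.g j + S.g j * S.Gam * S.g2 i k) := by
      unfold Setup.NA
      simp only [smul_add, Finset.sum_add_distrib, Matrix.smul_mul, Matrix.mul_smul,
        Matrix.sum_mul, Matrix.mul_sum]
    rw [e]
    simp only [Matrix.smul_apply, Matrix.sum_apply, smul_eq_mul]
  simp only [h2]
  have h3 := congrFun (congrFun (zero_mat S x) a) b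
  simp only [Matrix.smul_apply, Matrix.sum_apply, smul_eq_mul] at h3
  have h4 : ∑ A, ∑ j, ((aw j * x (j, A) : ℝ) : ℂ) * ((1 / 2 : ℂ) * ∑ i, ∑ k,
      ((S.FF A i k x : ℝ) : ℂ) * (S.g2 i k * S.Gam * S.g j + S.g j * S.Gam * S.g2 i k) a b) =
      (S.κ / 2 : ℂ) * ∑ i, ∑ k, ∑ j, ((aw j : ℂ) * ((tt S x i k j : ℝ) : ℂ)) *
        (S.g2 i k * S.Gam * S.g j + S.g j * S.Gam * S.g2 i k) a b := by
    simp only [Finset.mul_sum]
    rw [Finset.sum_comm]
    have : ∀ j, ∑ A, ∑ i, ∑ k, ((aw j * x (j, A) : ℝ) : ℂ) * ((1 / 2 : ℂ) *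
      (((S.FF A i k x : ℝ) : ℂ) *
        (S.g2 i k * S.Gam * S.g j + S.g j * S.Gam * S.g2 i k) a b)) =
        ∑ i, ∑ k, (S.κ / 2 : ℂ) * (((aw j : ℂ) * ((tt S x i k j : ℝ) : ℂ)) *
        (S.g2 i k * S.Gam * S.g j + S.g j * S.Gam * S.g2 i k) a b) := by
      intro j
      rw [Finset.sum_comm]
      refine Finset.sum_congr rfl fun i _ => ?_
      rw [Finset.sum_comm]
      refine Finset.sum_congr rfl fun k _ => ?_
      have h5 := congrArg (fun r : ℝ => (r : ℂ)) (tt_FF S x i k j)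
      simp only at h5
      push_cast at h5
      calc _ = (aw j : ℂ) * (1 / 2) * (S.g2 i k * S.Gam * S.g j +
            S.g j * S.Gam * S.g2 i k) a b * ∑ A, (S.FF A i k x : ℂ) * (x (j, A) : ℂ) := by
            rw [Finset.mul_sum]
            refine Finset.sum_congr rfl fun A _ => ?_
            push_cast
            ring
        _ = _ := by rw [h5]; ring
    rw [Finset.sum_congr rfl fun j _ => this j, Finset.sum_comm]
    refine Finset.sum_congr rfl fun i _ => ?_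
    rw [Finset.sum_comm]
  rw [h4, h3, Matrix.one_apply]
  by_cases h : a = b
  · simp only [h, if_true]; push_cast; ring
  · simp [h]

end A1b

/-- **A1b** -/
theorem a1b (S : Setup dc F) (h : FBmnStmt S) : A1bStmt S := by
  intro α β u hu x
  have e0 : S.Q α (fun y => S.MM β y (u y)) x + S.MM α x (S.Q β u x) +
      S.Q β (fun y => S.MM α y (u y)) x + S.MM β x (S.Q α u x) =
      (S.Q α (fun y => S.MM β y (u y)) x + S.MM β x (S.Q α u x)) +
      (S.Q β (fun y => S.MM α y (u y)) x + S.MM α x (S.Q β u x)) := by abel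
  rw [e0, A1b.Q_MM S α β hu x, A1b.Q_MM S β α hu x]
  have t1 : ((-Complex.I) • ∑ i, ∑ A, (aw i : ℂ) •
        (S.vec (S.g i) A α * S.vec (S.g i * S.Gam) A β)) (u x) +
      ((-Complex.I) • ∑ i, ∑ A, (aw i : ℂ) •
        (S.vec (S.g i) A β * S.vec (S.g i * S.Gam) A α)) (u x) =
      (∑ i, ∑ j, ((rc i j : ℂ) * (S.Gam * S.g2 i j) α β) • S.Skl i j (u x)) -
      (if α = β then (3 / 2 : ℂ) • S.FG (u x) else 0) := by
    have h1 := congrArg (fun T : F →L[ℂ] F => T (u x)) (h α β)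
    simp only [smul_add, Finset.sum_add_distrib, _root_.add_apply, _root_.sub_apply,
      _root_.sum_apply, _root_.smul_apply] at h1
    rw [← _root_.add_apply, ← smul_add]
    simp only [_root_.add_apply, _root_.sum_apply, _root_.smul_apply]
    rw [smul_add, h1]
    congr 1
    split_ifs <;> simp
  have t2 : (-Complex.I) • ∑ i, ∑ A, (S.vec (S.g i) A α * S.MM β x + S.MM β x *
        S.vec (S.g i) A α) (pd i A u x) +
      (-Complex.I) • ∑ i, ∑ A, (S.vec (S.g i) A β * S.MM α x + S.MM α x *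
        S.vec (S.g i) A β) (pd i A u x) =
      (-Complex.I) • ∑ i, ∑ j, ((rc i j : ℂ) * (S.Gam * S.g2 i j) α β) •
        ∑ A, ((x (i, A) : ℂ) • pd j A u x - (x (j, A) : ℂ) • pd i A u x) := by
    rw [← smul_add, ← A1b.first_sum S α β x (fun i A => pd i A u x)]
    congr 1
    rw [← Finset.sum_add_distrib]
    refine Finset.sum_congr rfl fun i _ => ?_
    rw [← Finset.sum_add_distrib]
    refine Finset.sum_congr rfl fun A _ => ?_
    rw [← _root_.add_apply, A1b.first_coef]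
    rfl
  have t3 : (S.W α x * S.MM β x + S.MM β x * S.W α x) (u x) +
      (S.W β x * S.MM α x + S.MM α x * S.W β x) (u x) =
      (if α = β then ((12 * S.κ * S.det3 x : ℝ) : ℂ) else 0) • u x := by
    rw [← _root_.add_apply, A1b.zero_coef]
    rfl
  have t4 : ∑ i, ∑ j, ((rc i j : ℂ) * (S.Gam * S.g2 i j) α β) • S.J i j u x =
      (-Complex.I) • (∑ i, ∑ j, ((rc i j : ℂ) * (S.Gam * S.g2 i j) α β) •
        ∑ A, ((x (i, A) : ℂ) • pd j A u x - (x (j, A) : ℂ) • pd i A u x)) +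
      ∑ i, ∑ j, ((rc i j : ℂ) * (S.Gam * S.g2 i j) α β) • S.Skl i j (u x) := by
    unfold Setup.J
    simp only [smul_add, Finset.sum_add_distrib]
    congr 1
    rw [Finset.smul_sum]
    refine Finset.sum_congr rfl fun i _ => ?_
    rw [Finset.smul_sum]
    refine Finset.sum_congr rfl fun j _ => ?_
    rw [smul_comm]
  rw [t4]
  have e1 : ∀ a b c a' b' c' : F, (a + b + c) + (a' + b' + c') = (a + a') + (b + b') + (c + c') := by
    intro a b c a' b' c'; abel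
  rw [e1, t1, t2, t3]
  by_cases hab : α = β
  · simp only [hab, if_true]
    push_cast
    module
  · simp only [hab, if_false]
    module

end Vale.Agent.P353.Z.U
end

section

open Matrix

namespace Vale.Agent.P353.Z

variable {dc : ℕ}

lemma cyc16 {M : Type*} [AddCommMonoid M] (f : Fin 16 → Fin 16 → Fin 16 → M) :
    ∑ p, ∑ q, ∑ j, f p q j = ∑ p, ∑ q, ∑ j, f q j p := by
  have h : ∀ q, ∑ p, ∑ j, f q j p = ∑ j, ∑ p, f q j p := fun q => Finset.sum_comm
  conv_rhs => rw [Finset.sum_comm]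
  simp only [h]

/-- swapping the roles of the two index sets -/
lemma sum_sq_swap {ι κ : Type*} [Fintype ι] [Fintype κ] (G : ι → κ → ℂ) :
    ∑ a, ∑ c, (∑ p, G p a * G p c) ^ 2 = ∑ p, ∑ q, (∑ a, G p a * G q a) ^ 2 := by
  have h1 : ∑ a, ∑ c, (∑ p, G p a * G p c) ^ 2 =
      ∑ a, ∑ c, ∑ p, ∑ q, (G p a * G p c) * (G q a * G q c) := by
    refine Finset.sum_congr rfl fun a _ => Finset.sum_congr rfl fun c _ => ?_
    rw [sq, Finset.sum_mul_sum]
  have h2 : ∑ p, ∑ q, (∑ a, G p a * G q a) ^ 2 =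
      ∑ p, ∑ q, ∑ a, ∑ c, (G p a * G q a) * (G p c * G q c) := by
    refine Finset.sum_congr rfl fun a _ => Finset.sum_congr rfl fun c _ => ?_
    rw [sq, Finset.sum_mul_sum]
  rw [h1, h2]
  have e1 : ∀ a : κ, ∑ c : κ, ∑ p : ι, ∑ q : ι, (G p a * G p c) * (G q a * G q c) =
      ∑ p : ι, ∑ q : ι, ∑ c : κ, (G p a * G p c) * (G q a * G q c) := by
    intro a
    rw [Finset.sum_comm]
    refine Finset.sum_congr rfl fun p _ => ?_
    rw [Finset.sum_comm]
  simp only [e1]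
  rw [Finset.sum_comm]
  refine Finset.sum_congr rfl fun p _ => ?_
  rw [Finset.sum_comm]
  refine Finset.sum_congr rfl fun q _ => Finset.sum_congr rfl fun a _ =>
    Finset.sum_congr rfl fun c _ => ?_
  ring

namespace CS

variable {R : Type*} [Ring R] [Algebra ℂ R] (S : CS dc R)

/-- `∑ γ^{kl}_{αβ} γ^{kl}_{γδ}` -/
noncomputable def NN (α β γ δ : Fin 16) : ℂ := ∑ k, ∑ l, S.g2 k l α β * S.g2 k l γ δ

lemma trace_g2_g2F (i j k l : Fin 9) : (S.g2 i j * S.g2 k l).trace =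
    16 * ((if i = l then 1 else 0) * (if j = k then 1 else 0) -
      (if i = k then 1 else 0) * (if j = l then 1 else 0)) := by
  rw [S.g2_eq i j, sub_mul, Matrix.trace_sub, S.trace_gg_g2, smul_mul_assoc, one_mul,
    Matrix.trace_smul, trace_g2, smul_zero, sub_zero]

lemma trace_g2_sq (i j : Fin 9) : (S.g2 i j * S.g2 i j).trace =
    -16 + (if i = j then 16 else 0) := by
  rw [trace_g2_g2F]
  by_cases h : i = j
  · subst h; simp
  · simp [h]

lemma sum_trace_g2_sq : ∑ i, ∑ j, (S.g2 i j * S.g2 i j).trace = -1152 := by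
  simp only [trace_g2_sq, Finset.sum_add_distrib, Finset.sum_ite_eq, Finset.mem_univ, if_true,
    Finset.sum_const, Finset.card_univ, Fintype.card_fin]
  norm_num

lemma sum_entries (A B : Matrix (Fin 16) (Fin 16) ℂ) :
    ∑ α, ∑ β, A α β * B α β = (A * Bᵀ).trace := by
  simp only [Matrix.trace, Matrix.diag, Matrix.mul_apply, Matrix.transpose_apply]

lemma F1 : ∑ α, ∑ β, ∑ γ, ∑ δ, (S.NN α β γ δ) ^ 2 = 36864 := by
  let G : Fin 9 × Fin 9 → Fin 16 × Fin 16 → ℂ := fun p a => S.g2 p.1 p.2 a.1 a.2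
  have h := sum_sq_swap G
  have h1 : ∑ a, ∑ c, (∑ p, G p a * G p c) ^ 2 = ∑ α, ∑ β, ∑ γ, ∑ δ, (S.NN α β γ δ) ^ 2 := by
    simp only [Fintype.sum_prod_type, G, NN]
  have h2 : ∀ p q : Fin 9 × Fin 9, (∑ a, G p a * G q a) ^ 2 =
      256 * ((if p.1 = q.1 then 1 else 0) * (if p.2 = q.2 then 1 else 0) +
        (if p.1 = q.2 then 1 else 0) * (if p.2 = q.1 then 1 else 0) -
        2 * ((if p.1 = q.1 then 1 else 0) * (if p.2 = q.2 then 1 else 0) *
        (if p.1 = q.2 then 1 else 0) * (if p.2 = q.1 then 1 else 0))) := by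
    intro p q
    have : ∑ a, G p a * G q a = ∑ α, ∑ β, S.g2 p.1 p.2 α β * S.g2 q.1 q.2 α β := by
      simp only [Fintype.sum_prod_type, G]
    rw [this, sum_entries, g2_transpose, mul_neg, Matrix.trace_neg, trace_g2_g2F]
    split_ifs <;> norm_num
  rw [← h1, h]
  simp only [h2]
  simp only [Fintype.sum_prod_type, ← Finset.mul_sum, Finset.sum_add_distrib,
    Finset.sum_sub_distrib]
  simp
  norm_num

lemma sum_cross (A B : Matrix (Fin 16) (Fin 16) ℂ) :
    ∑ α, ∑ β, ∑ γ, ∑ δ, (A α β * A γ δ) * (B α γ * B δ β) = (B * A * B * Aᵀ).trace := by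
  simp only [Matrix.trace, Matrix.diag, Matrix.mul_apply, Matrix.transpose_apply, Finset.sum_mul]
  refine Finset.sum_congr rfl fun α _ => Finset.sum_congr rfl fun β _ => ?_
  rw [Finset.sum_comm]
  refine Finset.sum_congr rfl fun δ _ => Finset.sum_congr rfl fun γ _ => ?_
  ring

lemma F2 : ∑ α, ∑ β, ∑ γ, ∑ δ, S.NN α β γ δ * S.NN α γ δ β = -18432 := by
  let G : Fin 9 × Fin 9 → Matrix (Fin 16) (Fin 16) ℂ := fun p => S.g2 p.1 p.2
  have hN : ∀ α β γ δ, S.NN α β γ δ = ∑ p, G p α β * G p γ δ := by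
    intro α β γ δ; simp only [NN, Fintype.sum_prod_type, G]
  have h1 : ∑ α, ∑ β, ∑ γ, ∑ δ, S.NN α β γ δ * S.NN α γ δ β =
      ∑ α, ∑ β, ∑ γ, ∑ δ, ∑ p, ∑ q, (G p α β * G p γ δ) * (G q α γ * G q δ β) := by
    simp only [hN, Finset.sum_mul_sum]
  have h2 : ∑ α, ∑ β, ∑ γ, ∑ δ, ∑ p, ∑ q, (G p α β * G p γ δ) * (G q α γ * G q δ β) =
      ∑ p, ∑ q, ∑ α, ∑ β, ∑ γ, ∑ δ, (G p α β * G p γ δ) * (G q α γ * G q δ β) := by
    have s1 : ∀ (f : Fin 16 → Fin 9 × Fin 9 → Fin 9 × Fin 9 → ℂ),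
        ∑ δ, ∑ p, ∑ q, f δ p q = ∑ p, ∑ q, ∑ δ, f δ p q := by
      intro f
      rw [Finset.sum_comm]
      refine Finset.sum_congr rfl fun p _ => ?_
      rw [Finset.sum_comm]
    simp only [s1]
  rw [h1, h2]
  simp only [sum_cross]
  rw [Finset.sum_comm]
  have h3 : ∑ q, ∑ p, (G q * G p * G q * (G p)ᵀ).trace =
      ∑ p, -((∑ q, G q * G p * G q) * G p).trace := by
    rw [Finset.sum_comm]
    refine Finset.sum_congr rfl fun p _ => ?_
    rw [Finset.sum_mul, Matrix.trace_sum, ← Finset.sum_neg_distrib]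
    refine Finset.sum_congr rfl fun q _ => ?_
    have : (G p)ᵀ = -G p := S.g2_transpose p.1 p.2
    rw [this, mul_neg, Matrix.trace_neg]
  rw [h3]
  have h4 : ∀ p, ∑ q, G q * G p * G q = (-16 : ℂ) • G p := by
    intro p
    simp only [Fintype.sum_prod_type, G]
    exact S.sum_g2_g2_g2 p.1 p.2
  have h5 := S.sum_trace_g2_sq
  simp only [h4, smul_mul_assoc, Matrix.trace_smul, G, Fintype.sum_prod_type,
    Finset.sum_neg_distrib, ← Finset.smul_sum, h5]
  norm_num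

/-- the Fierz identity -/
lemma fierz (hreal : ∀ i α β, (S.g i α β).im = 0) (α β γ δ : Fin 16) :
    S.NN α β γ δ + S.NN α γ δ β + S.NN α δ β γ = 0 := by
  have him : ∀ α β γ δ, (S.NN α β γ δ).im = 0 := by
    intro α β γ δ
    have hm : ∀ i j α β, ((S.g i * S.g j) α β).im = 0 := by
      intro i j α β
      rw [Matrix.mul_apply, Complex.im_sum]
      refine Finset.sum_eq_zero fun γ _ => ?_
      rw [Complex.mul_im, hreal, hreal]; ring
    have hg : ∀ i j α β, (S.g2 i j α β).im = 0 := by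
      intro i j α β
      simp only [CS.g2, Matrix.smul_apply, Matrix.sub_apply, smul_eq_mul]
      rw [Complex.mul_im, Complex.sub_im, hm, hm]
      norm_num
    simp only [NN, Complex.im_sum]
    refine Finset.sum_eq_zero fun k _ => Finset.sum_eq_zero fun l _ => ?_
    rw [Complex.mul_im, hg, hg]; ring
  set T : Fin 16 → Fin 16 → Fin 16 → Fin 16 → ℂ := fun α β γ δ =>
    S.NN α β γ δ + S.NN α γ δ β + S.NN α δ β γ with hT
  have hsum : ∑ α, ∑ β, ∑ γ, ∑ δ, (T α β γ δ) ^ 2 = 0 := by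
    have e1 : ∀ α, ∑ β, ∑ γ, ∑ δ, (T α β γ δ) ^ 2 =
        3 * ∑ β, ∑ γ, ∑ δ, (S.NN α β γ δ) ^ 2 +
        6 * ∑ β, ∑ γ, ∑ δ, S.NN α β γ δ * S.NN α γ δ β := by
      intro α
      have a1 := cyc16 (fun β γ δ => (S.NN α β γ δ) ^ 2)
      have a2 := cyc16 (fun β γ δ => (S.NN α γ δ β) ^ 2)
      have a3 := cyc16 (fun β γ δ => S.NN α β γ δ * S.NN α γ δ β)
      have a4 := cyc16 (fun β γ δ => S.NN α γ δ β * S.NN α δ β γ)
      have : ∑ β, ∑ γ, ∑ δ, (T α β γ δ) ^ 2 =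
          ∑ β, ∑ γ, ∑ δ, (S.NN α β γ δ) ^ 2 + ∑ β, ∑ γ, ∑ δ, (S.NN α γ δ β) ^ 2 +
          ∑ β, ∑ γ, ∑ δ, (S.NN α δ β γ) ^ 2 +
          2 * ∑ β, ∑ γ, ∑ δ, S.NN α β γ δ * S.NN α γ δ β +
          2 * ∑ β, ∑ γ, ∑ δ, S.NN α γ δ β * S.NN α δ β γ +
          2 * ∑ β, ∑ γ, ∑ δ, S.NN α δ β γ * S.NN α β γ δ := by
        simp only [Finset.mul_sum, ← Finset.sum_add_distrib]
        refine Finset.sum_congr rfl fun β _ => Finset.sum_congr rfl fun γ _ =>
          Finset.sum_congr rfl fun δ _ => ?_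
        simp only [hT]; ring
      rw [this, ← a2, ← a1, ← a4, ← a3]
      ring
    simp only [e1, Finset.sum_add_distrib, ← Finset.mul_sum]
    rw [F1, F2]; norm_num
  have hTim : ∀ α β γ δ, (T α β γ δ).im = 0 := by
    intro α β γ δ
    simp only [hT, Complex.add_im, him, add_zero]
  have hre : ∑ α, ∑ β, ∑ γ, ∑ δ, ((T α β γ δ).re) ^ 2 = 0 := by
    have h2 : ∀ α β γ δ, (T α β γ δ) ^ 2 = (((T α β γ δ).re ^ 2 : ℝ) : ℂ) := by
      intro α β γ δ
      have : T α β γ δ = ((T α β γ δ).re : ℂ) := by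
        apply Complex.ext <;> simp [hTim]
      conv_lhs => rw [this]
      push_cast; rfl
    simp only [h2] at hsum
    exact_mod_cast hsum
  have hz : (T α β γ δ).re ^ 2 = 0 := by
    have n4 : ∀ α β γ δ, 0 ≤ ((T α β γ δ).re) ^ 2 := fun _ _ _ _ => sq_nonneg _
    have n3 : ∀ α β γ, 0 ≤ ∑ δ, ((T α β γ δ).re) ^ 2 := fun _ _ _ =>
      Finset.sum_nonneg fun _ _ => n4 _ _ _ _
    have n2 : ∀ α β, 0 ≤ ∑ γ, ∑ δ, ((T α β γ δ).re) ^ 2 := fun _ _ =>
      Finset.sum_nonneg fun _ _ => n3 _ _ _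
    have n1 : ∀ α, 0 ≤ ∑ β, ∑ γ, ∑ δ, ((T α β γ δ).re) ^ 2 := fun _ =>
      Finset.sum_nonneg fun _ _ => n2 _ _
    have z1 := (Finset.sum_eq_zero_iff_of_nonneg fun a _ => n1 a).mp hre α (Finset.mem_univ _)
    have z2 := (Finset.sum_eq_zero_iff_of_nonneg fun a _ => n2 α a).mp z1 β (Finset.mem_univ _)
    have z3 := (Finset.sum_eq_zero_iff_of_nonneg fun a _ => n3 α β a).mp z2 γ (Finset.mem_univ _)
    exact (Finset.sum_eq_zero_iff_of_nonneg fun a _ => n4 α β γ a).mp z3 δ (Finset.mem_univ _)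
  have : T α β γ δ = 0 := by
    apply Complex.ext
    · simpa using hz
    · simpa using hTim α β γ δ
  exact this

lemma th_sq_sum (A : Fin dc) : ∑ α, S.th α A * S.th α A = (8 : ℂ) • (1 : R) := by
  have h : ∀ α, S.th α A * S.th α A = (1 / 2 : ℂ) • (1 : R) := by
    intro α
    have := S.th_anti α A α A
    simp only [and_self, if_true] at this
    rw [← two_smul ℂ] at this
    rw [← this, smul_smul]; norm_num
  simp only [h]
  rw [Finset.sum_const, Finset.card_univ, Fintype.card_fin, ← Nat.cast_smul_eq_nsmul ℂ, smul_smul]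
  norm_num

lemma sum_g2_g2_one : ∑ k, ∑ l, S.g2 k l * S.g2 k l = (-72 : ℂ) • 1 := by
  have h := S.sum_g2_g2 1
  simp only [mul_one] at h
  rw [h, sand_one, sand_smul, sand_one, smul_smul, ← sub_smul]; norm_num

lemma cyc16' {M : Type*} [AddCommMonoid M] (f : Fin 16 → Fin 16 → Fin 16 → M) :
    ∑ p, ∑ q, ∑ j, f p q j = ∑ p, ∑ q, ∑ j, f j p q := by
  rw [cyc16, cyc16]

/-- cubic Fierz identity -/
lemma cubic (hreal : ∀ i α β, (S.g i α β).im = 0) (A : Fin dc) (α : Fin 16) :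
    ∑ k, ∑ l, S.vec (S.g2 k l) A α * S.bil (S.g2 k l) A A = (-72 : ℂ) • S.th α A := by
  have hP : ∑ k, ∑ l, S.vec (S.g2 k l) A α * S.bil (S.g2 k l) A A =
      ∑ β, ∑ γ, ∑ δ, S.NN α β γ δ • (S.th β A * S.th γ A * S.th δ A) := by
    have h1 : ∀ k l, S.vec (S.g2 k l) A α * S.bil (S.g2 k l) A A =
        ∑ β, ∑ γ, ∑ δ, (S.g2 k l α β * S.g2 k l γ δ) • (S.th β A * S.th γ A * S.th δ A) := by
      intro k l
      rw [bil]
      simp only [vec]
      rw [Finset.sum_mul]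
      refine Finset.sum_congr rfl fun β _ => ?_
      rw [Finset.mul_sum]
      refine Finset.sum_congr rfl fun γ _ => ?_
      rw [Finset.mul_sum, Finset.mul_sum]
      refine Finset.sum_congr rfl fun δ _ => ?_
      rw [mul_smul_comm, smul_mul_smul_comm, mul_assoc]
    simp only [h1, NN, Finset.sum_smul]
    have s1 : ∀ (f : Fin 9 → Fin 9 → Fin 16 → R),
        ∑ k, ∑ l, ∑ β, f k l β = ∑ β, ∑ k, ∑ l, f k l β := by
      intro f
      have : ∀ k, ∑ l, ∑ β, f k l β = ∑ β, ∑ l, f k l β := fun k => Finset.sum_comm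
      simp only [this]
      rw [Finset.sum_comm]
    rw [s1]
    refine Finset.sum_congr rfl fun β _ => ?_
    rw [s1]
    refine Finset.sum_congr rfl fun γ _ => ?_
    rw [s1]
  set P := ∑ β, ∑ γ, ∑ δ, S.NN α β γ δ • (S.th β A * S.th γ A * S.th δ A) with hPdef
  rw [hP]
  -- the three cyclic orderings
  have hA : ∀ β γ, S.th β A * S.th γ A = (if β = γ then (1 : R) else 0) - S.th γ A * S.th β A := by
    intro β γ
    have := S.th_anti β A γ A
    simp only [and_true] at this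
    rw [← this]; abel
  have r1 : ∀ β γ δ, S.th δ A * S.th β A * S.th γ A = S.th β A * S.th γ A * S.th δ A
      + (if δ = β then (1 : R) else 0) * S.th γ A - S.th β A * (if δ = γ then (1 : R) else 0) := by
    intro β γ δ
    rw [hA δ β, sub_mul, mul_assoc (S.th β A), hA δ γ]
    noncomm_ring
  have r2 : ∀ β γ δ, S.th γ A * S.th δ A * S.th β A = S.th β A * S.th γ A * S.th δ A
      + S.th γ A * (if δ = β then (1 : R) else 0) - (if γ = β then (1 : R) else 0) * S.th δ A := by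
    intro β γ δ
    rw [mul_assoc, hA δ β, mul_sub, ← mul_assoc, hA γ β]
    noncomm_ring
  have c1 : ∑ β, ∑ γ, ∑ δ, S.NN α γ δ β • (S.th β A * S.th γ A * S.th δ A) =
      ∑ β, ∑ γ, ∑ δ, S.NN α β γ δ • (S.th δ A * S.th β A * S.th γ A) :=
    cyc16' (fun β γ δ => S.NN α γ δ β • (S.th β A * S.th γ A * S.th δ A))
  have c2 : ∑ β, ∑ γ, ∑ δ, S.NN α δ β γ • (S.th β A * S.th γ A * S.th δ A) =
      ∑ β, ∑ γ, ∑ δ, S.NN α β γ δ • (S.th γ A * S.th δ A * S.th β A) :=
    cyc16 (fun β γ δ => S.NN α δ β γ • (S.th β A * S.th γ A * S.th δ A))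
  have hsum : P + ∑ β, ∑ γ, ∑ δ, S.NN α γ δ β • (S.th β A * S.th γ A * S.th δ A) +
      ∑ β, ∑ γ, ∑ δ, S.NN α δ β γ • (S.th β A * S.th γ A * S.th δ A) = 0 := by
    simp only [hPdef, ← Finset.sum_add_distrib, ← add_smul, S.fierz hreal, zero_smul,
      Finset.sum_const_zero]
  have c1' : ∑ β, ∑ γ, ∑ δ, S.NN α β γ δ • (S.th δ A * S.th β A * S.th γ A) =
      P + ∑ β, ∑ γ, ∑ δ, S.NN α β γ δ • ((if δ = β then (1 : R) else 0) * S.th γ A) -
      ∑ β, ∑ γ, ∑ δ, S.NN α β γ δ • (S.th β A * (if δ = γ then (1 : R) else 0)) := by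
    simp only [hPdef, ← Finset.sum_add_distrib, ← Finset.sum_sub_distrib]
    refine Finset.sum_congr rfl fun β _ => Finset.sum_congr rfl fun γ _ =>
        Finset.sum_congr rfl fun δ _ => ?_
    rw [r1, smul_sub, smul_add]
  have c2' : ∑ β, ∑ γ, ∑ δ, S.NN α β γ δ • (S.th γ A * S.th δ A * S.th β A) =
      P + ∑ β, ∑ γ, ∑ δ, S.NN α β γ δ • (S.th γ A * (if δ = β then (1 : R) else 0)) -
      ∑ β, ∑ γ, ∑ δ, S.NN α β γ δ • ((if γ = β then (1 : R) else 0) * S.th δ A) := by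
    simp only [hPdef, ← Finset.sum_add_distrib, ← Finset.sum_sub_distrib]
    refine Finset.sum_congr rfl fun β _ => Finset.sum_congr rfl fun γ _ =>
        Finset.sum_congr rfl fun δ _ => ?_
    rw [r2, smul_sub, smul_add]
  rw [c1, c2, c1', c2'] at hsum
  have hsumN : ∀ (f g : Fin 9 → Fin 9 → Fin 16 → ℂ), ∑ β, ∑ k, ∑ l, f k l β * g k l β =
      ∑ k, ∑ l, ∑ β, f k l β * g k l β := by
    intro f g
    rw [Finset.sum_comm]
    refine Finset.sum_congr rfl fun k _ => ?_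
    rw [Finset.sum_comm]
  have hg2 : ∀ γ, ∑ k, ∑ l, (S.g2 k l * S.g2 k l) α γ = -72 * (1 : Matrix (Fin 16) (Fin 16) ℂ) α γ := by
    intro γ
    have h := congrArg (fun M : Matrix (Fin 16) (Fin 16) ℂ => M α γ) S.sum_g2_g2_one
    simp only [Matrix.sum_apply, Matrix.smul_apply, smul_eq_mul] at h
    exact h
  have k1 : ∀ γ, ∑ β, S.NN α β γ β = 72 * (1 : Matrix (Fin 16) (Fin 16) ℂ) α γ := by
    intro γ
    simp only [NN]
    rw [hsumN (fun k l β => S.g2 k l α β) (fun k l β => S.g2 k l γ β)]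
    have : ∀ k l, ∑ β, S.g2 k l α β * S.g2 k l γ β = -(S.g2 k l * S.g2 k l) α γ := by
      intro k l
      rw [Matrix.mul_apply, ← Finset.sum_neg_distrib]
      refine Finset.sum_congr rfl fun β _ => ?_
      have ht := congrFun (congrFun (S.g2_transpose k l) β) γ
      rw [Matrix.transpose_apply] at ht
      rw [ht, Matrix.neg_apply]; ring
    simp only [this, Finset.sum_neg_distrib, hg2]
    ring
  have k2 : ∀ β, ∑ γ, S.NN α β γ γ = 0 := by
    intro β
    simp only [NN]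
    rw [hsumN (fun k l _ => S.g2 k l α β) (fun k l γ => S.g2 k l γ γ)]
    have : ∀ k l, ∑ γ, S.g2 k l α β * S.g2 k l γ γ = 0 := by
      intro k l
      rw [← Finset.mul_sum]
      have : ∑ γ, S.g2 k l γ γ = (S.g2 k l).trace := rfl
      rw [this, trace_g2, mul_zero]
    simp only [this, Finset.sum_const_zero]
  have k3 : ∀ δ, ∑ β, S.NN α β β δ = -72 * (1 : Matrix (Fin 16) (Fin 16) ℂ) α δ := by
    intro δ
    simp only [NN]
    rw [hsumN (fun k l β => S.g2 k l α β) (fun k l β => S.g2 k l β δ)]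
    have : ∀ k l, ∑ β, S.g2 k l α β * S.g2 k l β δ = (S.g2 k l * S.g2 k l) α δ := by
      intro k l
      rw [Matrix.mul_apply]
    simp only [this, hg2]
  have d1 : ∑ β, ∑ γ, ∑ δ, S.NN α β γ δ • ((if δ = β then (1 : R) else 0) * S.th γ A) =
      (72 : ℂ) • S.th α A := by
    have e1 : ∀ β γ, ∑ δ, S.NN α β γ δ • ((if δ = β then (1 : R) else 0) * S.th γ A) =
        S.NN α β γ β • S.th γ A := by
      intro β γ
      simp only [ite_mul, one_mul, zero_mul, smul_ite, smul_zero, Finset.sum_ite_eq',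
        Finset.mem_univ, if_true]
    simp only [e1]
    rw [Finset.sum_comm]
    simp only [← Finset.sum_smul, k1]
    simp [Matrix.one_apply]
  have d1' : ∑ β, ∑ γ, ∑ δ, S.NN α β γ δ • (S.th γ A * (if δ = β then (1 : R) else 0)) =
      (72 : ℂ) • S.th α A := by
    rw [← d1]
    simp
  have d2 : ∑ β, ∑ γ, ∑ δ, S.NN α β γ δ • (S.th β A * (if δ = γ then (1 : R) else 0)) = 0 := by
    have e1 : ∀ β γ, ∑ δ, S.NN α β γ δ • (S.th β A * (if δ = γ then (1 : R) else 0)) =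
        S.NN α β γ γ • S.th β A := by
      intro β γ
      simp only [mul_ite, mul_one, mul_zero, smul_ite, smul_zero, Finset.sum_ite_eq',
        Finset.mem_univ, if_true]
    simp only [e1, ← Finset.sum_smul, k2, zero_smul, Finset.sum_const_zero]
  have d3 : ∑ β, ∑ γ, ∑ δ, S.NN α β γ δ • ((if γ = β then (1 : R) else 0) * S.th δ A) =
      (-72 : ℂ) • S.th α A := by
    have e1 : ∀ β, ∑ γ, ∑ δ, S.NN α β γ δ • ((if γ = β then (1 : R) else 0) * S.th δ A) =
        ∑ δ, S.NN α β β δ • S.th δ A := by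
      intro β
      rw [Finset.sum_comm]
      simp only [ite_mul, one_mul, zero_mul, smul_ite, smul_zero, Finset.sum_ite_eq',
        Finset.mem_univ, if_true]
    simp only [e1]
    rw [Finset.sum_comm]
    simp only [← Finset.sum_smul, k3]
    simp [Matrix.one_apply]
  rw [d1, d1', d2, d3] at hsum
  have h3 : (3 : ℂ) • P = (-216 : ℂ) • S.th α A := by
    have : (3 : ℂ) • P = (P + (P + (72 : ℂ) • S.th α A - 0) +
      (P + (72 : ℂ) • S.th α A - (-72 : ℂ) • S.th α A)) + (-216 : ℂ) • S.th α A := by module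
    rw [this, hsum, zero_add]
  calc P = (1 / 3 : ℂ) • ((3 : ℂ) • P) := by rw [smul_smul]; norm_num
    _ = _ := by rw [h3, smul_smul]; norm_num

/-- the Casimir of one species -/
lemma casimir_one (hreal : ∀ i α β, (S.g i α β).im = 0) (A : Fin dc) :
    ∑ k, ∑ l, S.bil (S.g2 k l) A A * S.bil (S.g2 k l) A A = (-576 : ℂ) • (1 : R) := by
  have h : ∑ k, ∑ l, S.bil (S.g2 k l) A A * S.bil (S.g2 k l) A A =
      ∑ α, S.th α A * ∑ k, ∑ l, S.vec (S.g2 k l) A α * S.bil (S.g2 k l) A A := by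
    have h1 : ∀ k l, S.bil (S.g2 k l) A A * S.bil (S.g2 k l) A A =
        ∑ α, S.th α A * (S.vec (S.g2 k l) A α * S.bil (S.g2 k l) A A) := by
      intro k l
      conv_lhs => rw [bil]
      rw [Finset.sum_mul]
      refine Finset.sum_congr rfl fun α _ => ?_
      rw [mul_assoc]; rfl
    simp only [h1, Finset.mul_sum]
    have : ∀ k, ∑ l, ∑ α, S.th α A * (S.vec (S.g2 k l) A α * S.bil (S.g2 k l) A A) =
        ∑ α, ∑ l, S.th α A * (S.vec (S.g2 k l) A α * S.bil (S.g2 k l) A A) := fun k =>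
      Finset.sum_comm
    simp only [this]
    rw [Finset.sum_comm]
  rw [h]
  simp only [S.cubic hreal, mul_smul_comm, ← Finset.smul_sum, th_sq_sum, smul_smul]
  norm_num

end CS
end Vale.Agent.P353.Z
end

section

/-! # P353, uniqueness: the Fierz identity behind the BMN deformation (`FBmnStmt`)

With `E_{αβγδ} = ∑_i γ^i_{αβ}γ^i_{γδ}` the identity `F10` gives
`N_{αβγδ} = ∑_{kl} γ^{kl}_{αβ}γ^{kl}_{γδ} = 6(δ_{αγ}δ_{βδ} - δ_{βγ}δ_{αδ}) + 2(E_{γαβδ} - E_{γβαδ})`,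
and the rest follows from `a_i γ^iΓ = (3/2) γ^iΓ + (1/2) Γγ^i`,
`rc_{ij} Γγ^{ij} = 3·[i,j ∈ I3] Γγ^{ij} - (1/2)(Γγ^{ij} + γ^{ij}Γ)` and `γ^{ij} = ε_{ijk} Γγ^k` on `I3`. -/

open MeasureTheory Filter Topology
open scoped ContDiff Matrix

namespace Vale.Agent.P353.Z.U

variable {dc : ℕ}

variable {F : Type*} [NormedAddCommGroup F] [InnerProductSpace ℂ F]

namespace FBmnAux

variable (S : Setup dc F)

/-- `∑_i γ^i_{αβ}γ^i_{γδ}` -/
noncomputable def E (α β γ δ : Fin 16) : ℂ := ∑ i, S.g i α β * S.g i γ δ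

/-- Kronecker delta -/
noncomputable def kd (α β : Fin 16) : ℂ := (1 : Matrix (Fin 16) (Fin 16) ℂ) α β

lemma kd_eq (α β : Fin 16) : kd α β = if α = β then 1 else 0 := Matrix.one_apply

lemma kd_symm (α β : Fin 16) : kd α β = kd β α := by
  rw [kd_eq, kd_eq]
  simp only [eq_comm]

lemma sum_kd_mul (α : Fin 16) (f : Fin 16 → ℂ) : ∑ ε, kd α ε * f ε = f α := by
  simp only [kd_eq, ite_mul, one_mul, zero_mul, Finset.sum_ite_eq, Finset.mem_univ, if_true]

lemma gs (i : Fin 9) (α β : Fin 16) : S.g i α β = S.g i β α := by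
  have h := congrFun (congrFun (S.g_symm i) β) α
  rwa [Matrix.transpose_apply] at h

lemma Gs (α β : Fin 16) : S.Gam α β = -S.Gam β α := by
  have h := congrFun (congrFun S.Gam_transpose β) α
  rwa [Matrix.transpose_apply, Matrix.neg_apply] at h

lemma g2s (k l : Fin 9) (α β : Fin 16) : S.g2 k l α β = -S.g2 k l β α := by
  have h := congrFun (congrFun (S.g2_transpose k l) β) α
  rwa [Matrix.transpose_apply, Matrix.neg_apply] at h

lemma E1 (α β γ δ : Fin 16) : E S α β γ δ = E S β α γ δ := by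
  simp only [E, gs S _ α β]

lemma E2 (α β γ δ : Fin 16) : E S α β γ δ = E S α β δ γ := by
  simp only [E, gs S _ γ δ]

lemma E3 (α β γ δ : Fin 16) : E S α β γ δ = E S γ δ α β := by
  simp only [E, mul_comm]

lemma E_F10 (h : F10Stmt S) (α β γ δ : Fin 16) :
    E S α β γ δ + E S β γ α δ + E S γ α β δ =
      kd α β * kd γ δ + kd β γ * kd α δ + kd γ α * kd β δ := by
  have h1 := h α β γ δ
  have e : ∀ a b c d : Fin 16, kd a b * kd c d = if a = b ∧ c = d then 1 else 0 := by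
    intro a b c d
    rw [kd_eq, kd_eq]
    split_ifs <;> simp_all
  rw [e, e, e, ← h1]
  simp only [E, Finset.sum_add_distrib]

lemma N1 (α β γ δ : Fin 16) : S.NN α β γ δ = -S.NN β α γ δ := by
  simp only [CS.NN, g2s S _ _ α β, neg_mul, Finset.sum_neg_distrib]

lemma N2 (α β γ δ : Fin 16) : S.NN α β γ δ = -S.NN α β δ γ := by
  simp only [CS.NN, g2s S _ _ γ δ, mul_neg, Finset.sum_neg_distrib]

lemma N3 (α β γ δ : Fin 16) : S.NN α β γ δ = S.NN γ δ α β := by
  simp only [CS.NN, mul_comm]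

lemma P_eq (α β γ δ : Fin 16) :
    ∑ k, ∑ l, (S.g k * S.g l) α β * (S.g k * S.g l) γ δ = S.NN α β γ δ + 9 * (kd α β * kd γ δ) := by
  have h : ∀ k l, (S.g k * S.g l) α β * (S.g k * S.g l) γ δ =
      S.g2 k l α β * S.g2 k l γ δ + if k = l then kd α β * kd γ δ else 0 := by
    intro k l
    by_cases hkl : k = l
    · subst hkl
      have h0 : S.g2 k k = 0 := by
        rw [CS.g2, sub_self, smul_zero]
      rw [if_pos rfl, h0, S.g_sq' k]
      simp only [Matrix.zero_apply, mul_zero, zero_add]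
      rfl
    · rw [if_neg hkl, add_zero]
      have h0 : S.g2 k l = S.g k * S.g l := by
        rw [S.g2_eq, if_neg hkl, zero_smul, sub_zero]
      rw [h0]
  simp only [h, Finset.sum_add_distrib, Finset.sum_ite_eq, Finset.mem_univ, if_true,
    Finset.sum_const, Finset.card_univ, Fintype.card_fin, CS.NN]
  norm_num

lemma sandE (M : Matrix (Fin 16) (Fin 16) ℂ) (β δ : Fin 16) :
    ∑ l, ∑ ε, ∑ ζ, M ε ζ * (S.g l ε β * S.g l ζ δ) = S.sand M β δ := by
  rw [CS.sand, Matrix.sum_apply]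
  refine Finset.sum_congr rfl fun l _ => ?_
  rw [Matrix.mul_apply, Finset.sum_comm]
  refine Finset.sum_congr rfl fun ζ _ => ?_
  rw [Matrix.mul_apply, Finset.sum_mul]
  refine Finset.sum_congr rfl fun ε _ => ?_
  rw [gs S l ε β]
  ring

lemma P_sum (α β γ δ : Fin 16) :
    ∑ k, ∑ l, (S.g k * S.g l) α β * (S.g k * S.g l) γ δ =
      ∑ l, ∑ ε, ∑ ζ, E S α ε γ ζ * (S.g l ε β * S.g l ζ δ) := by
  rw [Finset.sum_comm]
  refine Finset.sum_congr rfl fun l _ => ?_
  have h : ∀ k, (S.g k * S.g l) α β * (S.g k * S.g l) γ δ =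
      ∑ ε, ∑ ζ, (S.g k α ε * S.g k γ ζ) * (S.g l ε β * S.g l ζ δ) := by
    intro k
    rw [Matrix.mul_apply, Matrix.mul_apply, Finset.sum_mul_sum]
    refine Finset.sum_congr rfl fun ε _ => Finset.sum_congr rfl fun ζ _ => ?_
    ring
  simp only [h]
  rw [Finset.sum_comm]
  refine Finset.sum_congr rfl fun ε _ => ?_
  rw [Finset.sum_comm]
  refine Finset.sum_congr rfl fun ζ _ => ?_
  rw [E, Finset.sum_mul]

lemma P_quad (h : F10Stmt S) (α β γ δ : Fin 16) :
    ∑ k, ∑ l, (S.g k * S.g l) α β * (S.g k * S.g l) γ δ +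
      ∑ k, ∑ l, (S.g k * S.g l) γ β * (S.g k * S.g l) α δ =
    E S α β γ δ + E S γ β α δ + 9 * (kd γ α * kd β δ) + 7 * E S γ α β δ := by
  rw [P_sum, P_sum, ← Finset.sum_add_distrib]
  simp only [← Finset.sum_add_distrib, ← add_mul]
  have hM : ∀ ε ζ, E S α ε γ ζ + E S γ ε α ζ =
      kd α ε * kd γ ζ + kd γ ε * kd α ζ + (kd γ α * kd ε ζ - ∑ k, S.g k γ α * S.g k ε ζ) := by
    intro ε ζ
    have h1 := E_F10 S h α ε γ ζ
    have h2 := E1 S ε γ α ζ
    have h3 := kd_symm ε γ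
    have h4 : ∑ k, S.g k γ α * S.g k ε ζ = E S γ α ε ζ := rfl
    rw [h4]
    rw [h2, h3] at h1
    linear_combination h1
  conv_lhs => simp only [hM, add_mul, Finset.sum_add_distrib]
  have e1 : ∑ l, ∑ ε, ∑ ζ, kd α ε * kd γ ζ * (S.g l ε β * S.g l ζ δ) = E S α β γ δ := by
    rw [E]
    refine Finset.sum_congr rfl fun l _ => ?_
    have : ∀ ε, ∑ ζ, kd α ε * kd γ ζ * (S.g l ε β * S.g l ζ δ) =
        kd α ε * (S.g l ε β * S.g l γ δ) := by
      intro ε
      rw [← sum_kd_mul γ (fun ζ => S.g l ζ δ), Finset.mul_sum, Finset.mul_sum]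
      exact Finset.sum_congr rfl fun ζ _ => by ring
    simp only [this]
    exact sum_kd_mul α (fun ε => S.g l ε β * S.g l γ δ)
  have e2 : ∑ l, ∑ ε, ∑ ζ, kd γ ε * kd α ζ * (S.g l ε β * S.g l ζ δ) = E S γ β α δ := by
    rw [E]
    refine Finset.sum_congr rfl fun l _ => ?_
    have : ∀ ε, ∑ ζ, kd γ ε * kd α ζ * (S.g l ε β * S.g l ζ δ) =
        kd γ ε * (S.g l ε β * S.g l α δ) := by
      intro ε
      rw [← sum_kd_mul α (fun ζ => S.g l ζ δ), Finset.mul_sum, Finset.mul_sum]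
      exact Finset.sum_congr rfl fun ζ _ => by ring
    simp only [this]
    exact sum_kd_mul γ (fun ε => S.g l ε β * S.g l α δ)
  have e3 := sandE S (kd γ α • (1 : Matrix (Fin 16) (Fin 16) ℂ) -
    ∑ k, S.g k γ α • S.g k) β δ
  have e4 : ∀ ε ζ, (kd γ α • (1 : Matrix (Fin 16) (Fin 16) ℂ) - ∑ k, S.g k γ α • S.g k) ε ζ =
      kd γ α * kd ε ζ - ∑ k, S.g k γ α * S.g k ε ζ := by
    intro ε ζ
    rw [Matrix.sub_apply, Matrix.smul_apply, Matrix.sum_apply]
    rfl
  simp only [e4] at e3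
  have e5 : S.sand (kd γ α • (1 : Matrix (Fin 16) (Fin 16) ℂ) - ∑ k, S.g k γ α • S.g k) =
      (9 * kd γ α) • (1 : Matrix (Fin 16) (Fin 16) ℂ) + (7 : ℂ) • ∑ k, S.g k γ α • S.g k := by
    have hs : S.sand (∑ k, S.g k γ α • S.g k) = ∑ k, S.g k γ α • S.sand (S.g k) := by
      simp only [CS.sand, Finset.mul_sum, Finset.sum_mul, Finset.smul_sum]
      rw [Finset.sum_comm]
      refine Finset.sum_congr rfl fun k _ => Finset.sum_congr rfl fun l _ => ?_
      rw [Matrix.mul_smul, Matrix.smul_mul]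
    rw [S.sand_sub, S.sand_smul, S.sand_one, hs]
    simp only [S.sand_g, Finset.smul_sum, smul_smul]
    rw [sub_eq_add_neg, ← Finset.sum_neg_distrib]
    congr 1
    · rw [mul_comm]
    · refine Finset.sum_congr rfl fun k _ => ?_
      rw [← neg_smul]
      congr 1
      ring
  rw [e1, e2, e3, e5, Matrix.add_apply, Matrix.smul_apply, Matrix.smul_apply, Matrix.sum_apply]
  have e6 : ∑ c, (S.g c γ α • S.g c) β δ = E S γ α β δ := rfl
  have e7 : (1 : Matrix (Fin 16) (Fin 16) ℂ) β δ = kd β δ := rfl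
  rw [e6, e7, smul_eq_mul, smul_eq_mul]
  ring

lemma NS (h : F10Stmt S) (α β γ δ : Fin 16) : S.NN α β γ δ + S.NN γ β α δ =
    E S α β γ δ + E S γ β α δ + 7 * E S γ α β δ +
      9 * (kd γ α * kd β δ - kd α β * kd γ δ - kd γ β * kd α δ) := by
  have h1 := P_quad S h α β γ δ
  rw [P_eq, P_eq] at h1
  linear_combination h1

/-- the Fierz identity for `N` -/
lemma Nform (h : F10Stmt S) (α β γ δ : Fin 16) : S.NN α β γ δ =
    6 * (kd α γ * kd β δ - kd β γ * kd α δ) + 2 * (E S α γ β δ - E S β γ α δ) := by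
  have h1 := NS S h α β γ δ
  have h2 := NS S h β α γ δ
  have h3 := S.fierz S.g_real α β γ δ
  have n1 := N3 S γ β α δ
  have n2 := N2 S α δ γ β
  have n3 := N1 S γ α β δ
  have n4 := N2 S α γ β δ
  have n5 := N1 S β α γ δ
  have e1 := E1 S γ α β δ
  have e2 := E1 S γ β α δ
  have e3 := E1 S α β γ δ
  have k1 := kd_symm γ α
  have k2 := kd_symm γ β
  have k3 := kd_symm α β
  rw [n1, n2, k1, k2, e1, e2] at h1
  rw [n3, n4, n5, k1, k2, e1, e2, ← k3, ← e3] at h2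
  linear_combination (1 / 3 : ℂ) * h1 - (1 / 3 : ℂ) * h2 + (1 / 3 : ℂ) * h3

/-! ### the weights -/

lemma aw_Gam (i : Fin 9) : (aw i : ℂ) • (S.g i * S.Gam) =
    (3 / 2 : ℂ) • (S.g i * S.Gam) + (1 / 2 : ℂ) • (S.Gam * S.g i) := by
  unfold aw
  by_cases hi : i.val < 3
  · rw [if_pos hi, S.g_Gam_comm hi]
    push_cast
    module
  · rw [if_neg hi, S.g_Gam_anti (by omega)]
    push_cast
    module

lemma a_sum (α β γ δ : Fin 16) :
    ∑ i, (aw i : ℂ) * (S.g i α γ * (S.g i * S.Gam) β δ) =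
      ∑ ε, ((3 / 2) * (E S α γ β ε * S.Gam ε δ) + (1 / 2) * (S.Gam β ε * E S α γ ε δ)) := by
  have h : ∀ i, (aw i : ℂ) * (S.g i α γ * (S.g i * S.Gam) β δ) =
      ∑ ε, S.g i α γ * ((3 / 2) * (S.g i β ε * S.Gam ε δ) + (1 / 2) * (S.Gam β ε * S.g i ε δ)) := by
    intro i
    have h1 := congrFun (congrFun (aw_Gam S i) β) δ
    rw [Matrix.add_apply, Matrix.smul_apply, Matrix.smul_apply, Matrix.smul_apply,
      smul_eq_mul, smul_eq_mul, smul_eq_mul] at h1
    have h2 : (S.g i * S.Gam) β δ = ∑ ε, S.g i β ε * S.Gam ε δ := Matrix.mul_apply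
    have h3 : (S.Gam * S.g i) β δ = ∑ ε, S.Gam β ε * S.g i ε δ := Matrix.mul_apply
    calc (aw i : ℂ) * (S.g i α γ * (S.g i * S.Gam) β δ) =
        S.g i α γ * ((aw i : ℂ) * (S.g i * S.Gam) β δ) := by ring
      _ = _ := by
        rw [h1, h2, h3, Finset.mul_sum, Finset.mul_sum, ← Finset.sum_add_distrib, Finset.mul_sum]
  simp only [h]
  rw [Finset.sum_comm]
  refine Finset.sum_congr rfl fun ε _ => ?_
  simp only [E, Finset.sum_mul, Finset.mul_sum, ← Finset.sum_add_distrib]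
  exact Finset.sum_congr rfl fun i _ => by ring

/-- indicator of `I3` -/
noncomputable def i3 (i : Fin 9) : ℂ := if i.val < 3 then 1 else 0

lemma g2_self (i : Fin 9) : S.g2 i i = 0 := by rw [CS.g2, sub_self, smul_zero]

lemma g2_ne {i j : Fin 9} (h : i ≠ j) : S.g2 i j = S.g i * S.g j := by
  rw [S.g2_eq, if_neg h, zero_smul, sub_zero]

lemma g2_mixed {i j : Fin 9} (hi : i.val < 3) (hj : 3 ≤ j.val) :
    S.g2 i j * S.Gam = -(S.Gam * S.g2 i j) := by
  rw [g2_ne S (by rintro rfl; omega), mul_assoc, S.g_Gam_anti hj, mul_neg, ← mul_assoc,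
    S.g_Gam_comm hi, mul_assoc]

lemma rc_Gam (i j : Fin 9) : (rc i j : ℂ) • (S.Gam * S.g2 i j) =
    (3 * (i3 i * i3 j)) • (S.Gam * S.g2 i j) - (1 / 2 : ℂ) • (S.Gam * S.g2 i j + S.g2 i j * S.Gam) := by
  by_cases hij : i = j
  · subst hij
    rw [g2_self, mul_zero, zero_mul]
    simp only [smul_zero, add_zero, sub_zero]
  unfold rc i3
  by_cases hi : i.val < 3
  · by_cases hj : j.val < 3
    · rw [if_pos ⟨hi, hj⟩, if_pos hi, if_pos hj, S.Gam_comm_g2 ⟨hij, by simp only [hi, hj]⟩]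
      push_cast
      module
    · rw [if_neg (fun h => hj h.2), if_neg (fun h => absurd h.1 (by omega)), if_pos hi, if_neg hj,
        g2_mixed S hi (by omega)]
      push_cast
      module
  · by_cases hj : j.val < 3
    · have : S.g2 i j * S.Gam = -(S.Gam * S.g2 i j) := by
        rw [S.g2_antisymm i j, neg_mul, g2_mixed S hj (by omega), mul_neg]
      rw [if_neg (fun h => hi h.1), if_neg (fun h => absurd h.2 (by omega)), if_neg hi, if_pos hj,
        this]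
      push_cast
      module
    · rw [if_neg (fun h => hi h.1), if_pos ⟨by omega, by omega⟩, if_neg hi, if_neg hj,
        S.Gam_comm_g2 ⟨hij, by simp only [hi, hj]⟩]
      push_cast
      module

lemma sum_i3 (f : Fin 9 → ℂ) : ∑ i, i3 i * f i = f 0 + f 1 + f 2 := by
  simp only [Fin.sum_univ_succ, i3]
  simp [Fin.val_succ]
  exact (add_assoc _ _ _).symm

lemma g2_01 : S.g2 0 1 = S.Gam * S.g 2 := by
  rw [g2_ne S (by decide), Setup.Gam, mul_assoc, S.g_sq' 2, mul_one]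

lemma g2_12 : S.g2 1 2 = S.Gam * S.g 0 := by
  rw [g2_ne S (by decide), ← S.g_Gam_comm (i := 0) (by decide), Setup.Gam, ← mul_assoc, ← mul_assoc,
    S.g_sq' 0, one_mul]

lemma g2_20 : S.g2 2 0 = S.Gam * S.g 1 := by
  have h01 : S.g 0 * S.g 1 = -(S.g 1 * S.g 0) := S.g_ac (by decide)
  have h02 : S.g 0 * S.g 2 = -(S.g 2 * S.g 0) := S.g_ac (by decide)
  rw [g2_ne S (by decide), ← S.g_Gam_comm (i := 1) (by decide), Setup.Gam, h01, neg_mul, mul_neg,
    mul_assoc (S.g 1), ← mul_assoc (S.g 1), S.g_sq' 1, one_mul, h02, neg_neg]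

lemma i3_Gam (k : Fin 9) : i3 k • (S.Gam * S.g k) =
    (1 / 2 : ℂ) • (S.Gam * S.g k + S.g k * S.Gam) := by
  unfold i3
  by_cases hi : k.val < 3
  · rw [if_pos hi, S.g_Gam_comm hi]
    module
  · rw [if_neg hi, S.g_Gam_anti (by omega)]
    module

lemma Gam_Gam_g (k : Fin 9) : S.Gam * (S.Gam * S.g k) = -S.g k := by
  rw [← mul_assoc, S.Gam_sq, neg_mul, one_mul]

lemma c_sum (α β γ δ : Fin 16) :
    ∑ i, ∑ j, (i3 i * i3 j) * ((S.Gam * S.g2 i j) α β * S.g2 i j γ δ) =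
      -∑ k, S.g k α β * (S.Gam * S.g k + S.g k * S.Gam) γ δ := by
  have h1 : ∀ k, S.g k α β * (S.Gam * S.g k + S.g k * S.Gam) γ δ =
      i3 k * (2 * (S.g k α β * (S.Gam * S.g k) γ δ)) := by
    intro k
    have h := congrFun (congrFun (i3_Gam S k) γ) δ
    rw [Matrix.smul_apply, Matrix.smul_apply, smul_eq_mul, smul_eq_mul] at h
    linear_combination (-2 * S.g k α β) * h
  have h2 : ∀ i, ∑ j, (i3 i * i3 j) * ((S.Gam * S.g2 i j) α β * S.g2 i j γ δ) =
      i3 i * ∑ j, i3 j * ((S.Gam * S.g2 i j) α β * S.g2 i j γ δ) := by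
    intro i
    rw [Finset.mul_sum]
    exact Finset.sum_congr rfl fun j _ => by ring
  simp only [h1, h2]
  rw [sum_i3, sum_i3, sum_i3, sum_i3, sum_i3]
  have a1 : S.g2 1 0 = -S.g2 0 1 := S.g2_antisymm 1 0
  have a2 : S.g2 2 1 = -S.g2 1 2 := S.g2_antisymm 2 1
  have a3 : S.g2 0 2 = -S.g2 2 0 := S.g2_antisymm 0 2
  rw [a1, a2, a3, g2_self, g2_self, g2_self, g2_01, g2_12, g2_20]
  simp only [mul_neg, Gam_Gam_g, Matrix.neg_apply, neg_neg, mul_zero, Matrix.zero_apply]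
  ring

lemma b_sum (α β γ δ : Fin 16) :
    ∑ i, ∑ j, ((rc i j : ℂ) * (S.Gam * S.g2 i j) α β) * S.g2 i j γ δ =
      ∑ ε, (-3 * (E S α β ε δ * S.Gam γ ε + E S α β γ ε * S.Gam ε δ) -
        (1 / 2) * (S.Gam α ε * S.NN ε β γ δ + S.NN α ε γ δ * S.Gam ε β)) := by
  have h1 : ∀ i j, ((rc i j : ℂ) * (S.Gam * S.g2 i j) α β) * S.g2 i j γ δ =
      3 * ((i3 i * i3 j) * ((S.Gam * S.g2 i j) α β * S.g2 i j γ δ)) -
        ∑ ε, (1 / 2) * (S.Gam α ε * (S.g2 i j ε β * S.g2 i j γ δ) +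
          (S.g2 i j α ε * S.g2 i j γ δ) * S.Gam ε β) := by
    intro i j
    have h := congrFun (congrFun (rc_Gam S i j) α) β
    rw [Matrix.sub_apply, Matrix.smul_apply, Matrix.smul_apply, Matrix.smul_apply,
      Matrix.add_apply, smul_eq_mul, smul_eq_mul, smul_eq_mul] at h
    have h2 : (S.Gam * S.g2 i j) α β = ∑ ε, S.Gam α ε * S.g2 i j ε β := Matrix.mul_apply
    have h3 : (S.g2 i j * S.Gam) α β = ∑ ε, S.g2 i j α ε * S.Gam ε β := Matrix.mul_apply
    have h4 : ∑ ε, (1 / 2) * (S.Gam α ε * (S.g2 i j ε β * S.g2 i j γ δ) +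
          (S.g2 i j α ε * S.g2 i j γ δ) * S.Gam ε β) =
          (1 / 2) * ((S.Gam * S.g2 i j) α β + (S.g2 i j * S.Gam) α β) * S.g2 i j γ δ := by
      rw [h2, h3, ← Finset.sum_add_distrib, Finset.mul_sum, Finset.sum_mul]
      exact Finset.sum_congr rfl fun ε _ => by ring
    rw [h, h4]
    ring
  simp only [h1, Finset.sum_sub_distrib, ← Finset.mul_sum, c_sum]
  have h5 : ∑ k, S.g k α β * (S.Gam * S.g k + S.g k * S.Gam) γ δ =
      ∑ ε, (E S α β ε δ * S.Gam γ ε + E S α β γ ε * S.Gam ε δ) := by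
    have : ∀ k, S.g k α β * (S.Gam * S.g k + S.g k * S.Gam) γ δ =
        ∑ ε, (S.g k α β * S.g k ε δ * S.Gam γ ε + S.g k α β * S.g k γ ε * S.Gam ε δ) := by
      intro k
      rw [Matrix.add_apply, Matrix.mul_apply, Matrix.mul_apply, ← Finset.sum_add_distrib,
        Finset.mul_sum]
      exact Finset.sum_congr rfl fun ε _ => by ring
    simp only [this]
    rw [Finset.sum_comm]
    refine Finset.sum_congr rfl fun ε _ => ?_
    simp only [E, Finset.sum_mul, Finset.sum_add_distrib]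
  have h6 : ∑ i, ∑ j, ∑ ε, (S.Gam α ε * (S.g2 i j ε β * S.g2 i j γ δ) +
          (S.g2 i j α ε * S.g2 i j γ δ) * S.Gam ε β) =
      ∑ ε, (S.Gam α ε * S.NN ε β γ δ + S.NN α ε γ δ * S.Gam ε β) := by
    have s1 : ∀ (f : Fin 9 → Fin 9 → Fin 16 → ℂ),
        ∑ k, ∑ l, ∑ β, f k l β = ∑ β, ∑ k, ∑ l, f k l β := by
      intro f
      have : ∀ k, ∑ l, ∑ β, f k l β = ∑ β, ∑ l, f k l β := fun k => Finset.sum_comm
      simp only [this]
      rw [Finset.sum_comm]
    rw [s1]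
    refine Finset.sum_congr rfl fun ε _ => ?_
    simp only [CS.NN, Finset.sum_mul, Finset.mul_sum, Finset.sum_add_distrib]
  rw [h5, h6]
  ring

/-- the c-number identity -/
lemma cnum (h : F10Stmt S) (α β γ δ : Fin 16) :
    ∑ i, (aw i : ℂ) * (S.g i α γ * (S.g i * S.Gam) β δ + S.g i β γ * (S.g i * S.Gam) α δ) -
      ∑ i, (aw i : ℂ) * (S.g i α δ * (S.g i * S.Gam) β γ + S.g i β δ * (S.g i * S.Gam) α γ) =
    (1 / 2) * (∑ i, ∑ j, ((rc i j : ℂ) * (S.Gam * S.g2 i j) α β) * S.g2 i j γ δ) +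
      3 * kd α β * S.Gam γ δ := by
  simp only [mul_add, Finset.sum_add_distrib]
  rw [a_sum, a_sum, a_sum, a_sum, b_sum]
  have hd : 3 * kd α β * S.Gam γ δ =
      ∑ ε, ((3 / 2) * ((kd α β * kd γ ε + kd β γ * kd α ε + kd γ α * kd β ε) * S.Gam ε δ -
        (kd α β * kd δ ε + kd β δ * kd α ε + kd δ α * kd β ε) * S.Gam ε γ) +
        (3 / 2) * (S.Gam α ε * (kd γ ε * kd β δ - kd β γ * kd δ ε) -
          (kd α γ * kd δ ε - kd γ ε * kd α δ) * S.Gam β ε)) := by
    have e1 := sum_kd_mul γ (fun ε => S.Gam ε δ)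
    have e2 := sum_kd_mul α (fun ε => S.Gam ε δ)
    have e3 := sum_kd_mul β (fun ε => S.Gam ε δ)
    have e4 := sum_kd_mul δ (fun ε => S.Gam ε γ)
    have e5 := sum_kd_mul α (fun ε => S.Gam ε γ)
    have e6 := sum_kd_mul β (fun ε => S.Gam ε γ)
    have e7 := sum_kd_mul γ (fun ε => S.Gam α ε)
    have e8 := sum_kd_mul δ (fun ε => S.Gam α ε)
    have e9 := sum_kd_mul δ (fun ε => S.Gam β ε)
    have e10 := sum_kd_mul γ (fun ε => S.Gam β ε)
    have hs : ∑ ε, ((3 / 2) * ((kd α β * kd γ ε + kd β γ * kd α ε + kd γ α * kd β ε) * S.Gam ε δ -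
        (kd α β * kd δ ε + kd β δ * kd α ε + kd δ α * kd β ε) * S.Gam ε γ) +
        (3 / 2) * (S.Gam α ε * (kd γ ε * kd β δ - kd β γ * kd δ ε) -
          (kd α γ * kd δ ε - kd γ ε * kd α δ) * S.Gam β ε)) =
        (3 / 2) * (kd α β * (∑ ε, kd γ ε * S.Gam ε δ) + kd β γ * (∑ ε, kd α ε * S.Gam ε δ) +
          kd γ α * (∑ ε, kd β ε * S.Gam ε δ) - kd α β * (∑ ε, kd δ ε * S.Gam ε γ) -
          kd β δ * (∑ ε, kd α ε * S.Gam ε γ) - kd δ α * (∑ ε, kd β ε * S.Gam ε γ)) +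
        (3 / 2) * (kd β δ * (∑ ε, kd γ ε * S.Gam α ε) - kd β γ * (∑ ε, kd δ ε * S.Gam α ε) -
          kd α γ * (∑ ε, kd δ ε * S.Gam β ε) + kd α δ * (∑ ε, kd γ ε * S.Gam β ε)) := by
      simp only [Finset.mul_sum, ← Finset.sum_add_distrib, ← Finset.sum_sub_distrib]
      exact Finset.sum_congr rfl fun ε _ => by ring
    rw [hs, e1, e2, e3, e4, e5, e6, e7, e8, e9, e10, kd_symm γ α, kd_symm δ α, Gs S δ γ]
    ring
  rw [hd]
  simp only [Finset.mul_sum, ← Finset.sum_add_distrib, ← Finset.sum_sub_distrib]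
  refine Finset.sum_congr rfl fun ε _ => ?_
  have f1 := E_F10 S h α β γ ε
  have f2 := E_F10 S h α β δ ε
  have n1 := Nform S h ε β γ δ
  have n2 := Nform S h α ε γ δ
  have g1 := Gs S γ ε
  have g2 := Gs S ε β
  have q1 := E1 S γ α β ε
  have q2 := E1 S δ α β ε
  have q3 := E2 S α β ε δ
  have q4 := E3 S β γ ε δ
  have q5 := E3 S β δ ε γ
  have q6 := E3 S ε γ α δ
  have k1 := kd_symm ε γ
  have k2 := kd_symm ε δ
  rw [n1, n2, g1, g2, q3, q4, q5, q6, k1, k2]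
  rw [q1] at f1
  rw [q2] at f2
  linear_combination (3 / 2 * S.Gam ε δ) * f1 - (3 / 2 * S.Gam ε γ) * f2

/-! ### the operator identity -/

lemma vec_vec (N M : Matrix (Fin 16) (Fin 16) ℂ) (A : Fin dc) (α β : Fin 16) :
    S.vec N A α * S.vec M A β = S.bil (Matrix.of fun γ δ => N α γ * M β δ) A A := by
  rw [CS.bil, CS.vec, Finset.sum_mul]
  refine Finset.sum_congr rfl fun γ _ => ?_
  rw [CS.vec, CS.vec, Finset.mul_sum, Finset.mul_sum]
  refine Finset.sum_congr rfl fun δ _ => ?_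
  rw [smul_mul_smul_comm, Matrix.of_apply, mul_smul_comm]

/-- the coefficient matrix -/
noncomputable def Lm (α β : Fin 16) : Matrix (Fin 16) (Fin 16) ℂ :=
  ∑ i, (aw i : ℂ) • ((Matrix.of fun γ δ => S.g i α γ * (S.g i * S.Gam) β δ) +
    Matrix.of fun γ δ => S.g i β γ * (S.g i * S.Gam) α δ)

lemma Lm_apply (α β γ δ : Fin 16) : Lm S α β γ δ =
    ∑ i, (aw i : ℂ) * (S.g i α γ * (S.g i * S.Gam) β δ + S.g i β γ * (S.g i * S.Gam) α δ) := by
  rw [Lm, Matrix.sum_apply]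
  rfl

lemma tot_Lm (α β : Fin 16) : ∑ i, ∑ A, (aw i : ℂ) •
      (S.vec (S.g i) A α * S.vec (S.g i * S.Gam) A β +
        S.vec (S.g i) A β * S.vec (S.g i * S.Gam) A α) = S.tot (Lm S α β) := by
  rw [Lm, S.tot_sum]
  refine Finset.sum_congr rfl fun i _ => ?_
  rw [S.tot_smul, S.tot_add, ← Finset.smul_sum, Finset.sum_add_distrib]
  simp only [vec_vec]
  rfl

lemma gGg (i : Fin 9) : ∃ c : ℂ, S.g i * (S.g i * S.Gam)ᵀ = c • S.Gam := by
  have h1 : (S.g i * S.Gam)ᵀ = -(S.Gam * S.g i) := by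
    rw [Matrix.transpose_mul, S.Gam_transpose, S.g_symm, neg_mul]
  by_cases hi : i.val < 3
  · refine ⟨-1, ?_⟩
    rw [h1, ← S.g_Gam_comm hi, mul_neg, ← mul_assoc, S.g_sq' i, one_mul, neg_one_smul]
  · refine ⟨1, ?_⟩
    have h2 : S.Gam * S.g i = -(S.g i * S.Gam) := by rw [S.g_Gam_anti (by omega), neg_neg]
    rw [h1, h2, neg_neg, ← mul_assoc, S.g_sq' i, one_mul, one_smul]

lemma trace_Lm (α β : Fin 16) : (Lm S α β).trace = 0 := by
  rw [Matrix.trace]
  simp only [Matrix.diag_apply, Lm_apply]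
  rw [Finset.sum_comm]
  refine Finset.sum_eq_zero fun i _ => ?_
  rw [← Finset.mul_sum, Finset.sum_add_distrib]
  have h1 : ∀ a b : Fin 16, ∑ γ, S.g i a γ * (S.g i * S.Gam) b γ =
      (S.g i * (S.g i * S.Gam)ᵀ) a b := by
    intro a b
    rw [Matrix.mul_apply]
    rfl
  obtain ⟨c, hc⟩ := gGg S i
  rw [h1, h1, hc, Matrix.smul_apply, Matrix.smul_apply, Gs S α β, smul_eq_mul, smul_eq_mul]
  ring

lemma Lm_sub (h : F10Stmt S) (α β : Fin 16) : Lm S α β - (Lm S α β)ᵀ =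
    (1 / 2 : ℂ) • (∑ i, ∑ j, ((rc i j : ℂ) * (S.Gam * S.g2 i j) α β) • S.g2 i j) +
      (3 * kd α β) • S.Gam := by
  ext γ δ
  rw [Matrix.sub_apply, Matrix.transpose_apply, Lm_apply, Lm_apply, cnum S h α β γ δ,
    Matrix.add_apply, Matrix.smul_apply, Matrix.smul_apply, Matrix.sum_apply, smul_eq_mul,
    smul_eq_mul]
  congr 2

lemma tot_transpose (N : Matrix (Fin 16) (Fin 16) ℂ) (hN : N.trace = 0) :
    S.tot N = -S.tot Nᵀ := by
  rw [CS.tot, CS.tot, ← Finset.sum_neg_distrib]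
  refine Finset.sum_congr rfl fun A _ => ?_
  rw [S.bil_swap, if_pos rfl, hN, zero_smul, zero_sub]

end FBmnAux

open FBmnAux in
/-- **A-FBMN** from **A-F10** -/
theorem fbmn (S : Setup dc F) (h : F10Stmt S) : FBmnStmt S := by
  intro α β
  rw [tot_Lm]
  have h1 := tot_transpose S (Lm S α β) (trace_Lm S α β)
  have h2 : S.tot (Lm S α β) + S.tot (Lm S α β) = S.tot (Lm S α β - (Lm S α β)ᵀ) := by
    rw [S.tot_sub]
    nth_rewrite 2 [h1]
    rw [sub_eq_add_neg]
  rw [Lm_sub S h, S.tot_add, S.tot_smul, S.tot_smul, S.tot_sum] at h2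
  have h3 : S.tot (Lm S α β) = (1 / 4 : ℂ) • (∑ i, S.tot (∑ j, ((rc i j : ℂ) *
      (S.Gam * S.g2 i j) α β) • S.g2 i j)) + (3 / 2 * kd α β) • S.tot S.Gam := by
    have : S.tot (Lm S α β) = (1 / 2 : ℂ) • (S.tot (Lm S α β) + S.tot (Lm S α β)) := by module
    rw [this, h2]
    module
  rw [h3]
  have h4 : ∀ i, S.tot (∑ j, ((rc i j : ℂ) * (S.Gam * S.g2 i j) α β) • S.g2 i j) =
      ∑ j, ((rc i j : ℂ) * (S.Gam * S.g2 i j) α β) • S.tot (S.g2 i j) := by
    intro i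
    rw [S.tot_sum]
    exact Finset.sum_congr rfl fun j _ => S.tot_smul _ _
  simp only [h4]
  have h5 : (if α = β then (3 / 2 : ℂ) • S.FG else 0) =
      (3 / 2 * kd α β) • (Complex.I • S.tot S.Gam) := by
    rw [kd_eq]
    split_ifs
    · rw [mul_one]; rfl
    · rw [mul_zero, zero_smul]
  rw [h5, smul_add, sub_eq_add_neg]
  congr 1
  · rw [smul_smul, Finset.smul_sum]
    refine Finset.sum_congr rfl fun i _ => ?_
    rw [Finset.smul_sum]
    refine Finset.sum_congr rfl fun j _ => ?_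
    rw [Setup.Skl, smul_smul, smul_smul]
    congr 1
    ring
  · module

end Vale.Agent.P353.Z.U
end
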