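import Mathlib
import Vale.Agent.P353.BdZ.B2
import Vale.Agent.P353.BdZ.B4
import Vale.Agent.P353.BdZ.B1

set_option linter.all false

section

open MeasureTheory Filter Topology
open scoped ContDiff

namespace Vale.Agent.P353.Z

variable {d : ℕ}

namespace CS

variable {R : Type*} [Ring R] [Algebra ℂ R] (S : CS d R)

lemma X_eq_sum (X : Fin 9 → Fin d → ℂ) : X = ∑ i, ∑ A, X i A • E1 i A := by
  funext j B
  simp only [Finset.sum_apply, Pi.smul_apply, E1, smul_eq_mul, mul_ite, mul_one, mul_zero]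
  have : ∀ i, ∑ A, (if j = i ∧ B = A then X i A else 0) = if j = i then X j B else 0 := by
    intro i
    by_cases h : j = i
    · subst h; simp
    · simp [h]
  simp [this]

/-- `MJv` as a linear map -/
noncomputable def MJvL (k l : Fin 9) (β : Fin 16) : (Fin 9 → Fin d → ℂ) →ₗ[ℂ] R where
  toFun X := S.MJv k l X β
  map_add' X Y := by
    simp only [MJv, Pi.add_apply, add_smul, Finset.sum_add_distrib, Finset.sum_sub_distrib]
    module
  map_smul' c X := by
    simp only [MJv, Pi.smul_apply, smul_eq_mul, mul_smul, ← Finset.smul_sum, ← smul_sub,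
      RingHom.id_apply]
    module

lemma MJv_eq_sum (k l : Fin 9) (X : Fin 9 → Fin d → ℂ) (β : Fin 16) :
    S.MJv k l X β = ∑ i, ∑ A, X i A • S.MJv k l (E1 i A) β := by
  have h : S.MJvL k l β X = ∑ i, ∑ A, X i A • S.MJvL k l β (E1 i A) := by
    conv_lhs => rw [X_eq_sum X]
    simp only [map_sum, map_smul]
  exact h

end CS

variable {F : Type*} [NormedAddCommGroup F] [InnerProductSpace ℂ F]

/-- complexified coordinates -/
def Xc (x : (Cfg d)) : Fin 9 → Fin d → ℂ := fun i A => (x (i, A) : ℂ)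

/-- an operator-valued linear multiplier -/
lemma pd_lin (T : Fin 9 → Fin d → (F →L[ℂ] F)) (u : (Cfg d) → F) (x : (Cfg d))
    (hu : DifferentiableAt ℝ u x) (i : Fin 9) (A : Fin d) :
    pd i A (fun y => (∑ j, ∑ B, Xc y j B • T j B) (u y)) x =
      T i A (u x) + (∑ j, ∑ B, Xc x j B • T j B) (pd i A u x) := by
  have hd : ∀ p : Fin 9 × Fin d, DifferentiableAt ℝ (fun y : (Cfg d) => y p) x := fun p =>
    (Setup.contDiff_coord p).differentiable (by simp) x
  have hfd : ∀ j B, fderiv ℝ (fun y : (Cfg d) => y (j, B)) x (EuclideanSpace.single (i, A) 1) =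
      if j = i ∧ B = A then (1:ℝ) else 0 := by
    intro j B
    have hL : (fun y : (Cfg d) => y (j, B)) = (EuclideanSpace.proj (𝕜 := ℝ) (j, B) : (Cfg d) →L[ℝ] ℝ) := rfl
    rw [hL, ContinuousLinearMap.fderiv]
    by_cases h : j = i ∧ B = A
    · simp [h]
    · have : ¬ ((j, B) : Fin 9 × Fin d) = (i, A) := by
        intro h'; exact h (by simpa [Prod.ext_iff] using h')
      simp [h, this]
  have hT : ∀ j B, DifferentiableAt ℝ (fun y => T j B (u y)) x := fun j B =>
    ((T j B).restrictScalars ℝ).differentiableAt.comp x hu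
  have h1 : (fun y => (∑ j, ∑ B, Xc y j B • T j B) (u y)) =
      fun y => ∑ j, ∑ B, ((y (j, B) : ℝ) : ℂ) • T j B (u y) := by
    funext y
    simp only [_root_.sum_apply, _root_.smul_apply, Xc]
  have hs : ∀ j B, DifferentiableAt ℝ (fun y : (Cfg d) => ((y (j, B) : ℝ) : ℂ) • T j B (u y)) x := by
    intro j B
    exact (Complex.ofRealCLM.differentiableAt.comp x (hd (j, B))).smul (hT j B)
  rw [h1, pd_sum _ fun j _ => DifferentiableAt.fun_sum fun B _ => hs j B]
  have h2 : ∀ j, pd i A (fun y : (Cfg d) => ∑ B, ((y (j, B) : ℝ) : ℂ) • T j B (u y)) x =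
      ∑ B, (((if j = i ∧ B = A then (1:ℝ) else 0 : ℝ) : ℂ) • T j B (u x) +
        Xc x j B • T j B (pd i A u x)) := by
    intro j
    rw [pd_sum _ fun B _ => hs j B]
    refine Finset.sum_congr rfl fun B _ => ?_
    rw [pd_rsmul (hd (j, B)) (hT j B), hfd, pd_clm _ hu, Xc]
  simp only [h2, Finset.sum_add_distrib, _root_.sum_apply, _root_.smul_apply]
  congr 1
  have h3 : ∀ j, ∑ B, (((if j = i ∧ B = A then (1:ℝ) else 0 : ℝ) : ℂ) • T j B (u x)) =
      if j = i then T i A (u x) else 0 := by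
    intro j
    by_cases h : j = i
    · subst h; simp
    · simp [h]
  rw [Finset.sum_congr rfl fun j _ => h3 j]
  simp

/-! ### the algebraic identities applied to vectors -/

namespace CS

variable (S : CS d (F →L[ℂ] F))

lemma PJ1_apply (k l : Fin 9) (X : Fin 9 → Fin d → ℂ) (i : Fin 9) (A : Fin d) (v : F) :
    ∑ β, S.vec (S.g i) A β (S.MJv k l X β v) =
      - ∑ β, S.MJv k l X β (S.vec (S.g i) A β v) +
      (112 * (X k A * (if i = l then 1 else 0) - X l A * (if i = k then 1 else 0))) • v := by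
  have h := congrArg (fun T : F →L[ℂ] F => T v) (S.PJ1 k l X i A)
  simp only [_root_.add_apply, _root_.smul_apply, _root_.sum_apply,
    mul_apply_eq_comp, _root_.neg_apply, one_apply_eq_self] at h
  exact h

lemma PJ2_apply (f : Fin d → Fin d → Fin d → ℝ) (κ : ℂ) (k l : Fin 9) (hkl : k ≠ l) (X : Fin 9 → Fin d → ℂ) (v : F) :
    (-Complex.I) • ∑ i, ∑ A, ∑ β, S.vec (S.g i) A β (S.MJv k l (E1 i A) β v) +
      ∑ β, S.Wv f κ X β (S.MJv k l X β v) + ∑ β, S.MJv k l X β (S.Wv f κ X β v) =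
    (112 : ℂ) • S.Sk k l v := by
  have h := congrArg (fun T : F →L[ℂ] F => T v) (S.PJ2 f κ k l hkl X)
  simp only [_root_.add_apply, _root_.smul_apply, _root_.sum_apply,
    mul_apply_eq_comp] at h
  exact h

end CS

namespace Setup

variable (S : Setup d F)

lemma FF_eq (A : Fin d) (i j : Fin 9) (x : (Cfg d)) :
    ((S.FF A i j x : ℝ) : ℂ) = CS.FFc S.f (S.κ : ℂ) (Xc x) A i j := by
  simp only [FF, CS.FFc, Xc, Complex.ofReal_mul, Complex.ofReal_sum]

lemma W_eqX (β : Fin 16) (x : (Cfg d)) : S.W β x = S.toCS.Wv S.f (S.κ : ℂ) (Xc x) β := by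
  ext v
  simp only [W, CS.Wv, FF_eq, _root_.sum_apply, _root_.smul_apply]

lemma Skl_eq (k l : Fin 9) : S.Skl k l = S.toCS.Sk k l := by
  ext v
  simp only [Skl, CS.Sk, _root_.smul_apply]

lemma cS_eq (C : Fin d) : S.cS C = S.toCS.sG S.f C := by
  ext v
  simp only [cS, CS.sG, _root_.sum_apply, _root_.smul_apply]

lemma sum3_smul (f : Fin 9 → Fin d → Fin 16 → F) : ∑ β, (-Complex.I) • ∑ i, ∑ A, f i A β =
    (-Complex.I) • ∑ i, ∑ A, ∑ β, f i A β := by
  rw [← Finset.smul_sum, Finset.sum_comm]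
  congr 1
  refine Finset.sum_congr rfl fun i _ => ?_
  rw [Finset.sum_comm]

lemma Q_eq (β : Fin 16) (u : (Cfg d) → F) (x : (Cfg d)) : S.Q β u x =
    (-Complex.I) • ∑ i, ∑ A, S.vec (S.g i) A β (pd i A u x) +
      S.toCS.Wv S.f (S.κ : ℂ) (Xc x) β (u x) := by
  rw [Q, W_eqX]

lemma clm_Q (T : F →L[ℂ] F) (β : Fin 16) (u : (Cfg d) → F) (x : (Cfg d)) : T (S.Q β u x) =
    (-Complex.I) • ∑ i, ∑ A, T (S.vec (S.g i) A β (pd i A u x)) +
      T (S.toCS.Wv S.f (S.κ : ℂ) (Xc x) β (u x)) := by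
  rw [Q_eq, map_add, map_smul, map_sum]
  simp only [map_sum]

/-- the multiplier for `J_{kl}` -/
noncomputable def MJ (k l : Fin 9) (β : Fin 16) (x : (Cfg d)) : F →L[ℂ] F :=
  (9 : ℂ) • (∑ A, ((x (k, A) : ℂ) • S.vec (S.g l) A β - (x (l, A) : ℂ) • S.vec (S.g k) A β))
    + (2 : ℂ) • ∑ j, ∑ A, (x (j, A) : ℂ) • S.vec (S.g2 k l * S.g j) A β

lemma MJ_eq (k l : Fin 9) (β : Fin 16) (x : (Cfg d)) : S.MJ k l β x = S.toCS.MJv k l (Xc x) β := by
  ext v
  simp only [MJ, CS.MJv, Xc, _root_.sum_apply, _root_.smul_apply, _root_.add_apply,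
    _root_.sub_apply]

lemma pd_MJ (k l : Fin 9) (u : (Cfg d) → F) (x : (Cfg d)) (hu : DifferentiableAt ℝ u x) (β : Fin 16)
    (i : Fin 9) (A : Fin d) : pd i A (fun y => S.MJ k l β y (u y)) x =
      S.toCS.MJv k l (E1 i A) β (u x) + S.toCS.MJv k l (Xc x) β (pd i A u x) := by
  have hS : ∀ X : Fin 9 → Fin d → ℂ, ∀ v, S.toCS.MJv k l X β v =
      (∑ j, ∑ B, X j B • S.toCS.MJv k l (E1 j B) β) v := by
    intro X v
    have h := congrArg (fun T : F →L[ℂ] F => T v) (S.toCS.MJv_eq_sum k l X β)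
    simp only [_root_.sum_apply, _root_.smul_apply] at h ⊢
    exact h
  have hM : (fun y => S.MJ k l β y (u y)) =
      fun y => (∑ j, ∑ B, Xc y j B • S.toCS.MJv k l (E1 j B) β) (u y) := by
    funext y
    rw [MJ_eq, hS]
  rw [hM, pd_lin _ _ _ hu, ← hS]

lemma MJ_L (k l : Fin 9) (u : (Cfg d) → F) (x : (Cfg d)) (hu : DifferentiableAt ℝ u x) :
    ∑ β, S.Q β (fun y => S.MJ k l β y (u y)) x =
      ((-Complex.I) • ∑ i, ∑ A, ∑ β, S.vec (S.g i) A β (S.toCS.MJv k l (E1 i A) β (u x)) +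
        ∑ β, S.toCS.Wv S.f (S.κ : ℂ) (Xc x) β (S.toCS.MJv k l (Xc x) β (u x))) +
      (-Complex.I) • ∑ i, ∑ A, ∑ β, S.vec (S.g i) A β (S.toCS.MJv k l (Xc x) β
        (pd i A u x)) := by
  have e0 : ∀ β, S.Q β (fun y => S.MJ k l β y (u y)) x = (-Complex.I) • ∑ i, ∑ A,
      S.vec (S.g i) A β (S.toCS.MJv k l (E1 i A) β (u x)) +
      (-Complex.I) • ∑ i, ∑ A, S.vec (S.g i) A β (S.toCS.MJv k l (Xc x) β (pd i A u x)) +
      S.toCS.Wv S.f (S.κ : ℂ) (Xc x) β (S.toCS.MJv k l (Xc x) β (u x)) := by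
    intro β
    rw [Q]
    simp only [S.pd_MJ k l u x hu]
    simp only [map_add, Finset.sum_add_distrib, smul_add, W_eqX, MJ_eq]
  rw [Finset.sum_congr rfl fun β _ => e0 β, Finset.sum_add_distrib, Finset.sum_add_distrib,
    sum3_smul, sum3_smul]
  exact add_right_comm _ _ _

lemma MJ_R (k l : Fin 9) (u : (Cfg d) → F) (x : (Cfg d)) :
    ∑ β, S.MJ k l β x (S.Q β u x) =
      (∑ β, S.toCS.MJv k l (Xc x) β (S.toCS.Wv S.f (S.κ : ℂ) (Xc x) β (u x))) +
      (-Complex.I) • ∑ i, ∑ A, ∑ β, S.toCS.MJv k l (Xc x) β (S.vec (S.g i) A β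
        (pd i A u x)) := by
  have e0 : ∀ β, S.MJ k l β x (S.Q β u x) = (-Complex.I) • ∑ i, ∑ A,
      S.toCS.MJv k l (Xc x) β (S.vec (S.g i) A β (pd i A u x)) +
      S.toCS.MJv k l (Xc x) β (S.toCS.Wv S.f (S.κ : ℂ) (Xc x) β (u x)) := by
    intro β
    rw [clm_Q, MJ_eq]
  rw [Finset.sum_congr rfl fun β _ => e0 β, Finset.sum_add_distrib, sum3_smul, add_comm]

theorem J_exact (k l : Fin 9) (hkl : k ≠ l) (u : (Cfg d) → F) (x : (Cfg d))
    (hu : DifferentiableAt ℝ u x) :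
    (112 : ℂ) • S.J k l u x = ∑ β, S.Q β (fun y => S.MJ k l β y (u y)) x +
      ∑ β, S.MJ k l β x (S.Q β u x) := by
  rw [S.MJ_L k l u x hu, S.MJ_R]
  have h2 := S.toCS.PJ2_apply S.f (S.κ : ℂ) k l hkl (Xc x) (u x)
  have h3 : ∑ i, ∑ A, ∑ β, S.vec (S.g i) A β (S.toCS.MJv k l (Xc x) β (pd i A u x)) =
      -∑ i, ∑ A, ∑ β, S.toCS.MJv k l (Xc x) β (S.vec (S.g i) A β (pd i A u x)) +
      (112 : ℂ) • ∑ A, (Xc x k A • pd l A u x - Xc x l A • pd k A u x) := by
    have e1 : ∀ i A, ∑ β, S.vec (S.g i) A β (S.toCS.MJv k l (Xc x) β (pd i A u x)) =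
      - ∑ β, S.toCS.MJv k l (Xc x) β (S.vec (S.g i) A β (pd i A u x)) +
      (112 * (Xc x k A * (if i = l then 1 else 0) - Xc x l A * (if i = k then 1 else 0))) •
        pd i A u x := fun i A => S.toCS.PJ1_apply k l (Xc x) i A (pd i A u x)
    simp only [e1, Finset.sum_add_distrib, Finset.sum_neg_distrib]
    congr 1
    rw [Finset.sum_comm, Finset.smul_sum]
    refine Finset.sum_congr rfl fun A _ => ?_
    have : ∀ i, (112 * (Xc x k A * (if i = l then 1 else 0) -
        Xc x l A * (if i = k then 1 else 0))) • pd i A u x =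
        (if i = l then (112 * Xc x k A) • pd i A u x else 0) -
        (if i = k then (112 * Xc x l A) • pd i A u x else 0) := by
      intro i
      by_cases h1 : i = l
      · subst h1; simp [Ne.symm hkl]
      · by_cases h2 : i = k
        · subst h2; simp [hkl]
        · simp [h1, h2]
    simp only [this, Finset.sum_sub_distrib, Finset.sum_ite_eq', Finset.mem_univ, if_true]
    module
  rw [h3]
  have h4 : (112 : ℂ) • S.J k l u x = (112 : ℂ) • S.toCS.Sk k l (u x) +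
      (-Complex.I) • (112 : ℂ) • ∑ A, (Xc x k A • pd l A u x - Xc x l A • pd k A u x) := by
    simp only [J, Skl_eq, Xc, smul_add]
    rw [smul_comm (112 : ℂ) (-Complex.I)]
    exact add_comm _ _
  rw [h4, ← h2]
  generalize (-Complex.I) • ∑ i, ∑ A, ∑ β, S.vec (S.g i) A β
    (S.toCS.MJv k l (E1 i A) β (u x)) = a1
  generalize ∑ β, S.toCS.Wv S.f (S.κ : ℂ) (Xc x) β (S.toCS.MJv k l (Xc x) β (u x)) = a2
  generalize ∑ β, S.toCS.MJv k l (Xc x) β (S.toCS.Wv S.f (S.κ : ℂ) (Xc x) β (u x)) = a3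
  generalize ∑ i, ∑ A, ∑ β, S.toCS.MJv k l (Xc x) β (S.vec (S.g i) A β (pd i A u x)) = a4
  generalize ∑ A, (Xc x k A • pd l A u x - Xc x l A • pd k A u x) = a5
  module

end Setup
end Vale.Agent.P353.Z
end

section

/-! # P353, general `N`: local limits, algebra and scaling -/

open MeasureTheory Filter Topology
open scoped ContDiff

namespace Vale.Agent.P353.Z.U

variable {dc : ℕ}

variable {F : Type*} [NormedAddCommGroup F] [InnerProductSpace ℂ F]

section alg

variable (S : Setup dc F)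

lemma lm_sum4 {G : Type*} [AddCommMonoid G] (f : Fin 9 → Fin 9 → Fin dc → Fin dc → G) :
    ∑ i, ∑ j, ∑ B, ∑ C, f i j B C = ∑ B, ∑ C, ∑ i, ∑ j, f i j B C := by
  calc ∑ i, ∑ j, ∑ B, ∑ C, f i j B C = ∑ i, ∑ B, ∑ j, ∑ C, f i j B C :=
        Finset.sum_congr rfl fun i _ => Finset.sum_comm
    _ = ∑ B, ∑ i, ∑ j, ∑ C, f i j B C := Finset.sum_comm
    _ = ∑ B, ∑ i, ∑ C, ∑ j, f i j B C :=
        Finset.sum_congr rfl fun B _ => Finset.sum_congr rfl fun i _ => Finset.sum_comm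
    _ = ∑ B, ∑ C, ∑ i, ∑ j, f i j B C := Finset.sum_congr rfl fun B _ => Finset.sum_comm

/-- the bilinear form of `W` -/
noncomputable def lmT (β : Fin 16) (x y : (Cfg dc)) : F →L[ℂ] F :=
  ∑ A, ∑ B, ∑ C, ∑ i, ∑ j,
    ((S.f A B C : ℂ) * (x (i, B) : ℂ) * (y (j, C) : ℂ)) • S.vec (S.g2 i j) A β

lemma lm_DW (ξ : (Cfg dc)) (β : Fin 16) (x : (Cfg dc)) : S.DW ξ β x = (S.κ : ℂ) • lmT S β ξ x := by
  rw [Setup.DW, lmT]

lemma lm_W (β : Fin 16) (x : (Cfg dc)) : S.W β x = ((1 / 2 : ℂ) * (S.κ : ℂ)) • lmT S β x x := by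
  rw [Setup.W, lmT, mul_smul]
  congr 1
  rw [Finset.smul_sum]
  refine Finset.sum_congr rfl fun A _ => ?_
  rw [← lm_sum4, Finset.smul_sum]
  refine Finset.sum_congr rfl fun i _ => ?_
  rw [Finset.smul_sum]
  refine Finset.sum_congr rfl fun j _ => ?_
  rw [Setup.FF]
  push_cast
  rw [mul_smul]
  congr 1
  rw [Finset.sum_smul]
  refine Finset.sum_congr rfl fun B _ => ?_
  rw [Finset.sum_smul]

lemma lm_g2_swap (i j : Fin 9) : S.g2 j i = -S.g2 i j := by
  unfold CS.g2
  rw [← smul_neg, neg_sub]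

lemma lmT_symm (β : Fin 16) (x y : (Cfg dc)) : lmT S β y x = lmT S β x y := by
  unfold lmT
  refine Finset.sum_congr rfl fun A _ => ?_
  rw [Finset.sum_comm]
  refine Finset.sum_congr rfl fun B _ => Finset.sum_congr rfl fun C _ => ?_
  rw [Finset.sum_comm]
  refine Finset.sum_congr rfl fun i _ => Finset.sum_congr rfl fun j _ => ?_
  rw [S.f_swap' A B C, lm_g2_swap S i j, S.vec_neg, smul_neg, ← neg_smul]
  congr 1
  push_cast
  ring

lemma lmT_left (β : Fin 16) (a b : ℝ) (x x' y : (Cfg dc)) :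
    lmT S β (a • x + b • x') y = (a : ℂ) • lmT S β x y + (b : ℂ) • lmT S β x' y := by
  simp only [lmT, Finset.smul_sum, ← Finset.sum_add_distrib]
  refine Finset.sum_congr rfl fun A _ => Finset.sum_congr rfl fun B _ =>
    Finset.sum_congr rfl fun C _ => Finset.sum_congr rfl fun i _ =>
    Finset.sum_congr rfl fun j _ => ?_
  rw [smul_smul, smul_smul, ← add_smul]
  congr 1
  rw [PiLp.add_apply, PiLp.smul_apply, PiLp.smul_apply, smul_eq_mul, smul_eq_mul]
  push_cast
  ring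

lemma lmT_right (β : Fin 16) (a b : ℝ) (x x' y : (Cfg dc)) :
    lmT S β y (a • x + b • x') = (a : ℂ) • lmT S β y x + (b : ℂ) • lmT S β y x' := by
  rw [lmT_symm, lmT_left, lmT_symm S β y x, lmT_symm S β y x']

lemma lm_W_affine (β : Fin 16) (a b : ℝ) (ξ w : (Cfg dc)) :
    S.W β (a • ξ + b • w) = ((a ^ 2 : ℝ) : ℂ) • S.W β ξ + ((a * b : ℝ) : ℂ) • S.DW ξ β w +
      ((b ^ 2 : ℝ) : ℂ) • S.W β w := by
  rw [lm_W, lm_W, lm_W, lm_DW, lmT_left, lmT_right, lmT_right, lmT_symm S β ξ w]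
  push_cast
  module

lemma lm_MM_affine (β : Fin 16) (a b : ℝ) (ξ w : (Cfg dc)) :
    S.MM β (a • ξ + b • w) = (a : ℂ) • S.MM β ξ + (b : ℂ) • S.MM β w := by
  simp only [Setup.MM, Finset.smul_sum, ← Finset.sum_add_distrib]
  refine Finset.sum_congr rfl fun i _ => Finset.sum_congr rfl fun A _ => ?_
  rw [smul_smul, smul_smul, ← add_smul]
  congr 1
  rw [PiLp.add_apply, PiLp.smul_apply, PiLp.smul_apply, smul_eq_mul, smul_eq_mul]
  push_cast
  ring

lemma lm_contDiff_MM (β : Fin 16) : ContDiff ℝ ∞ (S.MM β) := by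
  unfold Setup.MM
  refine ContDiff.sum fun i _ => ContDiff.sum fun A _ => ?_
  exact (Setup.contDiff_ofReal (contDiff_const.mul (Setup.contDiff_coord _))).smul contDiff_const

lemma lm_contDiff_DW (ξ : (Cfg dc)) (β : Fin 16) : ContDiff ℝ ∞ (S.DW ξ β) := by
  unfold Setup.DW
  refine ContDiff.const_smul _ (ContDiff.sum fun A _ => ContDiff.sum fun B _ =>
    ContDiff.sum fun C _ => ContDiff.sum fun i _ => ContDiff.sum fun j _ => ?_)
  exact (contDiff_const.mul (Setup.contDiff_ofReal (Setup.contDiff_coord _))).smul contDiff_const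

lemma lm_MM_symm (β : Fin 16) (x : (Cfg dc)) (v w : F) :
    inner ℂ (S.MM β x v) w = inner ℂ v (S.MM β x w) := by
  have h : ∀ i, ∀ α β, ((S.g i * S.Gam) α β).im = 0 := fun i =>
    Setup.mul_im_zero (S.g_im i) S.Gam_real
  simp only [Setup.MM, _root_.sum_apply, _root_.smul_apply, sum_inner, inner_sum, inner_smul_left,
    inner_smul_right, S.vec_symm _ (h _), Complex.conj_ofReal]

lemma lm_DW_symm (ξ : (Cfg dc)) (β : Fin 16) (x : (Cfg dc)) (v w : F) :
    inner ℂ (S.DW ξ β x v) w = inner ℂ v (S.DW ξ β x w) := by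
  simp only [Setup.DW, _root_.sum_apply, _root_.smul_apply, sum_inner, inner_sum, inner_smul_left,
    inner_smul_right, S.vec_symm _ (S.g2_im _ _), Complex.conj_ofReal, map_mul]

/-- gradient part of `Q (χ u)` -/
noncomputable def lmGradOp (χ : (Cfg dc) → ℝ) (β : Fin 16) (x : (Cfg dc)) : F →L[ℂ] F :=
  (-Complex.I) • ∑ i, ∑ A, ((pdr i A χ x : ℝ) : ℂ) • S.vec (S.g i) A β

lemma lm_Q_cut (χ : (Cfg dc) → ℝ) (β : Fin 16) (u : (Cfg dc) → F) (x : (Cfg dc))
    (hχ : DifferentiableAt ℝ χ x) (hu : DifferentiableAt ℝ u x) :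
    S.Q β (fun y => ((χ y : ℝ) : ℂ) • u y) x = ((χ x : ℝ) : ℂ) • S.Q β u x +
      lmGradOp S χ β x (u x) := by
  rw [Q_smul S β χ u x hχ hu, lmGradOp, sub_eq_add_neg]
  congr 1
  rw [_root_.smul_apply, neg_smul]
  simp only [_root_.smul_apply, _root_.sum_apply]

lemma lm_contDiff_pdr {φ : (Cfg dc) → ℝ} (hφ : ContDiff ℝ ∞ φ) (j : Fin 9) (B : Fin dc) :
    ContDiff ℝ ∞ (pdr j B φ) := by
  unfold pdr
  exact (hφ.fderiv_right (m := ∞) (by simp)).clm_apply contDiff_const

lemma lm_gradOp_bound {χ : (Cfg dc) → ℝ} (hχ : ContDiff ℝ ∞ χ) (hc : HasCompactSupport χ)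
    (β : Fin 16) : ∃ C, 0 ≤ C ∧ ∀ x, ‖lmGradOp S χ β x‖ ≤ C := by
  have h1 : ∀ i A, ∃ C, ∀ x, ‖pdr i A χ x‖ ≤ C := by
    intro i A
    refine HasCompactSupport.exists_bound_of_continuous ?_ (lm_contDiff_pdr hχ i A).continuous
    exact hc.fderiv_apply (𝕜 := ℝ) (EuclideanSpace.single (i, A) (1 : ℝ) : (Cfg dc))
  choose C hC using h1
  have hC0 : ∀ i A, 0 ≤ C i A := fun i A => (norm_nonneg _).trans (hC i A 0)
  refine ⟨∑ i, ∑ A, C i A * ‖S.vec (S.g i) A β‖, Finset.sum_nonneg fun i _ =>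
    Finset.sum_nonneg fun A _ => mul_nonneg (hC0 i A) (norm_nonneg _), fun x => ?_⟩
  rw [lmGradOp, norm_smul, norm_neg, Complex.norm_I, one_mul]
  refine (norm_sum_le _ _).trans (Finset.sum_le_sum fun i _ => ?_)
  refine (norm_sum_le _ _).trans (Finset.sum_le_sum fun A _ => ?_)
  rw [norm_smul, Complex.norm_real]
  exact mul_le_mul_of_nonneg_right (hC i A x) (norm_nonneg _)

end alg

/-! ### scaling -/

section scaling

variable (S : Setup dc F)

lemma lm_scl_contDiff {φ : (Cfg dc) → F} (hφ : ContDiff ℝ ∞ φ) (m : ℝ) (ξ : (Cfg dc)) :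
    ContDiff ℝ ∞ (scl m ξ φ) := by
  have h : ContDiff ℝ ∞ (fun w : (Cfg dc) => m • ξ + (Real.sqrt m)⁻¹ • w) :=
    contDiff_const.add (contDiff_id.const_smul _)
  exact hφ.comp h

lemma lm_pd_scl {φ : (Cfg dc) → F} (hφ : ContDiff ℝ ∞ φ) (m : ℝ) (ξ : (Cfg dc)) (i : Fin 9) (A : Fin dc)
    (w : (Cfg dc)) : pd i A (scl m ξ φ) w =
      (((Real.sqrt m)⁻¹ : ℝ) : ℂ) • pd i A φ (m • ξ + (Real.sqrt m)⁻¹ • w) := by
  have h1 : HasFDerivAt (fun w : (Cfg dc) => m • ξ + (Real.sqrt m)⁻¹ • w)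
      ((Real.sqrt m)⁻¹ • ContinuousLinearMap.id ℝ (Cfg dc)) w :=
    ((hasFDerivAt_id w).const_smul (Real.sqrt m)⁻¹).const_add (m • ξ)
  have h2 := ((hφ.differentiable (by simp)) (m • ξ + (Real.sqrt m)⁻¹ • w)).hasFDerivAt.comp w h1
  have h3 : fderiv ℝ (scl m ξ φ) w = _ := h2.fderiv
  rw [pd, h3, pd, ContinuousLinearMap.comp_apply, _root_.smul_apply,
    ContinuousLinearMap.id_apply, map_smul]
  exact (Complex.coe_smul _ _).symm

/-- the scaled supercharge -/
lemma lm_Qm_scl {φ : (Cfg dc) → F} (hφ : ContDiff ℝ ∞ φ) {m : ℝ} (hm : 0 < m) {ξ : (Cfg dc)} {β : Fin 16}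
    (hcr : S.W β ξ + S.MM β ξ = 0) (w : (Cfg dc)) :
    (((Real.sqrt m)⁻¹ : ℝ) : ℂ) • scl m ξ (S.Qm m β φ) w =
      S.Qlin ξ β (scl m ξ φ) w +
        ((((Real.sqrt m)⁻¹) ^ 3 : ℝ) : ℂ) • S.W β w (scl m ξ φ w) := by
  have ht : 0 < Real.sqrt m := Real.sqrt_pos.2 hm
  have ht2 : Real.sqrt m ^ 2 = m := Real.sq_sqrt hm.le
  have htc : ((Real.sqrt m : ℝ) : ℂ) ≠ 0 := Complex.ofReal_ne_zero.2 ht.ne'
  have hmc : (m : ℂ) = ((Real.sqrt m : ℝ) : ℂ) ^ 2 := by
    rw [← Complex.ofReal_pow, ht2]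
  have hW : S.W β ξ = -S.MM β ξ := eq_neg_of_add_eq_zero_left hcr
  have e1 : scl m ξ (S.Qm m β φ) w =
      S.Qm m β φ (m • ξ + (Real.sqrt m)⁻¹ • w) := rfl
  have e2 : scl m ξ φ w = φ (m • ξ + (Real.sqrt m)⁻¹ • w) := rfl
  rw [e1, Setup.Qm, Setup.Q, Setup.Qlin, Setup.Q0, lm_W_affine, lm_MM_affine, hW, ← e2]
  simp only [lm_pd_scl hφ, map_smul, ← Finset.smul_sum]
  generalize (∑ i, ∑ A, (S.vec (S.g i) A β) (pd i A φ (m • ξ + (Real.sqrt m)⁻¹ • w))) = a
  simp only [_root_.add_apply, _root_.smul_apply, _root_.neg_apply]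
  generalize scl m ξ φ w = v
  push_cast
  rw [hmc]
  match_scalars <;> field_simp <;> ring

end scaling

end Vale.Agent.P353.Z.U
end

section

/-! # P353, general `N`: algebra for the Gauss law (basis-free form of the generators) -/

open MeasureTheory Filter Topology
open scoped ContDiff

namespace Vale.Agent.P353.Z.U

variable {N d : ℕ} {F : Type*} [NormedAddCommGroup F] [InnerProductSpace ℂ F]

section algebra

variable (M : P353.Model N d F)

include M in
lemma mg_dim (hd : 0 < d) : 0 < N ∧ d + 1 = N * N := by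
  have h := M.dim_eq
  have hN : 0 < N := by
    rcases Nat.eq_zero_or_pos N with h0 | h0
    · rw [h0] at h
      simp at h
      omega
    · exact h0
  refine ⟨hN, ?_⟩
  have h2 : 0 < N * N := Nat.mul_pos hN hN
  rw [pow_two] at h
  omega

/-- coordinates of matrices -/
noncomputable def mgPhi : ((Fin d → ℂ) × ℂ) →ₗ[ℂ] Matrix (Fin N) (Fin N) ℂ where
  toFun p := ∑ A, p.1 A • M.T A + p.2 • (1 : Matrix (Fin N) (Fin N) ℂ)
  map_add' p q := by
    simp only [Prod.fst_add, Prod.snd_add, Pi.add_apply, add_smul, Finset.sum_add_distrib]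
    abel
  map_smul' c p := by
    simp only [Prod.smul_fst, Prod.smul_snd, Pi.smul_apply, smul_eq_mul, RingHom.id_apply,
      smul_add, Finset.smul_sum, smul_smul]

lemma mgPhi_trace (p : (Fin d → ℂ) × ℂ) : (mgPhi M p).trace = p.2 * (N : ℂ) := by
  simp only [mgPhi, LinearMap.coe_mk, AddHom.coe_mk, Matrix.trace_add, Matrix.trace_sum,
    Matrix.trace_smul, M.T_traceless, Matrix.trace_one, Fintype.card_fin, smul_eq_mul, mul_zero,
    Finset.sum_const_zero, zero_add]

lemma mgPhi_trace_mul (p : (Fin d → ℂ) × ℂ) (B : Fin d) :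
    (mgPhi M p * M.T B).trace = p.1 B := by
  simp only [mgPhi, LinearMap.coe_mk, AddHom.coe_mk, Matrix.add_mul, Finset.sum_mul,
    Matrix.smul_mul, Matrix.one_mul, Matrix.trace_add, Matrix.trace_sum, Matrix.trace_smul,
    M.T_orthonormal, M.T_traceless, smul_eq_mul, mul_zero, add_zero, mul_ite, mul_one]
  simp

/-- the `T_A` span the traceless matrices -/
lemma mg_complete (hd : 0 < d) (Y : Matrix (Fin N) (Fin N) ℂ) (hY : Y.trace = 0) :
    ∑ A, (Y * M.T A).trace • M.T A = Y := by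
  obtain ⟨hN, hdN⟩ := mg_dim M hd
  have hN' : (N : ℂ) ≠ 0 := by exact_mod_cast hN.ne'
  have hinj : Function.Injective (mgPhi M) := by
    rw [injective_iff_map_eq_zero]
    intro p hp
    have h1 := mgPhi_trace M p
    rw [hp, Matrix.trace_zero] at h1
    have h2 : p.2 = 0 := by
      rcases mul_eq_zero.1 h1.symm with h | h
      · exact h
      · exact absurd h hN'
    have h3 : p.1 = 0 := by
      funext B
      have h4 := mgPhi_trace_mul M p B
      rw [hp, Matrix.zero_mul, Matrix.trace_zero] at h4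
      exact h4.symm
    exact Prod.ext h3 h2
  have hfin : Module.finrank ℂ ((Fin d → ℂ) × ℂ) =
      Module.finrank ℂ (Matrix (Fin N) (Fin N) ℂ) := by
    rw [Module.finrank_prod, Module.finrank_fin_fun, Module.finrank_self, Module.finrank_matrix,
      Module.finrank_self, Fintype.card_fin, mul_one, hdN]
  have hsurj := (LinearMap.injective_iff_surjective_of_finrank_eq_finrank hfin).1 hinj
  obtain ⟨p, hp⟩ := hsurj Y
  have h1 := mgPhi_trace M p
  rw [hp, hY] at h1
  have h2 : p.2 = 0 := by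
    rcases mul_eq_zero.1 h1.symm with h | h
    · exact h
    · exact absurd h hN'
  have h3 : ∀ B, (Y * M.T B).trace = p.1 B := by
    intro B
    rw [← hp, mgPhi_trace_mul]
  simp only [h3]
  rw [← hp]
  simp only [mgPhi, LinearMap.coe_mk, AddHom.coe_mk, h2, zero_smul, add_zero]

/-- `θ_α(Y) = ∑ tr(Y T_A) θ_{αA}` -/
noncomputable def mgt (α : Fin 16) : Matrix (Fin N) (Fin N) ℂ →ₗ[ℂ] (F →L[ℂ] F) where
  toFun Y := ∑ A, (Y * M.T A).trace • M.θ α A
  map_add' X Y := by
    simp only [Matrix.add_mul, Matrix.trace_add, add_smul, Finset.sum_add_distrib]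
  map_smul' c X := by
    simp only [Matrix.smul_mul, Matrix.trace_smul, smul_eq_mul, mul_smul, Finset.smul_sum,
      RingHom.id_apply]

lemma mgt_apply (α : Fin 16) (Y : Matrix (Fin N) (Fin N) ℂ) :
    mgt M α Y = ∑ A, (Y * M.T A).trace • M.θ α A := rfl

lemma mgt_T (α : Fin 16) (A : Fin d) : mgt M α (M.T A) = M.θ α A := by
  rw [mgt_apply]
  simp only [M.T_orthonormal, ite_smul, one_smul, zero_smul]
  simp

/-- `θ^D·θ^E` -/
noncomputable def mgb (D E : Fin d) : F →L[ℂ] F := ∑ α, M.θ α D * M.θ α E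

/-- `Z(X) = -(i/2) ∑ tr(X [T_D, T_E]) θ^D·θ^E` -/
noncomputable def mgz : Matrix (Fin N) (Fin N) ℂ →ₗ[ℂ] (F →L[ℂ] F) where
  toFun X := (-Complex.I / 2) • ∑ D, ∑ E,
    (X * (M.T D * M.T E - M.T E * M.T D)).trace • mgb M D E
  map_add' X Y := by
    simp only [Matrix.add_mul, Matrix.trace_add, add_smul, Finset.sum_add_distrib, smul_add]
  map_smul' c X := by
    simp only [Matrix.smul_mul, Matrix.trace_smul, smul_eq_mul, mul_smul, Finset.smul_sum,
      RingHom.id_apply]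
    simp only [smul_comm c]

lemma mgz_apply (X : Matrix (Fin N) (Fin N) ℂ) :
    mgz M X = (-Complex.I / 2) • ∑ D, ∑ E,
      (X * (M.T D * M.T E - M.T E * M.T D)).trace • mgb M D E := rfl

lemma mgb_comm (D E A : Fin d) (β : Fin 16) :
    mgb M D E * M.θ β A - M.θ β A * mgb M D E =
      (if E = A then M.θ β D else 0) - (if D = A then M.θ β E else 0) := by
  have h : ∀ α, M.θ α D * M.θ α E * M.θ β A - M.θ β A * (M.θ α D * M.θ α E) =
      if α = β then ((if E = A then M.θ β D else 0) - (if D = A then M.θ β E else 0)) else 0 := by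
    intro α
    have h1 := M.θ_anticomm α E β A
    have h2 := M.θ_anticomm α D β A
    have h3 : M.θ α D * M.θ α E * M.θ β A - M.θ β A * (M.θ α D * M.θ α E) =
        M.θ α D * (M.θ α E * M.θ β A + M.θ β A * M.θ α E) -
        (M.θ α D * M.θ β A + M.θ β A * M.θ α D) * M.θ α E := by noncomm_ring
    rw [h3, h1, h2]
    by_cases hα : α = β
    · subst hα
      by_cases hE : E = A <;> by_cases hD : D = A <;> simp [hE, hD]
    · simp [hα]
  simp only [mgb, Finset.sum_mul, Finset.mul_sum, ← Finset.sum_sub_distrib, h]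
  simp

lemma mgz_comm_theta (X : Matrix (Fin N) (Fin N) ℂ) (β : Fin 16) (A : Fin d) :
    mgz M X * M.θ β A - M.θ β A * mgz M X =
      Complex.I • mgt M β (X * M.T A - M.T A * X) := by
  set c : Fin d → Fin d → ℂ := fun D E =>
    (X * (M.T D * M.T E - M.T E * M.T D)).trace with hc
  have hanti : ∀ D E, c E D = - c D E := by
    intro D E
    simp only [hc]
    rw [← Matrix.trace_neg, ← Matrix.mul_neg, neg_sub]
  have hcA : ∀ D, c D A = - ((X * M.T A - M.T A * X) * M.T D).trace := by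
    intro D
    simp only [hc]
    rw [Matrix.mul_sub, Matrix.sub_mul, Matrix.trace_sub, Matrix.trace_sub]
    have e1 : (X * (M.T D * M.T A)).trace = (M.T A * X * M.T D).trace := by
      rw [← mul_assoc, Matrix.trace_mul_comm, ← mul_assoc]
    have e2 : (X * (M.T A * M.T D)).trace = (X * M.T A * M.T D).trace := by
      rw [← mul_assoc]
    rw [e1, e2]
    ring
  have h1 : mgz M X * M.θ β A - M.θ β A * mgz M X =
      (-Complex.I / 2) • ∑ D, ∑ E, c D E • (mgb M D E * M.θ β A - M.θ β A * mgb M D E) := by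
    rw [mgz_apply]
    simp only [smul_mul_assoc, mul_smul_comm, Finset.sum_mul, Finset.mul_sum, smul_sub,
      Finset.sum_sub_distrib, hc]
  have h2 : ∑ D, ∑ E, c D E • (mgb M D E * M.θ β A - M.θ β A * mgb M D E) =
      (2 : ℂ) • ∑ D, c D A • M.θ β D := by
    simp only [mgb_comm, smul_sub, Finset.sum_sub_distrib, smul_ite, smul_zero]
    have e1 : ∑ D, ∑ E, (if E = A then c D E • M.θ β D else 0) = ∑ D, c D A • M.θ β D := by
      refine Finset.sum_congr rfl fun D _ => ?_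
      simp
    have e2 : ∑ D, ∑ E, (if D = A then c D E • M.θ β E else 0) = - ∑ D, c D A • M.θ β D := by
      rw [Finset.sum_comm, ← Finset.sum_neg_distrib]
      refine Finset.sum_congr rfl fun E _ => ?_
      rw [hanti A E, neg_smul, neg_neg]
      simp
    rw [e1, e2, two_smul, sub_neg_eq_add]
  rw [h1, h2, smul_smul, mgt_apply]
  simp only [hcA, neg_smul, Finset.sum_neg_distrib, smul_neg]
  rw [← neg_smul]
  congr 1
  ring

lemma mgz_comm (hd : 0 < d) (X Y : Matrix (Fin N) (Fin N) ℂ) (hY : Y.trace = 0) (β : Fin 16) :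
    mgz M X * mgt M β Y - mgt M β Y * mgz M X = Complex.I • mgt M β (X * Y - Y * X) := by
  have h1 : mgz M X * mgt M β Y - mgt M β Y * mgz M X =
      ∑ A, (Y * M.T A).trace • (mgz M X * M.θ β A - M.θ β A * mgz M X) := by
    rw [mgt_apply]
    simp only [smul_mul_assoc, mul_smul_comm, Finset.sum_mul, Finset.mul_sum, smul_sub,
      Finset.sum_sub_distrib]
  rw [h1]
  simp only [mgz_comm_theta]
  have h2 : ∑ A, (Y * M.T A).trace • (X * M.T A - M.T A * X) = X * Y - Y * X := by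
    have h3 := mg_complete M hd Y hY
    nth_rewrite 2 [← h3]
    nth_rewrite 3 [← h3]
    simp only [smul_sub, Finset.sum_sub_distrib, Matrix.mul_sum, Matrix.sum_mul, Matrix.mul_smul,
      Matrix.smul_mul]
  rw [← h2, map_sum]
  simp only [map_smul, Finset.smul_sum]
  refine Finset.sum_congr rfl fun A _ => ?_
  rw [smul_comm]

/-- conjugation -/
noncomputable def mgc (U X : Matrix (Fin N) (Fin N) ℂ) : Matrix (Fin N) (Fin N) ℂ :=
  U * X * U.conjTranspose

lemma mg_ad (U : Matrix.specialUnitaryGroup (Fin N) ℂ) (B A : Fin d) :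
    ((P353.adCoeff M.T U B A : ℝ) : ℂ) = (mgc U.val (M.T A) * M.T B).trace := by
  have h1 : (M.T B * mgc U.val (M.T A)).trace = (mgc U.val (M.T A) * M.T B).trace :=
    Matrix.trace_mul_comm _ _
  have h2 : (starRingEnd ℂ) (M.T B * mgc U.val (M.T A)).trace =
      (M.T B * mgc U.val (M.T A)).trace := by
    have h3 : (M.T B * mgc U.val (M.T A)).conjTranspose = mgc U.val (M.T A) * M.T B := by
      simp only [mgc, Matrix.conjTranspose_mul, Matrix.conjTranspose_conjTranspose,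
        M.T_hermitian, mul_assoc]
    have h4 := Matrix.trace_conjTranspose (M.T B * mgc U.val (M.T A))
    rw [h3, ← h1] at h4
    exact h4.symm
  rw [← h1, ← Complex.conj_eq_iff_re.1 h2]
  rfl

lemma mgS_theta (U : Matrix.specialUnitaryGroup (Fin N) ℂ) (α : Fin 16) (A : Fin d) :
    M.S U * M.θ α A = mgt M α (mgc U.val (M.T A)) * M.S U := by
  rw [M.S_rotates, mgt_apply, Finset.sum_mul]
  refine Finset.sum_congr rfl fun B _ => ?_
  rw [mg_ad, smul_mul_assoc]

lemma mgc_smul (U : Matrix (Fin N) (Fin N) ℂ) (c : ℂ) (X : Matrix (Fin N) (Fin N) ℂ) :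
    mgc U (c • X) = c • mgc U X := by
  simp only [mgc, Matrix.mul_smul, Matrix.smul_mul]

lemma mgc_sum {ι : Type*} (s : Finset ι) (U : Matrix (Fin N) (Fin N) ℂ)
    (X : ι → Matrix (Fin N) (Fin N) ℂ) : mgc U (∑ i ∈ s, X i) = ∑ i ∈ s, mgc U (X i) := by
  simp only [mgc, Matrix.mul_sum, Matrix.sum_mul]

lemma mgS_mgt (hd : 0 < d) (U : Matrix.specialUnitaryGroup (Fin N) ℂ) (α : Fin 16)
    (Y : Matrix (Fin N) (Fin N) ℂ) (hY : Y.trace = 0) :
    M.S U * mgt M α Y = mgt M α (mgc U.val Y) * M.S U := by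
  have h1 : mgt M α (mgc U.val Y) = ∑ A, (Y * M.T A).trace • mgt M α (mgc U.val (M.T A)) := by
    have h3 := mg_complete M hd Y hY
    nth_rewrite 1 [← h3]
    rw [mgc_sum, map_sum]
    refine Finset.sum_congr rfl fun A _ => ?_
    rw [mgc_smul, map_smul]
  rw [h1, mgt_apply, Finset.mul_sum, Finset.sum_mul]
  refine Finset.sum_congr rfl fun A _ => ?_
  rw [mul_smul_comm, mgS_theta, smul_mul_assoc]

lemma mg_unit (U : Matrix.specialUnitaryGroup (Fin N) ℂ) :
    U.val.conjTranspose * U.val = 1 ∧ U.val * U.val.conjTranspose = 1 := by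
  have h := (Matrix.mem_specialUnitaryGroup_iff.1 U.2).1
  exact ⟨Matrix.mem_unitaryGroup_iff'.1 h, Matrix.mem_unitaryGroup_iff.1 h⟩

lemma mg_sum_conj (hd : 0 < d) (U : Matrix.specialUnitaryGroup (Fin N) ℂ) (B : Fin d) :
    ∑ D, (mgc U.val (M.T D) * M.T B).trace • M.T D = U.val.conjTranspose * M.T B * U.val := by
  have h1 : ∀ D, (mgc U.val (M.T D) * M.T B).trace =
      (U.val.conjTranspose * M.T B * U.val * M.T D).trace := by
    intro D
    rw [mgc, mul_assoc, mul_assoc, Matrix.trace_mul_comm]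
    simp only [mul_assoc]
    rw [Matrix.trace_mul_comm]
    simp only [mul_assoc]
  simp only [h1]
  apply mg_complete M hd
  rw [mul_assoc, Matrix.trace_mul_comm, mul_assoc, (mg_unit U).2, mul_one, M.T_traceless]

lemma mg_sum4 {V : Type*} [AddCommMonoid V] (f : Fin d → Fin d → Fin d → Fin d → V) :
    ∑ D, ∑ E, ∑ B, ∑ C, f D E B C = ∑ B, ∑ C, ∑ D, ∑ E, f D E B C := by
  calc ∑ D, ∑ E, ∑ B, ∑ C, f D E B C = ∑ D, ∑ B, ∑ E, ∑ C, f D E B C :=
        Finset.sum_congr rfl fun D _ => Finset.sum_comm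
    _ = ∑ B, ∑ D, ∑ E, ∑ C, f D E B C := Finset.sum_comm
    _ = ∑ B, ∑ D, ∑ C, ∑ E, f D E B C :=
        Finset.sum_congr rfl fun B _ => Finset.sum_congr rfl fun D _ => Finset.sum_comm
    _ = ∑ B, ∑ C, ∑ D, ∑ E, f D E B C := Finset.sum_congr rfl fun B _ => Finset.sum_comm

lemma mgS_mgb (U : Matrix.specialUnitaryGroup (Fin N) ℂ) (D E : Fin d) :
    M.S U * mgb M D E =
      (∑ B, ∑ C, ((mgc U.val (M.T D) * M.T B).trace * (mgc U.val (M.T E) * M.T C).trace) •
        mgb M B C) * M.S U := by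
  have h1 : ∀ α, M.S U * (M.θ α D * M.θ α E) =
      mgt M α (mgc U.val (M.T D)) * mgt M α (mgc U.val (M.T E)) * M.S U := by
    intro α
    rw [← mul_assoc, mgS_theta, mul_assoc, mgS_theta, mul_assoc]
  have h2 : ∀ α, mgt M α (mgc U.val (M.T D)) * mgt M α (mgc U.val (M.T E)) =
      ∑ B, ∑ C, ((mgc U.val (M.T D) * M.T B).trace * (mgc U.val (M.T E) * M.T C).trace) •
        (M.θ α B * M.θ α C) := by
    intro α
    rw [mgt_apply, mgt_apply, Finset.sum_mul_sum]
    refine Finset.sum_congr rfl fun B _ => Finset.sum_congr rfl fun C _ => ?_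
    rw [smul_mul_smul_comm]
  rw [mgb, Finset.mul_sum]
  simp only [h1, h2]
  rw [← Finset.sum_mul]
  congr 1
  rw [Finset.sum_comm]
  refine Finset.sum_congr rfl fun B _ => ?_
  rw [Finset.sum_comm]
  refine Finset.sum_congr rfl fun C _ => ?_
  rw [mgb, Finset.smul_sum]

lemma mg_coef (hd : 0 < d) (U : Matrix.specialUnitaryGroup (Fin N) ℂ)
    (X : Matrix (Fin N) (Fin N) ℂ) (B C : Fin d) :
    (mgc U.val X * (M.T B * M.T C - M.T C * M.T B)).trace =
      ∑ D, ∑ E, (X * (M.T D * M.T E - M.T E * M.T D)).trace *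
        ((mgc U.val (M.T D) * M.T B).trace * (mgc U.val (M.T E) * M.T C).trace) := by
  have hB := mg_sum_conj M hd U B
  have hC := mg_sum_conj M hd U C
  set a : Fin d → Fin d → ℂ := fun D B => (mgc U.val (M.T D) * M.T B).trace with ha
  have e1 : U.val.conjTranspose * M.T B * U.val * (U.val.conjTranspose * M.T C * U.val) -
      U.val.conjTranspose * M.T C * U.val * (U.val.conjTranspose * M.T B * U.val) =
      ∑ D, ∑ E, (a D B * a E C) • (M.T D * M.T E - M.T E * M.T D) := by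
    rw [← hB, ← hC, Finset.sum_mul_sum, Finset.sum_mul_sum, Finset.sum_comm (s := Finset.univ)
      (t := Finset.univ) (f := fun i j => (a i C • M.T i) * (a j B • M.T j)),
      ← Finset.sum_sub_distrib]
    refine Finset.sum_congr rfl fun D _ => ?_
    rw [← Finset.sum_sub_distrib]
    refine Finset.sum_congr rfl fun E _ => ?_
    rw [smul_mul_smul_comm, smul_mul_smul_comm, smul_sub, mul_comm (a E C)]
  have e2 : (mgc U.val X * (M.T B * M.T C - M.T C * M.T B)).trace =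
      (X * (U.val.conjTranspose * M.T B * U.val * (U.val.conjTranspose * M.T C * U.val) -
        U.val.conjTranspose * M.T C * U.val * (U.val.conjTranspose * M.T B * U.val))).trace := by
    have hU := (mg_unit U).2
    have e3 : ∀ P Q : Matrix (Fin N) (Fin N) ℂ, U.val.conjTranspose * P * U.val *
        (U.val.conjTranspose * Q * U.val) = U.val.conjTranspose * (P * Q) * U.val := by
      intro P Q
      calc U.val.conjTranspose * P * U.val * (U.val.conjTranspose * Q * U.val) =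
          U.val.conjTranspose * P * (U.val * U.val.conjTranspose) * Q * U.val := by
            simp only [mul_assoc]
        _ = _ := by rw [hU, mul_one]; simp only [mul_assoc]
    rw [e3, e3, ← Matrix.sub_mul, ← Matrix.mul_sub, mgc]
    rw [mul_assoc, mul_assoc, Matrix.trace_mul_comm]
    simp only [mul_assoc]
  rw [e2, e1]
  simp only [Finset.mul_sum, Matrix.mul_smul, Matrix.trace_sum, Matrix.trace_smul, smul_eq_mul]
  refine Finset.sum_congr rfl fun D _ => Finset.sum_congr rfl fun E _ => ?_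
  ring

lemma mgS_mgz (hd : 0 < d) (U : Matrix.specialUnitaryGroup (Fin N) ℂ)
    (X : Matrix (Fin N) (Fin N) ℂ) :
    M.S U * mgz M X = mgz M (mgc U.val X) * M.S U := by
  rw [mgz_apply, mgz_apply, mul_smul_comm, smul_mul_assoc]
  congr 1
  have h1 : M.S U * (∑ D, ∑ E, (X * (M.T D * M.T E - M.T E * M.T D)).trace • mgb M D E) =
      (∑ D, ∑ E, ∑ B, ∑ C, ((X * (M.T D * M.T E - M.T E * M.T D)).trace *
        ((mgc U.val (M.T D) * M.T B).trace * (mgc U.val (M.T E) * M.T C).trace)) • mgb M B C) *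
        M.S U := by
    rw [Finset.mul_sum, Finset.sum_mul]
    refine Finset.sum_congr rfl fun D _ => ?_
    rw [Finset.mul_sum, Finset.sum_mul]
    refine Finset.sum_congr rfl fun E _ => ?_
    rw [mul_smul_comm, mgS_mgb, ← smul_mul_assoc]
    congr 1
    simp only [Finset.smul_sum, smul_smul]
  rw [h1, mg_sum4]
  congr 1
  refine Finset.sum_congr rfl fun B _ => Finset.sum_congr rfl fun C _ => ?_
  rw [mg_coef M hd]
  simp only [Finset.sum_smul]

end algebra

end Vale.Agent.P353.Z.U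
end

section

/-! # P353, general `N`: the action of the maximal torus -/

open MeasureTheory Filter Topology
open scoped ContDiff

namespace Vale.Agent.P353.Z.U

variable {N d : ℕ} {F : Type*} [NormedAddCommGroup F] [InnerProductSpace ℂ F]

/-! ### exponentials of operators -/

lemma mg_deriv_mul {a b : ℝ → F →L[ℂ] F} {a' b' : F →L[ℂ] F} {s : ℝ}
    (ha : HasDerivAt a a' s) (hb : HasDerivAt b b' s) :
    HasDerivAt (fun s => a s * b s) (a s * b' + a' * b s) s := by
  have hB : IsBoundedBilinearMap ℝ (fun p : (F →L[ℂ] F) × (F →L[ℂ] F) => p.1 * p.2) := by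
    refine ⟨fun a b c => by rw [add_mul], fun c a b => by rw [smul_mul_assoc],
      fun a b c => by rw [mul_add], fun c a b => by rw [mul_smul_comm], ?_⟩
    exact ⟨1, one_pos, fun x y => by rw [one_mul]; exact norm_mul_le x y⟩
  have h1 := hB.hasFDerivAt (a s, b s)
  have h2 := ha.prodMk hb
  have h3 := h1.comp_hasDerivAt s h2
  exact h3

section exp

variable [CompleteSpace F]

/-- `exp (a z)` -/
noncomputable def mgE (z : F →L[ℂ] F) (a : ℝ) : F →L[ℂ] F := NormedSpace.exp ((a : ℂ) • z)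

lemma mgE_deriv (z : F →L[ℂ] F) (a : ℝ) : HasDerivAt (mgE z) (z * mgE z a) a := by
  have h1 := hasDerivAt_exp_smul_const' (𝕂 := ℂ) z (a : ℂ)
  have h2 : HasDerivAt (fun s : ℝ => (s : ℂ)) 1 a := Complex.ofRealCLM.hasDerivAt
  have h3 := HasDerivAt.scomp a h1 h2
  rw [one_smul] at h3
  exact h3

lemma mgE_zero (z : F →L[ℂ] F) : mgE z 0 = 1 := by
  simp [mgE]

lemma mgE_add (z : F →L[ℂ] F) (s t : ℝ) : mgE z (s + t) = mgE z s * mgE z t := by
  unfold mgE
  let _ : NormedAlgebra ℚ (F →L[ℂ] F) := NormedAlgebra.restrictScalars ℚ ℂ _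
  rw [← NormedSpace.exp_add_of_commute, ← add_smul]
  · push_cast; rfl
  · exact ((Commute.refl _).smul_left _).smul_right _

lemma mgE_comm {z y : F →L[ℂ] F} (h : Commute y z) (a : ℝ) : Commute y (mgE z a) :=
  Commute.exp_right (h.smul_right _)

lemma mgE_deriv_neg (z : F →L[ℂ] F) (a : ℝ) :
    HasDerivAt (fun s => mgE z (-s)) (-(z * mgE z (-a))) a := by
  have h := HasDerivAt.scomp a (mgE_deriv z (-a)) (hasDerivAt_neg a)
  rw [neg_one_smul] at h
  exact h

lemma mgE_neg_mul (z : F →L[ℂ] F) (a : ℝ) : mgE z (-a) * mgE z a = 1 := by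
  rw [← mgE_add, neg_add_cancel, mgE_zero]

lemma mgE_mul_neg (z : F →L[ℂ] F) (a : ℝ) : mgE z a * mgE z (-a) = 1 := by
  rw [← mgE_add, add_neg_cancel, mgE_zero]

lemma mgE_add_of_comm {y z : F →L[ℂ] F} (h : Commute y z) (a : ℝ) :
    mgE (y + z) a = mgE y a * mgE z a := by
  unfold mgE
  let _ : NormedAlgebra ℚ (F →L[ℂ] F) := NormedAlgebra.restrictScalars ℚ ℂ _
  rw [smul_add, NormedSpace.exp_add_of_commute ((h.smul_left _).smul_right _)]

/-- solutions of `X' = [z, X]` -/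
lemma mgE_conj (z : F →L[ℂ] F) (X : ℝ → F →L[ℂ] F)
    (hX : ∀ s, HasDerivAt X (z * X s - X s * z) s) (a : ℝ) :
    mgE z (-a) * X a = X 0 * mgE z (-a) := by
  have hφ : ∀ s, HasDerivAt (fun s => mgE z (-s) * X s * mgE z s) 0 s := by
    intro s
    have h := mg_deriv_mul (mg_deriv_mul (mgE_deriv_neg z s) (hX s)) (mgE_deriv z s)
    refine h.congr_deriv ?_
    have hc : z * mgE z (-s) = mgE z (-s) * z := mgE_comm (Commute.refl z) (-s)
    rw [hc]
    noncomm_ring
  have hconst := is_const_of_deriv_eq_zero (fun s => (hφ s).differentiableAt)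
    (fun s => (hφ s).deriv) a 0
  simp only [neg_zero, mgE_zero, mul_one, one_mul] at hconst
  rw [← hconst, mul_assoc, mgE_mul_neg, mul_one]

lemma mgE_ne_zero [Nontrivial F] (z : F →L[ℂ] F) (a : ℝ) : mgE z a ≠ 0 := by
  intro h
  have h1 := mgE_neg_mul z a
  rw [h, mul_zero] at h1
  obtain ⟨v, hv⟩ := exists_ne (0 : F)
  have h2 := congrArg (fun T : F →L[ℂ] F => T v) h1
  simp only [_root_.zero_apply, one_apply_eq_self] at h2
  exact hv h2.symm

end exp

/-! ### derivatives of matrix valued curves -/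

lemma mg_deriv_lin {V : Type*} [NormedAddCommGroup V] [NormedSpace ℂ V]
    (L : Matrix (Fin N) (Fin N) ℂ →ₗ[ℂ] V) {Y : ℝ → Matrix (Fin N) (Fin N) ℂ}
    {Y' : Matrix (Fin N) (Fin N) ℂ} {s : ℝ}
    (h : ∀ j k, HasDerivAt (fun t => Y t j k) (Y' j k) s) :
    HasDerivAt (fun t => L (Y t)) (L Y') s := by
  have hL : ∀ X : Matrix (Fin N) (Fin N) ℂ, L X = ∑ j, ∑ k, X j k • L (Matrix.single j k 1) := by
    intro X
    nth_rewrite 1 [Matrix.matrix_eq_sum_single X]
    simp only [map_sum]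
    refine Finset.sum_congr rfl fun j _ => Finset.sum_congr rfl fun k _ => ?_
    rw [← map_smul, Matrix.smul_single, smul_eq_mul, mul_one]
  have e : (fun t => L (Y t)) = fun t => ∑ j, ∑ k, Y t j k • L (Matrix.single j k 1) := by
    funext t
    exact hL (Y t)
  rw [e, hL Y']
  exact HasDerivAt.fun_sum fun j _ => HasDerivAt.fun_sum fun k _ => (h j k).smul_const _

/-! ### the torus -/

/-- diagonal traceless matrices -/
def mgH (N : ℕ) : Submodule ℝ (Fin N → ℝ) where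
  carrier := {x | ∑ j, x j = 0}
  add_mem' := by
    intro x y hx hy
    have hx' : ∑ j, x j = 0 := hx
    have hy' : ∑ j, y j = 0 := hy
    show ∑ j, (x + y) j = 0
    simp only [Pi.add_apply, Finset.sum_add_distrib, hx', hy', add_zero]
  zero_mem' := by
    show ∑ j, (0 : Fin N → ℝ) j = 0
    simp
  smul_mem' := by
    intro c x hx
    have hx' : ∑ j, x j = 0 := hx
    show ∑ j, (c • x) j = 0
    simp only [Pi.smul_apply, smul_eq_mul, ← Finset.mul_sum, hx', mul_zero]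

lemma mgH_sum (x : mgH N) : ∑ j, x.1 j = 0 := x.2

/-- the diagonal matrix of `x` -/
noncomputable def mgd (x : mgH N) : Matrix (Fin N) (Fin N) ℂ :=
  Matrix.diagonal fun j => ((x.1 j : ℝ) : ℂ)

/-- the matrix `exp (i x)` -/
noncomputable def mgtorM (x : mgH N) : Matrix (Fin N) (Fin N) ℂ :=
  Matrix.diagonal fun j => Complex.exp (((x.1 j : ℝ) : ℂ) * Complex.I)

lemma mgtorM_mem (x : mgH N) : mgtorM x ∈ Matrix.specialUnitaryGroup (Fin N) ℂ := by
  rw [Matrix.mem_specialUnitaryGroup_iff]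
  constructor
  · rw [Matrix.mem_unitaryGroup_iff, Matrix.star_eq_conjTranspose, mgtorM,
      Matrix.diagonal_conjTranspose, Matrix.diagonal_mul_diagonal, ← Matrix.diagonal_one]
    congr 1
    funext j
    rw [Pi.star_apply, RCLike.star_def, ← Complex.exp_conj, ← Complex.exp_add, map_mul,
      Complex.conj_ofReal, Complex.conj_I]
    simp
  · rw [mgtorM, Matrix.det_diagonal, ← Complex.exp_sum, ← Finset.sum_mul, ← Complex.ofReal_sum,
      mgH_sum]
    simp

/-- the element of the torus -/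
noncomputable def mgtor (x : mgH N) : Matrix.specialUnitaryGroup (Fin N) ℂ :=
  ⟨mgtorM x, mgtorM_mem x⟩

lemma mgtor_add (x y : mgH N) : mgtor (x + y) = mgtor x * mgtor y := by
  apply Subtype.ext
  show mgtorM (x + y) = mgtorM x * mgtorM y
  rw [mgtorM, mgtorM, mgtorM, Matrix.diagonal_mul_diagonal]
  congr 1
  funext j
  rw [← Complex.exp_add]
  congr 1
  show (((x.1 j + y.1 j : ℝ)) : ℂ) * Complex.I = _
  push_cast
  ring

lemma mgtor_zero : mgtor (0 : mgH N) = 1 := by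
  apply Subtype.ext
  show mgtorM 0 = 1
  rw [mgtorM, ← Matrix.diagonal_one]
  congr 1
  funext j
  show Complex.exp (((0 : ℝ) : ℂ) * Complex.I) = 1
  simp

lemma mgc_tor_apply (x : mgH N) (X : Matrix (Fin N) (Fin N) ℂ) (j k : Fin N) :
    mgc (mgtorM x) X j k =
      Complex.exp (((x.1 j : ℝ) : ℂ) * Complex.I) * X j k *
        Complex.exp (-((x.1 k : ℝ) : ℂ) * Complex.I) := by
  rw [mgc, mgtorM, Matrix.diagonal_conjTranspose, Matrix.mul_diagonal, Matrix.diagonal_mul,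
    Pi.star_apply, RCLike.star_def, ← Complex.exp_conj, map_mul, Complex.conj_ofReal,
    Complex.conj_I]
  congr 2
  ring

lemma mgc_tor_deriv (x : mgH N) (X : Matrix (Fin N) (Fin N) ℂ) (s : ℝ) (j k : Fin N) :
    HasDerivAt (fun t : ℝ => mgc (mgtorM (t • x)) X j k)
      ((Complex.I • (mgd x * mgc (mgtorM (s • x)) X - mgc (mgtorM (s • x)) X * mgd x)) j k) s := by
  have e1 : ∀ t : ℝ, mgc (mgtorM (t • x)) X j k =
      Complex.exp ((t : ℂ) * (((x.1 j : ℝ) : ℂ) * Complex.I - ((x.1 k : ℝ) : ℂ) * Complex.I)) *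
        X j k := by
    intro t
    rw [mgc_tor_apply]
    have h1 : ∀ i, (((t • x).1 i : ℝ) : ℂ) = (t : ℂ) * ((x.1 i : ℝ) : ℂ) := by
      intro i
      show ((t * x.1 i : ℝ) : ℂ) = _
      push_cast
      ring
    rw [h1, h1, mul_right_comm, ← Complex.exp_add]
    congr 2
    ring
  have e2 : (fun t : ℝ => mgc (mgtorM (t • x)) X j k) = fun t : ℝ =>
      Complex.exp ((t : ℂ) * (((x.1 j : ℝ) : ℂ) * Complex.I - ((x.1 k : ℝ) : ℂ) * Complex.I)) *
        X j k := by
    funext t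
    exact e1 t
  have h2 : HasDerivAt (fun t : ℝ => (t : ℂ) * (((x.1 j : ℝ) : ℂ) * Complex.I -
      ((x.1 k : ℝ) : ℂ) * Complex.I))
      (((x.1 j : ℝ) : ℂ) * Complex.I - ((x.1 k : ℝ) : ℂ) * Complex.I) s := by
    have h3 : HasDerivAt (fun t : ℝ => (t : ℂ)) 1 s := Complex.ofRealCLM.hasDerivAt
    have h4 := h3.mul_const (((x.1 j : ℝ) : ℂ) * Complex.I - ((x.1 k : ℝ) : ℂ) * Complex.I)
    rwa [one_mul] at h4
  have h5 := (h2.cexp).mul_const (X j k)
  rw [e2]
  refine h5.congr_deriv ?_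
  rw [Matrix.smul_apply, Matrix.sub_apply, mgd, Matrix.diagonal_mul, Matrix.mul_diagonal, e1,
    smul_eq_mul]
  ring

lemma mgc_trace (U : Matrix.specialUnitaryGroup (Fin N) ℂ) (X : Matrix (Fin N) (Fin N) ℂ) :
    (mgc U.val X).trace = X.trace := by
  rw [mgc, Matrix.trace_mul_comm, ← mul_assoc, (mg_unit U).1, one_mul]

section torus

variable [CompleteSpace F] (M : P353.Model N d F)

lemma mgE_tor (hd : 0 < d) (x : mgH N) (α : Fin 16) (A : Fin d) (s : ℝ) :
    mgE (mgz M (mgd x)) (-s) * mgt M α (mgc (mgtorM (s • x)) (M.T A)) =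
      M.θ α A * mgE (mgz M (mgd x)) (-s) := by
  have hX : ∀ s : ℝ, HasDerivAt (fun t : ℝ => mgt M α (mgc (mgtorM (t • x)) (M.T A)))
      (mgz M (mgd x) * mgt M α (mgc (mgtorM (s • x)) (M.T A)) -
        mgt M α (mgc (mgtorM (s • x)) (M.T A)) * mgz M (mgd x)) s := by
    intro s
    have h1 := mg_deriv_lin (mgt M α) (mgc_tor_deriv x (M.T A) s)
    rw [map_smul, ← mgz_comm M hd] at h1
    · exact h1
    · have h2 := mgc_trace (mgtor (s • x)) (M.T A)
      rw [M.T_traceless] at h2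
      exact h2
  have h := mgE_conj (mgz M (mgd x)) _ hX s
  have h0 : mgc (mgtorM ((0 : ℝ) • x)) (M.T A) = M.T A := by
    have h1 : mgtorM ((0 : ℝ) • x) = 1 := by
      rw [zero_smul]
      exact congrArg Subtype.val (mgtor_zero (N := N))
    rw [h1, mgc, Matrix.conjTranspose_one, one_mul, mul_one]
  simp only [h0, mgt_T] at h
  exact h

omit [CompleteSpace F] in
/-- Schur's lemma -/
lemma mg_schur [FiniteDimensional ℂ F] (K : F →L[ℂ] F)
    (hK : ∀ α A, K * M.θ α A = M.θ α A * K) : ∃ μ : ℂ, K = μ • (1 : F →L[ℂ] F) := by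
  have : Nontrivial F := by
    obtain ⟨v, hv⟩ := M.nontrivial
    exact ⟨v, 0, hv⟩
  obtain ⟨μ, hμ⟩ := Module.End.exists_eigenvalue (K : F →ₗ[ℂ] F)
  refine ⟨μ, ?_⟩
  have hinv : ∀ α A, ∀ v ∈ Module.End.eigenspace (K : F →ₗ[ℂ] F) μ,
      M.θ α A v ∈ Module.End.eigenspace (K : F →ₗ[ℂ] F) μ := by
    intro α A v hv
    rw [Module.End.mem_eigenspace_iff] at hv ⊢
    have h1 := congrArg (fun T : F →L[ℂ] F => T v) (hK α A)
    simp only [mul_apply_eq_comp] at h1
    have hv' : K v = μ • v := hv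
    change K (M.θ α A v) = μ • M.θ α A v
    rw [h1, hv', map_smul]
  rcases M.θ_irreducible _ hinv with h | h
  · exact absurd h hμ
  · ext v
    have hv : v ∈ Module.End.eigenspace (K : F →ₗ[ℂ] F) μ := by rw [h]; trivial
    rw [Module.End.mem_eigenspace_iff] at hv
    exact hv

lemma mg_lambda [FiniteDimensional ℂ F] (hd : 0 < d) (x : mgH N) (s : ℝ) :
    ∃ μ : ℂ, M.S (mgtor (s • x)) = μ • mgE (mgz M (mgd x)) s := by
  obtain ⟨μ, hμ⟩ := mg_schur M (mgE (mgz M (mgd x)) (-s) * M.S (mgtor (s • x))) (by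
    intro α A
    rw [mul_assoc, mgS_theta, ← mul_assoc]
    have h := mgE_tor M hd x α A s
    rw [show (mgtor (s • x)).val = mgtorM (s • x) from rfl, h, mul_assoc])
  refine ⟨μ, ?_⟩
  calc M.S (mgtor (s • x)) = (mgE (mgz M (mgd x)) s * mgE (mgz M (mgd x)) (-s)) *
        M.S (mgtor (s • x)) := by rw [mgE_mul_neg, one_mul]
    _ = mgE (mgz M (mgd x)) s * (mgE (mgz M (mgd x)) (-s) * M.S (mgtor (s • x))) := by
        rw [mul_assoc]
    _ = μ • mgE (mgz M (mgd x)) s := by rw [hμ, mul_smul_comm, mul_one]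

end torus

end Vale.Agent.P353.Z.U
end
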