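import Mathlib
import Vale.Agent.P353.BdZ.B2
import Vale.Agent.P353.BdZ.B4
import Vale.Agent.P353.BdZ.B3
import Vale.Agent.P353.BdZ.B1
attribute [-instance] ProperSMul.toContinuousSMul IsTopologicalTorsor.toContinuousSMul IdemSemiring.toCanonicallyOrderedAdd IdemSemiring.toMulLeftMono IdemSemiring.toMulRightMono AddQuantale.instAddLeftMono AddQuantale.instAddRightMono Quantale.instMulLeftMono Quantale.instMulRightMono FiniteDimensional.rclike_to_real IsScalarTower.complexToReal FiniteDimensional.complexToReal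

set_option linter.all false

section

open MeasureTheory Filter Topology
open scoped ContDiff

namespace Vale.Agent.P353.Z

variable {dc : ℕ}

variable {F : Type*} [NormedAddCommGroup F] [InnerProductSpace ℂ F]

lemma hasDerivAt_mul_op {a b : ℝ → F →L[ℂ] F} {a' b' : F →L[ℂ] F} {s : ℝ}
    (ha : HasDerivAt a a' s) (hb : HasDerivAt b b' s) :
    HasDerivAt (fun s => a s * b s) (a s * b' + a' * b s) s := by
  have hB : IsBoundedBilinearMap ℝ (fun p : (F →L[ℂ] F) × (F →L[ℂ] F) => p.1 * p.2) := by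
    refine ⟨fun a b c => by rw [add_mul], fun c a b => by rw [smul_mul_assoc],
      fun a b c => by rw [mul_add], fun c a b => by rw [mul_smul_comm], ?_⟩
    exact ⟨1, one_pos, fun x y => by rw [one_mul]; exact norm_mul_le x y⟩
  have h1 := hB.hasFDerivAt (a s, b s)
  have h2 := ha.prodMk hb
  have h3 := h1.comp_hasDerivAt s h2
  exact h3

lemma hasDerivAt_conj_zero {a X Y : ℝ → F →L[ℂ] F}
    {X' : F →L[ℂ] F} {s : ℝ} (T : F →L[ℂ] F) (ha : HasDerivAt a (T * a s) s)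
    (hX : HasDerivAt X X' s)
    (hY : HasDerivAt Y (-(T * Y s)) s) (hc : T * a s = a s * T) (hX' : X' = X s * T - T * X s) :
    HasDerivAt (fun s => a s * X s * Y s) 0 s := by
  have h := hasDerivAt_mul_op (hasDerivAt_mul_op ha hX) hY
  refine h.congr_deriv ?_
  rw [hc, hX']
  noncomm_ring

namespace Setup

variable [CompleteSpace F] (S : Setup dc F)

/-- `s_t = exp (i t S_{kl})` -/
noncomputable def st (k l : Fin 9) (t : ℝ) : F →L[ℂ] F :=
  NormedSpace.exp ((t : ℂ) • (Complex.I • S.Skl k l))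

lemma hasDerivAt_st (k l : Fin 9) (t : ℝ) :
    HasDerivAt (S.st k l) ((Complex.I • S.Skl k l) * S.st k l t) t := by
  have h1 := hasDerivAt_exp_smul_const' (𝕂 := ℂ) (Complex.I • S.Skl k l) (t : ℂ)
  have h2 : HasDerivAt (fun s : ℝ => (s : ℂ)) 1 t := Complex.ofRealCLM.hasDerivAt
  have h3 := HasDerivAt.scomp t h1 h2
  rw [one_smul] at h3
  exact h3

lemma st_zero (k l : Fin 9) : S.st k l 0 = 1 := by
  simp [st]

lemma st_add (k l : Fin 9) (s t : ℝ) : S.st k l (s + t) = S.st k l s * S.st k l t := by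
  unfold st
  let _ : NormedAlgebra ℚ (F →L[ℂ] F) := NormedAlgebra.restrictScalars ℚ ℂ _
  rw [← NormedSpace.exp_add_of_commute, ← add_smul]
  · push_cast; rfl
  · exact ((Commute.refl _).smul_left _).smul_right _

lemma st_neg_mul (k l : Fin 9) (t : ℝ) : S.st k l (-t) * S.st k l t = 1 := by
  rw [← st_add, neg_add_cancel, st_zero]

lemma st_mul_neg (k l : Fin 9) (t : ℝ) : S.st k l t * S.st k l (-t) = 1 := by
  rw [← st_add, add_neg_cancel, st_zero]

lemma st_comm (k l : Fin 9) (t : ℝ) : S.Skl k l * S.st k l t = S.st k l t * S.Skl k l := by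
  have h : Commute (S.Skl k l) (NormedSpace.exp ((t : ℂ) • (Complex.I • S.Skl k l))) := by
    apply Commute.exp_right
    exact ((Commute.refl _).smul_right _).smul_right _
  exact h

lemma hasDerivAt_st_neg (k l : Fin 9) (t : ℝ) :
    HasDerivAt (fun s => S.st k l (-s)) (-((Complex.I • S.Skl k l) * S.st k l (-t))) t := by
  have h := HasDerivAt.scomp t (S.hasDerivAt_st k l (-t)) (hasDerivAt_neg t)
  rw [neg_one_smul] at h
  exact h

lemma st_inner (k l : Fin 9) (t : ℝ) (v w : F) :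
    inner ℂ (S.st k l t v) (S.st k l t w) = inner ℂ v w := by
  have hd : ∀ v : F, ∀ s : ℝ, HasDerivAt (fun s => S.st k l s v)
      (((Complex.I • S.Skl k l) * S.st k l s) v) s := by
    intro v s
    have h := S.hasDerivAt_st k l s
    exact ((ContinuousLinearMap.apply ℂ F v).restrictScalars ℝ).hasFDerivAt.comp_hasDerivAt s h
  have hi : ∀ s, HasDerivAt (fun s => inner ℂ (S.st k l s v) (S.st k l s w)) 0 s := by
    intro s
    have h := (hd v s).inner ℂ (hd w s)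
    have e : inner ℂ (S.st k l s v) (((Complex.I • S.Skl k l) * S.st k l s) w) +
        inner ℂ (((Complex.I • S.Skl k l) * S.st k l s) v) (S.st k l s w) = 0 := by
      simp only [mul_apply_eq_comp, _root_.smul_apply, inner_smul_left, inner_smul_right,
        Complex.conj_I, S.Skl_symm]
      ring
    rw [e] at h
    exact h
  have hc := is_const_of_deriv_eq_zero (f := fun s => inner ℂ (S.st k l s v) (S.st k l s w))
    (fun s => (hi s).differentiableAt) (fun s => (hi s).deriv) t 0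
  simpa [st_zero] using hc

lemma st_adj (k l : Fin 9) (t : ℝ) (v w : F) :
    inner ℂ (S.st k l t v) w = inner ℂ v (S.st k l (-t) w) := by
  have h := S.st_inner k l t v (S.st k l (-t) w)
  have e : S.st k l t (S.st k l (-t) w) = w := by
    have := congrArg (fun T : F →L[ℂ] F => T w) (S.st_mul_neg k l t)
    simpa [mul_apply_eq_comp] using this
  rw [e] at h
  exact h

lemma st_norm (k l : Fin 9) (t : ℝ) (v : F) : ‖S.st k l t v‖ = ‖v‖ := by
  have h := S.st_inner k l t v v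
  rw [inner_self_eq_norm_sq_to_K, inner_self_eq_norm_sq_to_K] at h
  have h2 : ‖S.st k l t v‖ ^ 2 = ‖v‖ ^ 2 := by exact_mod_cast h
  exact (sq_eq_sq₀ (norm_nonneg _) (norm_nonneg _)).mp h2

/-- the spinor rotation matrix -/
noncomputable def gt (k l : Fin 9) (t : ℝ) : Matrix (Fin 16) (Fin 16) ℂ :=
  (Real.cos (t / 2) : ℂ) • 1 + (Real.sin (t / 2) : ℂ) • S.g2 k l

omit [CompleteSpace F] in
lemma g2_eq_mul {k l : Fin 9} (h : k ≠ l) : S.g2 k l = S.g k * S.g l := by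
  rw [S.g2_eq, if_neg h, zero_smul, sub_zero]

omit [CompleteSpace F] in
lemma g2_sq {k l : Fin 9} (h : k ≠ l) : S.g2 k l * S.g2 k l = -1 := by
  rw [S.g2_eq_mul h]
  have : S.g k * S.g l * (S.g k * S.g l) = S.g k * (S.g l * S.g k) * S.g l := by noncomm_ring
  rw [this, S.g_swap_ne (Ne.symm h)]
  have : S.g k * -(S.g k * S.g l) * S.g l = -((S.g k * S.g k) * (S.g l * S.g l)) := by noncomm_ring
  rw [this, S.g_sq, S.g_sq, mul_one]

omit [CompleteSpace F] in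
lemma hasDerivAt_vec_gt {k l : Fin 9} (h : k ≠ l) (P : Matrix (Fin 16) (Fin 16) ℂ) (A : Fin dc)
    (b : Fin 16) (t : ℝ) : HasDerivAt (fun s => S.vec (P * S.gt k l s) A b)
      ((1 / 2 : ℂ) • S.vec (P * S.gt k l t * S.g2 k l) A b) t := by
  have e : (fun s => S.vec (P * S.gt k l s) A b) = fun s =>
      Real.cos (s / 2) • S.vec P A b + Real.sin (s / 2) • S.vec (P * S.g2 k l) A b := by
    ext1 s
    simp only [gt, mul_add, Matrix.mul_smul, mul_one, S.vec_add, S.vec_smul]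
    rw [Complex.coe_smul, Complex.coe_smul]
  have e2 : (1 / 2 : ℂ) • S.vec (P * S.gt k l t * S.g2 k l) A b =
      (-Real.sin (t / 2) * (1 / 2)) • S.vec P A b +
        (Real.cos (t / 2) * (1 / 2)) • S.vec (P * S.g2 k l) A b := by
    have : P * S.gt k l t * S.g2 k l = (Real.cos (t / 2) : ℂ) • (P * S.g2 k l) +
        (-Real.sin (t / 2) : ℂ) • P := by
      simp only [gt, mul_add, add_mul, Matrix.mul_smul, Matrix.smul_mul, mul_one]
      rw [mul_assoc, S.g2_sq h]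
      simp
    rw [this, S.vec_add, S.vec_smul, S.vec_smul, smul_add, smul_smul, smul_smul]
    simp only [← Complex.coe_smul]
    push_cast
    rw [add_comm]
    congr 2 <;> ring
  rw [e, e2]
  have h1 : HasDerivAt (fun s : ℝ => s / 2) (1 / 2) t := (hasDerivAt_id t).div_const 2
  exact (h1.cos.smul_const (S.vec P A b)).add (h1.sin.smul_const (S.vec (P * S.g2 k l) A b))

/-- `(P θ)_b s_t = s_t (P g_t θ)_b` -/
lemma vec_mul_st {k l : Fin 9} (h : k ≠ l) (P : Matrix (Fin 16) (Fin 16) ℂ) (A : Fin dc)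
    (b : Fin 16) (t : ℝ) :
    S.vec P A b * S.st k l t = S.st k l t * S.vec (P * S.gt k l t) A b := by
  have hφ : ∀ s, HasDerivAt (fun s => S.st k l s * S.vec (P * S.gt k l s) A b * S.st k l (-s))
      0 s := by
    intro s
    refine hasDerivAt_conj_zero (Complex.I • S.Skl k l) (S.hasDerivAt_st k l s)
      (S.hasDerivAt_vec_gt h P A b s) (S.hasDerivAt_st_neg k l s) ?_ ?_
    · rw [smul_mul_assoc, mul_smul_comm, S.st_comm]
    · have hc := S.vec_comm_Sk (P * S.gt k l s) A b k l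
      have hS : S.Sk k l = S.Skl k l := rfl
      rw [hS] at hc
      rw [smul_mul_assoc, mul_smul_comm, ← smul_sub, hc, smul_smul]
      have e3 : Complex.I * (-Complex.I / 2) = 1 / 2 := by
        have := Complex.I_mul_I
        linear_combination (-1 / 2) * this
      rw [e3]
  have hconst := is_const_of_deriv_eq_zero (fun s => (hφ s).differentiableAt)
    (fun s => (hφ s).deriv) t 0
  simp only [neg_zero, st_zero, mul_one, one_mul] at hconst
  have hg0 : S.gt k l 0 = 1 := by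
    simp only [gt, zero_div, Real.cos_zero, Real.sin_zero, Complex.ofReal_one,
      Complex.ofReal_zero, one_smul, zero_smul, add_zero]
  rw [hg0, mul_one] at hconst
  calc S.vec P A b * S.st k l t = S.st k l t * S.vec (P * S.gt k l t) A b * S.st k l (-t) *
        S.st k l t := by rw [hconst]
    _ = S.st k l t * S.vec (P * S.gt k l t) A b := by
        rw [mul_assoc, S.st_neg_mul, mul_one]

end Setup

end Vale.Agent.P353.Z
end

section

/-! # P353, general `N`: coercivity (B0) and a priori bound (C-AP) -/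

open MeasureTheory Filter Topology
open scoped ContDiff

namespace Vale.Agent.P353.Z.U

variable {d : ℕ} {F : Type*} [NormedAddCommGroup F] [InnerProductSpace ℂ F]

namespace CoerZ

lemma coord_le (x : Cfg d) (p : Fin 9 × Fin d) : |x p| ≤ ‖x‖ := by
  have h := PiLp.norm_apply_le x p
  rwa [Real.norm_eq_abs] at h

/-- a bound of the fermionic potential -/
noncomputable def CF (S : Setup d F) : ℝ := ‖(Complex.I / 2 * (S.κ : ℂ))‖ *
  ∑ q : Fin 9, ∑ A, ∑ B, ∑ C, ‖(S.f A B C : ℂ)‖ * ‖S.bil (S.g q) A B‖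

lemma CF_nonneg (S : Setup d F) : 0 ≤ CF S := by
  unfold CF
  positivity

lemma norm_Fx_le (S : Setup d F) (x : Cfg d) : ‖S.Fx x‖ ≤ CF S * ‖x‖ := by
  unfold Setup.Fx CF
  rw [norm_smul, mul_assoc]
  apply mul_le_mul_of_nonneg_left _ (norm_nonneg _)
  simp only [Finset.sum_mul]
  refine (norm_sum_le _ _).trans (Finset.sum_le_sum fun q _ => ?_)
  refine (norm_sum_le _ _).trans (Finset.sum_le_sum fun A _ => ?_)
  refine (norm_sum_le _ _).trans (Finset.sum_le_sum fun B _ => ?_)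
  refine (norm_sum_le _ _).trans (Finset.sum_le_sum fun C _ => ?_)
  rw [norm_smul, norm_mul]
  have h1 : ‖((x (q, C) : ℝ) : ℂ)‖ ≤ ‖x‖ := by
    rw [Complex.norm_real, Real.norm_eq_abs]
    exact coord_le x _
  calc ‖(S.f A B C : ℂ)‖ * ‖((x (q, C) : ℝ) : ℂ)‖ * ‖S.bil (S.g q) A B‖ ≤
      ‖(S.f A B C : ℂ)‖ * ‖x‖ * ‖S.bil (S.g q) A B‖ := by gcongr
    _ = _ := by ring

/-- scaling `V_m(m • y) = m⁴ V_1(y)` -/
lemma Vm_smul (S : Setup d F) (m : ℝ) (y : Cfg d) : S.Vm m (m • y) = m ^ 4 * S.Vm 1 y := by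
  have hF : ∀ A i j, S.FF A i j (m • y) = m ^ 2 * S.FF A i j y := by
    intro A i j
    unfold Setup.FF
    rw [Finset.mul_sum, Finset.mul_sum, Finset.mul_sum]
    apply Finset.sum_congr rfl
    intro B _
    rw [Finset.mul_sum, Finset.mul_sum, Finset.mul_sum]
    apply Finset.sum_congr rfl
    intro C _
    simp only [PiLp.smul_apply, smul_eq_mul]
    ring
  have hV : S.V (m • y) = m ^ 4 * S.V y := by
    unfold Setup.V
    simp only [hF]
    simp only [Finset.mul_sum]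
    refine Finset.sum_congr rfl fun A _ => Finset.sum_congr rfl fun i _ =>
      Finset.sum_congr rfl fun j _ => ?_
    ring
  have hD : S.det3 (m • y) = m ^ 3 * S.det3 y := by
    unfold Setup.det3
    simp only [Finset.mul_sum]
    refine Finset.sum_congr rfl fun A _ => Finset.sum_congr rfl fun i _ =>
      Finset.sum_congr rfl fun j _ => ?_
    simp only [PiLp.smul_apply, smul_eq_mul]
    ring
  have hN : (∑ i, ∑ A, (aw i * (m • y) (i, A)) ^ 2) =
      m ^ 2 * ∑ i, ∑ A, (aw i * y (i, A)) ^ 2 := by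
    simp only [Finset.mul_sum]
    refine Finset.sum_congr rfl fun A _ => Finset.sum_congr rfl fun i _ => ?_
    simp only [PiLp.smul_apply, smul_eq_mul]
    ring
  unfold Setup.Vm
  rw [hV, hD, hN]
  ring

/-- lower bound of the potential for all `m > 0` -/
lemma Vm_lower (S : Setup d F) {c C : ℝ} (hV : ∀ x : Cfg d, c * ‖x‖ ^ 2 - C ≤ S.Vm 1 x) {m : ℝ}
    (hm : 0 < m) (x : Cfg d) : c * m ^ 2 * ‖x‖ ^ 2 - C * m ^ 4 ≤ S.Vm m x := by
  have e : x = m • (m⁻¹ • x) := by rw [smul_smul, mul_inv_cancel₀ hm.ne', one_smul]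
  have h := hV (m⁻¹ • x)
  have h2 : S.Vm m x = m ^ 4 * S.Vm 1 (m⁻¹ • x) := by
    conv_lhs => rw [e]
    exact Vm_smul S m _
  rw [h2]
  have h3 : ‖m⁻¹ • x‖ = m⁻¹ * ‖x‖ := by
    rw [norm_smul, Real.norm_eq_abs, abs_of_pos (inv_pos.2 hm)]
  rw [h3] at h
  have h4 := mul_le_mul_of_nonneg_left h (by positivity : 0 ≤ m ^ 4)
  have h5 : m ^ 4 * (c * (m⁻¹ * ‖x‖) ^ 2 - C) = c * m ^ 2 * ‖x‖ ^ 2 - C * m ^ 4 := by
    field_simp
  linarith

lemma zero_mem_wells (S : Setup d F) (m : ℝ) : (0 : Cfg d) ∈ S.wells m := by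
  simp [Setup.wells, Setup.Vm, Setup.V, Setup.FF, Setup.det3]

lemma dm_nonneg (S : Setup d F) (m : ℝ) (x : Cfg d) : 0 ≤ S.dm m x := Metric.infDist_nonneg

lemma dm_ge (S : Setup d F) {c C : ℝ} (hc : 0 < c) (hC : 0 ≤ C)
    (hV : ∀ x : Cfg d, c * ‖x‖ ^ 2 - C ≤ S.Vm 1 x) {m : ℝ} (hm : 0 < m) (x : Cfg d) :
    ‖x‖ - m * Real.sqrt (C / c) ≤ S.dm m x := by
  unfold Setup.dm
  rw [Metric.le_infDist ⟨0, zero_mem_wells S m⟩]
  intro y hy
  have h1 := Vm_lower S hV hm y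
  have h2 : S.Vm m y = 0 := hy
  rw [h2] at h1
  have h3 : ‖y‖ ≤ m * Real.sqrt (C / c) := by
    have h4 : ‖y‖ ^ 2 ≤ (m * Real.sqrt (C / c)) ^ 2 := by
      rw [mul_pow, Real.sq_sqrt (by positivity), ← mul_div_assoc, le_div_iff₀ hc]
      have h5 : 0 < m ^ 2 := by positivity
      have h6 : m ^ 2 * (‖y‖ ^ 2 * c) ≤ m ^ 2 * (m ^ 2 * C) := by nlinarith
      exact le_of_mul_le_mul_left h6 h5
    exact (sq_le_sq₀ (norm_nonneg _) (by positivity)).1 h4
  rw [dist_eq_norm]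
  have h5 := norm_sub_norm_le x y
  linarith

lemma continuous_dm (S : Setup d F) (m : ℝ) : Continuous (S.dm m) := by
  unfold Setup.dm
  exact Metric.continuous_infDist_pt _

lemma continuous_Vm (S : Setup d F) (m : ℝ) : Continuous (S.Vm m) := by
  unfold Setup.Vm Setup.det3
  have h1 := (contDiff_V S).continuous
  fun_prop

/-- lower bound of the energy by an integral of a function of `x`. -/
lemma energy_lower (S : Setup d F) (h6 : A6Stmt S) {m : ℝ} (hm : 0 ≤ m) {g : Cfg d → ℝ}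
    (hg : Continuous g) (hV : ∀ x : Cfg d, g x ≤ S.Vm m x) {u : Cfg d → F} (hu : Setup.Tst u) :
    8 * ∑ i, ∑ A, nsq (pd i A u) + ∫ x, (16 * g x - 16 * CF S * ‖x‖ -
      12 * m * ‖S.FG‖) * ‖u x‖ ^ 2 ≤ ∑ β, nsq (S.Qm m β u) := by
  have hcF : Setup.Tst (fun x => S.Fx x (u x)) := hu.clm (contDiff_Fx S)
  have hcG : Setup.Tst (fun x => S.FG (u x)) := hu.clm contDiff_const
  have i1 : Integrable (fun x => S.Vm m x * ‖u x‖ ^ 2) := hu.mul_norm_sq_int (continuous_Vm S m)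
  have i2 : Integrable (fun x => (inner ℂ (u x) (S.Fx x (u x)) : ℂ).re) :=
    (hu.inner_int hcF.1.continuous).re
  have i3 : Integrable (fun x => (inner ℂ (u x) (S.FG (u x)) : ℂ).re) :=
    (hu.inner_int hcG.1.continuous).re
  have e2 : (∫ x, inner ℂ (u x) (S.Fx x (u x))).re = ∫ x, (inner ℂ (u x) (S.Fx x (u x))).re :=
    (integral_re (hu.inner_int hcF.1.continuous)).symm
  have e3 : (∫ x, inner ℂ (u x) (S.FG (u x))).re = ∫ x, (inner ℂ (u x) (S.FG (u x))).re :=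
    (integral_re (hu.inner_int hcG.1.continuous)).symm
  rw [h6 m u hu, e2, e3]
  have hcont : Continuous fun x : Cfg d => 16 * g x - 16 * CF S * ‖x‖ -
      12 * m * ‖S.FG‖ := by
    fun_prop
  have i4 : Integrable (fun x => (16 * g x - 16 * CF S * ‖x‖ -
      12 * m * ‖S.FG‖) * ‖u x‖ ^ 2) := hu.mul_norm_sq_int hcont
  have e4 : 16 * (∫ x, S.Vm m x * ‖u x‖ ^ 2) + 16 * (∫ x, (inner ℂ (u x) (S.Fx x (u x))).re) -
      12 * m * (∫ x, (inner ℂ (u x) (S.FG (u x))).re) =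
      ∫ x, (16 * (S.Vm m x * ‖u x‖ ^ 2) + 16 * (inner ℂ (u x) (S.Fx x (u x))).re -
        12 * m * (inner ℂ (u x) (S.FG (u x))).re) := by
    have s1 : ∫ x, (16 * (S.Vm m x * ‖u x‖ ^ 2) + 16 * (inner ℂ (u x) (S.Fx x (u x))).re -
        12 * m * (inner ℂ (u x) (S.FG (u x))).re) =
        (∫ x, (16 * (S.Vm m x * ‖u x‖ ^ 2) + 16 * (inner ℂ (u x) (S.Fx x (u x))).re)) -
        ∫ x, 12 * m * (inner ℂ (u x) (S.FG (u x))).re :=
      integral_sub ((i1.const_mul 16).add (i2.const_mul 16)) (i3.const_mul (12 * m))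
    rw [s1, integral_add (i1.const_mul 16) (i2.const_mul 16), integral_const_mul,
      integral_const_mul, integral_const_mul]
  have hmain : ∫ x, (16 * g x - 16 * CF S * ‖x‖ -
      12 * m * ‖S.FG‖) * ‖u x‖ ^ 2 ≤
      ∫ x, (16 * (S.Vm m x * ‖u x‖ ^ 2) + 16 * (inner ℂ (u x) (S.Fx x (u x))).re -
        12 * m * (inner ℂ (u x) (S.FG (u x))).re) := by
    refine integral_mono i4 (((i1.const_mul 16).add (i2.const_mul 16)).sub
      (i3.const_mul (12 * m))) fun x => ?_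
    have hu0 : 0 ≤ ‖u x‖ ^ 2 := by positivity
    have a1 : |(inner ℂ (u x) (S.Fx x (u x)) : ℂ).re| ≤ CF S * ‖x‖ * ‖u x‖ ^ 2 := by
      calc |(inner ℂ (u x) (S.Fx x (u x)) : ℂ).re| ≤ ‖inner ℂ (u x) (S.Fx x (u x))‖ :=
            Complex.abs_re_le_norm _
        _ ≤ ‖u x‖ * ‖S.Fx x (u x)‖ := norm_inner_le_norm _ _
        _ ≤ ‖u x‖ * (‖S.Fx x‖ * ‖u x‖) := by
            gcongr
            exact (S.Fx x).le_opNorm _
        _ ≤ ‖u x‖ * ((CF S * ‖x‖) * ‖u x‖) := by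
            gcongr
            exact norm_Fx_le S x
        _ = _ := by ring
    have a2 : |(inner ℂ (u x) (S.FG (u x)) : ℂ).re| ≤ ‖S.FG‖ * ‖u x‖ ^ 2 := by
      calc |(inner ℂ (u x) (S.FG (u x)) : ℂ).re| ≤ ‖inner ℂ (u x) (S.FG (u x))‖ :=
            Complex.abs_re_le_norm _
        _ ≤ ‖u x‖ * ‖S.FG (u x)‖ := norm_inner_le_norm _ _
        _ ≤ ‖u x‖ * (‖S.FG‖ * ‖u x‖) := by
            gcongr
            exact S.FG.le_opNorm _
        _ = _ := by ring
    have a3 := (abs_le.1 a1).1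
    have a4 := mul_le_mul_of_nonneg_left (abs_le.1 a2).2
      (mul_nonneg (by norm_num : (0 : ℝ) ≤ 12) hm)
    have a5 := mul_le_mul_of_nonneg_right (hV x) hu0
    nlinarith
  linarith

end CoerZ

open CoerZ

/-- **B0** coercivity. -/
theorem coer (S : Setup d F) (h6 : A6Stmt S) (hc : CoeStmt S) : CoerStmt S := by
  obtain ⟨c1, C1, hc1, hC1, hV⟩ := hc
  intro a b ha
  have hCF := CF_nonneg S
  refine ⟨min 8 (8 * c1 * a ^ 2), 16 * C1 * b ^ 4 + 8 * CF S ^ 2 / (c1 * a ^ 2) +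
    12 * b * ‖S.FG‖ + 12 * |b| * ‖S.FG‖, by positivity, ?_, ?_⟩
  · have h1 : 0 ≤ b * ‖S.FG‖ + |b| * ‖S.FG‖ := by
      rw [← add_mul]
      have := neg_abs_le b
      exact mul_nonneg (by linarith) (norm_nonneg _)
    have h2 : 0 ≤ 16 * C1 * b ^ 4 := by positivity
    have h3 : 0 ≤ 8 * CF S ^ 2 / (c1 * a ^ 2) := by positivity
    linarith
  intro m ham hmb u hu
  have hm : 0 < m := ha.trans_le ham
  have hb : 0 < b := hm.trans_le hmb
  have h1 := energy_lower S h6 hm.le (g := fun x => c1 * m ^ 2 * ‖x‖ ^ 2 - C1 * m ^ 4)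
    (by fun_prop) (Vm_lower S hV hm) hu
  set C0 : ℝ := 16 * C1 * b ^ 4 + 8 * CF S ^ 2 / (c1 * a ^ 2) + 12 * b * ‖S.FG‖ with hC0
  have hpt : ∀ x : Cfg d, 8 * c1 * a ^ 2 * ‖x‖ ^ 2 - C0 ≤
      16 * (c1 * m ^ 2 * ‖x‖ ^ 2 - C1 * m ^ 4) - 16 * CF S * ‖x‖ - 12 * m * ‖S.FG‖ := by
    intro x
    have hx := norm_nonneg x
    have k5 : 16 * c1 * a ^ 2 * ‖x‖ ^ 2 ≤ 16 * c1 * m ^ 2 * ‖x‖ ^ 2 := by gcongr
    have k6 : 16 * C1 * m ^ 4 ≤ 16 * C1 * b ^ 4 := by gcongr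
    have k7 : 16 * CF S * ‖x‖ ≤ 8 * c1 * a ^ 2 * ‖x‖ ^ 2 + 8 * CF S ^ 2 / (c1 * a ^ 2) := by
      have hca : 0 < c1 * a ^ 2 := by positivity
      have : 0 ≤ 8 * ((c1 * a ^ 2) * ‖x‖ - CF S) ^ 2 / (c1 * a ^ 2) := by positivity
      have e : 8 * ((c1 * a ^ 2) * ‖x‖ - CF S) ^ 2 / (c1 * a ^ 2) =
          8 * c1 * a ^ 2 * ‖x‖ ^ 2 - 16 * CF S * ‖x‖ + 8 * CF S ^ 2 / (c1 * a ^ 2) := by
        field_simp
        ring
      linarith
    have k8 : 12 * m * ‖S.FG‖ ≤ 12 * b * ‖S.FG‖ := by gcongr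
    linarith
  have hint1 : Integrable (fun x : Cfg d => (8 * c1 * a ^ 2 * ‖x‖ ^ 2 - C0) * ‖u x‖ ^ 2) :=
    hu.mul_norm_sq_int (by fun_prop)
  have h2 : ∫ x, (8 * c1 * a ^ 2 * ‖x‖ ^ 2 - C0) * ‖u x‖ ^ 2 ≤
      ∫ x, (16 * (c1 * m ^ 2 * ‖x‖ ^ 2 - C1 * m ^ 4) - 16 * CF S * ‖x‖ -
        12 * m * ‖S.FG‖) * ‖u x‖ ^ 2 :=
    integral_mono hint1 (hu.mul_norm_sq_int (by fun_prop)) fun x =>
      mul_le_mul_of_nonneg_right (hpt x) (by positivity)
  have h3 : ∫ x, (8 * c1 * a ^ 2 * ‖x‖ ^ 2 - C0) * ‖u x‖ ^ 2 =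
      8 * c1 * a ^ 2 * (∫ x, ‖x‖ ^ 2 * ‖u x‖ ^ 2) - C0 * nsq u := by
    have i1 : Integrable (fun x : Cfg d => ‖x‖ ^ 2 * ‖u x‖ ^ 2) :=
      hu.mul_norm_sq_int (by fun_prop)
    rw [nsq, ← integral_const_mul, ← integral_const_mul, ← integral_sub (i1.const_mul _)
      (hu.norm_sq_int.const_mul _)]
    congr 1
    ext x
    ring
  have hX : 0 ≤ ∫ x, ‖x‖ ^ 2 * ‖u x‖ ^ 2 := integral_nonneg fun x => by positivity
  have hP : 0 ≤ ∑ i, ∑ A, nsq (pd i A u) :=
    Finset.sum_nonneg fun i _ => Finset.sum_nonneg fun A _ => nsq_nonneg _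
  have hn := nsq_nonneg u
  have h4 := mul_le_mul_of_nonneg_right (min_le_left 8 (8 * c1 * a ^ 2)) hP
  have h5 := mul_le_mul_of_nonneg_right (min_le_right 8 (8 * c1 * a ^ 2)) hX
  have h6 : 0 ≤ 12 * |b| * ‖S.FG‖ * nsq u := by positivity
  rw [mul_add, add_mul]
  linarith

/-- **C-AP** a priori bound. -/
theorem ap (S : Setup d F) (h6 : A6Stmt S) (hw : WelStmt S) (hc : CoeStmt S) : APStmt S := by
  obtain ⟨c1, hc1, hW⟩ := hw
  obtain ⟨c2, C2, hc2, hC2, hV2⟩ := hc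
  set R0 := Real.sqrt (C2 / c2)
  have hR0 : 0 ≤ R0 := Real.sqrt_nonneg _
  have hCF := CF_nonneg S
  set C1 : ℝ := 16 * CF S * R0 + 8 * CF S ^ 2 / c1 + 12 * ‖S.FG‖ with hC1
  have hC1' : 0 ≤ C1 := by positivity
  refine ⟨(1 + C1) / (8 * c1), by positivity, fun m hm1 u hu => ?_⟩
  have hm : 0 < m := lt_of_lt_of_le one_pos hm1
  have hcd := continuous_dm S m
  have h1 := energy_lower S h6 hm.le (g := fun x => c1 * m ^ 2 * S.dm m x ^ 2)
    (by fun_prop) (hW m hm) hu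
  have hpt : ∀ x : Cfg d, 8 * c1 * m ^ 2 * S.dm m x ^ 2 - C1 * m ≤
      16 * (c1 * m ^ 2 * S.dm m x ^ 2) - 16 * CF S * ‖x‖ - 12 * m * ‖S.FG‖ := by
    intro x
    have hd := dm_ge S hc2 hC2 hV2 hm x
    have hd0 := dm_nonneg S m x
    have k1 : 16 * CF S * ‖x‖ ≤ 16 * CF S * S.dm m x + 16 * CF S * R0 * m := by
      have : 16 * CF S * ‖x‖ ≤ 16 * CF S * (S.dm m x + m * R0) := by
        gcongr
        linarith
      linarith
    have k2 : 16 * CF S * S.dm m x ≤ 8 * c1 * m ^ 2 * S.dm m x ^ 2 + 8 * CF S ^ 2 / c1 * m := by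
      have k3 : 0 ≤ 8 * (c1 * m * S.dm m x - CF S / m) ^ 2 / c1 := by positivity
      have e : 8 * (c1 * m * S.dm m x - CF S / m) ^ 2 / c1 =
          8 * c1 * m ^ 2 * S.dm m x ^ 2 - 16 * CF S * S.dm m x + 8 * CF S ^ 2 / c1 * (1 / m ^ 2) := by
        field_simp
        ring
      have k4 : 1 / m ^ 2 ≤ m := by
        rw [div_le_iff₀ (by positivity)]
        nlinarith [mul_pos hm hm, one_le_pow₀ (n := 3) hm1]
      have k5 : 8 * CF S ^ 2 / c1 * (1 / m ^ 2) ≤ 8 * CF S ^ 2 / c1 * m := by gcongr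
      linarith
    nlinarith
  have h2 : ∫ x, (8 * c1 * m ^ 2 * S.dm m x ^ 2 - C1 * m) * ‖u x‖ ^ 2 ≤
      ∫ x, (16 * (c1 * m ^ 2 * S.dm m x ^ 2) - 16 * CF S * ‖x‖ - 12 * m * ‖S.FG‖) * ‖u x‖ ^ 2 :=
    integral_mono (hu.mul_norm_sq_int (by fun_prop)) (hu.mul_norm_sq_int (by fun_prop)) fun x =>
      mul_le_mul_of_nonneg_right (hpt x) (by positivity)
  have h3 : ∫ x, (8 * c1 * m ^ 2 * S.dm m x ^ 2 - C1 * m) * ‖u x‖ ^ 2 =
      8 * c1 * (m ^ 2 * ∫ x, S.dm m x ^ 2 * ‖u x‖ ^ 2) - C1 * m * nsq u := by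
    have i1 : Integrable (fun x : Cfg d => S.dm m x ^ 2 * ‖u x‖ ^ 2) :=
      hu.mul_norm_sq_int (by fun_prop)
    rw [nsq, ← integral_const_mul, ← integral_const_mul, ← integral_const_mul,
      ← integral_sub ((i1.const_mul _).const_mul _) (hu.norm_sq_int.const_mul _)]
    congr 1
    ext x
    ring
  have hP : 0 ≤ ∑ i, ∑ A, nsq (pd i A u) :=
    Finset.sum_nonneg fun i _ => Finset.sum_nonneg fun A _ => nsq_nonneg _
  have hQ : 0 ≤ ∑ β, nsq (S.Qm m β u) := Finset.sum_nonneg fun β _ => nsq_nonneg _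
  have hn := nsq_nonneg u
  have h4 : 8 * c1 * (m ^ 2 * ∫ x, S.dm m x ^ 2 * ‖u x‖ ^ 2) ≤
      C1 * (m * nsq u) + ∑ β, nsq (S.Qm m β u) := by linarith
  have h5 : C1 * (m * nsq u) + ∑ β, nsq (S.Qm m β u) ≤
      (1 + C1) * (m * nsq u + ∑ β, nsq (S.Qm m β u)) := by
    have : 0 ≤ m * nsq u := by positivity
    nlinarith
  rw [div_mul_eq_mul_div, le_div_iff₀ (by positivity)]
  linarith

end Vale.Agent.P353.Z.U
end

section

/-! # P353, C-L1: the weak equation for Gaussian test functions -/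

open MeasureTheory Filter Topology
open scoped ContDiff ComplexConjugate

namespace Vale.Agent.P353.Z.U

variable {dc : ℕ}

/-! ### product rules -/

theorem l1_fderiv_mul {f g : (Cfg dc) → ℂ} {x : (Cfg dc)} (hf : DifferentiableAt ℝ f x)
    (hg : DifferentiableAt ℝ g x) (e : (Cfg dc)) :
    fderiv ℝ (fun y => f y * g y) x e = fderiv ℝ f x e * g x + f x * fderiv ℝ g x e := by
  have h := (hf.hasFDerivAt.mul hg.hasFDerivAt).fderiv
  have h2 : fderiv ℝ (fun y => f y * g y) x = _ := h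
  rw [h2]
  simp
  ring

theorem l1_contDiff_dir {f : (Cfg dc) → ℂ} (hf : ContDiff ℝ ∞ f) (e : (Cfg dc)) :
    ContDiff ℝ ∞ (fun y => fderiv ℝ f y e) :=
  (hf.fderiv_right (m := ∞) (by simp)).clm_apply contDiff_const

theorem l1_diff {f : (Cfg dc) → ℂ} (hf : ContDiff ℝ ∞ f) (x : (Cfg dc)) : DifferentiableAt ℝ f x :=
  (hf.differentiable (by simp)) x

theorem l1_fderiv2_mul {f g : (Cfg dc) → ℂ} (hf : ContDiff ℝ ∞ f) (hg : ContDiff ℝ ∞ g) (x e : (Cfg dc)) :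
    fderiv ℝ (fun y => fderiv ℝ (fun z => f z * g z) y e) x e =
      fderiv ℝ (fun y => fderiv ℝ f y e) x e * g x +
        2 * (fderiv ℝ f x e * fderiv ℝ g x e) +
        f x * fderiv ℝ (fun y => fderiv ℝ g y e) x e := by
  have h1 : (fun y => fderiv ℝ (fun z => f z * g z) y e) =
      fun y => fderiv ℝ f y e * g y + f y * fderiv ℝ g y e := by
    funext y
    exact l1_fderiv_mul (l1_diff hf y) (l1_diff hg y) e
  rw [h1]
  have hf' := l1_diff (l1_contDiff_dir hf e) x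
  have hg' := l1_diff (l1_contDiff_dir hg e) x
  have h2 : fderiv ℝ (fun y => fderiv ℝ f y e * g y + f y * fderiv ℝ g y e) x e =
      fderiv ℝ (fun y => fderiv ℝ f y e * g y) x e +
        fderiv ℝ (fun y => f y * fderiv ℝ g y e) x e := by
    have d1 : DifferentiableAt ℝ (fun y => fderiv ℝ f y e * g y) x := hf'.mul (l1_diff hg x)
    have d2 : DifferentiableAt ℝ (fun y => f y * fderiv ℝ g y e) x := (l1_diff hf x).mul hg'
    rw [fderiv_fun_add d1 d2]
    rfl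
  rw [h2, l1_fderiv_mul hf' (l1_diff hg x), l1_fderiv_mul (l1_diff hf x) hg']
  ring

namespace L1D

variable {ι : Type} [Fintype ι] [DecidableEq ι] (D : L1D dc ι)

theorem fderiv2_EE (k x e : (Cfg dc)) :
    fderiv ℝ (fun y => fderiv ℝ (D.EE k) y e) x e =
      D.EE k x * (D.cc k e x ^ 2 - ((inner ℝ (D.M2 e) e : ℝ) : ℂ)) := by
  have h1 : (fun y => fderiv ℝ (D.EE k) y e) = fun y => D.EE k y * D.cc k e y := by
    funext y; exact D.fderiv_EE k y e
  rw [h1, l1_fderiv_mul (l1_diff (D.contDiff_EE k) x) (D.differentiable_cc k e x),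
    fderiv_EE, fderiv_cc]
  ring

theorem fderiv_τ (C : ι) (x e : (Cfg dc)) :
    fderiv ℝ (fun y => ((inner ℝ (D.τ C) y : ℝ) : ℂ)) x e = ((inner ℝ (D.τ C) e : ℝ) : ℂ) := by
  have h3 : HasFDerivAt (fun y => inner ℝ (D.τ C) y) (innerSL ℝ (D.τ C)) x :=
    (innerSL ℝ (D.τ C)).hasFDerivAt
  have h4 : HasFDerivAt (fun y => ((inner ℝ (D.τ C) y : ℝ) : ℂ)) _ x :=
    (Complex.ofRealCLM.hasFDerivAt (x := inner ℝ (D.τ C) x)).comp x h3
  rw [h4.fderiv]
  simp

theorem contDiff_τ (C : ι) : ContDiff ℝ ∞ (fun y : (Cfg dc) => ((inner ℝ (D.τ C) y : ℝ) : ℂ)) :=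
  Complex.ofRealCLM.contDiff.comp (contDiff_const.inner ℝ contDiff_id)

/-- the second order part and potential -/
noncomputable def L0 (ν : ℝ) (η : (Cfg dc) → ℂ) (x : (Cfg dc)) : ℂ :=
  -(∑ p, fderiv ℝ (fun y => fderiv ℝ η y (l1e p)) x (l1e p)) +
    ((‖D.A x‖ ^ 2 - D.tr + 2 * ν : ℝ) : ℂ) * η x

/-- the scalar operator -/
noncomputable def LL (ν : ℝ) (η : (Cfg dc) → ℂ) (x : (Cfg dc)) : ℂ :=
  D.L0 ν η x - ∑ C, fderiv ℝ (fun y => ((inner ℝ (D.τ C) y : ℝ) : ℂ) * η y) x (D.τ C)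

/-- multiplier -/
noncomputable def bb (ν : ℝ) (k x : (Cfg dc)) : ℂ :=
  ((‖k‖ ^ 2 + 2 * ν : ℝ) : ℂ) + 2 * ((inner ℝ (D.M x) k : ℝ) : ℂ) * Complex.I

theorem sum_cc_sq (k x : (Cfg dc)) : ∑ p, D.cc k (l1e p) x ^ 2 =
    ((‖D.M2 x‖ ^ 2 - ‖k‖ ^ 2 : ℝ) : ℂ) - 2 * ((inner ℝ (D.M2 x) k : ℝ) : ℂ) * Complex.I := by
  have h1 : ∀ p, D.cc k (l1e p) x ^ 2 = (((D.M2 x) p * (D.M2 x) p : ℝ) : ℂ) -
      ((k p * k p : ℝ) : ℂ) - 2 * (((D.M2 x) p * k p : ℝ) : ℂ) * Complex.I := by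
    intro p
    unfold cc
    rw [l1_inner_e, l1_inner_e]
    push_cast
    linear_combination (k p : ℂ) ^ 2 * Complex.I_sq
  simp only [h1, Finset.sum_sub_distrib, ← Finset.sum_mul, ← Finset.mul_sum]
  rw [← Complex.ofReal_sum, ← Complex.ofReal_sum, ← Complex.ofReal_sum, ← l1_inner_sum,
    ← l1_inner_sum, ← l1_inner_sum, real_inner_self_eq_norm_sq, real_inner_self_eq_norm_sq]
  push_cast
  ring

theorem alg (ν : ℝ) (k x : (Cfg dc)) :
    -(∑ p, (D.cc k (l1e p) x ^ 2 - ((inner ℝ (D.M2 (l1e p)) (l1e p) : ℝ) : ℂ))) +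
      ((‖D.A x‖ ^ 2 - D.tr + 2 * ν : ℝ) : ℂ) -
      ∑ C, (2 + ((inner ℝ (D.τ C) x : ℝ) : ℂ) * D.cc k (D.τ C) x) = D.bb ν k x := by
  rw [Finset.sum_sub_distrib, sum_cc_sq, ← Complex.ofReal_sum, tr_M2, norm_M2_sq]
  have h1 : ∀ C, ((inner ℝ (D.τ C) x : ℝ) : ℂ) * D.cc k (D.τ C) x =
      -2 * ((inner ℝ (D.τ C) x ^ 2 : ℝ) : ℂ) +
        ((inner ℝ (D.τ C) x * inner ℝ (D.τ C) k : ℝ) : ℂ) * Complex.I := by
    intro C
    unfold cc
    rw [M2_symm, M2_τ, real_inner_smul_right, real_inner_comm (D.τ C) x, real_inner_comm (D.τ C) k]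
    push_cast
    ring
  simp only [h1, Finset.sum_add_distrib, ← Finset.sum_mul, ← Finset.mul_sum]
  rw [← Complex.ofReal_sum, ← Complex.ofReal_sum, inner_M2]
  unfold bb
  rw [inner_M]
  simp only [Finset.sum_const, Finset.card_univ, nsmul_eq_mul]
  push_cast
  ring

theorem LL_mul (ν : ℝ) (k : (Cfg dc)) {χ : (Cfg dc) → ℂ} (hχ : ContDiff ℝ ∞ χ) (x : (Cfg dc)) :
    D.LL ν (fun y => χ y * D.EE k y) x = D.EE k x * (χ x * D.bb ν k x -
      ((∑ p, (fderiv ℝ (fun y => fderiv ℝ χ y (l1e p)) x (l1e p) +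
        2 * (fderiv ℝ χ x (l1e p) * D.cc k (l1e p) x))) +
      ∑ C, ((inner ℝ (D.τ C) x : ℝ) : ℂ) * fderiv ℝ χ x (D.τ C))) := by
  have hE := D.contDiff_EE k
  unfold LL L0
  rw [← D.alg ν k x]
  have h1 : ∀ p, fderiv ℝ (fun y => fderiv ℝ (fun z => χ z * D.EE k z) y (l1e p)) x (l1e p) =
      D.EE k x * (χ x * (D.cc k (l1e p) x ^ 2 - ((inner ℝ (D.M2 (l1e p)) (l1e p) : ℝ) : ℂ))) +
      D.EE k x * (fderiv ℝ (fun y => fderiv ℝ χ y (l1e p)) x (l1e p) +
        2 * (fderiv ℝ χ x (l1e p) * D.cc k (l1e p) x)) := by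
    intro p
    rw [l1_fderiv2_mul hχ hE, fderiv2_EE, fderiv_EE]
    ring
  have h2 : ∀ C, fderiv ℝ (fun y => ((inner ℝ (D.τ C) y : ℝ) : ℂ) * (χ y * D.EE k y)) x (D.τ C) =
      D.EE k x * (χ x * (2 + ((inner ℝ (D.τ C) x : ℝ) : ℂ) * D.cc k (D.τ C) x)) +
      D.EE k x * (((inner ℝ (D.τ C) x : ℝ) : ℂ) * fderiv ℝ χ x (D.τ C)) := by
    intro C
    have hm : DifferentiableAt ℝ (fun y => χ y * D.EE k y) x := (l1_diff hχ x).mul (l1_diff hE x)
    rw [l1_fderiv_mul (l1_diff (D.contDiff_τ C) x) hm,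
      l1_fderiv_mul (l1_diff hχ x) (l1_diff hE x), fderiv_τ, fderiv_EE, D.ττ, if_pos rfl]
    push_cast
    ring
  simp only [h1, h2, Finset.sum_add_distrib, ← Finset.mul_sum]
  ring

end L1D

end Vale.Agent.P353.Z.U
end

section

open MeasureTheory Filter Topology
open scoped ContDiff ENNReal

namespace Vale.Agent.P353
namespace FD

variable {F : Type*} [NormedAddCommGroup F] [InnerProductSpace ℂ F]

lemma sq_lintegral_le {α : Type*} [MeasurableSpace α] {μ : Measure α} {f : α → ℝ≥0∞}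
    (hf : AEMeasurable f μ) : (∫⁻ x, f x ∂μ) ^ 2 ≤ μ Set.univ * ∫⁻ x, f x ^ 2 ∂μ := by
  have h := ENNReal.lintegral_mul_le_Lp_mul_Lq μ (Real.HolderConjugate.two_two) hf
    (aemeasurable_const (b := (1 : ℝ≥0∞)))
  simp only [Pi.mul_apply, mul_one, ENNReal.one_rpow, lintegral_const, one_mul] at h
  have h2 : (∫⁻ x, f x ∂μ) ^ 2 ≤ ((∫⁻ x, f x ^ (2 : ℝ) ∂μ) ^ (1 / (2 : ℝ)) *
      (μ Set.univ) ^ (1 / (2 : ℝ))) ^ 2 := by gcongr
  refine h2.trans (le_of_eq ?_)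
  rw [mul_pow, ← ENNReal.rpow_natCast, ← ENNReal.rpow_natCast, ← ENNReal.rpow_mul,
    ← ENNReal.rpow_mul]
  norm_num
  rw [mul_comm]

variable {ι : Type*} [Fintype ι]


/-- translation estimate -/
lemma translation [CompleteSpace F] (v : (EuclideanSpace ℝ ι) → F) (hv : ContDiff ℝ 1 v) (h : (EuclideanSpace ℝ ι)) :
    ∫⁻ x, ‖v (x + h) - v x‖ₑ ^ 2 ≤ ‖h‖ₑ ^ 2 * ∫⁻ x, ‖fderiv ℝ v x‖ₑ ^ 2 := by
  have hcd : Continuous (fderiv ℝ v) := hv.continuous_fderiv (by simp)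
  have hpt : ∀ x, ‖v (x + h) - v x‖ₑ ^ 2 ≤
      ∫⁻ t in Set.Ioc (0 : ℝ) 1, ‖h‖ₑ ^ 2 * ‖fderiv ℝ v (x + t • h)‖ₑ ^ 2 := by
    intro x
    have hline : ∀ t : ℝ, HasDerivAt (fun t : ℝ => x + t • h) h t := by
      intro t
      simpa using ((hasDerivAt_id t).smul_const h).const_add x
    have hder : ∀ t : ℝ, HasDerivAt (fun t : ℝ => v (x + t • h)) (fderiv ℝ v (x + t • h) h) t := by
      intro t
      exact ((hv.differentiable (by simp)) (x + t • h)).hasFDerivAt.comp_hasDerivAt t (hline t)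
    have hcont : Continuous (fun t : ℝ => fderiv ℝ v (x + t • h) h) :=
      (hcd.comp (continuous_const.add (continuous_id.smul continuous_const))).clm_apply
        continuous_const
    have hftc : ∫ t in (0 : ℝ)..1, fderiv ℝ v (x + t • h) h = v (x + h) - v x := by
      rw [intervalIntegral.integral_eq_sub_of_hasDerivAt (fun t _ => hder t)
        (hcont.intervalIntegrable _ _)]
      simp
    rw [← hftc, intervalIntegral.integral_of_le zero_le_one]
    calc ‖∫ t in Set.Ioc (0 : ℝ) 1, fderiv ℝ v (x + t • h) h‖ₑ ^ 2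
        ≤ (∫⁻ t in Set.Ioc (0 : ℝ) 1, ‖fderiv ℝ v (x + t • h) h‖ₑ) ^ 2 := by
          gcongr
          exact enorm_integral_le_lintegral_enorm _
      _ ≤ (volume.restrict (Set.Ioc (0 : ℝ) 1)) Set.univ *
            ∫⁻ t in Set.Ioc (0 : ℝ) 1, ‖fderiv ℝ v (x + t • h) h‖ₑ ^ 2 :=
          sq_lintegral_le hcont.enorm.aemeasurable
      _ = ∫⁻ t in Set.Ioc (0 : ℝ) 1, ‖fderiv ℝ v (x + t • h) h‖ₑ ^ 2 := by
          simp
      _ ≤ _ := by
          refine lintegral_mono fun t => ?_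
          have h1 : ‖fderiv ℝ v (x + t • h) h‖ₑ ≤ ‖h‖ₑ * ‖fderiv ℝ v (x + t • h)‖ₑ := by
            rw [mul_comm]
            exact ContinuousLinearMap.le_opENorm _ _
          calc ‖fderiv ℝ v (x + t • h) h‖ₑ ^ 2 ≤ (‖h‖ₑ * ‖fderiv ℝ v (x + t • h)‖ₑ) ^ 2 := by gcongr
            _ = _ := by rw [mul_pow]
  have hcont2 : Continuous (fun p : (EuclideanSpace ℝ ι) × ℝ => ‖fderiv ℝ v (p.1 + p.2 • h)‖ₑ) :=
    (hcd.comp (continuous_fst.add (continuous_snd.smul continuous_const))).enorm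
  calc ∫⁻ x, ‖v (x + h) - v x‖ₑ ^ 2
      ≤ ∫⁻ x, ∫⁻ t in Set.Ioc (0 : ℝ) 1, ‖h‖ₑ ^ 2 * ‖fderiv ℝ v (x + t • h)‖ₑ ^ 2 :=
        lintegral_mono hpt
    _ = ∫⁻ t in Set.Ioc (0 : ℝ) 1, ∫⁻ x, ‖h‖ₑ ^ 2 * ‖fderiv ℝ v (x + t • h)‖ₑ ^ 2 := by
        refine lintegral_lintegral_swap ?_
        exact ((hcont2.measurable.pow_const 2).const_mul _).aemeasurable
    _ = ∫⁻ _t in Set.Ioc (0 : ℝ) 1, ‖h‖ₑ ^ 2 * ∫⁻ x, ‖fderiv ℝ v x‖ₑ ^ 2 := by
        refine lintegral_congr fun t => ?_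
        rw [lintegral_const_mul' _ _ (by simp)]
        congr 1
        exact lintegral_add_right_eq_self (fun x => ‖fderiv ℝ v x‖ₑ ^ 2) (t • h)
    _ = _ := by simp

/-! ### cells -/

/-- half-open cells of side `δ` -/
def cell (δ : ℝ) (k : ι → ℤ) : Set (EuclideanSpace ℝ ι) :=
  WithLp.ofLp ⁻¹' (Set.univ.pi fun i => Set.Ico (δ * k i) (δ * k i + δ))

/-- the set of differences -/
def HH (δ : ℝ) : Set (EuclideanSpace ℝ ι) := WithLp.ofLp ⁻¹' (Set.univ.pi fun _ => Set.Ico (-δ) δ)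

lemma measurable_ofLp : Measurable (WithLp.ofLp : (EuclideanSpace ℝ ι) → ι → ℝ) :=
  (PiLp.volume_preserving_ofLp ι).measurable

lemma measurableSet_cell (δ : ℝ) (k : ι → ℤ) : MeasurableSet (cell δ k) :=
  measurable_ofLp (MeasurableSet.univ_pi fun _ => measurableSet_Ico)

lemma measurableSet_HH (δ : ℝ) : MeasurableSet (HH δ : Set (EuclideanSpace ℝ ι)) :=
  measurable_ofLp (MeasurableSet.univ_pi fun _ => measurableSet_Ico)

lemma volume_cell (δ : ℝ) (k : ι → ℤ) :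
    volume (cell δ k) = ENNReal.ofReal δ ^ Fintype.card ι := by
  rw [cell, (PiLp.volume_preserving_ofLp ι).measure_preimage
    (MeasurableSet.univ_pi fun _ => measurableSet_Ico).nullMeasurableSet, Real.volume_pi_Ico]
  simp

lemma volume_HH (δ : ℝ) :
    volume (HH δ : Set (EuclideanSpace ℝ ι)) = ENNReal.ofReal (2 * δ) ^ Fintype.card ι := by
  rw [HH, (PiLp.volume_preserving_ofLp ι).measure_preimage
    (MeasurableSet.univ_pi fun _ => measurableSet_Ico).nullMeasurableSet, Real.volume_pi_Ico]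
  simp only [sub_neg_eq_add, Finset.prod_const, Finset.card_univ]
  rw [two_mul]

omit [Fintype ι] in
lemma mem_cell {δ : ℝ} {k : ι → ℤ} {x : (EuclideanSpace ℝ ι)} :
    x ∈ cell δ k ↔ ∀ i, δ * k i ≤ x i ∧ x i < δ * k i + δ := by
  simp [cell, Set.mem_pi]

omit [Fintype ι] in
lemma sub_mem_HH {δ : ℝ} {k : ι → ℤ} {x y : (EuclideanSpace ℝ ι)} (hx : x ∈ cell δ k) (hy : y ∈ cell δ k) :
    y - x ∈ (HH δ : Set (EuclideanSpace ℝ ι)) := by
  rw [mem_cell] at hx hy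
  simp only [HH, Set.mem_preimage, Set.mem_pi, Set.mem_univ, true_implies, Set.mem_Ico,
    WithLp.ofLp_sub, Pi.sub_apply]
  intro i
  have h1 := hx i
  have h2 := hy i
  constructor <;> linarith

omit [Fintype ι] in
lemma cell_disjoint {δ : ℝ} (hδ : 0 < δ) : Pairwise (Function.onFun Disjoint
    (fun k : ι → ℤ => (cell δ k : Set (EuclideanSpace ℝ ι)))) := by
  intro k l hkl
  rw [Function.onFun, Set.disjoint_left]
  intro x hx hy
  rw [mem_cell] at hx hy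
  apply hkl
  funext i
  have h1 := hx i
  have h2 := hy i
  have h3 : (k i : ℝ) < l i + 1 := by
    by_contra hcon
    push Not at hcon
    nlinarith
  have h4 : (l i : ℝ) < k i + 1 := by
    by_contra hcon
    push Not at hcon
    nlinarith
  have h5 : k i < l i + 1 := by exact_mod_cast h3
  have h6 : l i < k i + 1 := by exact_mod_cast h4
  omega

lemma norm_HH {δ : ℝ} {h : (EuclideanSpace ℝ ι)} (hh : h ∈ (HH δ : Set (EuclideanSpace ℝ ι))) :
    ‖h‖ ^ 2 ≤ Fintype.card ι * δ ^ 2 := by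
  rw [EuclideanSpace.norm_sq_eq]
  simp only [HH, Set.mem_preimage, Set.mem_pi, Set.mem_univ, true_implies, Set.mem_Ico] at hh
  calc ∑ i, ‖h i‖ ^ 2 ≤ ∑ _i : ι, δ ^ 2 := by
        refine Finset.sum_le_sum fun i _ => ?_
        rw [Real.norm_eq_abs, sq_abs]
        have := hh i
        nlinarith
    _ = _ := by simp

lemma avg_bound [CompleteSpace F] {v : (EuclideanSpace ℝ ι) → F} (hv : Integrable v) {A : Set (EuclideanSpace ℝ ι)}
    (hA0 : volume A ≠ 0) (hA1 : volume A ≠ ⊤) (hvc : Continuous v) :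
    ∫⁻ x in A, ‖v x - (volume A).toReal⁻¹ • ∫ y in A, v y‖ₑ ^ 2 ≤
      (volume A)⁻¹ * ∫⁻ x in A, ∫⁻ y in A, ‖v y - v x‖ₑ ^ 2 := by
  set m := (volume A).toReal with hm
  have hm0 : 0 < m := ENNReal.toReal_pos hA0 hA1
  have hpt : ∀ x, ‖v x - m⁻¹ • ∫ y in A, v y‖ₑ ^ 2 ≤
      (volume A)⁻¹ * ∫⁻ y in A, ‖v y - v x‖ₑ ^ 2 := by
    intro x
    have e1 : v x - m⁻¹ • ∫ y in A, v y = -(m⁻¹ • ∫ y in A, (v y - v x)) := by
      rw [integral_sub hv.integrableOn (by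
        have : IsFiniteMeasure (volume.restrict A) := ⟨by simpa using hA1.lt_top⟩
        exact integrable_const _), smul_sub, setIntegral_const, smul_smul]
      have : m⁻¹ * volume.real A = 1 := by
        rw [Measure.real, ← hm, inv_mul_cancel₀ hm0.ne']
      rw [this, one_smul]
      abel
    have e2 : ‖m⁻¹‖ₑ = (volume A)⁻¹ := by
      rw [Real.enorm_eq_ofReal (inv_nonneg.mpr hm0.le), ENNReal.ofReal_inv_of_pos hm0, hm,
        ENNReal.ofReal_toReal hA1]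
    rw [e1, enorm_neg, enorm_smul, e2, mul_pow]
    calc (volume A)⁻¹ ^ 2 * ‖∫ y in A, (v y - v x)‖ₑ ^ 2
        ≤ (volume A)⁻¹ ^ 2 * ((∫⁻ y in A, ‖v y - v x‖ₑ) ^ 2) := by
          gcongr
          exact enorm_integral_le_lintegral_enorm _
      _ ≤ (volume A)⁻¹ ^ 2 * ((volume.restrict A) Set.univ * ∫⁻ y in A, ‖v y - v x‖ₑ ^ 2) := by
          gcongr
          exact sq_lintegral_le (hvc.sub continuous_const).enorm.aemeasurable
      _ = (volume A)⁻¹ * ∫⁻ y in A, ‖v y - v x‖ₑ ^ 2 := by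
          rw [Measure.restrict_apply_univ, ← mul_assoc, sq, mul_assoc (volume A)⁻¹,
            ENNReal.inv_mul_cancel hA0 hA1, mul_one]
  calc ∫⁻ x in A, ‖v x - m⁻¹ • ∫ y in A, v y‖ₑ ^ 2
      ≤ ∫⁻ x in A, (volume A)⁻¹ * ∫⁻ y in A, ‖v y - v x‖ₑ ^ 2 := lintegral_mono hpt
    _ = _ := by rw [lintegral_const_mul' _ _ (by simpa using hA0)]

lemma cells_bound [CompleteSpace F] {v : (EuclideanSpace ℝ ι) → F} (hv : ContDiff ℝ 1 v) (hvi : Integrable v)
    {δ : ℝ} (hδ : 0 < δ) (K : Finset (ι → ℤ)) :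
    ∑ k ∈ K, ∫⁻ x in cell δ k, ‖v x - (volume (cell δ k)).toReal⁻¹ • ∫ y in cell δ k, v y‖ₑ ^ 2 ≤
      ENNReal.ofReal (2 ^ Fintype.card ι * (Fintype.card ι * δ ^ 2)) *
        ∫⁻ x, ‖fderiv ℝ v x‖ₑ ^ 2 := by
  have hδ' : ENNReal.ofReal δ ≠ 0 := by simpa using hδ
  have hδ'' : ENNReal.ofReal δ ≠ ⊤ := ENNReal.ofReal_ne_top
  have hV0 : ∀ k : ι → ℤ, volume (cell δ k) ≠ 0 := fun k => by
    rw [volume_cell]; exact pow_ne_zero _ hδ'
  have hV1 : ∀ k : ι → ℤ, volume (cell δ k) ≠ ⊤ := fun k => by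
    rw [volume_cell]; exact ENNReal.pow_ne_top hδ''
  have hvc := hv.continuous
  have hinner : ∀ k : ι → ℤ, ∀ x ∈ (cell δ k : Set (EuclideanSpace ℝ ι)), ∫⁻ y in cell δ k, ‖v y - v x‖ₑ ^ 2 ≤
      ∫⁻ h in (HH δ : Set (EuclideanSpace ℝ ι)), ‖v (x + h) - v x‖ₑ ^ 2 := by
    intro k x hx
    rw [← lintegral_indicator (measurableSet_cell δ k), ← lintegral_indicator (measurableSet_HH δ),
      ← lintegral_add_left_eq_self _ x]
    refine lintegral_mono fun h => ?_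
    by_cases hh : x + h ∈ (cell δ k : Set (EuclideanSpace ℝ ι))
    · have h2 : h ∈ (HH δ : Set (EuclideanSpace ℝ ι)) := by
        have := sub_mem_HH hx hh
        simpa using this
      simp only [Set.indicator_of_mem hh, Set.indicator_of_mem h2, le_refl]
    · simp only [Set.indicator_of_notMem hh, zero_le]
  have hmeas : Measurable (fun p : (EuclideanSpace ℝ ι) × (EuclideanSpace ℝ ι) => ‖v (p.1 + p.2) - v p.1‖ₑ ^ 2) :=
    (((hvc.comp (continuous_fst.add continuous_snd)).sub (hvc.comp continuous_fst)).enorm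
      ).measurable.pow_const 2
  calc ∑ k ∈ K, ∫⁻ x in cell δ k, ‖v x - (volume (cell δ k)).toReal⁻¹ • ∫ y in cell δ k, v y‖ₑ ^ 2
      ≤ ∑ k ∈ K, (ENNReal.ofReal δ ^ Fintype.card ι)⁻¹ *
          ∫⁻ x in cell δ k, ∫⁻ h in (HH δ : Set (EuclideanSpace ℝ ι)), ‖v (x + h) - v x‖ₑ ^ 2 := by
        refine Finset.sum_le_sum fun k _ => ?_
        refine (avg_bound hvi (hV0 k) (hV1 k) hvc).trans ?_
        rw [volume_cell]
        refine mul_le_mul' le_rfl ?_
        exact setLIntegral_mono' (measurableSet_cell δ k) (hinner k)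
    _ = (ENNReal.ofReal δ ^ Fintype.card ι)⁻¹ *
          ∫⁻ x in ⋃ k ∈ K, cell δ k, ∫⁻ h in (HH δ : Set (EuclideanSpace ℝ ι)), ‖v (x + h) - v x‖ₑ ^ 2 := by
        rw [← Finset.mul_sum, lintegral_biUnion_finset]
        · intro k _ l _ hkl
          exact cell_disjoint hδ hkl
        · intro k _; exact measurableSet_cell δ k
    _ ≤ (ENNReal.ofReal δ ^ Fintype.card ι)⁻¹ *
          ∫⁻ x, ∫⁻ h in (HH δ : Set (EuclideanSpace ℝ ι)), ‖v (x + h) - v x‖ₑ ^ 2 := by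
        refine mul_le_mul' le_rfl ?_
        exact setLIntegral_le_lintegral _ _
    _ = (ENNReal.ofReal δ ^ Fintype.card ι)⁻¹ *
          ∫⁻ h in (HH δ : Set (EuclideanSpace ℝ ι)), ∫⁻ x, ‖v (x + h) - v x‖ₑ ^ 2 := by
        congr 1
        exact lintegral_lintegral_swap hmeas.aemeasurable
    _ ≤ (ENNReal.ofReal δ ^ Fintype.card ι)⁻¹ *
          ∫⁻ _h in (HH δ : Set (EuclideanSpace ℝ ι)), ENNReal.ofReal (Fintype.card ι * δ ^ 2) *
            ∫⁻ x, ‖fderiv ℝ v x‖ₑ ^ 2 := by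
        refine mul_le_mul' le_rfl ?_
        refine setLIntegral_mono' (measurableSet_HH δ) fun h hh => ?_
        refine (translation v hv h).trans ?_
        refine mul_le_mul' ?_ le_rfl
        rw [← ofReal_norm, ← ENNReal.ofReal_pow (norm_nonneg _)]
        exact ENNReal.ofReal_le_ofReal (norm_HH hh)
    _ = _ := by
        rw [setLIntegral_const, volume_HH, ENNReal.ofReal_mul (by norm_num : (0 : ℝ) ≤ 2), mul_pow]
        rw [ENNReal.ofReal_mul (by positivity : (0 : ℝ) ≤ 2 ^ Fintype.card ι),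
          ENNReal.ofReal_pow (by norm_num : (0 : ℝ) ≤ 2)]
        have h1 : (ENNReal.ofReal δ ^ Fintype.card ι)⁻¹ * ENNReal.ofReal δ ^ Fintype.card ι = 1 :=
          ENNReal.inv_mul_cancel (pow_ne_zero _ hδ') (ENNReal.pow_ne_top hδ'')
        calc (ENNReal.ofReal δ ^ Fintype.card ι)⁻¹ *
              (ENNReal.ofReal (Fintype.card ι * δ ^ 2) * (∫⁻ x, ‖fderiv ℝ v x‖ₑ ^ 2) *
                (ENNReal.ofReal 2 ^ Fintype.card ι * ENNReal.ofReal δ ^ Fintype.card ι))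
            = ((ENNReal.ofReal δ ^ Fintype.card ι)⁻¹ * ENNReal.ofReal δ ^ Fintype.card ι) *
              (ENNReal.ofReal 2 ^ Fintype.card ι * ENNReal.ofReal (Fintype.card ι * δ ^ 2) *
                ∫⁻ x, ‖fderiv ℝ v x‖ₑ ^ 2) := by ring
          _ = _ := by rw [h1, one_mul]

omit [InnerProductSpace ℂ F] in
lemma lint_eq {α : Type*} [MeasurableSpace α] {μ : Measure α} {f : α → F}
    (hf : Integrable (fun x => ‖f x‖ ^ 2) μ) :
    ∫⁻ x, ‖f x‖ₑ ^ 2 ∂μ = ENNReal.ofReal (∫ x, ‖f x‖ ^ 2 ∂μ) := by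
  rw [ofReal_integral_eq_lintegral_ofReal hf (Filter.Eventually.of_forall fun x => by positivity)]
  refine lintegral_congr fun x => ?_
  rw [ENNReal.ofReal_pow (norm_nonneg _), ofReal_norm]

/-- on a set where `φ` has mean zero, subtracting a constant increases the norm -/
lemma mean_zero_le [CompleteSpace F] {α : Type*} [MeasurableSpace α] {μ : Measure α} [IsFiniteMeasure μ]
    {φ : α → F} (hφ : MemLp φ 2 μ) (h0 : ∫ x, φ x ∂μ = 0) (c : F) :
    ∫ x, ‖φ x‖ ^ 2 ∂μ ≤ ∫ x, ‖φ x - c‖ ^ 2 ∂μ := by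
  have hi : Integrable φ μ := hφ.integrable one_le_two
  have hi2 : Integrable (fun x => ‖φ x‖ ^ 2) μ := (memLp_two_iff_integrable_sq_norm hφ.1).mp hφ
  have hic : Integrable (fun x => inner ℂ c (φ x)) μ := hi.const_inner c
  have e : ∀ x, ‖φ x - c‖ ^ 2 = ‖φ x‖ ^ 2 - 2 * (inner ℂ c (φ x)).re + ‖c‖ ^ 2 := by
    intro x
    rw [norm_sub_rev, @norm_sub_sq ℂ]
    simp only [RCLike.re_to_complex]
    ring
  simp only [e]
  have i1 : Integrable (fun x => 2 * (inner ℂ c (φ x)).re) μ := hic.re.const_mul 2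
  have i2 : Integrable (fun x => ‖φ x‖ ^ 2 - 2 * (inner ℂ c (φ x)).re) μ := hi2.sub i1
  rw [integral_add i2 (integrable_const _), integral_sub hi2 i1, integral_const_mul]
  have h1 : ∫ x, (inner ℂ c (φ x)).re ∂μ = 0 := by
    have h2 : ∫ x, (inner ℂ c (φ x)).re ∂μ = (∫ x, inner ℂ c (φ x) ∂μ).re := integral_re hic
    rw [h2, integral_inner hi, h0, inner_zero_right, Complex.zero_re]
  rw [h1, integral_const]
  have : 0 ≤ μ.real Set.univ • ‖c‖ ^ 2 := by positivity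
  linarith

/-- the basic estimate: functions with zero cell averages -/
lemma zero_average_bound [CompleteSpace F] {φ : (EuclideanSpace ℝ ι) → F} (hφ : MemLp φ 2 (volume : Measure (EuclideanSpace ℝ ι)))
    {δ : ℝ} (hδ : 0 < δ) (K : Finset (ι → ℤ))
    (hK : ∀ x, x ∉ (⋃ k ∈ K, (cell δ k : Set (EuclideanSpace ℝ ι))) → φ x = 0)
    (h0 : ∀ k ∈ K, ∫ x in cell δ k, φ x = 0) {v : (EuclideanSpace ℝ ι) → F} (hv : ContDiff ℝ 1 v)
    (hvs : HasCompactSupport v) :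
    ∫ x, ‖φ x‖ ^ 2 ≤ 2 * (∫ x, ‖v x - φ x‖ ^ 2) +
      2 * (2 ^ Fintype.card ι * (Fintype.card ι * δ ^ 2)) * ∫ x, ‖fderiv ℝ v x‖ ^ 2 := by
  have hvL : MemLp v 2 (volume : Measure (EuclideanSpace ℝ ι)) := hv.continuous.memLp_of_hasCompactSupport hvs
  have hvi : Integrable v := hv.continuous.integrable_of_hasCompactSupport hvs
  have hφ2 : Integrable (fun x => ‖φ x‖ ^ 2) := (memLp_two_iff_integrable_sq_norm hφ.1).mp hφ
  have hdL : MemLp (fun x => v x - φ x) 2 (volume : Measure (EuclideanSpace ℝ ι)) := hvL.sub hφ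
  have hd2 : Integrable (fun x => ‖v x - φ x‖ ^ 2) := (memLp_two_iff_integrable_sq_norm hdL.1).mp hdL
  have hDv : Integrable (fun x => ‖fderiv ℝ v x‖ ^ 2) := by
    refine ((hv.continuous_fderiv (by simp)).norm.pow 2).integrable_of_hasCompactSupport ?_
    have h1 : HasCompactSupport (fderiv ℝ v) := hvs.fderiv (𝕜 := ℝ)
    refine h1.mono ?_
    intro x hx
    simp only [Function.mem_support] at hx ⊢
    intro h2
    exact hx (by simp [h2])
  have hfin : ∀ k : ι → ℤ, IsFiniteMeasure (volume.restrict (cell δ k : Set (EuclideanSpace ℝ ι))) := by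
    intro k
    refine ⟨?_⟩
    rw [Measure.restrict_apply_univ, volume_cell]
    exact ENNReal.pow_lt_top ENNReal.ofReal_lt_top
  let c : (ι → ℤ) → F := fun k => (volume (cell δ k : Set (EuclideanSpace ℝ ι))).toReal⁻¹ • ∫ y in cell δ k, v y
  have hcL : ∀ k : ι → ℤ, MemLp (fun x => v x - c k) 2 (volume.restrict (cell δ k : Set (EuclideanSpace ℝ ι))) := by
    intro k
    have := hfin k
    exact (hvL.restrict _).sub (memLp_const _)
  have hc2 : ∀ k : ι → ℤ, Integrable (fun x => ‖v x - c k‖ ^ 2)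
      (volume.restrict (cell δ k : Set (EuclideanSpace ℝ ι))) := fun k =>
    (memLp_two_iff_integrable_sq_norm (hcL k).1).mp (hcL k)
  -- the ENNReal bound converted to reals
  have hbound : ∑ k ∈ K, ∫ x in cell δ k, ‖v x - c k‖ ^ 2 ≤
      2 ^ Fintype.card ι * (Fintype.card ι * δ ^ 2) * ∫ x, ‖fderiv ℝ v x‖ ^ 2 := by
    have h1 := cells_bound hv hvi hδ K
    have h2 : ∀ k ∈ K, ∫⁻ x in cell δ k, ‖v x - (volume (cell δ k)).toReal⁻¹ •
        ∫ y in cell δ k, v y‖ₑ ^ 2 = ENNReal.ofReal (∫ x in cell δ k, ‖v x - c k‖ ^ 2) := by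
      intro k _
      exact lint_eq (hc2 k)
    rw [Finset.sum_congr rfl h2, ← ENNReal.ofReal_sum_of_nonneg
      (fun k _ => integral_nonneg fun x => by positivity)] at h1
    have h3 : ∫⁻ x, ‖fderiv ℝ v x‖ₑ ^ 2 = ENNReal.ofReal (∫ x, ‖fderiv ℝ v x‖ ^ 2) := lint_eq hDv
    rw [h3, ← ENNReal.ofReal_mul (by positivity)] at h1
    exact (ENNReal.ofReal_le_ofReal_iff (by positivity)).mp h1
  -- split the integral into cells
  have hsplit : ∀ f : (EuclideanSpace ℝ ι) → ℝ, Integrable f → ∫ x in ⋃ k ∈ K, (cell δ k : Set (EuclideanSpace ℝ ι)), f x =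
      ∑ k ∈ K, ∫ x in cell δ k, f x := by
    intro f hf
    refine integral_biUnion_finset K (fun k _ => measurableSet_cell δ k) ?_
      (fun k _ => hf.integrableOn)
    intro k _ l _ hkl
    exact cell_disjoint hδ hkl
  have h1 : ∫ x, ‖φ x‖ ^ 2 = ∑ k ∈ K, ∫ x in cell δ k, ‖φ x‖ ^ 2 := by
    rw [← hsplit _ hφ2]
    symm
    refine setIntegral_eq_integral_of_forall_compl_eq_zero fun x hx => ?_
    rw [hK x hx]; simp
  have h2 : ∀ k ∈ K, ∫ x in cell δ k, ‖φ x‖ ^ 2 ≤ 2 * (∫ x in cell δ k, ‖v x - φ x‖ ^ 2) +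
      2 * ∫ x in cell δ k, ‖v x - c k‖ ^ 2 := by
    intro k hk
    have := hfin k
    have a1 := mean_zero_le (hφ.restrict (cell δ k)) (h0 k hk) (c k)
    refine a1.trans ?_
    rw [← integral_const_mul, ← integral_const_mul, ← integral_add
      ((hd2.integrableOn (s := cell δ k)).const_mul 2) ((hc2 k).const_mul 2)]
    have hcφ : MemLp (fun x => φ x - c k) 2 (volume.restrict (cell δ k : Set (EuclideanSpace ℝ ι))) :=
      (hφ.restrict _).sub (memLp_const _)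
    refine integral_mono ((memLp_two_iff_integrable_sq_norm hcφ.1).mp hcφ)
      (((hd2.integrableOn (s := cell δ k)).const_mul 2).add ((hc2 k).const_mul 2)) fun x => ?_
    have e : φ x - c k = (v x - c k) - (v x - φ x) := by abel
    have h3 : ‖φ x - c k‖ ≤ ‖v x - c k‖ + ‖v x - φ x‖ := by
      rw [e]; exact norm_sub_le _ _
    have h4 : ‖φ x - c k‖ ^ 2 ≤ (‖v x - c k‖ + ‖v x - φ x‖) ^ 2 := by gcongr
    simp only
    nlinarith [sq_nonneg (‖v x - c k‖ - ‖v x - φ x‖)]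
  have h3 : ∑ k ∈ K, ∫ x in cell δ k, ‖v x - φ x‖ ^ 2 ≤ ∫ x, ‖v x - φ x‖ ^ 2 := by
    rw [← hsplit _ hd2]
    exact setIntegral_le_integral hd2 (Filter.Eventually.of_forall fun x => by positivity)
  rw [h1]
  refine (Finset.sum_le_sum h2).trans ?_
  rw [Finset.sum_add_distrib, ← Finset.mul_sum, ← Finset.mul_sum]
  nlinarith [hbound, h3]

lemma exists_cells {δ : ℝ} (hδ : 0 < δ) (R : ℝ) : ∃ K : Finset (ι → ℤ),
    ∀ x : (EuclideanSpace ℝ ι), ‖x‖ < R → x ∈ ⋃ k ∈ K, (cell δ k : Set (EuclideanSpace ℝ ι)) := by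
  classical
  obtain ⟨N, hN⟩ := exists_nat_gt (R / δ + 1)
  refine ⟨Fintype.piFinset fun _ => Finset.Icc (-(N : ℤ)) N, fun x hx => ?_⟩
  simp only [Set.mem_iUnion, Fintype.mem_piFinset, Finset.mem_Icc]
  refine ⟨fun i => ⌊x i / δ⌋, fun i => ?_, ?_⟩
  · have h1 : |x i| ≤ ‖x‖ := PiLp.norm_apply_le x i
    have h2 : |x i / δ| < R / δ := by
      rw [abs_div, abs_of_pos hδ]
      exact div_lt_div_of_pos_right (lt_of_le_of_lt h1 hx) hδ
    rw [abs_lt] at h2
    constructor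
    · rw [Int.le_floor]
      push_cast
      linarith
    · have : ⌊x i / δ⌋ ≤ (N : ℤ) := by
        have h3 : (⌊x i / δ⌋ : ℝ) ≤ x i / δ := Int.floor_le _
        have h4 : (⌊x i / δ⌋ : ℝ) ≤ N := by linarith
        exact_mod_cast h4
      exact this
  · rw [mem_cell]
    intro i
    have h3 : (⌊x i / δ⌋ : ℝ) ≤ x i / δ := Int.floor_le _
    have h4 : x i / δ < ⌊x i / δ⌋ + 1 := Int.lt_floor_add_one _
    rw [le_div_iff₀ hδ] at h3
    rw [div_lt_iff₀ hδ] at h4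
    constructor
    · linarith
    · linarith

end FD

open FD

/-- A subspace of `L²` whose elements have uniformly small tails and are locally regular is
finite-dimensional. -/
theorem finiteDimensional_of_tail {ι : Type*} [Fintype ι] {F : Type*} [NormedAddCommGroup F]
    [InnerProductSpace ℂ F] [FiniteDimensional ℂ F]
    (W : Submodule ℂ (Lp F 2 (volume : Measure (EuclideanSpace ℝ ι)))) (C R : ℝ)
    (χ : EuclideanSpace ℝ ι → ℝ) (hχc : Continuous χ) (hχ0 : ∀ x, 0 ≤ χ x) (hχ1 : ∀ x, χ x ≤ 1)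
    (hχR : ∀ x, R ≤ ‖x‖ → χ x = 0)
    (htail : ∀ Ψ ∈ W, ∫ x, ‖Ψ x‖ ^ 2 ≤ C * ∫ x, ‖((χ x : ℝ) : ℂ) • Ψ x‖ ^ 2)
    (hreg : ∀ Ψ ∈ W, ∃ v : ℕ → EuclideanSpace ℝ ι → F,
      (∀ n, ContDiff ℝ 1 (v n)) ∧ (∀ n, HasCompactSupport (v n)) ∧
      Tendsto (fun n => ∫ x, ‖v n x - ((χ x : ℝ) : ℂ) • Ψ x‖ ^ 2) atTop (𝓝 0) ∧
      ∀ ε > 0, ∀ᶠ n in atTop, ∫ x, ‖fderiv ℝ (v n) x‖ ^ 2 ≤ C * (∫ x, ‖Ψ x‖ ^ 2) + ε) :
    FiniteDimensional ℂ W := by
  have : CompleteSpace F := FiniteDimensional.complete ℂ F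
  -- choose the mesh size
  set X : ℝ := 2 * (2 ^ Fintype.card ι * Fintype.card ι) * C ^ 2 with hX
  have hX0 : 0 ≤ X := by positivity
  set δ : ℝ := 1 / (X + 1) with hδdef
  have hδ : 0 < δ := by positivity
  have hδ1 : δ ≤ 1 := by
    rw [hδdef, div_le_one (by positivity)]; linarith
  have hXδ : X * δ ^ 2 < 1 := by
    have h1 : X * δ < 1 := by
      rw [hδdef, mul_one_div, div_lt_one (by positivity)]; linarith
    have h2 : X * δ ^ 2 = (X * δ) * δ := by ring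
    rw [h2]
    have h3 : 0 ≤ X * δ := by positivity
    nlinarith
  obtain ⟨K, hK⟩ := exists_cells (ι := ι) hδ R
  have hmem : ∀ Ψ : Lp F 2 (volume : Measure (EuclideanSpace ℝ ι)),
      MemLp (fun x => ((χ x : ℝ) : ℂ) • Ψ x) 2 (volume : Measure (EuclideanSpace ℝ ι)) := by
    intro Ψ
    refine MemLp.mono (Lp.memLp Ψ) ?_ (Filter.Eventually.of_forall fun x => ?_)
    · exact (Complex.continuous_ofReal.comp hχc).aestronglyMeasurable.smul
        (Lp.aestronglyMeasurable Ψ)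
    · rw [norm_smul, Complex.norm_real, Real.norm_of_nonneg (hχ0 x)]
      exact mul_le_of_le_one_left (norm_nonneg _) (hχ1 x)
  have hfin : ∀ k : ι → ℤ, IsFiniteMeasure (volume.restrict (cell δ k)) := by
    intro k
    refine ⟨?_⟩
    rw [Measure.restrict_apply_univ, volume_cell]
    exact ENNReal.pow_lt_top ENNReal.ofReal_lt_top
  have hint : ∀ (Ψ : Lp F 2 (volume : Measure (EuclideanSpace ℝ ι))) (k : ι → ℤ),
      Integrable (fun x => ((χ x : ℝ) : ℂ) • Ψ x) (volume.restrict (cell δ k)) := by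
    intro Ψ k
    have := hfin k
    exact ((hmem Ψ).restrict _).integrable one_le_two
  -- the averaging map
  let T : W →ₗ[ℂ] (K → F) :=
    { toFun := fun Ψ k => ∫ x in cell δ (k : ι → ℤ), ((χ x : ℝ) : ℂ) • (Ψ : Lp F 2 volume) x
      map_add' := by
        intro Ψ Φ
        funext k
        rw [Pi.add_apply, ← integral_add (hint _ _) (hint _ _)]
        refine integral_congr_ae ?_
        filter_upwards [ae_restrict_of_ae (Lp.coeFn_add (Ψ : Lp F 2 volume) (Φ : Lp F 2 volume))]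
          with x hx
        have : ((Ψ + Φ : W) : Lp F 2 (volume : Measure (EuclideanSpace ℝ ι))) x =
            (Ψ : Lp F 2 volume) x + (Φ : Lp F 2 volume) x := hx
        rw [this, smul_add]
      map_smul' := by
        intro c Ψ
        funext k
        rw [Pi.smul_apply, RingHom.id_apply, ← integral_smul]
        refine integral_congr_ae ?_
        filter_upwards [ae_restrict_of_ae (Lp.coeFn_smul c (Ψ : Lp F 2 volume))] with x hx
        have : ((c • Ψ : W) : Lp F 2 (volume : Measure (EuclideanSpace ℝ ι))) x =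
            c • (Ψ : Lp F 2 volume) x := hx
        rw [this, smul_comm] }
  refine FiniteDimensional.of_injective T ?_
  rw [← LinearMap.ker_eq_bot, LinearMap.ker_eq_bot']
  intro Ψ hΨ
  obtain ⟨v, hv, hvs, hconv, hgrad⟩ := hreg Ψ Ψ.2
  have h0 : ∀ k ∈ K, ∫ x in cell δ k, ((χ x : ℝ) : ℂ) • (Ψ : Lp F 2 volume) x = 0 := by
    intro k hk
    exact congrFun hΨ ⟨k, hk⟩
  have hout : ∀ x, x ∉ (⋃ k ∈ K, cell δ k) → ((χ x : ℝ) : ℂ) • (Ψ : Lp F 2 volume) x = 0 := by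
    intro x hx
    have : R ≤ ‖x‖ := by
      by_contra hcon
      push Not at hcon
      exact hx (hK x hcon)
    rw [hχR x this]; simp
  have hb := fun n => zero_average_bound (hmem Ψ) hδ K hout h0 (hv n) (hvs n)
  set IΨ : ℝ := ∫ x : EuclideanSpace ℝ ι,
    ‖(Ψ : Lp F 2 (volume : Measure (EuclideanSpace ℝ ι))) x‖ ^ 2 with hIΨ
  set Iφ : ℝ := ∫ x : EuclideanSpace ℝ ι,
    ‖((χ x : ℝ) : ℂ) • (Ψ : Lp F 2 (volume : Measure (EuclideanSpace ℝ ι))) x‖ ^ 2 with hIφ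
  have hIΨ0 : 0 ≤ IΨ := integral_nonneg fun x => by positivity
  have hIφ0 : 0 ≤ Iφ := integral_nonneg fun x => by positivity
  have hlim : Iφ ≤ 2 * (2 ^ Fintype.card ι * (Fintype.card ι * δ ^ 2)) * (C * IΨ) := by
    refine le_of_forall_pos_le_add fun ε hε => ?_
    set Y : ℝ := 2 * (2 ^ Fintype.card ι * (Fintype.card ι * δ ^ 2)) with hY
    have hY0 : 0 ≤ Y := by positivity
    have hε1 : 0 < ε / (2 * (Y + 1)) := by positivity
    have hε2 : 0 < ε / 4 := by positivity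
    obtain ⟨n, hn1, hn2⟩ := ((hgrad _ hε1).and (hconv.eventually_lt_const hε2)).exists
    have h1 := hb n
    have h2 : Y * ∫ x, ‖fderiv ℝ (v n) x‖ ^ 2 ≤ Y * (C * IΨ + ε / (2 * (Y + 1))) :=
      mul_le_mul_of_nonneg_left hn1 hY0
    have h3 : Y * (ε / (2 * (Y + 1))) ≤ ε / 2 := by
      rw [mul_div_assoc', div_le_div_iff₀ (by positivity) (by norm_num)]
      nlinarith
    have h4 : Y * (C * IΨ + ε / (2 * (Y + 1))) = Y * (C * IΨ) + Y * (ε / (2 * (Y + 1))) := by ring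
    linarith
  have ht : IΨ ≤ C * Iφ := htail Ψ Ψ.2
  have hz : Iφ = 0 := by
    by_contra hne
    have hpos : 0 < Iφ := lt_of_le_of_ne hIφ0 (Ne.symm hne)
    by_cases hC : 0 ≤ C
    · have h1 : 2 * (2 ^ Fintype.card ι * (Fintype.card ι * δ ^ 2)) * (C * IΨ) ≤
          2 * (2 ^ Fintype.card ι * (Fintype.card ι * δ ^ 2)) * (C * (C * Iφ)) := by gcongr
      have h2 : 2 * (2 ^ Fintype.card ι * (Fintype.card ι * δ ^ 2)) * (C * (C * Iφ)) =
          X * δ ^ 2 * Iφ := by rw [hX]; ring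
      nlinarith
    · push Not at hC
      nlinarith
  have hΨ0 : IΨ = 0 := le_antisymm (by rw [hz, mul_zero] at ht; exact ht) hIΨ0
  have hae : ∀ᵐ x, (Ψ : Lp F 2 (volume : Measure (EuclideanSpace ℝ ι))) x = 0 := by
    have h0 := Lp.memLp (Ψ : Lp F 2 (volume : Measure (EuclideanSpace ℝ ι)))
    have h1 : Integrable (fun x => ‖(Ψ : Lp F 2 (volume : Measure (EuclideanSpace ℝ ι))) x‖ ^ 2) :=
      (memLp_two_iff_integrable_sq_norm h0.1).mp h0
    have h2 := (integral_eq_zero_iff_of_nonneg (fun x => by positivity) h1).mp hΨ0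
    filter_upwards [h2] with x hx
    simpa using hx
  have h5 : (Ψ : Lp F 2 (volume : Measure (EuclideanSpace ℝ ι))) = 0 := by
    rw [Lp.eq_zero_iff_ae_eq_zero]
    exact hae
  exact (Submodule.coe_eq_zero (p := W)).mp h5

end Vale.Agent.P353
end
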