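import Mathlib
import Vale.Agent.P353.BdZ.B1
import Vale.Agent.P353.BdZ.B3
import Vale.Agent.P353.BdZ.B6
import Vale.Agent.P353.BdZ.B2
import Vale.Agent.P353.BdZ.B10
attribute [-instance] ProperSMul.toContinuousSMul IsTopologicalTorsor.toContinuousSMul IdemSemiring.toCanonicallyOrderedAdd IdemSemiring.toMulLeftMono IdemSemiring.toMulRightMono AddQuantale.instAddLeftMono AddQuantale.instAddRightMono Quantale.instMulLeftMono Quantale.instMulRightMono FiniteDimensional.rclike_to_real IsScalarTower.complexToReal FiniteDimensional.complexToReal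

set_option linter.all false

section

open MeasureTheory Filter Topology
open scoped ContDiff

namespace Vale.Agent.P353.Z

variable {dc : ℕ}

variable {F : Type*} [NormedAddCommGroup F] [InnerProductSpace ℂ F]

/-! ### rotations in the `(k,l)` plane -/

/-- projection to the `(k,l)` coordinates -/
noncomputable def PP (k l : Fin 9) : (Cfg dc) →L[ℝ] (Cfg dc) :=
  ∑ A : Fin dc, ((EuclideanSpace.proj (𝕜 := ℝ) (k, A) : (Cfg dc) →L[ℝ] ℝ).smulRight
      (EuclideanSpace.single (k, A) (1 : ℝ)) +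
    (EuclideanSpace.proj (𝕜 := ℝ) (l, A) : (Cfg dc) →L[ℝ] ℝ).smulRight
      (EuclideanSpace.single (l, A) (1 : ℝ)))

/-- generator of the rotations: `(Λ x)_k = x_l`, `(Λ x)_l = - x_k` -/
noncomputable def LL (k l : Fin 9) : (Cfg dc) →L[ℝ] (Cfg dc) :=
  ∑ A : Fin dc, ((EuclideanSpace.proj (𝕜 := ℝ) (l, A) : (Cfg dc) →L[ℝ] ℝ).smulRight
      (EuclideanSpace.single (k, A) (1 : ℝ)) -
    (EuclideanSpace.proj (𝕜 := ℝ) (k, A) : (Cfg dc) →L[ℝ] ℝ).smulRight
      (EuclideanSpace.single (l, A) (1 : ℝ)))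

lemma PP_apply (k l i : Fin 9) (A : Fin dc) (x : (Cfg dc)) :
    (PP k l x) (i, A) = (if i = k then x (k, A) else 0) + (if i = l then x (l, A) else 0) := by
  simp only [PP, _root_.sum_apply, _root_.add_apply, ContinuousLinearMap.smulRight_apply,
    PiLp.proj_apply, WithLp.ofLp_sum, Finset.sum_apply, WithLp.ofLp_add, WithLp.ofLp_smul,
    Pi.add_apply, Pi.smul_apply, PiLp.single_apply, Prod.mk.injEq, smul_eq_mul, mul_ite, mul_one,
    mul_zero]
  rw [Finset.sum_add_distrib]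
  congr 1
  · by_cases h : i = k <;> simp [h]
  · by_cases h : i = l <;> simp [h]

lemma LL_apply (k l i : Fin 9) (A : Fin dc) (x : (Cfg dc)) :
    (LL k l x) (i, A) = (if i = k then x (l, A) else 0) - (if i = l then x (k, A) else 0) := by
  simp only [LL, _root_.sum_apply, _root_.sub_apply, ContinuousLinearMap.smulRight_apply,
    PiLp.proj_apply, WithLp.ofLp_sum, Finset.sum_apply, WithLp.ofLp_sub, WithLp.ofLp_smul,
    Pi.sub_apply, Pi.smul_apply, PiLp.single_apply, Prod.mk.injEq, smul_eq_mul, mul_ite, mul_one,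
    mul_zero]
  rw [Finset.sum_sub_distrib]
  congr 1
  · by_cases h : i = k <;> simp [h]
  · by_cases h : i = l <;> simp [h]

/-- the rotation `R_t = exp (t Λ)` -/
noncomputable def RR (k l : Fin 9) (t : ℝ) : (Cfg dc) →L[ℝ] (Cfg dc) :=
  ContinuousLinearMap.id ℝ (Cfg dc) + (Real.cos t - 1) • PP k l + Real.sin t • LL k l

lemma RR_apply (k l i : Fin 9) (A : Fin dc) (t : ℝ) (x : (Cfg dc)) :
    (RR k l t x) (i, A) = x (i, A) + (Real.cos t - 1) *
      ((if i = k then x (k, A) else 0) + (if i = l then x (l, A) else 0)) +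
      Real.sin t * ((if i = k then x (l, A) else 0) - (if i = l then x (k, A) else 0)) := by
  simp only [RR, _root_.add_apply, _root_.smul_apply, ContinuousLinearMap.id_apply,
    WithLp.ofLp_add, WithLp.ofLp_smul, Pi.add_apply, Pi.smul_apply, smul_eq_mul, PP_apply,
    LL_apply]

lemma RR_zero (k l : Fin 9) : RR k l 0 = ContinuousLinearMap.id ℝ (Cfg dc) := by
  ext x ⟨i, A⟩
  rw [RR_apply]
  simp

lemma RR_add {k l : Fin 9} (h : k ≠ l) (s t : ℝ) (x : (Cfg dc)) :
    RR k l s (RR k l t x) = RR k l (s + t) x := by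
  ext ⟨i, A⟩
  rw [RR_apply, RR_apply, RR_apply, RR_apply, RR_apply, Real.cos_add, Real.sin_add]
  have h' : ¬ l = k := fun e => h e.symm
  by_cases h1 : i = k
  · subst h1
    simp only [if_true, if_neg h, if_neg h']
    ring
  · by_cases h2 : i = l
    · subst h2
      simp only [if_true, if_neg h, if_neg h']
      ring
    · simp only [if_neg h1, if_neg h2]
      ring

lemma PP_inner (k l : Fin 9) (x y : (Cfg dc)) : inner ℝ (PP k l x) y = inner ℝ x (PP k l y) := by
  simp only [PP, _root_.sum_apply, _root_.add_apply, ContinuousLinearMap.smulRight_apply,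
    PiLp.proj_apply, sum_inner, inner_sum, inner_add_left, inner_add_right, inner_smul_left,
    inner_smul_right, EuclideanSpace.inner_single_left, EuclideanSpace.inner_single_right]
  refine Finset.sum_congr rfl fun A _ => ?_
  simp only [conj_trivial, map_one, one_mul]
  ring

lemma LL_inner (k l : Fin 9) (x y : (Cfg dc)) : inner ℝ (LL k l x) y = - inner ℝ x (LL k l y) := by
  simp only [LL, _root_.sum_apply, _root_.sub_apply, ContinuousLinearMap.smulRight_apply,
    PiLp.proj_apply, sum_inner, inner_sum, inner_sub_left, inner_sub_right, inner_smul_left,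
    inner_smul_right, EuclideanSpace.inner_single_left, EuclideanSpace.inner_single_right]
  rw [← Finset.sum_neg_distrib]
  refine Finset.sum_congr rfl fun A _ => ?_
  simp only [conj_trivial, map_one, one_mul]
  ring

lemma RR_inner (k l : Fin 9) (t : ℝ) (x y : (Cfg dc)) :
    inner ℝ (RR k l t x) y = inner ℝ x (RR k l (-t) y) := by
  simp only [RR, _root_.add_apply, _root_.smul_apply, ContinuousLinearMap.id_apply,
    inner_add_left, inner_add_right, inner_smul_left, inner_smul_right, PP_inner, LL_inner,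
    Real.cos_neg, Real.sin_neg, conj_trivial]
  ring

lemma RR_neg_cancel {k l : Fin 9} (h : k ≠ l) (t : ℝ) (x : (Cfg dc)) :
    RR k l (-t) (RR k l t x) = x := by
  rw [RR_add h, neg_add_cancel, RR_zero]; rfl

lemma RR_cancel_neg {k l : Fin 9} (h : k ≠ l) (t : ℝ) (x : (Cfg dc)) :
    RR k l t (RR k l (-t) x) = x := by
  rw [RR_add h, add_neg_cancel, RR_zero]; rfl

lemma RR_norm {k l : Fin 9} (h : k ≠ l) (t : ℝ) (x : (Cfg dc)) : ‖RR k l t x‖ = ‖x‖ := by
  have h1 : ‖RR k l t x‖ ^ 2 = ‖x‖ ^ 2 := by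
    rw [← real_inner_self_eq_norm_sq, ← real_inner_self_eq_norm_sq, RR_inner, RR_neg_cancel h]
  exact (sq_eq_sq₀ (norm_nonneg _) (norm_nonneg _)).mp h1

/-- the rotation as a linear isometry equivalence -/
noncomputable def RI {k l : Fin 9} (h : k ≠ l) (t : ℝ) : (Cfg dc) ≃ₗᵢ[ℝ] (Cfg dc) where
  toFun := RR k l t
  invFun := RR k l (-t)
  map_add' := fun x y => map_add _ x y
  map_smul' := fun c x => map_smul _ c x
  left_inv := fun x => RR_neg_cancel h t x
  right_inv := fun x => RR_cancel_neg h t x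
  norm_map' := fun x => RR_norm h t x

lemma integral_comp_RR {k l : Fin 9} (h : k ≠ l) (t : ℝ) {G : Type*} [NormedAddCommGroup G]
    [NormedSpace ℝ G] (f : (Cfg dc) → G) : ∫ x, f (RR k l t x) = ∫ x, f x := by
  have := (RI h t).measurePreserving.integral_comp (RI h t).toHomeomorph.measurableEmbedding f
  exact this

lemma hasDerivAt_RR_neg {k l : Fin 9} (h : k ≠ l) (t : ℝ) (x : (Cfg dc)) :
    HasDerivAt (fun s => RR k l (-s) x) (RR k l (-t) (-(LL k l x))) t := by
  have e : (fun s => RR k l (-s) x) = fun s => x + (Real.cos s - 1) • PP k l x -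
      Real.sin s • LL k l x := by
    ext s
    simp only [RR, _root_.add_apply, _root_.smul_apply, ContinuousLinearMap.id_apply,
      Real.cos_neg, Real.sin_neg, neg_smul]
    rfl
  have h1 : HasDerivAt (fun s => x + (Real.cos s - 1) • PP k l x - Real.sin s • LL k l x)
      ((-Real.sin t) • PP k l x - Real.cos t • LL k l x) t := by
    have a := ((Real.hasDerivAt_cos t).sub_const 1).smul_const (PP k l x)
    have b := (Real.hasDerivAt_sin t).smul_const (LL k l x)
    exact (a.const_add x).sub b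
  rw [e]
  have e2 : RR k l (-t) (-(LL k l x)) = (-Real.sin t) • PP k l x - Real.cos t • LL k l x := by
    ext ⟨i, A⟩
    have h' : ¬ l = k := fun e => h e.symm
    simp only [map_neg, WithLp.ofLp_neg, Pi.neg_apply, WithLp.ofLp_sub, Pi.sub_apply,
      WithLp.ofLp_smul, Pi.smul_apply, smul_eq_mul, RR_apply, PP_apply, LL_apply, Real.cos_neg,
      Real.sin_neg]
    by_cases h1 : i = k
    · subst h1
      simp only [if_true, if_neg h, if_neg h']
      ring
    · by_cases h2 : i = l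
      · subst h2
        simp only [if_true, if_neg h, if_neg h']
        ring
      · simp only [if_neg h1, if_neg h2]
        ring
  rw [e2]
  exact h1

lemma RR_LL {k l : Fin 9} (h : k ≠ l) (t : ℝ) (x : (Cfg dc)) :
    RR k l t (LL k l x) = LL k l (RR k l t x) := by
  ext ⟨i, A⟩
  have h' : ¬ l = k := fun e => h e.symm
  simp only [RR_apply, LL_apply]
  by_cases h1 : i = k
  · subst h1
    simp only [if_true, if_neg h, if_neg h']
    ring
  · by_cases h2 : i = l
    · subst h2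
      simp only [if_true, if_neg h, if_neg h']
      ring
    · simp only [if_neg h1, if_neg h2]
      ring

lemma neg_LL_eq (k l : Fin 9) (x : (Cfg dc)) : -(LL k l x) =
    ∑ A : Fin dc, (x (k, A) • (EuclideanSpace.single (l, A) (1 : ℝ) : (Cfg dc)) -
      x (l, A) • (EuclideanSpace.single (k, A) (1 : ℝ) : (Cfg dc))) := by
  simp only [LL, _root_.sum_apply, _root_.sub_apply, ContinuousLinearMap.smulRight_apply,
    PiLp.proj_apply]
  rw [← Finset.sum_neg_distrib]
  refine Finset.sum_congr rfl fun A _ => ?_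
  rw [neg_sub]

end Vale.Agent.P353.Z
end

section

open MeasureTheory Filter Topology
open scoped ContDiff

namespace Vale.Agent.P353.Z

variable {dc : ℕ}

variable {F : Type*} [NormedAddCommGroup F] [InnerProductSpace ℂ F]

namespace Setup

variable (S : Setup dc F)

/-- `X_A(x) = x_i^A γ^i` -/
noncomputable def XB (A : Fin dc) (x : (Cfg dc)) : Matrix (Fin 16) (Fin 16) ℂ :=
  ∑ i, ((x (i, A) : ℝ) : ℂ) • S.g i

lemma gt_mul_g {k l : Fin 9} (h : k ≠ l) (t : ℝ) (i : Fin 9) :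
    S.gt k l t * S.g i = S.g i * S.gt k l t +
      (2 * Real.sin (t / 2) : ℂ) • ((if i = l then S.g k else 0) - (if i = k then S.g l else 0)) := by
  have h' : ¬ l = k := fun e => h e.symm
  rw [gt, S.g2_eq_mul h]
  by_cases h1 : i = k
  · subst h1
    simp only [if_neg h, if_true, zero_sub]
    have e1 : S.g i * S.g l * S.g i = - S.g l := by
      rw [mul_assoc, S.g_swap_ne h', mul_neg, ← mul_assoc, S.g_sq, one_mul]
    have e2 : S.g i * (S.g i * S.g l) = S.g l := by
      rw [← mul_assoc, S.g_sq, one_mul]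
    simp only [add_mul, mul_add, Matrix.smul_mul, Matrix.mul_smul, one_mul, mul_one, e1, e2]
    module
  · by_cases h2 : i = l
    · subst h2
      simp only [if_neg h', if_true, sub_zero]
      have e1 : S.g k * S.g i * S.g i = S.g k := by
        rw [mul_assoc, S.g_sq, mul_one]
      have e2 : S.g i * (S.g k * S.g i) = - S.g k := by
        rw [S.g_swap_ne h, mul_neg, ← mul_assoc, S.g_sq, one_mul]
      simp only [add_mul, mul_add, Matrix.smul_mul, Matrix.mul_smul, one_mul, mul_one, e1, e2]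
      module
    · simp only [if_neg h1, if_neg h2, sub_zero, smul_zero, add_zero]
      have e1 : S.g k * S.g l * S.g i = S.g i * (S.g k * S.g l) := by
        have a1 : S.g l * S.g i = -(S.g i * S.g l) := S.g_swap_ne (fun e => h2 e.symm)
        have a2 : S.g k * S.g i = -(S.g i * S.g k) := S.g_swap_ne (fun e => h1 e.symm)
        rw [mul_assoc, a1, mul_neg, ← mul_assoc, a2, neg_mul, neg_neg, mul_assoc]
      simp only [add_mul, mul_add, Matrix.smul_mul, Matrix.mul_smul, one_mul, mul_one, e1]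

lemma XB_RR {k l : Fin 9} (h : k ≠ l) (t : ℝ) (A : Fin dc) (y : (Cfg dc)) :
    S.XB A (RR k l t y) * S.gt k l t = S.gt k l t * S.XB A y := by
  have h' : ¬ l = k := fun e => h e.symm
  have e1 : S.gt k l t * S.XB A y = S.XB A y * S.gt k l t + (2 * Real.sin (t / 2) : ℂ) •
      (((y (l, A) : ℝ) : ℂ) • S.g k - ((y (k, A) : ℝ) : ℂ) • S.g l) := by
    have : ∀ i, S.gt k l t * (((y (i, A) : ℝ) : ℂ) • S.g i) =
        ((y (i, A) : ℝ) : ℂ) • (S.g i * S.gt k l t) + ((2 * Real.sin (t / 2) : ℂ) •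
        ((if i = l then ((y (i, A) : ℝ) : ℂ) • S.g k else 0) -
          (if i = k then ((y (i, A) : ℝ) : ℂ) • S.g l else 0))) := by
      intro i
      rw [Matrix.mul_smul, S.gt_mul_g h, smul_add, smul_comm, smul_sub]
      congr 3 <;> split_ifs <;> simp
    simp only [XB, Finset.mul_sum, this, Finset.sum_add_distrib, Finset.sum_mul, Matrix.smul_mul,
      ← Finset.smul_sum, Finset.sum_sub_distrib]
    simp
  have e2 : S.XB A (RR k l t y) = S.XB A y +
      (((Real.cos t - 1) * y (k, A) + Real.sin t * y (l, A) : ℝ) : ℂ) • S.g k +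
      (((Real.cos t - 1) * y (l, A) - Real.sin t * y (k, A) : ℝ) : ℂ) • S.g l := by
    have : ∀ i, (((RR k l t y) (i, A) : ℝ) : ℂ) • S.g i = ((y (i, A) : ℝ) : ℂ) • S.g i +
        (if i = k then (((Real.cos t - 1) * y (k, A) + Real.sin t * y (l, A) : ℝ) : ℂ) • S.g k
          else 0) +
        (if i = l then (((Real.cos t - 1) * y (l, A) - Real.sin t * y (k, A) : ℝ) : ℂ) • S.g l
          else 0) := by
      intro i
      rw [RR_apply]
      by_cases h1 : i = k
      · subst h1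
        simp only [if_true, if_neg h, ← add_smul, add_zero]
        congr 1
        push_cast
        ring
      · by_cases h2 : i = l
        · subst h2
          simp only [if_true, if_neg h', ← add_smul, add_zero]
          congr 1
          push_cast
          ring
        · simp only [if_neg h1, if_neg h2]
          simp
    simp only [XB, this, Finset.sum_add_distrib]
    simp
  rw [e1, e2]
  simp only [add_mul]
  have m1 : S.g k * S.gt k l t = (Real.cos (t / 2) : ℂ) • S.g k + (Real.sin (t / 2) : ℂ) • S.g l := by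
    rw [gt, S.g2_eq_mul h, mul_add, Matrix.mul_smul, Matrix.mul_smul, mul_one, ← mul_assoc,
      S.g_sq, one_mul]
  have m2 : S.g l * S.gt k l t = (Real.cos (t / 2) : ℂ) • S.g l - (Real.sin (t / 2) : ℂ) • S.g k := by
    rw [gt, S.g2_eq_mul h, mul_add, Matrix.mul_smul, Matrix.mul_smul, mul_one, S.g_swap_ne h,
      mul_neg, ← mul_assoc, S.g_sq, one_mul, smul_neg]
    rfl
  simp only [Matrix.smul_mul, m1, m2]
  have hc : (Real.cos t : ℂ) - 1 = -2 * (Real.sin (t / 2) : ℂ) ^ 2 := by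
    have : Real.cos t = 1 - 2 * Real.sin (t / 2) ^ 2 := by
      have h1 := Real.cos_two_mul (t / 2)
      have h2 := Real.sin_sq_add_cos_sq (t / 2)
      rw [show 2 * (t / 2) = t by ring] at h1
      linarith
    rw [this]; push_cast; ring
  have hs : (Real.sin t : ℂ) = 2 * (Real.sin (t / 2) : ℂ) * (Real.cos (t / 2) : ℂ) := by
    have h1 := Real.sin_two_mul (t / 2)
    rw [show 2 * (t / 2) = t by ring] at h1
    rw [h1]; push_cast; ring
  have hsc : (Real.sin (t / 2) : ℂ) ^ 2 + (Real.cos (t / 2) : ℂ) ^ 2 = 1 := by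
    have := Real.sin_sq_add_cos_sq (t / 2)
    exact_mod_cast this
  rw [add_assoc]
  congr 1
  simp only [smul_add, smul_sub, smul_smul]
  push_cast
  push_cast at hc hs hsc
  rw [hc, hs]
  have c1 : (-2 * Complex.sin (t / 2) ^ 2 * ((y (k, A) : ℝ) : ℂ) +
      2 * Complex.sin (t / 2) * Complex.cos (t / 2) * ((y (l, A) : ℝ) : ℂ)) * Complex.cos (t / 2) -
      (-2 * Complex.sin (t / 2) ^ 2 * ((y (l, A) : ℝ) : ℂ) -
      2 * Complex.sin (t / 2) * Complex.cos (t / 2) * ((y (k, A) : ℝ) : ℂ)) * Complex.sin (t / 2) =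
      2 * Complex.sin (t / 2) * ((y (l, A) : ℝ) : ℂ) := by
    linear_combination 2 * Complex.sin (t / 2) * ((y (l, A) : ℝ) : ℂ) * hsc
  have c2 : (-2 * Complex.sin (t / 2) ^ 2 * ((y (k, A) : ℝ) : ℂ) +
      2 * Complex.sin (t / 2) * Complex.cos (t / 2) * ((y (l, A) : ℝ) : ℂ)) * Complex.sin (t / 2) +
      (-2 * Complex.sin (t / 2) ^ 2 * ((y (l, A) : ℝ) : ℂ) -
      2 * Complex.sin (t / 2) * Complex.cos (t / 2) * ((y (k, A) : ℝ) : ℂ)) * Complex.cos (t / 2) =
      -(2 * Complex.sin (t / 2) * ((y (k, A) : ℝ) : ℂ)) := by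
    linear_combination -2 * Complex.sin (t / 2) * ((y (k, A) : ℝ) : ℂ) * hsc
  linear_combination (norm := module) c1 • S.g k + c2 • S.g l

lemma NA_eq_XB (A : Fin dc) (x : (Cfg dc)) :
    S.NA A x = (S.κ / 2 : ℂ) • ∑ B, ∑ C, (S.f A B C : ℂ) • (S.XB B x * S.XB C x) := by
  have h1 : ∀ i j, ((S.FF A i j x : ℝ) : ℂ) • S.g2 i j =
      ((S.FF A i j x : ℝ) : ℂ) • (S.g i * S.g j) := by
    intro i j
    rw [S.g2_eq]
    by_cases h : i = j
    · subst h
      have h0 : S.FF A i i x = 0 := by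
        have := S.FF_swap A i i x
        linarith
      rw [h0]; simp
    · simp [h]
  have h2 : ∀ i j, ((S.FF A i j x : ℝ) : ℂ) • (S.g i * S.g j) = (S.κ : ℂ) • ∑ B, ∑ C,
      (S.f A B C : ℂ) • ((((x (i, B) : ℝ) : ℂ) • S.g i) * (((x (j, C) : ℝ) : ℂ) • S.g j)) := by
    intro i j
    simp only [FF, smul_mul_smul_comm, smul_smul, ← Finset.sum_smul]
    congr 1
    push_cast
    congr 1
    refine Finset.sum_congr rfl fun B _ => Finset.sum_congr rfl fun C _ => ?_
    ring
  simp only [NA, h1, h2, XB, Finset.sum_mul_sum]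
  simp only [← Finset.smul_sum, smul_smul]
  rw [show (1 / 2 : ℂ) * (S.κ : ℂ) = (S.κ : ℂ) / 2 by ring]
  congr 1
  simp only [Finset.smul_sum]
  calc _ = ∑ i : Fin 9, ∑ B : Fin dc, ∑ j : Fin 9, ∑ C : Fin dc,
        (S.f A B C : ℂ) • ((((x (i, B) : ℝ) : ℂ) • S.g i) * (((x (j, C) : ℝ) : ℂ) • S.g j)) := by
        refine Finset.sum_congr rfl fun i _ => ?_
        rw [Finset.sum_comm]
    _ = ∑ B : Fin dc, ∑ i : Fin 9, ∑ j : Fin 9, ∑ C : Fin dc,
        (S.f A B C : ℂ) • ((((x (i, B) : ℝ) : ℂ) • S.g i) * (((x (j, C) : ℝ) : ℂ) • S.g j)) := by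
        rw [Finset.sum_comm]
    _ = ∑ B : Fin dc, ∑ i : Fin 9, ∑ C : Fin dc, ∑ j : Fin 9,
        (S.f A B C : ℂ) • ((((x (i, B) : ℝ) : ℂ) • S.g i) * (((x (j, C) : ℝ) : ℂ) • S.g j)) := by
        refine Finset.sum_congr rfl fun B _ => Finset.sum_congr rfl fun i _ => ?_
        rw [Finset.sum_comm]
    _ = _ := by
        refine Finset.sum_congr rfl fun B _ => ?_
        rw [Finset.sum_comm]

lemma NA_RR {k l : Fin 9} (h : k ≠ l) (t : ℝ) (A : Fin dc) (y : (Cfg dc)) :
    S.NA A (RR k l t y) * S.gt k l t = S.gt k l t * S.NA A y := by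
  rw [NA_eq_XB, NA_eq_XB]
  simp only [Matrix.smul_mul, Matrix.mul_smul, Finset.sum_mul, Finset.mul_sum]
  congr 1
  refine Finset.sum_congr rfl fun B _ => Finset.sum_congr rfl fun C _ => ?_
  congr 1
  rw [mul_assoc, S.XB_RR h, ← mul_assoc, S.XB_RR h, mul_assoc]

section U
variable [CompleteSpace F]

/-- the rotated wave function `(U_t u)(x) = s_t u(R_{-t} x)` -/
noncomputable def Ut (k l : Fin 9) (t : ℝ) (u : (Cfg dc) → F) (x : (Cfg dc)) : F :=
  S.st k l t (u (RR k l (-t) x))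

lemma contDiff_Ut (k l : Fin 9) (t : ℝ) {u : (Cfg dc) → F} (hu : ContDiff ℝ ∞ u) :
    ContDiff ℝ ∞ (S.Ut k l t u) := by
  unfold Ut
  exact ((S.st k l t).restrictScalars ℝ).contDiff.comp (hu.comp (RR k l (-t)).contDiff)

lemma Tst.Ut {k l : Fin 9} (h : k ≠ l) (t : ℝ) {u : (Cfg dc) → F} (hu : Tst u) :
    Tst (S.Ut k l t u) := by
  refine ⟨S.contDiff_Ut k l t hu.1, ?_⟩
  have h1 : HasCompactSupport (fun x => u (RR k l (-t) x)) :=
    hu.2.comp_homeomorph (RI h (-t)).toHomeomorph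
  refine h1.mono ?_
  intro x hx
  simp only [Function.mem_support, Setup.Ut] at hx ⊢
  intro h0
  exact hx (by rw [h0, map_zero])

lemma fderiv_Ut (k l : Fin 9) (t : ℝ) {u : (Cfg dc) → F} (hu : Differentiable ℝ u) (x e : (Cfg dc)) :
    fderiv ℝ (S.Ut k l t u) x e = S.st k l t (fderiv ℝ u (RR k l (-t) x) (RR k l (-t) e)) := by
  have h1 : HasFDerivAt (fun x => u (RR k l (-t) x))
      ((fderiv ℝ u (RR k l (-t) x)).comp (RR k l (-t))) x :=
    (hu (RR k l (-t) x)).hasFDerivAt.comp x (RR k l (-t)).hasFDerivAt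
  have h2 := ((S.st k l t).restrictScalars ℝ).hasFDerivAt.comp x h1
  have h3 : fderiv ℝ (S.Ut k l t u) x = _ := h2.fderiv
  rw [h3]
  rfl

omit [CompleteSpace F] in
lemma J_eq (k l : Fin 9) (u : (Cfg dc) → F) (x : (Cfg dc)) :
    S.J k l u x = (-Complex.I) • fderiv ℝ u x (-(LL k l x)) + S.Skl k l (u x) := by
  rw [neg_LL_eq]
  simp only [J, pd, map_sum, map_sub, map_smul, Complex.coe_smul]

/-- `J` commutes with the rotations -/
lemma J_Ut {k l : Fin 9} (h : k ≠ l) (t : ℝ) {u : (Cfg dc) → F} (hu : Differentiable ℝ u) (x : (Cfg dc)) :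
    S.J k l (S.Ut k l t u) x = S.st k l t (S.J k l u (RR k l (-t) x)) := by
  rw [J_eq, J_eq, S.fderiv_Ut k l t hu, map_neg (RR k l (-t)), RR_LL h, map_add, map_smul]
  congr 1
  have := congrArg (fun T : F →L[ℂ] F => T (u (RR k l (-t) x))) (S.st_comm k l t)
  simpa [mul_apply_eq_comp, Ut] using this

lemma hasDerivAt_Ut {k l : Fin 9} (h : k ≠ l) (t : ℝ) {u : (Cfg dc) → F} (hu : Differentiable ℝ u)
    (x : (Cfg dc)) :
    HasDerivAt (fun s => S.Ut k l s u x) (Complex.I • S.J k l (S.Ut k l t u) x) t := by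
  have h1 : HasDerivAt (fun s => u (RR k l (-s) x))
      (fderiv ℝ u (RR k l (-t) x) (RR k l (-t) (-(LL k l x)))) t :=
    (hu (RR k l (-t) x)).hasFDerivAt.comp_hasDerivAt t (hasDerivAt_RR_neg h t x)
  have hB : IsBoundedBilinearMap ℝ (fun p : (F →L[ℂ] F) × F => p.1 p.2) := by
    have h := (isBoundedBilinearMap_apply (𝕜 := ℂ) (E := F) (F := F))
    refine ⟨fun a b c => by simp, fun c a b => ?_, fun a b c => by simp, fun c a b => ?_, ?_⟩
    · simp
    · simp
    · obtain ⟨C, hC, hb⟩ := h.bound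
      exact ⟨C, hC, hb⟩
  have h2 := (S.hasDerivAt_st k l t).prodMk h1
  have h3 := (hB.hasFDerivAt (S.st k l t, u (RR k l (-t) x))).comp_hasDerivAt t h2
  refine HasDerivAt.congr_deriv (f := fun s => S.Ut k l s u x) h3 ?_
  rw [J_eq, S.fderiv_Ut k l t hu, smul_add, smul_smul]
  have e1 : Complex.I * -Complex.I = 1 := by
    rw [mul_neg, Complex.I_mul_I, neg_neg]
  rw [e1, one_smul]
  simp [mul_apply_eq_comp, Ut]

/-- covariance of the supercharges -/
lemma Q_Ut {k l : Fin 9} (h : k ≠ l) (t : ℝ) {u : (Cfg dc) → F} (hu : Differentiable ℝ u) (b : Fin 16)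
    (x : (Cfg dc)) :
    S.Q b (S.Ut k l t u) x = S.st k l t (∑ c, S.gt k l t b c • S.Q c u (RR k l (-t) x)) := by
  set y := RR k l (-t) x with hy
  have hx : x = RR k l t y := (RR_cancel_neg h t x).symm
  have happ : ∀ (P : Matrix (Fin 16) (Fin 16) ℂ) (A : Fin dc) (v : F),
      S.vec P A b (S.st k l t v) = S.st k l t (S.vec (P * S.gt k l t) A b v) := by
    intro P A v
    have := congrArg (fun T : F →L[ℂ] F => T v) (S.vec_mul_st h P A b t)
    simpa [mul_apply_eq_comp] using this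
  -- the potential part
  have hW : S.W b x (S.st k l t (u y)) = S.st k l t (∑ c, S.gt k l t b c • S.W c y (u y)) := by
    rw [S.W_eq_NA b x, _root_.sum_apply]
    simp only [happ]
    rw [← map_sum]
    congr 1
    rw [hx]
    simp only [S.NA_RR h, S.vec_mul, W_eq_NA, _root_.sum_apply, _root_.smul_apply, Finset.smul_sum]
    rw [Finset.sum_comm]
  -- the derivative part
  have hD : ∑ i, ∑ A, S.vec (S.g i) A b (pd i A (S.Ut k l t u) x) =
      S.st k l t (∑ c, S.gt k l t b c • ∑ i, ∑ A, S.vec (S.g i) A c (pd i A u y)) := by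
    have hpd : ∀ i A, pd i A (S.Ut k l t u) x = S.st k l t (∑ j, ∑ C,
        ((RR k l t (EuclideanSpace.single (j, C) (1 : ℝ))) (i, A) : ℂ) • pd j C u y) := by
      intro i A
      rw [pd, S.fderiv_Ut k l t hu]
      congr 1
      have e1 : RR k l (-t) (EuclideanSpace.single (i, A) (1 : ℝ)) = ∑ j, ∑ C,
          (RR k l t (EuclideanSpace.single (j, C) (1 : ℝ)) (i, A)) •
            (EuclideanSpace.single (j, C) (1 : ℝ) : (Cfg dc)) := by
        have h0 : ∀ j C, RR k l t (EuclideanSpace.single (j, C) (1 : ℝ)) (i, A) =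
            RR k l (-t) (EuclideanSpace.single (i, A) (1 : ℝ)) (j, C) := by
          intro j C
          have := RR_inner k l t (EuclideanSpace.single (j, C) (1 : ℝ))
            (EuclideanSpace.single (i, A) (1 : ℝ))
          simpa [EuclideanSpace.inner_single_left, EuclideanSpace.inner_single_right] using this
        simp only [h0]
        ext ⟨j', C'⟩
        simp only [WithLp.ofLp_sum, Finset.sum_apply, WithLp.ofLp_smul, Pi.smul_apply,
          PiLp.single_apply, Prod.mk.injEq, smul_eq_mul, mul_ite, mul_one, mul_zero]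
        rw [Finset.sum_eq_single j', Finset.sum_eq_single C']
        · simp
        · intro C _ hC; simp [Ne.symm hC]
        · intro h; exact absurd (Finset.mem_univ _) h
        · intro j _ hj
          refine Finset.sum_eq_zero fun C _ => ?_
          simp [Ne.symm hj]
        · intro h; exact absurd (Finset.mem_univ _) h
      rw [e1]
      simp only [map_sum, map_smul, Complex.coe_smul, ← hy]
      rfl
    simp only [hpd, happ]
    simp only [← map_sum]
    congr 1
    simp only [map_sum, map_smul]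
    have hsw : ∀ (f : Fin 9 → Fin dc → Fin 9 → Fin dc → F), ∑ i, ∑ A, ∑ j, ∑ C, f i A j C =
        ∑ j, ∑ C, ∑ A, ∑ i, f i A j C := by
      intro f
      calc _ = ∑ i, ∑ j, ∑ A, ∑ C, f i A j C := by
            refine Finset.sum_congr rfl fun i _ => ?_
            rw [Finset.sum_comm]
        _ = ∑ j, ∑ i, ∑ A, ∑ C, f i A j C := by rw [Finset.sum_comm]
        _ = ∑ j, ∑ i, ∑ C, ∑ A, f i A j C := by
            refine Finset.sum_congr rfl fun j _ => Finset.sum_congr rfl fun i _ => ?_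
            rw [Finset.sum_comm]
        _ = ∑ j, ∑ C, ∑ i, ∑ A, f i A j C := by
            refine Finset.sum_congr rfl fun j _ => ?_
            rw [Finset.sum_comm]
        _ = _ := by
            refine Finset.sum_congr rfl fun j _ => Finset.sum_congr rfl fun C _ => ?_
            rw [Finset.sum_comm]
    rw [hsw]
    have hXe : ∀ (A : Fin dc) (j : Fin 9) (C : Fin dc),
        S.XB A (EuclideanSpace.single (j, C) (1 : ℝ)) = if A = C then S.g j else 0 := by
      intro A j C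
      simp only [XB, PiLp.single_apply, Prod.mk.injEq]
      rw [Finset.sum_eq_single j]
      · by_cases hA : A = C <;> simp [hA]
      · intro i _ hi; simp [hi]
      · intro h; exact absurd (Finset.mem_univ _) h
    have hin : ∀ j C, ∑ A, ∑ i, ((RR k l t (EuclideanSpace.single (j, C) (1 : ℝ)) (i, A) : ℝ) : ℂ) •
        (S.vec (S.g i * S.gt k l t) A b) (pd j C u y) =
        ∑ c, S.gt k l t b c • S.vec (S.g j) C c (pd j C u y) := by
      intro j C
      have h1 : ∀ A, ∑ i, ((RR k l t (EuclideanSpace.single (j, C) (1 : ℝ)) (i, A) : ℝ) : ℂ) •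
          (S.vec (S.g i * S.gt k l t) A b) = S.vec (S.gt k l t *
            S.XB A (EuclideanSpace.single (j, C) (1 : ℝ))) A b := by
        intro A
        rw [← S.XB_RR h]
        simp only [XB, Finset.sum_mul, Matrix.smul_mul, S.vec_sum, S.vec_smul]
      have h2 : ∀ A, ∑ i, ((RR k l t (EuclideanSpace.single (j, C) (1 : ℝ)) (i, A) : ℝ) : ℂ) •
          (S.vec (S.g i * S.gt k l t) A b) (pd j C u y) = (S.vec (S.gt k l t *
            S.XB A (EuclideanSpace.single (j, C) (1 : ℝ))) A b) (pd j C u y) := by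
        intro A
        rw [← h1 A]
        simp only [_root_.sum_apply, _root_.smul_apply]
      simp only [h2, hXe, mul_ite, mul_zero]
      rw [Finset.sum_eq_single C]
      · simp only [if_true, S.vec_mul, _root_.sum_apply, _root_.smul_apply]
      · intro A _ hA
        simp [hA, S.vec_zero]
      · intro h; exact absurd (Finset.mem_univ _) h
    simp only [hin, Finset.smul_sum]
    calc _ = ∑ j, ∑ c, ∑ C, S.gt k l t b c • S.vec (S.g j) C c (pd j C u y) := by
          refine Finset.sum_congr rfl fun j _ => ?_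
          rw [Finset.sum_comm]
      _ = _ := by rw [Finset.sum_comm]
  have hQ : S.Q b (S.Ut k l t u) x = (-Complex.I) • ∑ i, ∑ A,
      S.vec (S.g i) A b (pd i A (S.Ut k l t u) x) + S.W b x (S.Ut k l t u x) := by rw [Q]
  have hUx : S.Ut k l t u x = S.st k l t (u y) := by rw [Ut, hy]
  rw [hQ, hUx, hD, hW, ← map_smul, ← map_add]
  congr 1
  simp only [Finset.smul_sum]
  simp only [Q, smul_add, Finset.sum_add_distrib, Finset.smul_sum]
  congr 1
  refine Finset.sum_congr rfl fun c _ => Finset.sum_congr rfl fun i _ =>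
    Finset.sum_congr rfl fun A _ => ?_
  rw [smul_comm]

end U

end Setup

end Vale.Agent.P353.Z
end

section

open MeasureTheory Filter Topology
open scoped ContDiff

namespace Vale.Agent.P353.Z

variable {dc : ℕ}

variable {F : Type*} [NormedAddCommGroup F] [InnerProductSpace ℂ F]

namespace Setup

variable (S : Setup dc F) [CompleteSpace F]

lemma norm_Ut (k l : Fin 9) (t : ℝ) (u : (Cfg dc) → F) (x : (Cfg dc)) :
    ‖S.Ut k l t u x‖ = ‖u (RR k l (-t) x)‖ := by
  rw [Ut, S.st_norm]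

lemma norm_J_Ut {k l : Fin 9} (h : k ≠ l) (t : ℝ) {u : (Cfg dc) → F} (hu : Differentiable ℝ u) (x : (Cfg dc)) :
    ‖S.J k l (S.Ut k l t u) x‖ = ‖S.J k l u (RR k l (-t) x)‖ := by
  rw [S.J_Ut h t hu, S.st_norm]

/-- radial weights are invariant -/
lemma integral_Ut {k l : Fin 9} (h : k ≠ l) (t : ℝ) (u : (Cfg dc) → F) (φ : ℝ → ℝ) :
    ∫ x, φ ‖x‖ * ‖S.Ut k l t u x‖ ^ 2 = ∫ x, φ ‖x‖ * ‖u x‖ ^ 2 := by
  rw [← integral_comp_RR h (-t) (fun x => φ ‖x‖ * ‖u x‖ ^ 2)]
  congr 1
  ext x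
  rw [S.norm_Ut, RR_norm h]

lemma integral_Ut' {k l : Fin 9} (h : k ≠ l) (t : ℝ) (u : (Cfg dc) → F) :
    ∫ x, ‖S.Ut k l t u x‖ ^ 2 = ∫ x, ‖u x‖ ^ 2 := by
  have := S.integral_Ut h t u (fun _ => 1)
  simpa using this

/-- adjoint of the rotation -/
lemma inner_Ut {k l : Fin 9} (h : k ≠ l) (t : ℝ) (u v : (Cfg dc) → F) :
    ∫ x, inner ℂ (S.Ut k l t u x) (v x) = ∫ x, inner ℂ (u x) (S.Ut k l (-t) v x) := by
  rw [← integral_comp_RR h (-t) (fun x => inner ℂ (u x) (S.Ut k l (-t) v x))]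
  congr 1
  ext x
  rw [Ut, Ut, S.st_adj, neg_neg, RR_cancel_neg h]

lemma hasDerivAt_integral_Ut {k l : Fin 9} (h : k ≠ l) {g : (Cfg dc) → F}
    (hg : LocallyIntegrable g (volume : Measure (Cfg dc))) {ζ : (Cfg dc) → F} (hζ : Tst ζ) (t : ℝ) :
    HasDerivAt (fun t => ∫ x, inner ℂ (g x) (S.Ut k l t ζ x))
      (∫ x, inner ℂ (g x) (Complex.I • S.J k l (S.Ut k l t ζ) x)) t := by
  obtain ⟨C, r, hC, hr, hb, hz⟩ := (hζ.J S k l).exists_bound
  obtain ⟨C', r', hC', hr', hb', hz'⟩ := hζ.exists_bound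
  have hgi : ∀ r : ℝ, Integrable (fun x => (Metric.closedBall (0 : (Cfg dc)) r).indicator
      (fun x => ‖g x‖) x) := by
    intro r
    rw [integrable_indicator_iff Metric.isClosed_closedBall.measurableSet]
    exact (hg.integrableOn_isCompact (isCompact_closedBall _ _)).norm
  have hdiff : Differentiable ℝ ζ := hζ.1.differentiable (by simp)
  refine (hasDerivAt_integral_of_dominated_loc_of_deriv_le (s := Set.univ)
    (bound := fun x => C * (Metric.closedBall (0 : (Cfg dc)) r).indicator (fun x => ‖g x‖) x)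
    (F := fun t x => inner ℂ (g x) (S.Ut k l t ζ x))
    (F' := fun t x => inner ℂ (g x) (Complex.I • S.J k l (S.Ut k l t ζ) x))
    Filter.univ_mem ?_ ?_ ?_ ?_ ?_ ?_).2
  · refine Filter.Eventually.of_forall fun s => ?_
    exact hg.aestronglyMeasurable.inner (S.contDiff_Ut k l s hζ.1).continuous.aestronglyMeasurable
  · refine Integrable.mono' ((hgi r').const_mul C')
      (hg.aestronglyMeasurable.inner (S.contDiff_Ut k l t hζ.1).continuous.aestronglyMeasurable) ?_
    refine Filter.Eventually.of_forall fun x => ?_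
    refine (norm_inner_le_norm _ _).trans ?_
    rw [S.norm_Ut]
    by_cases hx : x ∈ Metric.closedBall (0 : (Cfg dc)) r'
    · rw [Set.indicator_of_mem hx, mul_comm]
      exact mul_le_mul_of_nonneg_right (hb' _) (norm_nonneg _)
    · rw [Set.indicator_of_notMem hx, hz', norm_zero, mul_zero, mul_zero]
      rw [RR_norm h]
      simpa using hx
  · exact hg.aestronglyMeasurable.inner
      ((S.contDiff_J k l (S.contDiff_Ut k l t hζ.1)).const_smul Complex.I).continuous.aestronglyMeasurable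
  · refine Filter.Eventually.of_forall fun x s _ => ?_
    refine (norm_inner_le_norm _ _).trans ?_
    rw [norm_smul, Complex.norm_I, one_mul, S.norm_J_Ut h s hdiff]
    by_cases hx : x ∈ Metric.closedBall (0 : (Cfg dc)) r
    · rw [Set.indicator_of_mem hx, mul_comm]
      exact mul_le_mul_of_nonneg_right (hb _) (norm_nonneg _)
    · rw [Set.indicator_of_notMem hx, hz, norm_zero, mul_zero, mul_zero]
      rw [RR_norm h]
      simpa using hx
  · exact (hgi r).const_mul C
  · refine Filter.Eventually.of_forall fun x s _ => ?_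
    have h1 := (hasDerivAt_const s (g x)).inner ℂ (S.hasDerivAt_Ut h s hdiff x)
    refine h1.congr_deriv ?_
    rw [inner_zero_left, add_zero]

end Setup

/-! ### bounds for linear multipliers -/

section MJ

lemma contDiff_MJ (S : Setup dc F) (k l : Fin 9) (b : Fin 16) : ContDiff ℝ ∞ (S.MJ k l b) := by
  unfold Setup.MJ
  refine ContDiff.add (ContDiff.const_smul _ (ContDiff.sum fun A _ => ContDiff.sub ?_ ?_))
    (ContDiff.const_smul _ (ContDiff.sum fun j _ => ContDiff.sum fun A _ => ?_))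
  · exact (Setup.contDiff_ofReal (Setup.contDiff_coord _)).smul contDiff_const
  · exact (Setup.contDiff_ofReal (Setup.contDiff_coord _)).smul contDiff_const
  · exact (Setup.contDiff_ofReal (Setup.contDiff_coord _)).smul contDiff_const

lemma coord_le_norm (p : Fin 9 × Fin dc) (x : (Cfg dc)) : ‖((x p : ℝ) : ℂ)‖ ≤ ‖x‖ := by
  rw [Complex.norm_real]
  exact PiLp.norm_apply_le x p

lemma MJ_bound (S : Setup dc F) (k l : Fin 9) (b : Fin 16) :
    ∃ C : ℝ, 0 ≤ C ∧ ∀ x, ‖S.MJ k l b x‖ ≤ C * ‖x‖ := by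
  refine ⟨9 * ∑ A, (‖S.vec (S.g l) A b‖ + ‖S.vec (S.g k) A b‖) +
    2 * ∑ j, ∑ A, ‖S.vec (S.g2 k l * S.g j) A b‖, by positivity, fun x => ?_⟩
  have hs : ∀ (p : Fin 9 × Fin dc) (T : F →L[ℂ] F), ‖((x p : ℝ) : ℂ) • T‖ ≤ ‖T‖ * ‖x‖ := by
    intro p T
    rw [norm_smul, mul_comm]
    exact mul_le_mul_of_nonneg_left (coord_le_norm p x) (norm_nonneg _)
  unfold Setup.MJ
  refine (norm_add_le _ _).trans ?_
  rw [norm_smul, norm_smul, add_mul]
  have h9 : ‖(9 : ℂ)‖ = 9 := by norm_num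
  have h2 : ‖(2 : ℂ)‖ = 2 := by norm_num
  rw [h9, h2, mul_assoc, mul_assoc]
  refine add_le_add (mul_le_mul_of_nonneg_left ?_ (by norm_num))
    (mul_le_mul_of_nonneg_left ?_ (by norm_num))
  · rw [Finset.sum_mul]
    refine (norm_sum_le _ _).trans (Finset.sum_le_sum fun A _ => ?_)
    rw [add_mul]
    exact (norm_sub_le _ _).trans (add_le_add (hs _ _) (hs _ _))
  · rw [Finset.sum_mul]
    refine (norm_sum_le _ _).trans (Finset.sum_le_sum fun j _ => ?_)
    rw [Finset.sum_mul]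
    exact (norm_sum_le _ _).trans (Finset.sum_le_sum fun A _ => hs _ _)

end MJ

namespace Setup

variable (S : Setup dc F) [CompleteSpace F]

omit [CompleteSpace F] in
lemma gt_bound (k l : Fin 9) : ∃ C : ℝ, 0 ≤ C ∧ ∀ t b c, ‖S.gt k l t b c‖ ≤ C := by
  refine ⟨1 + ∑ b, ∑ c, ‖S.g2 k l b c‖, by positivity, fun t b c => ?_⟩
  simp only [gt, Matrix.add_apply, Matrix.smul_apply, smul_eq_mul]
  refine (norm_add_le _ _).trans (add_le_add ?_ ?_)
  · rw [norm_mul, Complex.norm_real, Real.norm_eq_abs]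
    have h1 : ‖(1 : Matrix (Fin 16) (Fin 16) ℂ) b c‖ ≤ 1 := by
      rw [Matrix.one_apply]
      split_ifs <;> simp
    exact mul_le_one₀ (Real.abs_cos_le_one _) (norm_nonneg _) h1
  · rw [norm_mul, Complex.norm_real, Real.norm_eq_abs]
    have h1 : ‖S.g2 k l b c‖ ≤ ∑ b, ∑ c, ‖S.g2 k l b c‖ := by
      refine le_trans ?_ (Finset.single_le_sum (f := fun b => ∑ c, ‖S.g2 k l b c‖)
        (fun _ _ => by positivity) (Finset.mem_univ b))
      exact Finset.single_le_sum (f := fun c => ‖S.g2 k l b c‖)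
        (fun _ _ => by positivity) (Finset.mem_univ c)
    calc |Real.sin (t / 2)| * ‖S.g2 k l b c‖ ≤ 1 * ‖S.g2 k l b c‖ := by
          gcongr; exact Real.abs_sin_le_one _
      _ ≤ _ := by rw [one_mul]; exact h1

/-- `Q` of a rotated function is controlled -/
lemma integral_Q_Ut {k l : Fin 9} (h : k ≠ l) : ∃ C : ℝ, 0 ≤ C ∧ ∀ (t : ℝ) (u : (Cfg dc) → F), Tst u →
    ∀ b, ∫ x, ‖S.Q b (S.Ut k l t u) x‖ ^ 2 ≤ C * ∑ c, ∫ x, ‖S.Q c u x‖ ^ 2 := by
  obtain ⟨C, hC, hb⟩ := S.gt_bound k l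
  refine ⟨16 * C ^ 2, by positivity, fun t u hu b => ?_⟩
  have hdiff : Differentiable ℝ u := hu.1.differentiable (by simp)
  have hpt : ∀ x, ‖S.Q b (S.Ut k l t u) x‖ ^ 2 ≤
      ∑ c, (16 * C ^ 2) * ‖S.Q c u (RR k l (-t) x)‖ ^ 2 := by
    intro x
    rw [S.Q_Ut h t hdiff b x, S.st_norm]
    have h1 : ‖∑ c, S.gt k l t b c • S.Q c u (RR k l (-t) x)‖ ≤
        ∑ c, C * ‖S.Q c u (RR k l (-t) x)‖ := by
      refine (norm_sum_le _ _).trans (Finset.sum_le_sum fun c _ => ?_)
      rw [norm_smul]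
      exact mul_le_mul_of_nonneg_right (hb t b c) (norm_nonneg _)
    calc ‖∑ c, S.gt k l t b c • S.Q c u (RR k l (-t) x)‖ ^ 2 ≤
        (∑ c, C * ‖S.Q c u (RR k l (-t) x)‖) ^ 2 := by gcongr
      _ ≤ (Finset.univ : Finset (Fin 16)).card * ∑ c, (C * ‖S.Q c u (RR k l (-t) x)‖) ^ 2 :=
          sq_sum_le_card_mul_sum_sq
      _ = _ := by
          rw [Finset.card_univ, Fintype.card_fin, Finset.mul_sum]
          refine Finset.sum_congr rfl fun c _ => ?_
          push_cast
          ring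
  have hcomp : ∀ c, Integrable (fun x => ‖S.Q c u (RR k l (-t) x)‖ ^ 2) := by
    intro c
    have h1 := (hu.Q S c).norm_sq_int
    have h2 := (RI h (-t)).measurePreserving.integrable_comp_emb
      (RI h (-t)).toHomeomorph.measurableEmbedding (g := fun x => ‖S.Q c u x‖ ^ 2)
    exact h2.mpr h1
  calc ∫ x, ‖S.Q b (S.Ut k l t u) x‖ ^ 2 ≤ ∫ x, ∑ c, (16 * C ^ 2) * ‖S.Q c u (RR k l (-t) x)‖ ^ 2 :=
        integral_mono ((hu.Ut S h t).Q S b).norm_sq_int
          (integrable_finsetSum _ fun c _ => (hcomp c).const_mul _) hpt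
    _ = ∑ c, (16 * C ^ 2) * ∫ x, ‖S.Q c u x‖ ^ 2 := by
        rw [integral_finsetSum _ fun c _ => (hcomp c).const_mul _]
        refine Finset.sum_congr rfl fun c _ => ?_
        rw [integral_const_mul, integral_comp_RR h (-t) (fun x => ‖S.Q c u x‖ ^ 2)]
    _ = _ := by rw [Finset.mul_sum]

end Setup

end Vale.Agent.P353.Z
end

section

open MeasureTheory Filter Topology
open scoped ContDiff

namespace Vale.Agent.P353.Z

variable {dc : ℕ}

variable {F : Type*} [NormedAddCommGroup F] [InnerProductSpace ℂ F]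

lemma young {δ : ℝ} (hδ : 0 < δ) (a b : ℝ) : 2 * (a * b) ≤ a ^ 2 / δ + δ * b ^ 2 := by
  have h := sq_nonneg (a - δ * b)
  rw [div_add' _ _ _ hδ.ne', le_div_iff₀ hδ]
  nlinarith

/-- the exact identity for `J` -/
def JExact (S : Setup dc F) (k l : Fin 9) : Prop :=
  ∀ (u : (Cfg dc) → F) (x : (Cfg dc)), DifferentiableAt ℝ u x →
    (112 : ℂ) • S.J k l u x = ∑ β, S.Q β (fun y => S.MJ k l β y (u y)) x +
      ∑ β, S.MJ k l β x (S.Q β u x)

lemma jExact (S : Setup dc F) {k l : Fin 9} (h : k ≠ l) : JExact S k l :=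
  fun u x hu => S.J_exact k l h u x hu

/-- indicator of the exterior region as a radial function -/
noncomputable def wR (R s : ℝ) : ℝ := if R ≤ s then 1 else 0

lemma wR_nonneg (R s : ℝ) : 0 ≤ wR R s := by
  unfold wR; split_ifs <;> norm_num

lemma wR_le_one (R s : ℝ) : wR R s ≤ 1 := by
  unfold wR; split_ifs <;> norm_num

omit [InnerProductSpace ℂ F] in
lemma integrable_wR (R : ℝ) {f : (Cfg dc) → F} (hf : Integrable (fun x => ‖f x‖ ^ 2)) :
    Integrable (fun x => wR R ‖x‖ * ‖f x‖ ^ 2) := by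
  have h1 : (fun x => wR R ‖x‖ * ‖f x‖ ^ 2) = (fun x =>
      Set.indicator {x : (Cfg dc) | R ≤ ‖x‖} (fun x => ‖f x‖ ^ 2) x) := by
    ext x
    by_cases hx : R ≤ ‖x‖
    · rw [Set.indicator_of_mem (by exact hx), wR, if_pos hx, one_mul]
    · rw [Set.indicator_of_notMem (by exact hx), wR, if_neg hx, zero_mul]
  rw [h1]
  exact hf.indicator (isClosed_le continuous_const continuous_norm).measurableSet

namespace Setup

variable (S : Setup dc F)

/-- pointwise bound for `|x| |Q (χ u)|` -/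
lemma norm_Q_cut {K R : ℝ} (hR : 0 < R) {χ : (Cfg dc) → ℝ} (hχ : IsCut K R χ) {u : (Cfg dc) → F}
    (hu : Tst u) (b : Fin 16) (x : (Cfg dc)) :
    ‖x‖ * ‖S.Q b (fun y => ((χ y : ℝ) : ℂ) • u y) x‖ ≤ 2 * R * ‖S.Q b u x‖ +
      K * (∑ i, ∑ A, ‖S.vec (S.g i) A b‖) * (wR R ‖x‖ * ‖u x‖) := by
  obtain ⟨hsm, hcs, h0, h1, hin, hout, hgrad, hgrad0⟩ := hχ
  rw [Q_smul S b χ u x (hsm.differentiable (by simp) x) (hu.diff x)]
  have hχx : χ x * ‖x‖ ≤ 2 * R := by
    by_cases hx : 2 * R ≤ ‖x‖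
    · rw [hout x hx, zero_mul]; positivity
    · push Not at hx
      calc χ x * ‖x‖ ≤ 1 * ‖x‖ := mul_le_mul_of_nonneg_right (h1 x) (norm_nonneg _)
        _ ≤ 2 * R := by linarith
  have hg : ∀ i A, |pdr i A χ x| * ‖x‖ ≤ K * wR R ‖x‖ := by
    intro i A
    by_cases hx : R ≤ ‖x‖
    · rw [wR, if_pos hx, mul_one]; exact hgrad i A x
    · push Not at hx
      rw [hgrad0 i A x hx, abs_zero, zero_mul, wR, if_neg (not_le.mpr hx), mul_zero]
  have e1 : ‖((χ x : ℝ) : ℂ) • S.Q b u x‖ = χ x * ‖S.Q b u x‖ := by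
    rw [norm_smul, Complex.norm_real, Real.norm_of_nonneg (h0 x)]
  have e2 : ‖Complex.I • ∑ i, ∑ A, ((pdr i A χ x : ℝ) : ℂ) • S.vec (S.g i) A b (u x)‖ ≤
      ∑ i, ∑ A, |pdr i A χ x| * (‖S.vec (S.g i) A b‖ * ‖u x‖) := by
    rw [norm_smul, Complex.norm_I, one_mul]
    refine (norm_sum_le _ _).trans (Finset.sum_le_sum fun i _ => ?_)
    refine (norm_sum_le _ _).trans (Finset.sum_le_sum fun A _ => ?_)
    rw [norm_smul, Complex.norm_real, Real.norm_eq_abs]
    exact mul_le_mul_of_nonneg_left (ContinuousLinearMap.le_opNorm _ _) (abs_nonneg _)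
  calc ‖x‖ * ‖((χ x : ℝ) : ℂ) • S.Q b u x -
        Complex.I • ∑ i, ∑ A, ((pdr i A χ x : ℝ) : ℂ) • S.vec (S.g i) A b (u x)‖
      ≤ ‖x‖ * (χ x * ‖S.Q b u x‖ + ∑ i, ∑ A, |pdr i A χ x| * (‖S.vec (S.g i) A b‖ * ‖u x‖)) := by
        refine mul_le_mul_of_nonneg_left ?_ (norm_nonneg _)
        refine (norm_sub_le _ _).trans ?_
        rw [e1]
        exact add_le_add le_rfl e2
    _ = (χ x * ‖x‖) * ‖S.Q b u x‖ + ∑ i, ∑ A, (|pdr i A χ x| * ‖x‖) *
          (‖S.vec (S.g i) A b‖ * ‖u x‖) := by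
        rw [mul_add, Finset.mul_sum]
        congr 1
        · ring
        · refine Finset.sum_congr rfl fun i _ => ?_
          rw [Finset.mul_sum]
          refine Finset.sum_congr rfl fun A _ => ?_
          ring
    _ ≤ 2 * R * ‖S.Q b u x‖ + ∑ i, ∑ A, (K * wR R ‖x‖) *
          (‖S.vec (S.g i) A b‖ * ‖u x‖) := by
        refine add_le_add (mul_le_mul_of_nonneg_right hχx (norm_nonneg _))
          (Finset.sum_le_sum fun i _ => Finset.sum_le_sum fun A _ => ?_)
        exact mul_le_mul_of_nonneg_right (hg i A) (by positivity)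
    _ = _ := by
        simp only [← Finset.mul_sum, ← Finset.sum_mul]
        ring

variable [CompleteSpace F]

lemma deriv_bound {k l : Fin 9} (h : k ≠ l) (hJ : JExact S k l) {K0 : ℝ} (hK0 : 0 ≤ K0) :
    ∃ K : ℝ, 0 ≤ K ∧ ∀ u : (Cfg dc) → F, Tst u → ∀ R : ℝ, 0 < R → ∀ δ : ℝ, 0 < δ →
      ∀ χ : (Cfg dc) → ℝ, IsCut K0 R χ → ∀ t : ℝ,
      ‖∫ x, inner ℂ (((χ x : ℝ) : ℂ) • u x) (S.J k l (S.Ut k l t u) x)‖ ≤
        K * (R * ((∑ b, ∫ x, ‖S.Q b u x‖ ^ 2) / δ + δ * ∫ x, ‖u x‖ ^ 2) +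
          ∫ x, wR R ‖x‖ * ‖u x‖ ^ 2) := by
  choose Cb hCb0 hCb using MJ_bound S k l
  obtain ⟨Cg, hCg, hg⟩ := S.integral_Q_Ut h
  let Gb : Fin 16 → ℝ := fun b => ∑ i, ∑ A, ‖S.vec (S.g i) A b‖
  have hGb : ∀ b, 0 ≤ Gb b := fun b => by positivity
  refine ⟨∑ b, (Cb b * (1 + K0 * Gb b) + Cb b * (1 + Cg)), ?_, ?_⟩
  · refine Finset.sum_nonneg fun b _ => ?_
    have := hCb0 b
    have := hGb b
    positivity
  intro u hu R hR δ hδ χ hχ t
  set v := S.Ut k l t u with hv
  have hvT : Tst v := hu.Ut S h t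
  set q := ∑ b, ∫ x, ‖S.Q b u x‖ ^ 2 with hq
  set a := ∫ x, ‖u x‖ ^ 2 with ha
  set e := ∫ x, wR R ‖x‖ * ‖u x‖ ^ 2 with he
  have hχs : ContDiff ℝ ∞ χ := hχ.1
  have hχ0 := hχ.2.2.1
  have hχ1 := hχ.2.2.2.1
  have hχout := hχ.2.2.2.2.2.1
  have hcu : Tst (fun x => ((χ x : ℝ) : ℂ) • u x) := hu.rsmul hχs
  have hMv : ∀ b, ContDiff ℝ ∞ (fun y => S.MJ k l b y (v y)) := fun b =>
    contDiff_clm_apply' (contDiff_MJ S k l b) hvT.1
  have hMQ : ∀ b, ContDiff ℝ ∞ (fun y => S.MJ k l b y (S.Q b v y)) := fun b =>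
    contDiff_clm_apply' (contDiff_MJ S k l b) (hvT.Q S b).1
  have hq0 : ∀ b, 0 ≤ ∫ x, ‖S.Q b u x‖ ^ 2 := fun b => integral_nonneg fun x => by positivity
  have hqb : ∀ b, ∫ x, ‖S.Q b u x‖ ^ 2 ≤ q := fun b =>
    Finset.single_le_sum (f := fun b => ∫ x, ‖S.Q b u x‖ ^ 2) (fun b _ => hq0 b)
      (Finset.mem_univ b)
  have hqn : 0 ≤ q := Finset.sum_nonneg fun b _ => hq0 b
  have ha0 : 0 ≤ a := integral_nonneg fun x => by positivity
  have he0 : 0 ≤ e := integral_nonneg fun x => mul_nonneg (wR_nonneg _ _) (by positivity)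
  have hva : ∫ x, ‖v x‖ ^ 2 = a := S.integral_Ut' h t u
  have hve : ∫ x, wR R ‖x‖ * ‖v x‖ ^ 2 = e := S.integral_Ut h t u (wR R)
  -- the identity
  have hid : (112 : ℂ) * ∫ x, inner ℂ (((χ x : ℝ) : ℂ) • u x) (S.J k l v x) =
      ∑ b, ((∫ x, inner ℂ (S.Q b (fun y => ((χ y : ℝ) : ℂ) • u y) x) (S.MJ k l b x (v x))) +
        ∫ x, inner ℂ (((χ x : ℝ) : ℂ) • u x) (S.MJ k l b x (S.Q b v x))) := by
    have h1 : ∀ x, (112 : ℂ) * inner ℂ (((χ x : ℝ) : ℂ) • u x) (S.J k l v x) =
        ∑ b, (inner ℂ (((χ x : ℝ) : ℂ) • u x) (S.Q b (fun y => S.MJ k l b y (v y)) x) +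
          inner ℂ (((χ x : ℝ) : ℂ) • u x) (S.MJ k l b x (S.Q b v x))) := by
      intro x
      rw [← inner_smul_right, hJ v x (hvT.diff x), inner_add_right, inner_sum, inner_sum,
        Finset.sum_add_distrib]
    rw [← integral_const_mul]
    simp only [h1]
    rw [integral_finsetSum]
    · refine Finset.sum_congr rfl fun b _ => ?_
      rw [integral_add]
      · rw [Q_symm S b _ _ hcu (hMv b)]
      · exact hcu.inner_int (S.contDiff_Q b (hMv b)).continuous
      · exact hcu.inner_int (hMQ b).continuous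
    · intro b _
      exact (hcu.inner_int (S.contDiff_Q b (hMv b)).continuous).add
        (hcu.inner_int (hMQ b).continuous)
  -- first term
  have ht1 : ∀ b, ‖∫ x, inner ℂ (S.Q b (fun y => ((χ y : ℝ) : ℂ) • u y) x)
      (S.MJ k l b x (v x))‖ ≤ (Cb b * (1 + K0 * Gb b)) * (R * (q / δ + δ * a) + e) := by
    intro b
    have hpt : ∀ x, ‖inner ℂ (S.Q b (fun y => ((χ y : ℝ) : ℂ) • u y) x) (S.MJ k l b x (v x))‖ ≤
        Cb b * (R * (‖S.Q b u x‖ ^ 2 / δ + δ * ‖v x‖ ^ 2) +
          K0 * Gb b * (1 / 2 * (wR R ‖x‖ * ‖u x‖ ^ 2 + wR R ‖x‖ * ‖v x‖ ^ 2))) := by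
      intro x
      refine (norm_inner_le_norm _ _).trans ?_
      have h1 : ‖S.MJ k l b x (v x)‖ ≤ Cb b * ‖x‖ * ‖v x‖ :=
        (ContinuousLinearMap.le_opNorm _ _).trans
          (mul_le_mul_of_nonneg_right (hCb b x) (norm_nonneg _))
      have h2 := S.norm_Q_cut hR hχ hu b x
      have h3 := young hδ ‖S.Q b u x‖ ‖v x‖
      have h4 : ‖u x‖ * ‖v x‖ ≤ 1 / 2 * (‖u x‖ ^ 2 + ‖v x‖ ^ 2) := by
        nlinarith [sq_nonneg (‖u x‖ - ‖v x‖)]
      calc ‖S.Q b (fun y => ((χ y : ℝ) : ℂ) • u y) x‖ * ‖S.MJ k l b x (v x)‖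
          ≤ ‖S.Q b (fun y => ((χ y : ℝ) : ℂ) • u y) x‖ * (Cb b * ‖x‖ * ‖v x‖) :=
            mul_le_mul_of_nonneg_left h1 (norm_nonneg _)
        _ = Cb b * ((‖x‖ * ‖S.Q b (fun y => ((χ y : ℝ) : ℂ) • u y) x‖) * ‖v x‖) := by ring
        _ ≤ Cb b * ((2 * R * ‖S.Q b u x‖ + K0 * Gb b * (wR R ‖x‖ * ‖u x‖)) * ‖v x‖) :=
            mul_le_mul_of_nonneg_left (mul_le_mul_of_nonneg_right h2 (norm_nonneg _)) (hCb0 b)
        _ = Cb b * (R * (2 * (‖S.Q b u x‖ * ‖v x‖)) +
              K0 * Gb b * (wR R ‖x‖ * (‖u x‖ * ‖v x‖))) := by ring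
        _ ≤ Cb b * (R * (‖S.Q b u x‖ ^ 2 / δ + δ * ‖v x‖ ^ 2) +
              K0 * Gb b * (wR R ‖x‖ * (1 / 2 * (‖u x‖ ^ 2 + ‖v x‖ ^ 2)))) := by
            refine mul_le_mul_of_nonneg_left (add_le_add (mul_le_mul_of_nonneg_left h3 hR.le)
              (mul_le_mul_of_nonneg_left (mul_le_mul_of_nonneg_left h4 (wR_nonneg _ _))
                (mul_nonneg hK0 (hGb b)))) (hCb0 b)
        _ = _ := by ring
    have i1 : Integrable (fun x => ‖S.Q b u x‖ ^ 2 / δ) := (hu.Q S b).norm_sq_int.div_const δ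
    have i2 : Integrable (fun x => δ * ‖v x‖ ^ 2) := hvT.norm_sq_int.const_mul δ
    have i3 : Integrable (fun x => wR R ‖x‖ * ‖u x‖ ^ 2) := integrable_wR R hu.norm_sq_int
    have i4 : Integrable (fun x => wR R ‖x‖ * ‖v x‖ ^ 2) := integrable_wR R hvT.norm_sq_int
    have i5 : Integrable (fun x => ‖S.Q b u x‖ ^ 2 / δ + δ * ‖v x‖ ^ 2) := i1.add i2
    have i6 : Integrable (fun x => wR R ‖x‖ * ‖u x‖ ^ 2 + wR R ‖x‖ * ‖v x‖ ^ 2) := i3.add i4
    have i7 : Integrable (fun x => K0 * Gb b * (1 / 2 * (wR R ‖x‖ * ‖u x‖ ^ 2 +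
        wR R ‖x‖ * ‖v x‖ ^ 2))) := (i6.const_mul _).const_mul _
    have i8 : Integrable (fun x => R * (‖S.Q b u x‖ ^ 2 / δ + δ * ‖v x‖ ^ 2)) := i5.const_mul _
    refine (norm_integral_le_integral_norm _).trans ?_
    calc ∫ x, ‖inner ℂ (S.Q b (fun y => ((χ y : ℝ) : ℂ) • u y) x) (S.MJ k l b x (v x))‖
        ≤ ∫ x, Cb b * (R * (‖S.Q b u x‖ ^ 2 / δ + δ * ‖v x‖ ^ 2) +
          K0 * Gb b * (1 / 2 * (wR R ‖x‖ * ‖u x‖ ^ 2 + wR R ‖x‖ * ‖v x‖ ^ 2))) :=
          integral_mono ((hcu.Q S b).inner_int (hMv b).continuous).norm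
            ((i8.add i7).const_mul _) hpt
      _ = Cb b * (R * ((∫ x, ‖S.Q b u x‖ ^ 2) / δ + δ * a) + K0 * Gb b * e) := by
          rw [integral_const_mul, integral_add i8 i7, integral_const_mul, integral_const_mul,
            integral_const_mul, integral_add i1 i2, integral_add i3 i4, integral_div,
            integral_const_mul, hva, hve]
          ring
      _ ≤ Cb b * (R * (q / δ + δ * a) + K0 * Gb b * e) := by
          have := hqb b
          have := hCb0 b
          gcongr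
      _ ≤ _ := by
          have h1 : 0 ≤ R * (q / δ + δ * a) := by positivity
          have h2 := hCb0 b
          have h3 := mul_nonneg hK0 (hGb b)
          have h4 : 0 ≤ Cb b * (K0 * Gb b * (R * (q / δ + δ * a)) + e) := by positivity
          nlinarith [h4]
  -- second term
  have ht2 : ∀ b, ‖∫ x, inner ℂ (((χ x : ℝ) : ℂ) • u x) (S.MJ k l b x (S.Q b v x))‖ ≤
      (Cb b * (1 + Cg)) * (R * (q / δ + δ * a) + e) := by
    intro b
    have hpt : ∀ x, ‖inner ℂ (((χ x : ℝ) : ℂ) • u x) (S.MJ k l b x (S.Q b v x))‖ ≤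
        Cb b * (R * (‖S.Q b v x‖ ^ 2 / δ + δ * ‖u x‖ ^ 2)) := by
      intro x
      refine (norm_inner_le_norm _ _).trans ?_
      have h1 : ‖S.MJ k l b x (S.Q b v x)‖ ≤ Cb b * ‖x‖ * ‖S.Q b v x‖ :=
        (ContinuousLinearMap.le_opNorm _ _).trans
          (mul_le_mul_of_nonneg_right (hCb b x) (norm_nonneg _))
      have hχx : χ x * ‖x‖ ≤ 2 * R := by
        by_cases hx : 2 * R ≤ ‖x‖
        · rw [hχout x hx, zero_mul]; positivity
        · push Not at hx
          calc χ x * ‖x‖ ≤ 1 * ‖x‖ := mul_le_mul_of_nonneg_right (hχ1 x) (norm_nonneg _)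
            _ ≤ 2 * R := by linarith
      have h3 := young hδ ‖S.Q b v x‖ ‖u x‖
      rw [norm_smul, Complex.norm_real, Real.norm_of_nonneg (hχ0 x)]
      calc χ x * ‖u x‖ * ‖S.MJ k l b x (S.Q b v x)‖
          ≤ χ x * ‖u x‖ * (Cb b * ‖x‖ * ‖S.Q b v x‖) :=
            mul_le_mul_of_nonneg_left h1 (mul_nonneg (hχ0 x) (norm_nonneg _))
        _ = Cb b * ((χ x * ‖x‖) * (‖S.Q b v x‖ * ‖u x‖)) := by ring
        _ ≤ Cb b * ((2 * R) * (‖S.Q b v x‖ * ‖u x‖)) :=
            mul_le_mul_of_nonneg_left (mul_le_mul_of_nonneg_right hχx (by positivity)) (hCb0 b)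
        _ = Cb b * (R * (2 * (‖S.Q b v x‖ * ‖u x‖))) := by ring
        _ ≤ _ := mul_le_mul_of_nonneg_left (mul_le_mul_of_nonneg_left h3 hR.le) (hCb0 b)
    have i1 : Integrable (fun x => ‖S.Q b v x‖ ^ 2 / δ) := (hvT.Q S b).norm_sq_int.div_const δ
    have i2 : Integrable (fun x => δ * ‖u x‖ ^ 2) := hu.norm_sq_int.const_mul δ
    refine (norm_integral_le_integral_norm _).trans ?_
    calc ∫ x, ‖inner ℂ (((χ x : ℝ) : ℂ) • u x) (S.MJ k l b x (S.Q b v x))‖
        ≤ ∫ x, Cb b * (R * (‖S.Q b v x‖ ^ 2 / δ + δ * ‖u x‖ ^ 2)) :=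
          integral_mono (hcu.inner_int (hMQ b).continuous).norm
            (((i1.add i2).const_mul _).const_mul _) hpt
      _ = Cb b * (R * ((∫ x, ‖S.Q b v x‖ ^ 2) / δ + δ * a)) := by
          rw [integral_const_mul, integral_const_mul, integral_add i1 i2, integral_div,
            integral_const_mul]
      _ ≤ Cb b * (R * (Cg * q / δ + δ * a)) := by
          have h1 := hg t u hu b
          have h2 := hCb0 b
          gcongr
      _ ≤ _ := by
          have h2 := hCb0 b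
          have h4 : 0 ≤ Cb b * (R * (q / δ + Cg * (δ * a)) + (1 + Cg) * e) := by positivity
          have h5 : Cg * q / δ = Cg * (q / δ) := by ring
          rw [h5]
          nlinarith [h4]
  -- conclusion
  have hfin : ‖(112 : ℂ) * ∫ x, inner ℂ (((χ x : ℝ) : ℂ) • u x) (S.J k l v x)‖ ≤
      (∑ b, (Cb b * (1 + K0 * Gb b) + Cb b * (1 + Cg))) * (R * (q / δ + δ * a) + e) := by
    rw [hid, Finset.sum_mul]
    refine (norm_sum_le _ _).trans (Finset.sum_le_sum fun b _ => ?_)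
    refine (norm_add_le _ _).trans ?_
    rw [add_mul]
    exact add_le_add (ht1 b) (ht2 b)
  refine le_trans ?_ hfin
  rw [norm_mul]
  have h112 : ‖(112 : ℂ)‖ = 112 := by norm_num
  rw [h112]
  nlinarith [norm_nonneg (∫ x, inner ℂ (((χ x : ℝ) : ℂ) • u x) (S.J k l v x))]

end Setup

end Vale.Agent.P353.Z
end
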