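import Mathlib
import Vale.Agent.P353.BdZ.B3
import Vale.Agent.P353.BdZ.B2
import Vale.Agent.P353.BdZ.B4
attribute [-instance] ProperSMul.toContinuousSMul IsTopologicalTorsor.toContinuousSMul IdemSemiring.toCanonicallyOrderedAdd IdemSemiring.toMulLeftMono IdemSemiring.toMulRightMono AddQuantale.instAddLeftMono AddQuantale.instAddRightMono Quantale.instMulLeftMono Quantale.instMulRightMono FiniteDimensional.rclike_to_real IsScalarTower.complexToReal FiniteDimensional.complexToReal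

set_option linter.all false

section

/-! # P353, uniqueness: A4, the commutator of `H_m` with the supercharges -/

open MeasureTheory Filter Topology
open scoped ContDiff Matrix

namespace Vale.Agent.P353.Z.U

variable {dc : ℕ}

variable {F : Type*} [NormedAddCommGroup F] [InnerProductSpace ℂ F] (S : Setup dc F)

namespace A4

lemma Qadd {β : Fin 16} {u v : Cfg dc → F} {x : Cfg dc} (hu : DifferentiableAt ℝ u x)
    (hv : DifferentiableAt ℝ v x) :
    S.Q β (fun y => u y + v y) x = S.Q β u x + S.Q β v x := by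
  simp only [Setup.Q, pd_add hu hv, map_add, Finset.sum_add_distrib, smul_add]
  abel

lemma Qsub {β : Fin 16} {u v : Cfg dc → F} {x : Cfg dc} (hu : DifferentiableAt ℝ u x)
    (hv : DifferentiableAt ℝ v x) :
    S.Q β (fun y => u y - v y) x = S.Q β u x - S.Q β v x := by
  simp only [Setup.Q, pd_sub hu hv, map_sub, Finset.sum_sub_distrib, smul_sub]
  abel

lemma pdcs {i : Fin 9} {A : Fin dc} (c : ℂ) {u : Cfg dc → F} {x : Cfg dc}
    (hu : DifferentiableAt ℝ u x) : pd i A (fun y => c • u y) x = c • pd i A u x := by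
  have h := pd_clm (i := i) (A := A) (c • (1 : F →L[ℂ] F)) hu
  simpa using h

lemma Qcs {β : Fin 16} (c : ℂ) {u : Cfg dc → F} {x : Cfg dc} (hu : DifferentiableAt ℝ u x) :
    S.Q β (fun y => c • u y) x = c • S.Q β u x := by
  simp only [Setup.Q, pdcs c hu, map_smul, smul_add, Finset.smul_sum]
  congr 1
  refine Finset.sum_congr rfl fun i _ => Finset.sum_congr rfl fun A _ => ?_
  rw [smul_comm]

lemma g2sq {i j : Fin 9} (h : i ≠ j) : S.g2 i j * S.g2 i j = -1 := by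
  have h1 : S.g2 i j = S.g i * S.g j := by
    unfold CS.g2
    rw [S.g_ac h.symm, sub_neg_eq_add, ← two_smul ℂ, smul_smul]
    norm_num
  rw [h1]
  calc S.g i * S.g j * (S.g i * S.g j) = S.g i * (S.g j * S.g i) * S.g j := by
        simp only [mul_assoc]
    _ = S.g i * -(S.g i * S.g j) * S.g j := by rw [S.g_ac h.symm]
    _ = -(S.g i * S.g i * (S.g j * S.g j)) := by
        simp only [mul_assoc, mul_neg, neg_mul]
    _ = -1 := by rw [S.g_sq', S.g_sq', one_mul]

lemma contDiff_MM (β : Fin 16) : ContDiff ℝ ∞ (S.MM β) := by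
  unfold Setup.MM
  refine ContDiff.sum fun i _ => ContDiff.sum fun A _ => ?_
  exact (Setup.contDiff_ofReal (contDiff_const.mul (Setup.contDiff_coord _))).smul contDiff_const

lemma contDiff_Qm (m : ℝ) (β : Fin 16) {u : (Cfg dc) → F} (hu : ContDiff ℝ ∞ u) :
    ContDiff ℝ ∞ (S.Qm m β u) := by
  unfold Setup.Qm
  exact (S.contDiff_Q β hu).add (contDiff_const.smul
    (Setup.contDiff_clm_apply' (contDiff_MM S β) hu))

lemma contDiff_G (C : Fin dc) {u : (Cfg dc) → F} (hu : ContDiff ℝ ∞ u) : ContDiff ℝ ∞ (S.G C u) := by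
  unfold Setup.G
  refine ContDiff.add (contDiff_const.smul (ContDiff.sum fun i _ => ContDiff.sum fun A _ =>
    ContDiff.sum fun B _ => ?_)) (Setup.contDiff_clm_apply' contDiff_const hu)
  exact (contDiff_const.mul (Setup.contDiff_ofReal (Setup.contDiff_coord _))).smul
    (contDiff_pd hu)

lemma diff {u : (Cfg dc) → F} (hu : ContDiff ℝ ∞ u) (x : (Cfg dc)) : DifferentiableAt ℝ u x :=
  hu.differentiable (by simp) x

lemma Qm_add (m : ℝ) (β : Fin 16) {u v : (Cfg dc) → F} (hu : ContDiff ℝ ∞ u) (hv : ContDiff ℝ ∞ v)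
    (x : (Cfg dc)) : S.Qm m β (fun y => u y + v y) x = S.Qm m β u x + S.Qm m β v x := by
  simp only [Setup.Qm, Qadd S (diff hu x) (diff hv x), map_add, smul_add]
  abel

lemma Qm_sub (m : ℝ) (β : Fin 16) {u v : (Cfg dc) → F} (hu : ContDiff ℝ ∞ u) (hv : ContDiff ℝ ∞ v)
    (x : (Cfg dc)) : S.Qm m β (fun y => u y - v y) x = S.Qm m β u x - S.Qm m β v x := by
  simp only [Setup.Qm, Qsub S (diff hu x) (diff hv x), map_sub, smul_sub]
  abel

lemma Qm_cs (m : ℝ) (β : Fin 16) (c : ℂ) {u : (Cfg dc) → F} (hu : ContDiff ℝ ∞ u) (x : (Cfg dc)) :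
    S.Qm m β (fun y => c • u y) x = c • S.Qm m β u x := by
  simp only [Setup.Qm, Qcs S c (diff hu x), map_smul, smul_add, smul_comm c]

lemma Qm_zero (m : ℝ) (β : Fin 16) (x : (Cfg dc)) : S.Qm m β (fun _ => (0 : F)) x = 0 := by
  have h := Qm_cs S m β 0 (u := fun _ => (0 : F)) contDiff_const x
  simpa using h

lemma Qm_sum {ι : Type*} (s : Finset ι) (m : ℝ) (β : Fin 16) (u : ι → (Cfg dc) → F)
    (hu : ∀ i ∈ s, ContDiff ℝ ∞ (u i)) (x : (Cfg dc)) :
    S.Qm m β (fun y => ∑ i ∈ s, u i y) x = ∑ i ∈ s, S.Qm m β (u i) x := by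
  classical
  induction s using Finset.induction_on with
  | empty => simpa using Qm_zero S m β x
  | insert i s hi ih =>
    have h1 : ∀ i ∈ s, ContDiff ℝ ∞ (u i) := fun j hj => hu j (Finset.mem_insert_of_mem hj)
    have h2 : (fun y => ∑ j ∈ insert i s, u j y) = fun y => u i y + ∑ j ∈ s, u j y := by
      funext y
      rw [Finset.sum_insert hi]
    rw [h2, Qm_add S m β (hu i (Finset.mem_insert_self i s)) (ContDiff.sum h1), ih h1,
      Finset.sum_insert hi]

lemma Qm_coord (m : ℝ) (β : Fin 16) (j : Fin 9) (C : Fin dc) {u : (Cfg dc) → F} (hu : ContDiff ℝ ∞ u)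
    (x : (Cfg dc)) : S.Qm m β (fun y => (y (j, C) : ℂ) • u y) x = (x (j, C) : ℂ) • S.Qm m β u x -
      Complex.I • S.vec (S.g j) C β (u x) := by
  have h1 := Q_smul S β (fun y : (Cfg dc) => y (j, C)) u x
    ((Setup.contDiff_coord (j, C)).differentiable (by simp) x) (diff hu x)
  have h2 : ∀ i A, pdr i A (fun y : (Cfg dc) => y (j, C)) x = if i = j ∧ A = C then 1 else 0 := by
    intro i A
    unfold pdr
    rw [(Setup.hasFDerivAt_coord (j, C) x).fderiv]
    simp [Prod.ext_iff, eq_comm]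
  have h3 : ∑ i, ∑ A, ((pdr i A (fun y : (Cfg dc) => y (j, C)) x : ℝ) : ℂ) •
      S.vec (S.g i) A β (u x) = S.vec (S.g j) C β (u x) := by
    rw [Finset.sum_eq_single j, Finset.sum_eq_single C]
    · rw [h2]; simp
    · intro A _ hA
      rw [h2]; simp [hA]
    · simp
    · intro i _ hi
      refine Finset.sum_eq_zero fun A _ => ?_
      rw [h2]; simp [hi]
    · simp
  rw [h3] at h1
  simp only [Setup.Qm, h1, map_smul, smul_add, smul_comm ((x (j, C) : ℝ) : ℂ)]
  abel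

lemma rc_zero {i j : Fin 9} (h : ¬ (i.val < 3 ↔ j.val < 3)) : rc i j = 0 := by
  unfold rc
  rw [if_neg (by omega), if_neg (by omega)]

lemma sum_rc : ∑ i : Fin 9, ∑ j : Fin 9, (if i = j then (0 : ℂ) else (rc i j : ℂ)) = -18 := by
  have h : ∀ i j : Fin 9, (if i = j then (0 : ℂ) else (rc i j : ℂ)) =
      (((if i = j then 0 else if i.val < 3 ∧ j.val < 3 then 2 else
        if 3 ≤ i.val ∧ 3 ≤ j.val then -1 else 0 : ℤ) : ℤ) : ℂ) := by
    intro i j
    unfold rc
    split_ifs <;> norm_num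
  simp only [h]
  rw [show ((-18 : ℂ)) = (((-18 : ℤ)) : ℂ) by norm_num]
  simp only [← Int.cast_sum]
  congr 1

/-- the matrix identity behind the rotation terms -/
lemma mat_id (i j : Fin 9) : (rc i j : ℂ) • ((S.Gam * S.g2 i j)ᵀ * S.g2 i j) =
    (if i = j then (0 : ℂ) else (rc i j : ℂ)) • (-S.Gam) := by
  by_cases hij : i = j
  · subst hij
    have h0 : S.g2 i i = 0 := by simp [CS.g2]
    rw [h0, if_pos rfl, Matrix.mul_zero, smul_zero, zero_smul]
  · rw [if_neg hij]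
    by_cases hs : (i.val < 3 ↔ j.val < 3)
    · congr 1
      have hS : Same i j := ⟨hij, hs⟩
      rw [Matrix.transpose_mul, S.g2_transpose', S.Gam_transpose, Matrix.neg_mul, Matrix.mul_neg,
        neg_neg, S.Gam_comm_g2 hS, Matrix.mul_assoc, g2sq S hij, Matrix.mul_neg, Matrix.mul_one]
    · rw [rc_zero hs]; simp

end A4

open A4

/-- **A4** `[H_m, Q_α] = -(im/2)(ΓQ)_α - iκ∑_C θ_α^C G_C`. -/
theorem a4 (h1 : A1Stmt S) (h2 : A2Stmt S) (h3 : A3Stmt S) (h7 : A7Stmt S) : A4Stmt S := by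
  intro m a u hu x
  -- smoothness
  have sQ : ∀ β {v : (Cfg dc) → F}, ContDiff ℝ ∞ v → ContDiff ℝ ∞ (S.Qm m β v) :=
    fun β v hv => contDiff_Qm S m β hv
  have sH : ContDiff ℝ ∞ (S.Hm m u) := by
    have e : S.Hm m u = fun y => (1 / 16 : ℂ) • ∑ β, S.Qm m β (S.Qm m β u) y := by
      funext y
      rw [h7 m u hu y, smul_smul]
      norm_num
    rw [e]
    exact contDiff_const.smul (ContDiff.sum fun β _ => sQ β (sQ β hu))
  -- the operator `A_β = {Q_β, Q_a}`
  set A : Fin 16 → ((Cfg dc) → F) → (Cfg dc) → F := fun β v y =>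
    (if β = a then (2 : ℂ) • S.Hm m v y else 0) +
    (m : ℂ) • (∑ i, ∑ j, ((rc i j : ℂ) * (S.Gam * S.g2 i j) β a) • S.J i j v y) +
    (2 * S.κ : ℂ) • ∑ j, ∑ C, (S.g j β a * (y (j, C) : ℂ)) • S.G C v y with hA
  have hAe : ∀ β {v : (Cfg dc) → F}, ContDiff ℝ ∞ v → ∀ y,
      S.Qm m β (S.Qm m a v) y + S.Qm m a (S.Qm m β v) y = A β v y :=
    fun β v hv y => h1 m β a v hv y
  have hAs : ∀ β, ContDiff ℝ ∞ (A β u) := by
    intro β
    have e : A β u = fun y => S.Qm m β (S.Qm m a u) y + S.Qm m a (S.Qm m β u) y := by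
      funext y
      exact (hAe β hu y).symm
    rw [e]
    exact (sQ β (sQ a hu)).add (sQ a (sQ β hu))
  have key : ∀ β, S.Qm m β (S.Qm m β (S.Qm m a u)) x - S.Qm m a (S.Qm m β (S.Qm m β u)) x =
      S.Qm m β (A β u) x - A β (S.Qm m β u) x := by
    intro β
    have e1 : S.Qm m β (S.Qm m a u) = fun y => A β u y - S.Qm m a (S.Qm m β u) y := by
      funext y
      rw [← hAe β hu y]
      abel
    have e2 : S.Qm m β (S.Qm m β (S.Qm m a u)) x = S.Qm m β (A β u) x -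
        S.Qm m β (S.Qm m a (S.Qm m β u)) x := by
      rw [e1, Qm_sub S m β (hAs β) (sQ a (sQ β hu))]
    rw [e2, ← hAe β (sQ β hu) x]
    abel
  -- evaluation of the right side
  have term : ∀ β, S.Qm m β (A β u) x - A β (S.Qm m β u) x =
      (if β = a then (2 : ℂ) • (S.Qm m a (S.Hm m u) x - S.Hm m (S.Qm m a u) x) else 0) +
      (m : ℂ) • (∑ i, ∑ j, ((rc i j : ℂ) * (S.Gam * S.g2 i j) β a) •
        (-(Complex.I / 2) • ∑ γ, S.g2 i j β γ • S.Qm m γ u x)) +
      (2 * S.κ : ℂ) • ∑ j, ∑ C, S.g j β a • (-(Complex.I • S.vec (S.g j) C β (S.G C u x))) := by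
    intro β
    have c1 : ContDiff ℝ ∞ (fun y => (if β = a then (2 : ℂ) • S.Hm m u y else 0)) := by
      split_ifs
      · exact contDiff_const.smul sH
      · exact contDiff_const
    have c2 : ∀ i j, ContDiff ℝ ∞ (fun y => ((rc i j : ℂ) * (S.Gam * S.g2 i j) β a) •
        S.J i j u y) := fun i j => contDiff_const.smul (S.contDiff_J i j hu)
    have c3 : ∀ j C, ContDiff ℝ ∞ (fun y : (Cfg dc) => (S.g j β a * (y (j, C) : ℂ)) • S.G C u y) :=
      fun j C => (contDiff_const.mul (Setup.contDiff_ofReal (Setup.contDiff_coord _))).smul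
        (contDiff_G S C hu)
    have q1 : S.Qm m β (fun y => (if β = a then (2 : ℂ) • S.Hm m u y else 0)) x =
        if β = a then (2 : ℂ) • S.Qm m a (S.Hm m u) x else 0 := by
      by_cases hβ : β = a
      · simp only [if_pos hβ]
        rw [Qm_cs S m β 2 sH, hβ]
      · simp only [if_neg hβ]
        exact Qm_zero S m β x
    have q2 : S.Qm m β (fun y => (m : ℂ) • (∑ i, ∑ j, ((rc i j : ℂ) *
        (S.Gam * S.g2 i j) β a) • S.J i j u y)) x =
        (m : ℂ) • (∑ i, ∑ j, ((rc i j : ℂ) * (S.Gam * S.g2 i j) β a) •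
          S.Qm m β (S.J i j u) x) := by
      rw [Qm_cs S m β _ (ContDiff.sum fun i _ => ContDiff.sum fun j _ => c2 i j),
        Qm_sum S _ m β _ (fun i _ => ContDiff.sum fun j _ => c2 i j)]
      congr 1
      refine Finset.sum_congr rfl fun i _ => ?_
      rw [Qm_sum S _ m β _ (fun j _ => c2 i j)]
      refine Finset.sum_congr rfl fun j _ => ?_
      rw [Qm_cs S m β _ (S.contDiff_J i j hu)]
    have q3 : S.Qm m β (fun y => (2 * S.κ : ℂ) • ∑ j, ∑ C,
        (S.g j β a * (y (j, C) : ℂ)) • S.G C u y) x =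
        (2 * S.κ : ℂ) • ∑ j, ∑ C, S.g j β a • ((x (j, C) : ℂ) • S.Qm m β (S.G C u) x -
          Complex.I • S.vec (S.g j) C β (S.G C u x)) := by
      rw [Qm_cs S m β _ (ContDiff.sum fun j _ => ContDiff.sum fun C _ => c3 j C),
        Qm_sum S _ m β _ (fun j _ => ContDiff.sum fun C _ => c3 j C)]
      congr 1
      refine Finset.sum_congr rfl fun j _ => ?_
      rw [Qm_sum S _ m β _ (fun C _ => c3 j C)]
      refine Finset.sum_congr rfl fun C _ => ?_
      have e : (fun y : (Cfg dc) => (S.g j β a * (y (j, C) : ℂ)) • S.G C u y) =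
          fun y => S.g j β a • ((y (j, C) : ℂ) • S.G C u y) := by
        funext y
        rw [smul_smul]
      have sC : ContDiff ℝ ∞ (fun y : (Cfg dc) => (y (j, C) : ℂ) • S.G C u y) :=
        (Setup.contDiff_ofReal (Setup.contDiff_coord _)).smul (contDiff_G S C hu)
      rw [e]
      exact (Qm_cs S m β (S.g j β a) sC x).trans (by rw [Qm_coord S m β j C (contDiff_G S C hu)])
    have q4 : S.Qm m β (A β u) x =
        (if β = a then (2 : ℂ) • S.Qm m a (S.Hm m u) x else 0) +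
        (m : ℂ) • (∑ i, ∑ j, ((rc i j : ℂ) * (S.Gam * S.g2 i j) β a) •
          S.Qm m β (S.J i j u) x) +
        (2 * S.κ : ℂ) • ∑ j, ∑ C, S.g j β a • ((x (j, C) : ℂ) • S.Qm m β (S.G C u) x -
          Complex.I • S.vec (S.g j) C β (S.G C u x)) := by
      have d2 : ContDiff ℝ ∞ (fun y => (m : ℂ) • (∑ i, ∑ j, ((rc i j : ℂ) *
          (S.Gam * S.g2 i j) β a) • S.J i j u y)) :=
        contDiff_const.smul (ContDiff.sum fun i _ => ContDiff.sum fun j _ => c2 i j)
      have d3 : ContDiff ℝ ∞ (fun y : (Cfg dc) => (2 * S.κ : ℂ) • ∑ j, ∑ C,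
          (S.g j β a * (y (j, C) : ℂ)) • S.G C u y) :=
        contDiff_const.smul (ContDiff.sum fun j _ => ContDiff.sum fun C _ => c3 j C)
      have w1 := Qm_add S m β (c1.add d2) d3 x
      rw [Qm_add S m β c1 d2 x, q1, q2, q3] at w1
      exact w1
    have r2 : ∀ i j, ((rc i j : ℂ) * (S.Gam * S.g2 i j) β a) • S.Qm m β (S.J i j u) x -
        ((rc i j : ℂ) * (S.Gam * S.g2 i j) β a) • S.J i j (S.Qm m β u) x =
        ((rc i j : ℂ) * (S.Gam * S.g2 i j) β a) •
          (-(Complex.I / 2) • ∑ γ, S.g2 i j β γ • S.Qm m γ u x) := by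
      intro i j
      by_cases hs : Same i j
      · rw [← smul_sub, neg_smul, ← h2 m i j hs β u hu x, neg_sub]
      · have hz : (rc i j : ℂ) * (S.Gam * S.g2 i j) β a = 0 := by
          by_cases hij : i = j
          · subst hij
            have h0 : S.g2 i i = 0 := by simp [CS.g2]
            rw [h0]; simp
          · rw [rc_zero (fun hh => hs ⟨hij, hh⟩)]; simp
        rw [hz]; simp
    have r3 : ∀ j C, S.g j β a • ((x (j, C) : ℂ) • S.Qm m β (S.G C u) x -
          Complex.I • S.vec (S.g j) C β (S.G C u x)) -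
        (S.g j β a * (x (j, C) : ℂ)) • S.G C (S.Qm m β u) x =
        S.g j β a • (-(Complex.I • S.vec (S.g j) C β (S.G C u x))) := by
      intro j C
      rw [h3 m C β u hu x, mul_smul, smul_sub, smul_neg]
      abel
    rw [q4]
    simp only [hA]
    rw [show ∀ p q r p' q' r' : F, p + q + r - (p' + q' + r') = (p - p') + (q - q') + (r - r') from
      fun p q r p' q' r' => by abel]
    rw [← smul_sub, ← smul_sub]
    simp only [← Finset.sum_sub_distrib, r2, r3]
    congr 2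
    by_cases hβ : β = a
    · rw [if_pos hβ, if_pos hβ, if_pos hβ, smul_sub, hβ]
    · rw [if_neg hβ, if_neg hβ, if_neg hβ, sub_zero]
  -- summation over `β`
  have hsum : (16 : ℂ) • (S.Hm m (S.Qm m a u) x - S.Qm m a (S.Hm m u) x) =
      ∑ β, (S.Qm m β (S.Qm m β (S.Qm m a u)) x - S.Qm m a (S.Qm m β (S.Qm m β u)) x) := by
    rw [Finset.sum_sub_distrib, h7 m (S.Qm m a u) (sQ a hu) x, smul_sub,
      ← Qm_cs S m a 16 sH, ← Qm_sum S _ m a _ (fun β _ => sQ β (sQ β hu))]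
    congr 2
    funext y
    exact (h7 m u hu y).symm
  have t2 : ∑ β, (∑ i, ∑ j, ((rc i j : ℂ) * (S.Gam * S.g2 i j) β a) •
        (-(Complex.I / 2) • ∑ γ, S.g2 i j β γ • S.Qm m γ u x)) =
      (-9 * Complex.I) • ∑ γ, S.Gam a γ • S.Qm m γ u x := by
    have e1 : ∀ i j, ∑ β, ((rc i j : ℂ) * (S.Gam * S.g2 i j) β a) •
        (-(Complex.I / 2) • ∑ γ, S.g2 i j β γ • S.Qm m γ u x) =
        (if i = j then (0 : ℂ) else (rc i j : ℂ)) • ((Complex.I / 2) •
          ∑ γ, S.Gam a γ • S.Qm m γ u x) := by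
      intro i j
      have e2 : ∀ γ, ((rc i j : ℂ) • ((S.Gam * S.g2 i j)ᵀ * S.g2 i j)) a γ =
          ((if i = j then (0 : ℂ) else (rc i j : ℂ)) • (-S.Gam)) a γ := by
        intro γ; rw [mat_id]
      simp only [Matrix.smul_apply, Matrix.mul_apply, Matrix.transpose_apply, Matrix.neg_apply,
        smul_eq_mul] at e2
      simp only [Finset.smul_sum, smul_smul]
      rw [Finset.sum_comm]
      refine Finset.sum_congr rfl fun γ _ => ?_
      rw [← Finset.sum_smul]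
      congr 1
      have e3 := e2 γ
      simp only [Matrix.mul_apply] at e3 ⊢
      calc ∑ β, (rc i j : ℂ) * (∑ k, S.Gam β k * S.g2 i j k a) * (-(Complex.I / 2) * S.g2 i j β γ)
          = -(Complex.I / 2) * ((rc i j : ℂ) * ∑ β, (∑ k, S.Gam β k * S.g2 i j k a) *
              S.g2 i j β γ) := by
            rw [Finset.mul_sum, Finset.mul_sum]
            refine Finset.sum_congr rfl fun β _ => ?_
            ring
        _ = _ := by
            rw [e3]; ring
    rw [Finset.sum_comm]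
    have e4 : ∀ i, ∑ β, ∑ j, ((rc i j : ℂ) * (S.Gam * S.g2 i j) β a) •
        (-(Complex.I / 2) • ∑ γ, S.g2 i j β γ • S.Qm m γ u x) =
        ∑ j, (if i = j then (0 : ℂ) else (rc i j : ℂ)) • ((Complex.I / 2) •
          ∑ γ, S.Gam a γ • S.Qm m γ u x) := by
      intro i
      rw [Finset.sum_comm]
      exact Finset.sum_congr rfl fun j _ => e1 i j
    rw [Finset.sum_congr rfl fun i _ => e4 i]
    simp only [← Finset.sum_smul]
    rw [sum_rc, smul_smul]
    congr 1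
    ring
  have t3 : ∑ β, (∑ j, ∑ C, S.g j β a • (-(Complex.I • S.vec (S.g j) C β (S.G C u x)))) =
      (-9 * Complex.I) • ∑ C, S.th a C (S.G C u x) := by
    have e1 : ∀ j C, ∑ β, S.g j β a • (-(Complex.I • S.vec (S.g j) C β (S.G C u x))) =
        (-Complex.I) • S.th a C (S.G C u x) := by
      intro j C
      have e2 := S.vec_mul (S.g j) (S.g j) C a
      rw [S.g_sqE, S.vec_one] at e2
      rw [e2]
      simp only [_root_.sum_apply, _root_.smul_apply, Finset.smul_sum]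
      refine Finset.sum_congr rfl fun β _ => ?_
      have e3 : S.g j β a = S.g j a β := by
        conv_lhs => rw [← S.g_symm j]
        rfl
      rw [e3, smul_neg, neg_smul, smul_comm]
    rw [Finset.sum_comm]
    have e4 : ∀ j, ∑ β, ∑ C, S.g j β a • (-(Complex.I • S.vec (S.g j) C β (S.G C u x))) =
        ∑ C, (-Complex.I) • S.th a C (S.G C u x) := by
      intro j
      rw [Finset.sum_comm]
      exact Finset.sum_congr rfl fun C _ => e1 j C
    rw [Finset.sum_congr rfl fun j _ => e4 j, ← Finset.smul_sum, Finset.sum_const,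
      Finset.card_univ, Fintype.card_fin, ← Nat.cast_smul_eq_nsmul ℂ, smul_smul]
    congr 1
    push_cast
    ring
  have tot : (16 : ℂ) • (S.Hm m (S.Qm m a u) x - S.Qm m a (S.Hm m u) x) =
      (2 : ℂ) • (S.Qm m a (S.Hm m u) x - S.Hm m (S.Qm m a u) x) +
      (m : ℂ) • ((-9 * Complex.I) • ∑ γ, S.Gam a γ • S.Qm m γ u x) +
      (2 * S.κ : ℂ) • ((-9 * Complex.I) • ∑ C, S.th a C (S.G C u x)) := by
    rw [hsum, Finset.sum_congr rfl fun β _ => (key β).trans (term β), Finset.sum_add_distrib,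
      Finset.sum_add_distrib, Finset.sum_ite_eq' Finset.univ a, if_pos (Finset.mem_univ a),
      ← Finset.smul_sum, ← Finset.smul_sum, t2, t3]
  set D := S.Hm m (S.Qm m a u) x - S.Qm m a (S.Hm m u) x with hD
  have hD' : S.Qm m a (S.Hm m u) x - S.Hm m (S.Qm m a u) x = -D := by rw [hD]; abel
  rw [hD'] at tot
  have h18 : (18 : ℂ) • D = (m : ℂ) • ((-9 * Complex.I) • ∑ γ, S.Gam a γ • S.Qm m γ u x) +
      (2 * S.κ : ℂ) • ((-9 * Complex.I) • ∑ C, S.th a C (S.G C u x)) := by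
    have : (18 : ℂ) • D = (16 : ℂ) • D + (2 : ℂ) • D := by rw [← add_smul]; norm_num
    rw [this, tot, smul_neg]
    abel
  have hfin : D = (1 / 18 : ℂ) • ((18 : ℂ) • D) := by rw [smul_smul]; norm_num
  rw [hfin, h18, smul_add, smul_smul, smul_smul, smul_smul, smul_smul, sub_eq_add_neg, ← neg_smul]
  congr 2 <;> ring

end Vale.Agent.P353.Z.U
end

section

/-! # P353, general `N`: coercivity of the BMN potential (C-Coe) -/

open MeasureTheory Filter Topology
open scoped ContDiff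

namespace Vale.Agent.P353.Z.U

/-! ## abstract part: an invariant bracket on a Euclidean space -/

/-- a bilinear bracket that is antisymmetric, invariant and satisfies the Jacobi identity -/
structure CoeBr (E : Type*) [NormedAddCommGroup E] [InnerProductSpace ℝ E] where
  br : E →ₗ[ℝ] E →ₗ[ℝ] E
  swap : ∀ a b, br a b = - br b a
  inv : ∀ a b c, inner ℝ (br a b) c = inner ℝ a (br b c)
  jac : ∀ a b c, br a (br b c) = br (br a b) c + br b (br a c)
  K : ℝ
  K_nonneg : 0 ≤ K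
  bd : ∀ a b, ‖br a b‖ ≤ K * ‖a‖ * ‖b‖

variable {E : Type*} [NormedAddCommGroup E] [InnerProductSpace ℝ E]

theorem coe_lower [FiniteDimensional ℝ E] (D : Fin 3 → E →ₗ[ℝ] E) :
    ∃ c : ℝ, 0 < c ∧ ∀ v : E, (∀ z : E, (∀ i, D i z = 0) → inner ℝ z v = 0) →
      c * ‖v‖ ^ 2 ≤ ∑ i, ‖D i v‖ ^ 2 := by
  obtain ⟨Z, hZ⟩ : ∃ Z : Submodule ℝ E, Z = ⨅ i, LinearMap.ker (D i) := ⟨_, rfl⟩
  have hZm : ∀ z, z ∈ Z ↔ ∀ i, D i z = 0 := by
    intro z
    rw [hZ, Submodule.mem_iInf]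
    exact forall_congr' fun i => LinearMap.mem_ker
  let T : Zᗮ →ₗ[ℝ] (Fin 3 → E) := (LinearMap.pi D).domRestrict Zᗮ
  have hT : LinearMap.ker T = ⊥ := by
    rw [LinearMap.ker_eq_bot']
    rintro ⟨v, hv⟩ h
    have h1 : v ∈ Z := by
      rw [hZm]
      intro i
      exact congrFun h i
    have h2 : inner ℝ v v = 0 := (Submodule.mem_orthogonal Z v).1 hv v h1
    exact Subtype.ext (inner_self_eq_zero.1 h2)
  obtain ⟨K, hK, hA⟩ := T.exists_antilipschitzWith hT
  have hK' : (0 : ℝ) < K := hK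
  refine ⟨((K : ℝ) ^ 2)⁻¹, by positivity, fun v hv => ?_⟩
  have hvZ : v ∈ Zᗮ := by
    rw [Submodule.mem_orthogonal]
    intro z hz
    exact hv z ((hZm z).1 hz)
  have h1 : ‖v‖ ≤ K * ‖fun i => D i v‖ := by
    have h2 := hA.le_mul_dist (⟨v, hvZ⟩ : Zᗮ) 0
    rw [map_zero, dist_zero_right, dist_zero_right] at h2
    exact h2
  have h3 : ‖fun i => D i v‖ ^ 2 ≤ ∑ i, ‖D i v‖ ^ 2 := by
    have h4 : ‖fun i => D i v‖ ≤ Real.sqrt (∑ i, ‖D i v‖ ^ 2) := by
      rw [pi_norm_le_iff_of_nonneg (Real.sqrt_nonneg _)]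
      intro i
      refine Real.le_sqrt_of_sq_le ?_
      exact Finset.single_le_sum (f := fun i => ‖D i v‖ ^ 2) (fun j _ => sq_nonneg _)
        (Finset.mem_univ i)
    calc ‖fun i => D i v‖ ^ 2 ≤ Real.sqrt (∑ i, ‖D i v‖ ^ 2) ^ 2 := by gcongr
      _ = _ := Real.sq_sqrt (Finset.sum_nonneg fun i _ => sq_nonneg _)
  rw [inv_mul_le_iff₀ (by positivity)]
  calc ‖v‖ ^ 2 ≤ ((K : ℝ) * ‖fun i => D i v‖) ^ 2 := by gcongr
    _ = (K : ℝ) ^ 2 * ‖fun i => D i v‖ ^ 2 := by ring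
    _ ≤ (K : ℝ) ^ 2 * ∑ i, ‖D i v‖ ^ 2 := by gcongr

theorem coe_decomp [FiniteDimensional ℝ E] (D : Fin 3 → E →ₗ[ℝ] E) (e : E) :
    ∃ p q : E, e = p + q ∧ (∀ i, D i p = 0) ∧ (∀ z : E, (∀ i, D i z = 0) → inner ℝ z q = 0) ∧
      ‖p‖ ≤ ‖e‖ ∧ ‖q‖ ≤ ‖e‖ := by
  obtain ⟨Z, hZ⟩ : ∃ Z : Submodule ℝ E, Z = ⨅ i, LinearMap.ker (D i) := ⟨_, rfl⟩
  have hZm : ∀ z, z ∈ Z ↔ ∀ i, D i z = 0 := by
    intro z
    rw [hZ, Submodule.mem_iInf]
    exact forall_congr' fun i => LinearMap.mem_ker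
  obtain ⟨p, hp, q, hq, he⟩ := Z.exists_add_mem_mem_orthogonal e
  have hpq : inner ℝ p q = 0 := (Submodule.mem_orthogonal Z q).1 hq p hp
  have h1 : ‖e‖ ^ 2 = ‖p‖ ^ 2 + ‖q‖ ^ 2 := by
    rw [he, norm_add_sq_real, hpq]
    ring
  refine ⟨p, q, he, (hZm p).1 hp, fun z hz => ?_, ?_, ?_⟩
  · exact (Submodule.mem_orthogonal Z q).1 hq z ((hZm z).2 hz)
  · refine le_of_sq_le_sq ?_ (norm_nonneg _)
    nlinarith [sq_nonneg ‖q‖]
  · refine le_of_sq_le_sq ?_ (norm_nonneg _)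
    nlinarith [sq_nonneg ‖p‖]

namespace CoeBr

variable (b : CoeBr E)

theorem coe_al (a a' c : E) : b.br (a + a') c = b.br a c + b.br a' c := by
  rw [map_add, LinearMap.add_apply]

theorem coe_self (a : E) : b.br a a = 0 := by
  have h := b.swap a a
  have h2 : (2 : ℝ) • b.br a a = 0 := by
    rw [two_smul]
    nth_rewrite 2 [h]
    exact add_neg_cancel _
  exact (smul_eq_zero.1 h2).resolve_left two_ne_zero

/-- `⟨[a,b],c⟩ = -⟨b,[a,c]⟩` -/
theorem coe_anti (a v w : E) : inner ℝ (b.br a v) w = - inner ℝ v (b.br a w) := by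
  rw [b.swap a v, inner_neg_left, b.inv]

theorem coe_comm {a a' : E} (h : b.br a a' = 0) (v : E) :
    b.br a (b.br a' v) = b.br a' (b.br a v) := by
  rw [b.jac a a' v, h, map_zero, LinearMap.zero_apply, zero_add]

/-- the square identity for commuting antisymmetric operators -/
theorem coe_square {y : Fin 3 → E} (hy : ∀ i j, b.br (y i) (y j) = 0) {e : Fin 3 → E}
    (he : ∑ i, b.br (y i) (e i) = 0) :
    ∑ i, ∑ j, ‖b.br (y i) (e j)‖ ^ 2 =
      ∑ k, ‖b.br (y (k + 1)) (e (k + 2)) - b.br (y (k + 2)) (e (k + 1))‖ ^ 2 := by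
  have h1 : ∀ i j, inner ℝ (b.br (y i) (e j)) (b.br (y j) (e i)) =
      inner ℝ (b.br (y j) (e j)) (b.br (y i) (e i)) := by
    intro i j
    rw [b.coe_anti (y i) (e j), b.coe_anti (y j) (e j), b.coe_comm (hy i j)]
  have h2 : ‖∑ i, b.br (y i) (e i)‖ ^ 2 = 0 := by rw [he]; simp
  rw [← real_inner_self_eq_norm_sq, Fin.sum_univ_three] at h2
  simp only [inner_add_left, inner_add_right] at h2
  rw [Fin.sum_univ_three, Fin.sum_univ_three, Fin.sum_univ_three, Fin.sum_univ_three,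
    Fin.sum_univ_three]
  have e0 : (0 + 1 : Fin 3) = 1 := rfl
  have e1 : (0 + 2 : Fin 3) = 2 := rfl
  have e2 : (1 + 1 : Fin 3) = 2 := rfl
  have e3 : (1 + 2 : Fin 3) = 0 := rfl
  have e4 : (2 + 1 : Fin 3) = 0 := rfl
  have e5 : (2 + 2 : Fin 3) = 1 := rfl
  rw [e0, e1, e2, e3, e4, e5]
  rw [norm_sub_sq_real, norm_sub_sq_real, norm_sub_sq_real]
  simp only [← real_inner_self_eq_norm_sq]
  have a1 := h1 1 2
  have a2 := h1 2 0
  have a3 := h1 0 1
  have b1 := real_inner_comm (b.br (y 0) (e 0)) (b.br (y 1) (e 1))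
  have b2 := real_inner_comm (b.br (y 0) (e 0)) (b.br (y 2) (e 2))
  have b3 := real_inner_comm (b.br (y 1) (e 1)) (b.br (y 2) (e 2))
  linarith

/-- the common kernel of the `ad y_i` is closed under the bracket -/
theorem coe_ker {a p p' : E} (h : b.br a p = 0) (h' : b.br a p' = 0) :
    b.br a (b.br p p') = 0 := by
  rw [b.jac, h, h', map_zero, LinearMap.zero_apply, map_zero, add_zero]

/-- elements of the image of `ad y` are orthogonal to the kernel -/
theorem coe_orth {a z : E} (h : b.br a z = 0) (v : E) : inner ℝ z (b.br a v) = 0 := by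
  rw [real_inner_comm, b.coe_anti, h, inner_zero_right, neg_zero]

/-- the key estimate of the transversal component -/
theorem coe_R {y e : Fin 3 → E} {p q : Fin 3 → E} (hy : ∀ i j, b.br (y i) (y j) = 0)
    (hpq : ∀ i, e i = p i + q i) (hp : ∀ j i, b.br (y i) (p j) = 0)
    {δ Q s : ℝ} (hδ : 0 ≤ δ) (hQ : 0 ≤ Q) (hs : 0 < s)
    (hpn : ∀ i, ‖p i‖ ≤ δ) (hqn : ∀ i, ‖q i‖ ≤ δ) (hqQ : ∀ i, ‖q i‖ ≤ Q) (k : Fin 3)
    (hG : ‖s • b.br (y (k + 1) + e (k + 1)) (y (k + 2) + e (k + 2)) +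
      (2 : ℝ) • (y k + e k)‖ ≤ 1 / 4) :
    ‖b.br (y (k + 1)) (e (k + 2)) - b.br (y (k + 2)) (e (k + 1))‖ ≤
      s⁻¹ * (1 / 4 + 2 * Q) + 3 * b.K * δ * Q := by
  obtain ⟨G, hGd⟩ : ∃ G, G = s • b.br (y (k + 1) + e (k + 1)) (y (k + 2) + e (k + 2)) +
      (2 : ℝ) • (y k + e k) := ⟨_, rfl⟩
  rw [← hGd] at hG
  obtain ⟨R, hR⟩ : ∃ R, R = b.br (y (k + 1)) (e (k + 2)) - b.br (y (k + 2)) (e (k + 1)) :=
    ⟨_, rfl⟩
  rw [← hR]
  obtain ⟨i, hi⟩ : ∃ i, i = k + 1 := ⟨_, rfl⟩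
  obtain ⟨j, hj⟩ : ∃ j, j = k + 2 := ⟨_, rfl⟩
  rw [← hi, ← hj] at hGd hR
  have hRz : ∀ z, (∀ i, b.br (y i) z = 0) → inner ℝ R z = 0 := by
    intro z hz
    rw [hR, inner_sub_left, real_inner_comm, b.coe_orth (hz i), real_inner_comm,
      b.coe_orth (hz j), sub_zero]
  have h1 : b.br (y i + e i) (y j + e j) = R + b.br (e i) (e j) := by
    rw [b.coe_al, map_add, map_add, hy i j, hR, b.swap (e i) (y j)]
    abel
  have h2 : R = s⁻¹ • (G - (2 : ℝ) • (y k + e k)) - b.br (e i) (e j) := by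
    rw [hGd, add_sub_cancel_right, smul_smul, inv_mul_cancel₀ hs.ne', one_smul, h1,
      add_sub_cancel_right]
  -- the inner product with `R`
  have h3 : inner ℝ R (y k + e k) = inner ℝ R (q k) := by
    rw [hpq k, ← add_assoc, inner_add_right, hRz (y k + p k), zero_add]
    intro i
    rw [map_add, hy i k, hp k i, add_zero]
  have h4 : inner ℝ R (b.br (e i) (e j)) =
      inner ℝ R (b.br (p i) (q j)) + inner ℝ R (b.br (q i) (p j)) +
        inner ℝ R (b.br (q i) (q j)) := by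
    rw [hpq i, hpq j, b.coe_al, map_add, map_add, inner_add_right,
      inner_add_right, inner_add_right, hRz (b.br (p i) (p j))]
    · ring
    · intro l
      exact b.coe_ker (hp i l) (hp j l)
  have h5 : ‖R‖ ^ 2 = s⁻¹ * (inner ℝ R G - 2 * inner ℝ R (q k)) -
      (inner ℝ R (b.br (p i) (q j)) + inner ℝ R (b.br (q i) (p j)) +
        inner ℝ R (b.br (q i) (q j))) := by
    rw [← real_inner_self_eq_norm_sq]
    nth_rewrite 2 [h2]
    rw [inner_sub_right, inner_smul_right, inner_sub_right, inner_smul_right, h3, h4]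
  have c1 : inner ℝ R G ≤ ‖R‖ * (1 / 4) :=
    (real_inner_le_norm _ _).trans (mul_le_mul_of_nonneg_left hG (norm_nonneg _))
  have c2 : -inner ℝ R (q k) ≤ ‖R‖ * Q := by
    have := neg_le_of_abs_le (abs_real_inner_le_norm R (q k))
    have h := mul_le_mul_of_nonneg_left (hqQ k) (norm_nonneg R)
    linarith
  have c3 : ∀ v w : E, ‖v‖ * ‖w‖ ≤ δ * Q → -inner ℝ R (b.br v w) ≤ ‖R‖ * (b.K * (δ * Q)) := by
    intro v w hvw
    have h6 := neg_le_of_abs_le (abs_real_inner_le_norm R (b.br v w))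
    have h7 : ‖b.br v w‖ ≤ b.K * (δ * Q) := by
      refine (b.bd v w).trans ?_
      rw [mul_assoc]
      exact mul_le_mul_of_nonneg_left hvw b.K_nonneg
    have h := mul_le_mul_of_nonneg_left h7 (norm_nonneg R)
    linarith
  have d1 := c3 (p i) (q j) (mul_le_mul (hpn i) (hqQ j) (norm_nonneg _) hδ)
  have d2 := c3 (q i) (p j) (by
    rw [mul_comm]
    exact mul_le_mul (hpn j) (hqQ i) (norm_nonneg _) hδ)
  have d3 := c3 (q i) (q j) (mul_le_mul (hqn i) (hqQ j) (norm_nonneg _) hδ)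
  have hs' : 0 < s⁻¹ := inv_pos.mpr hs
  have h8 : s⁻¹ * (inner ℝ R G - 2 * inner ℝ R (q k)) ≤ s⁻¹ * (‖R‖ * (1 / 4) + 2 * (‖R‖ * Q)) :=
    mul_le_mul_of_nonneg_left (by linarith) hs'.le
  have h9 : ‖R‖ ^ 2 ≤ ‖R‖ * (s⁻¹ * (1 / 4 + 2 * Q) + 3 * b.K * δ * Q) := by
    rw [h5]
    nlinarith
  rcases (norm_nonneg R).eq_or_lt with h0 | h0
  · rw [← h0]
    have := b.K_nonneg
    positivity
  · rw [sq] at h9
    exact le_of_mul_le_mul_left h9 h0

/-- the local statement near a commuting triple `y` with `|y| = 1` -/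
theorem coe_local [FiniteDimensional ℝ E] {κ : ℝ} (hκ : 0 < κ) {y : Fin 3 → E}
    (hy : ∀ i j, b.br (y i) (y j) = 0) (hy1 : ∑ i, ‖y i‖ ^ 2 = 1) :
    ∃ δ R : ℝ, 0 < δ ∧ ∀ e : Fin 3 → E, (∀ i, ‖e i‖ ≤ δ) → ∑ i, b.br (y i) (e i) = 0 →
      ∀ r, R ≤ r → ∃ k, 1 / 4 < ‖(κ * r) • b.br (y (k + 1) + e (k + 1)) (y (k + 2) + e (k + 2)) +
        (2 : ℝ) • (y k + e k)‖ := by
  obtain ⟨c, hc, hcl⟩ := coe_lower (fun i => b.br (y i))
  have hK := b.K_nonneg
  obtain ⟨a, ha⟩ : ∃ a, a = Real.sqrt c := ⟨_, rfl⟩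
  have ha0 : 0 < a := by rw [ha]; exact Real.sqrt_pos.2 hc
  have ha2 : a ^ 2 = c := by rw [ha]; exact Real.sq_sqrt hc.le
  refine ⟨min (1 / 24) (a / (24 * (b.K + 1))), (16 / a + 16 * b.K / c + 1) / κ, ?_,
    fun e he hperp r hr => ?_⟩
  · exact lt_min (by norm_num) (by positivity)
  by_contra hcon
  push Not at hcon
  obtain ⟨δ, hδd⟩ : ∃ δ, δ = min (1 / 24) (a / (24 * (b.K + 1))) := ⟨_, rfl⟩
  rw [← hδd] at he
  have hδ0 : 0 < δ := by rw [hδd]; exact lt_min (by norm_num) (by positivity)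
  have hδ1 : δ ≤ 1 / 24 := by rw [hδd]; exact min_le_left _ _
  have hδ2 : b.K * δ ≤ a / 24 := by
    have h1 : δ ≤ a / (24 * (b.K + 1)) := by rw [hδd]; exact min_le_right _ _
    rw [le_div_iff₀ (by positivity)] at h1
    nlinarith
  obtain ⟨s, hs⟩ : ∃ s, s = κ * r := ⟨_, rfl⟩
  have hsl : 16 / a + 16 * b.K / c + 1 ≤ s := by
    rw [div_le_iff₀ hκ] at hr
    rw [hs]
    linarith
  have hs0 : 0 < s := by
    have : 0 < 16 / a + 16 * b.K / c + 1 := by positivity
    linarith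
  have hsa : 16 ≤ s * a := by
    have h1 : 16 / a ≤ s := by
      have : 0 ≤ 16 * b.K / c := by positivity
      linarith
    rwa [div_le_iff₀ ha0] at h1
  have hsK : 16 * b.K ≤ s * c := by
    have h1 : 16 * b.K / c ≤ s := by
      have : 0 ≤ 16 / a := by positivity
      linarith
    rwa [div_le_iff₀ hc] at h1
  choose p q hpq hp hq hpn hqn using fun i => coe_decomp (fun i => b.br (y i)) (e i)
  obtain ⟨Q, hQ⟩ : ∃ Q, Q = Real.sqrt (∑ i, ‖q i‖ ^ 2) := ⟨_, rfl⟩
  have hQ0 : 0 ≤ Q := by rw [hQ]; exact Real.sqrt_nonneg _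
  have hQ2 : Q ^ 2 = ∑ i, ‖q i‖ ^ 2 := by
    rw [hQ]
    exact Real.sq_sqrt (Finset.sum_nonneg fun i _ => sq_nonneg _)
  have hqQ : ∀ i, ‖q i‖ ≤ Q := by
    intro i
    refine le_of_sq_le_sq ?_ hQ0
    rw [hQ2]
    exact Finset.single_le_sum (f := fun i => ‖q i‖ ^ 2) (fun j _ => sq_nonneg _)
      (Finset.mem_univ i)
  obtain ⟨B, hB⟩ : ∃ B, B = s⁻¹ * (1 / 4 + 2 * Q) + 3 * b.K * δ * Q := ⟨_, rfl⟩
  have hB0 : 0 ≤ B := by
    have := inv_pos.mpr hs0
    rw [hB]
    positivity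
  have hR : ∀ k, ‖b.br (y (k + 1)) (e (k + 2)) - b.br (y (k + 2)) (e (k + 1))‖ ≤ B := by
    intro k
    rw [hB]
    refine b.coe_R hy hpq hp hδ0.le hQ0 hs0 (fun i => (hpn i).trans (he i))
      (fun i => (hqn i).trans (he i)) hqQ k ?_
    rw [hs]
    exact hcon k
  -- lower bound
  have h1 : c * Q ^ 2 ≤ 3 * B ^ 2 := by
    have h2 : c * Q ^ 2 ≤ ∑ i, ∑ j, ‖b.br (y i) (e j)‖ ^ 2 := by
      rw [hQ2, Finset.mul_sum, Finset.sum_comm]
      refine Finset.sum_le_sum fun j _ => ?_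
      refine (hcl (q j) (hq j)).trans (le_of_eq ?_)
      refine Finset.sum_congr rfl fun i _ => ?_
      have h3 : b.br (y i) (p j) = 0 := hp j i
      rw [hpq j, map_add, h3, zero_add]
    rw [b.coe_square hy hperp] at h2
    refine h2.trans ?_
    calc ∑ k, ‖b.br (y (k + 1)) (e (k + 2)) - b.br (y (k + 2)) (e (k + 1))‖ ^ 2
        ≤ ∑ _k : Fin 3, B ^ 2 := by
          refine Finset.sum_le_sum fun k _ => ?_
          have := hR k
          gcongr
      _ = 3 * B ^ 2 := by simp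
  have h2 : a * Q ≤ 2 * B := by
    refine le_of_sq_le_sq ?_ (by positivity)
    rw [mul_pow, ha2]
    nlinarith [sq_nonneg B]
  -- `Q ≤ 1 / (s a)`
  have h3 : s * (a * Q) ≤ 1 := by
    have h4 : s * B = 1 / 4 + 2 * Q + 3 * (b.K * δ) * (s * Q) := by
      rw [hB, mul_add, ← mul_assoc s s⁻¹, mul_inv_cancel₀ hs0.ne']
      ring
    have h5 : 3 * (b.K * δ) * (s * Q) ≤ 3 * (a / 24) * (s * Q) := by gcongr
    have h6 : 16 * Q ≤ s * a * Q := by gcongr
    have h7 := mul_le_mul_of_nonneg_left h2 hs0.le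
    nlinarith
  -- the final contradiction
  have h4 : ∀ k, 2 * inner ℝ (y k + e k) (y k) ≤ 1 / 4 * ‖y k‖ + s * (b.K * Q ^ 2 * ‖y k‖) := by
    intro k
    obtain ⟨G, hGd⟩ : ∃ G, G = s • b.br (y (k + 1) + e (k + 1)) (y (k + 2) + e (k + 2)) +
      (2 : ℝ) • (y k + e k) := ⟨_, rfl⟩
    have hG : ‖G‖ ≤ 1 / 4 := by
      rw [hGd, hs]
      exact hcon k
    obtain ⟨i, hi⟩ : ∃ i, i = k + 1 := ⟨_, rfl⟩
    obtain ⟨j, hj⟩ : ∃ j, j = k + 2 := ⟨_, rfl⟩
    rw [← hi, ← hj] at hGd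
    have z1 : inner ℝ (b.br (y i + e i) (y j + e j)) (y k) =
        inner ℝ (b.br (q i) (q j)) (y k) := by
      have z2 : ∀ v w : E, b.br (y k) v = 0 → inner ℝ (b.br v w) (y k) = 0 := by
        intro v w hv
        rw [b.inv, b.swap w (y k), inner_neg_right, ← b.inv, b.swap v (y k), hv, neg_zero,
          inner_zero_left, neg_zero]
      have z3 : ∀ v w : E, b.br (y k) w = 0 → inner ℝ (b.br v w) (y k) = 0 := by
        intro v w hw
        rw [b.inv, b.swap w (y k), hw, neg_zero, inner_zero_right]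
      have z4 : b.br (y k) (y i + p i) = 0 := by
        have : b.br (y k) (p i) = 0 := hp i k
        rw [map_add, hy, this, add_zero]
      have z5 : b.br (y k) (y j + p j) = 0 := by
        have : b.br (y k) (p j) = 0 := hp j k
        rw [map_add, hy, this, add_zero]
      rw [hpq i, hpq j, ← add_assoc, ← add_assoc, b.coe_al, inner_add_left, z2 _ _ z4, zero_add,
        map_add, inner_add_left, z3 _ _ z5, zero_add]
    have z6 : inner ℝ G (y k) = s * inner ℝ (b.br (q i) (q j)) (y k) +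
        2 * inner ℝ (y k + e k) (y k) := by
      rw [hGd, inner_add_left, real_inner_smul_left, real_inner_smul_left, z1]
    have z7 : inner ℝ G (y k) ≤ 1 / 4 * ‖y k‖ :=
      (real_inner_le_norm _ _).trans (mul_le_mul_of_nonneg_right hG (norm_nonneg _))
    have z8 : -inner ℝ (b.br (q i) (q j)) (y k) ≤ b.K * Q ^ 2 * ‖y k‖ := by
      have h5 := neg_le_of_abs_le (abs_real_inner_le_norm (b.br (q i) (q j)) (y k))
      have h6 : ‖b.br (q i) (q j)‖ ≤ b.K * Q ^ 2 := by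
        refine (b.bd _ _).trans ?_
        rw [mul_assoc, sq]
        have h7 := mul_le_mul (hqQ i) (hqQ j) (norm_nonneg _) hQ0
        exact mul_le_mul_of_nonneg_left h7 hK
      have h7 := mul_le_mul_of_nonneg_right h6 (norm_nonneg (y k))
      linarith
    have z9 := mul_le_mul_of_nonneg_left z8 hs0.le
    linarith
  have hyn : ∀ k, ‖y k‖ ≤ 1 := by
    intro k
    refine le_of_sq_le_sq ?_ zero_le_one
    rw [one_pow, ← hy1]
    exact Finset.single_le_sum (f := fun i => ‖y i‖ ^ 2) (fun j _ => sq_nonneg _)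
      (Finset.mem_univ k)
  have h5 : s * (b.K * Q ^ 2) ≤ 1 / 16 := by
    -- `s² c Q² ≤ 1`, `16 K ≤ s c`
    have h6 : (s * (a * Q)) ^ 2 ≤ 1 := by
      have h7 : 0 ≤ s * (a * Q) := by positivity
      nlinarith
    have h7 : s ^ 2 * c * Q ^ 2 ≤ 1 := by
      rw [← ha2]
      nlinarith
    have h8 : 16 * b.K * (s * Q ^ 2) ≤ s * c * (s * Q ^ 2) :=
      mul_le_mul_of_nonneg_right hsK (by positivity)
    nlinarith
  have h6 : ∀ k, 2 * ‖y k‖ ^ 2 ≤ 2 * δ + 1 / 4 + 1 / 16 := by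
    intro k
    have h7 := h4 k
    rw [inner_add_left, real_inner_self_eq_norm_sq] at h7
    have h8 := neg_le_of_abs_le (abs_real_inner_le_norm (e k) (y k))
    have h9 : ‖e k‖ * ‖y k‖ ≤ δ * 1 := mul_le_mul (he k) (hyn k) (norm_nonneg _) hδ0.le
    have h10 : s * (b.K * Q ^ 2 * ‖y k‖) ≤ 1 / 16 := by
      calc s * (b.K * Q ^ 2 * ‖y k‖) = s * (b.K * Q ^ 2) * ‖y k‖ := by ring
        _ ≤ 1 / 16 * 1 := mul_le_mul h5 (hyn k) (norm_nonneg _) (by norm_num)
        _ = _ := by ring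
    have h11 := hyn k
    linarith
  have h7 : 2 * ∑ k, ‖y k‖ ^ 2 ≤ ∑ _k : Fin 3, (2 * δ + 1 / 4 + 1 / 16) := by
    rw [Finset.mul_sum]
    exact Finset.sum_le_sum fun k _ => h6 k
  rw [hy1, Finset.sum_const, Finset.card_univ, Fintype.card_fin, nsmul_eq_mul] at h7
  norm_num at h7
  linarith

end CoeBr

/-! ## concrete part -/

variable {d : ℕ} {F : Type*} [NormedAddCommGroup F] [InnerProductSpace ℂ F]

/-- the bracket with the structure constants `f` -/
noncomputable def coeB (S : Setup d F) :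
    EuclideanSpace ℝ (Fin d) →ₗ[ℝ] EuclideanSpace ℝ (Fin d) →ₗ[ℝ] EuclideanSpace ℝ (Fin d) :=
  LinearMap.mk₂ ℝ (fun a b => WithLp.toLp 2 fun A => ∑ B, ∑ C, S.f A B C * a B * b C)
    (by
      intro a a' b
      ext A
      simp only [PiLp.add_apply, ← Finset.sum_add_distrib]
      exact Finset.sum_congr rfl fun B _ => Finset.sum_congr rfl fun C _ => by ring)
    (by
      intro c a b
      ext A
      simp only [PiLp.smul_apply, smul_eq_mul, Finset.mul_sum]
      exact Finset.sum_congr rfl fun B _ => Finset.sum_congr rfl fun C _ => by ring)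
    (by
      intro a b b'
      ext A
      simp only [PiLp.add_apply, ← Finset.sum_add_distrib]
      exact Finset.sum_congr rfl fun B _ => Finset.sum_congr rfl fun C _ => by ring)
    (by
      intro c a b
      ext A
      simp only [PiLp.smul_apply, smul_eq_mul, Finset.mul_sum]
      exact Finset.sum_congr rfl fun B _ => Finset.sum_congr rfl fun C _ => by ring)

theorem coeB_apply (S : Setup d F) (a b : EuclideanSpace ℝ (Fin d)) (A : Fin d) :
    coeB S a b A = ∑ B, ∑ C, S.f A B C * a B * b C := rfl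

theorem coeB_swap (S : Setup d F) (a b : EuclideanSpace ℝ (Fin d)) :
    coeB S a b = - coeB S b a := by
  ext A
  rw [PiLp.neg_apply, coeB_apply, coeB_apply, Finset.sum_comm, ← Finset.sum_neg_distrib]
  refine Finset.sum_congr rfl fun B _ => ?_
  rw [← Finset.sum_neg_distrib]
  refine Finset.sum_congr rfl fun C _ => ?_
  rw [S.f_swap' A B C]
  ring

theorem coeB_inv (S : Setup d F) (a b c : EuclideanSpace ℝ (Fin d)) :
    inner ℝ (coeB S a b) c = inner ℝ a (coeB S b c) := by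
  rw [PiLp.inner_apply, PiLp.inner_apply]
  simp only [coeB_apply, RCLike.inner_apply, conj_trivial, Finset.mul_sum, Finset.sum_mul]
  rw [Finset.sum_comm]
  refine Finset.sum_congr rfl fun B _ => ?_
  rw [Finset.sum_comm]
  refine Finset.sum_congr rfl fun C _ => Finset.sum_congr rfl fun A _ => ?_
  rw [S.f_cyc A B C]
  ring

theorem coe_perm4 (g : Fin d → Fin d → Fin d → Fin d → ℝ) :
    ∑ E, ∑ D, ∑ B, ∑ C, g E D B C = ∑ B, ∑ C, ∑ D, ∑ E, g E D B C := by
  calc ∑ E, ∑ D, ∑ B, ∑ C, g E D B C = ∑ E, ∑ B, ∑ D, ∑ C, g E D B C :=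
        Finset.sum_congr rfl fun E _ => Finset.sum_comm
    _ = ∑ B, ∑ E, ∑ D, ∑ C, g E D B C := Finset.sum_comm
    _ = ∑ B, ∑ E, ∑ C, ∑ D, g E D B C :=
        Finset.sum_congr rfl fun B _ => Finset.sum_congr rfl fun E _ => Finset.sum_comm
    _ = ∑ B, ∑ C, ∑ E, ∑ D, g E D B C := Finset.sum_congr rfl fun B _ => Finset.sum_comm
    _ = ∑ B, ∑ C, ∑ D, ∑ E, g E D B C :=
        Finset.sum_congr rfl fun B _ => Finset.sum_congr rfl fun C _ => Finset.sum_comm

theorem coe_perm4' (g : Fin d → Fin d → Fin d → Fin d → ℝ) :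
    ∑ C, ∑ E, ∑ B, ∑ D, g C E B D = ∑ B, ∑ C, ∑ D, ∑ E, g C E B D := by
  calc ∑ C, ∑ E, ∑ B, ∑ D, g C E B D = ∑ C, ∑ B, ∑ E, ∑ D, g C E B D :=
        Finset.sum_congr rfl fun C _ => Finset.sum_comm
    _ = ∑ B, ∑ C, ∑ E, ∑ D, g C E B D := Finset.sum_comm
    _ = ∑ B, ∑ C, ∑ D, ∑ E, g C E B D :=
        Finset.sum_congr rfl fun B _ => Finset.sum_congr rfl fun C _ => Finset.sum_comm

theorem coeB_jac (S : Setup d F) (a b c : EuclideanSpace ℝ (Fin d)) :
    coeB S a (coeB S b c) = coeB S (coeB S a b) c + coeB S b (coeB S a c) := by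
  ext A
  rw [PiLp.add_apply, coeB_apply, coeB_apply, coeB_apply]
  simp only [coeB_apply]
  have e1 : ∑ B, ∑ E, S.f A B E * a B * ∑ C, ∑ D, S.f E C D * b C * c D =
      ∑ B, ∑ C, ∑ D, (∑ E, S.f A B E * S.f E C D) * (a B * b C * c D) := by
    refine Finset.sum_congr rfl fun B _ => ?_
    simp only [Finset.mul_sum, Finset.sum_mul]
    rw [Finset.sum_comm]
    refine Finset.sum_congr rfl fun C _ => ?_
    rw [Finset.sum_comm]
    refine Finset.sum_congr rfl fun D _ => Finset.sum_congr rfl fun E _ => ?_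
    ring
  have e2 : ∑ E, ∑ D, S.f A E D * (∑ B, ∑ C, S.f E B C * a B * b C) * c D =
      ∑ B, ∑ C, ∑ D, (∑ E, S.f A E D * S.f E B C) * (a B * b C * c D) := by
    simp only [Finset.mul_sum, Finset.sum_mul]
    rw [coe_perm4]
    refine Finset.sum_congr rfl fun B _ => Finset.sum_congr rfl fun C _ =>
      Finset.sum_congr rfl fun D _ => Finset.sum_congr rfl fun E _ => ?_
    ring
  have e3 : ∑ C, ∑ E, S.f A C E * b C * ∑ B, ∑ D, S.f E B D * a B * c D =
      ∑ B, ∑ C, ∑ D, (∑ E, S.f A C E * S.f E B D) * (a B * b C * c D) := by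
    simp only [Finset.mul_sum, Finset.sum_mul]
    rw [coe_perm4']
    refine Finset.sum_congr rfl fun B _ => Finset.sum_congr rfl fun C _ =>
      Finset.sum_congr rfl fun D _ => Finset.sum_congr rfl fun E _ => ?_
    ring
  rw [e1, e2, e3]
  simp only [← Finset.sum_add_distrib (s := (Finset.univ : Finset (Fin d))), ← add_mul]
  refine Finset.sum_congr rfl fun B _ => Finset.sum_congr rfl fun C _ =>
    Finset.sum_congr rfl fun D _ => ?_
  congr 1
  have h := S.f_jac A B C D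
  simp only [Finset.sum_add_distrib] at h
  have h1 : ∑ E, S.f B C E * S.f E A D = - ∑ E, S.f A E D * S.f E B C := by
    rw [← Finset.sum_neg_distrib]
    refine Finset.sum_congr rfl fun E _ => ?_
    rw [← S.f_cyc E B C, S.f_swap E A D]
    ring
  have h2 : ∑ E, S.f C A E * S.f E B D = - ∑ E, S.f A C E * S.f E B D := by
    rw [← Finset.sum_neg_distrib]
    refine Finset.sum_congr rfl fun E _ => ?_
    rw [S.f_swap C A E]
    ring
  rw [h1, h2] at h
  rw [Finset.sum_add_distrib]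
  linarith

theorem coeB_bd (S : Setup d F) : ∃ K : ℝ, 0 ≤ K ∧ ∀ a b, ‖coeB S a b‖ ≤ K * ‖a‖ * ‖b‖ := by
  let L : EuclideanSpace ℝ (Fin d) →L[ℝ] EuclideanSpace ℝ (Fin d) →L[ℝ]
      EuclideanSpace ℝ (Fin d) :=
    LinearMap.toContinuousLinearMap ((LinearMap.toContinuousLinearMap :
    (EuclideanSpace ℝ (Fin d) →ₗ[ℝ] EuclideanSpace ℝ (Fin d)) ≃ₗ[ℝ]
      (EuclideanSpace ℝ (Fin d) →L[ℝ] EuclideanSpace ℝ (Fin d))).toLinearMap ∘ₗ coeB S)
  exact ⟨‖L‖, L.opNorm_nonneg, fun a b => L.le_opNorm₂ a b⟩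

/-- the bracket of `S` -/
noncomputable def coeBr (S : Setup d F) : CoeBr (EuclideanSpace ℝ (Fin d)) where
  br := coeB S
  swap := coeB_swap S
  inv := coeB_inv S
  jac := coeB_jac S
  K := (coeB_bd S).choose
  K_nonneg := (coeB_bd S).choose_spec.1
  bd := (coeB_bd S).choose_spec.2

/-- the colour vectors of a configuration -/
noncomputable def coeV (x : Cfg d) (i : Fin 9) : EuclideanSpace ℝ (Fin d) :=
  WithLp.toLp 2 fun A => x (i, A)

theorem coeV_apply (x : Cfg d) (i : Fin 9) (A : Fin d) : coeV x i A = x (i, A) := rfl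

theorem coeV_add (x y : Cfg d) (i : Fin 9) : coeV (x + y) i = coeV x i + coeV y i := rfl

theorem coeV_sub (x y : Cfg d) (i : Fin 9) : coeV (x - y) i = coeV x i - coeV y i := rfl

theorem coeV_smul (r : ℝ) (x : Cfg d) (i : Fin 9) : coeV (r • x) i = r • coeV x i := rfl

theorem coeV_norm (x : Cfg d) : ‖x‖ ^ 2 = ∑ i, ‖coeV x i‖ ^ 2 := by
  rw [EuclideanSpace.norm_sq_eq, Fintype.sum_prod_type]
  refine Finset.sum_congr rfl fun i _ => ?_
  rw [EuclideanSpace.norm_sq_eq]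
  rfl

theorem coeV_norm_le (x : Cfg d) (i : Fin 9) : ‖coeV x i‖ ≤ ‖x‖ := by
  refine le_of_sq_le_sq ?_ (norm_nonneg _)
  rw [coeV_norm]
  exact Finset.single_le_sum (f := fun i => ‖coeV x i‖ ^ 2) (fun j _ => sq_nonneg _)
    (Finset.mem_univ i)

theorem coeV_continuous (i : Fin 9) : Continuous fun x : Cfg d => coeV x i := by
  refine (PiLp.continuous_toLp 2 _).comp (continuous_pi fun A => ?_)
  fun_prop

/-- the square terms as vectors -/
noncomputable def coeG (S : Setup d F) (x : Cfg d) (k : Fin 3) : EuclideanSpace ℝ (Fin d) :=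
  S.κ • coeB S (coeV x (Setup.c3 (k + 1))) (coeV x (Setup.c3 (k + 2))) +
    (2 : ℝ) • coeV x (Setup.c3 k)

theorem coeG_apply (S : Setup d F) (x : Cfg d) (k : Fin 3) (A : Fin d) :
    coeG S x k A = S.GG 1 k A x := by
  unfold coeG Setup.GG Setup.FF
  rw [PiLp.add_apply, PiLp.smul_apply, PiLp.smul_apply, coeB_apply, smul_eq_mul, smul_eq_mul,
    mul_one]
  rfl

/-- scaling -/
theorem coeG_smul (S : Setup d F) (r : ℝ) (x : Cfg d) (k : Fin 3) :
    coeG S (r • x) k = r • ((S.κ * r) • coeB S (coeV x (Setup.c3 (k + 1)))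
      (coeV x (Setup.c3 (k + 2))) + (2 : ℝ) • coeV x (Setup.c3 k)) := by
  unfold coeG
  rw [coeV_smul, coeV_smul, coeV_smul, map_smul, map_smul, LinearMap.smul_apply, smul_add,
    smul_smul, smul_smul, smul_smul, smul_smul, smul_smul]
  congr 2 <;> ring

/-- lower bound by one of the squares -/
theorem coe_V1 (S : Setup d F) (hsq : SqStmt S) (x : Cfg d) (k : Fin 3) :
    (1 / 2) * ‖coeG S x k‖ ^ 2 ≤ S.Vm 1 x := by
  rw [hsq 1 x]
  have h1 : ‖coeG S x k‖ ^ 2 = ∑ A, S.GG 1 k A x ^ 2 := by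
    rw [EuclideanSpace.norm_sq_eq]
    refine Finset.sum_congr rfl fun A _ => ?_
    rw [coeG_apply, Real.norm_eq_abs, sq_abs]
  have h2 : ∑ A, S.GG 1 k A x ^ 2 ≤ ∑ k, ∑ A, S.GG 1 k A x ^ 2 :=
    Finset.single_le_sum (f := fun k => ∑ A, S.GG 1 k A x ^ 2)
      (fun j _ => Finset.sum_nonneg fun A _ => sq_nonneg _) (Finset.mem_univ k)
  have h3 : 0 ≤ ∑ i : Fin 9, ∑ A, (if i.val < 3 then 0 else x (i, A) ^ 2) := by
    refine Finset.sum_nonneg fun i _ => Finset.sum_nonneg fun A _ => ?_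
    split_ifs
    · exact le_refl _
    · exact sq_nonneg _
  have h4 : 0 ≤ ∑ i : Fin 9, ∑ j : Fin 9, ∑ A,
      (if i.val < 3 ∧ j.val < 3 then 0 else S.FF A i j x ^ 2) := by
    refine Finset.sum_nonneg fun i _ => Finset.sum_nonneg fun j _ =>
      Finset.sum_nonneg fun A _ => ?_
    split_ifs
    · exact le_refl _
    · exact sq_nonneg _
  rw [h1]
  linarith

/-- lower bound by the `I6` part -/
theorem coe_V2 (S : Setup d F) (hsq : SqStmt S) (x : Cfg d) (i : Fin 9) (hi : ¬ i.val < 3)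
    (A : Fin d) : (1 / 2) * x (i, A) ^ 2 ≤ S.Vm 1 x := by
  rw [hsq 1 x]
  have h2 : 0 ≤ ∑ k, ∑ A, S.GG 1 k A x ^ 2 :=
    Finset.sum_nonneg fun j _ => Finset.sum_nonneg fun A _ => sq_nonneg _
  have h0 : ∀ (i : Fin 9) (A : Fin d), 0 ≤ (if i.val < 3 then 0 else x (i, A) ^ 2) := by
    intro i A
    split_ifs
    · exact le_refl _
    · exact sq_nonneg _
  have h3 : x (i, A) ^ 2 ≤ ∑ i : Fin 9, ∑ A, (if i.val < 3 then 0 else x (i, A) ^ 2) := by
    calc x (i, A) ^ 2 = (if i.val < 3 then 0 else x (i, A) ^ 2) := by rw [if_neg hi]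
      _ ≤ ∑ A, (if i.val < 3 then 0 else x (i, A) ^ 2) :=
        Finset.single_le_sum (f := fun A => (if i.val < 3 then 0 else x (i, A) ^ 2))
          (fun A _ => h0 i A) (Finset.mem_univ A)
      _ ≤ _ := Finset.single_le_sum
          (f := fun i : Fin 9 => ∑ A, (if i.val < 3 then 0 else x (i, A) ^ 2))
          (fun i _ => Finset.sum_nonneg fun A _ => h0 i A) (Finset.mem_univ i)
  have h4 : 0 ≤ ∑ i : Fin 9, ∑ j : Fin 9, ∑ A,
      (if i.val < 3 ∧ j.val < 3 then 0 else S.FF A i j x ^ 2) := by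
    refine Finset.sum_nonneg fun i _ => Finset.sum_nonneg fun j _ =>
      Finset.sum_nonneg fun A _ => ?_
    split_ifs
    · exact le_refl _
    · exact sq_nonneg _
  linarith

theorem coe_V0 (S : Setup d F) (hsq : SqStmt S) (x : Cfg d) : 0 ≤ S.Vm 1 x :=
  le_trans (by positivity) (coe_V1 S hsq x 0)

/-! ### the group -/

theorem coe_ro_smul (O : Matrix (Fin d) (Fin d) ℝ) (r : ℝ) (x : Cfg d) :
    ro O (r • x) = r • ro O x := by
  ext p
  simp only [ro, PiLp.smul_apply, smul_eq_mul, Finset.mul_sum]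
  exact Finset.sum_congr rfl fun B _ => by ring

theorem coe_ro_one (x : Cfg d) : ro 1 x = x := by
  ext p
  simp [ro, Matrix.one_apply]

theorem coe_ro_mul (O O' : Matrix (Fin d) (Fin d) ℝ) (x : Cfg d) :
    ro (O * O') x = ro O (ro O' x) := by
  ext p
  simp only [ro, Matrix.mul_apply, Finset.sum_mul, Finset.mul_sum]
  rw [Finset.sum_comm]
  exact Finset.sum_congr rfl fun B _ => Finset.sum_congr rfl fun C _ => by ring

theorem coe_ro_continuous (x : Cfg d) :
    Continuous fun O : Matrix (Fin d) (Fin d) ℝ => ro O x := by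
  refine (PiLp.continuous_toLp 2 _).comp (continuous_pi fun p => ?_)
  refine continuous_finsetSum _ fun B _ => ?_
  exact (continuous_id.matrix_elem p.2 B).mul continuous_const

/-- the nearest point of the orbit of `u` to `y` -/
theorem coe_min (S : Setup d F) (hcpt : GrpCptStmt S) (hexp : GrpExpStmt S) (u y : Cfg d) :
    ∃ O ∈ S.grp, ‖ro O u - y‖ ≤ ‖u - y‖ ∧ ∀ C,
      ∑ i, ∑ B, ∑ A, S.f C B A * y (i, B) * (ro O u - y) (i, A) = 0 := by
  obtain ⟨hc, h1, hm, -, -, -⟩ := hcpt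
  obtain ⟨O, hO, hmin⟩ := hc.exists_isMinOn ⟨1, h1⟩
    (((coe_ro_continuous u).sub continuous_const).norm.continuousOn (s := S.grp) :
      ContinuousOn (fun O => ‖ro O u - y‖) S.grp)
  refine ⟨O, hO, ?_, fun C => ?_⟩
  · have h := hmin h1
    have h' : ‖ro O u - y‖ ≤ ‖ro 1 u - y‖ := h
    rwa [coe_ro_one] at h'
  obtain ⟨v, hv⟩ : ∃ v, v = ro O u := ⟨_, rfl⟩
  rw [← hv]
  obtain ⟨γ, hγ, hγ0, hγd⟩ := hexp (Pi.single C 1)
  have hadm : ∀ A B, S.adm (Pi.single C 1) A B = S.f A C B := by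
    intro A B
    simp only [Setup.adm, Matrix.of_apply]
    rw [Finset.sum_eq_single C (fun D _ hD => by rw [Pi.single_eq_of_ne hD, mul_zero])
      (fun h => absurd (Finset.mem_univ C) h), Pi.single_eq_same, mul_one]
  -- the distance function along the curve
  have hg : ∀ t, ‖ro (γ t) v - y‖ ^ 2 =
      ∑ i, ∑ A, ((∑ B, γ t A B * v (i, B)) - y (i, A)) ^ 2 := by
    intro t
    rw [EuclideanSpace.norm_sq_eq, Fintype.sum_prod_type]
    refine Finset.sum_congr rfl fun i _ => Finset.sum_congr rfl fun A _ => ?_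
    rw [Real.norm_eq_abs, sq_abs]
    rfl
  have hmin' : ∀ t, ‖ro (γ 0) v - y‖ ^ 2 ≤ ‖ro (γ t) v - y‖ ^ 2 := by
    intro t
    have h : ‖ro O u - y‖ ≤ ‖ro (γ t * O) u - y‖ := hmin (hm _ (hγ t) _ hO)
    rw [coe_ro_mul, ← hv] at h
    rw [hγ0, coe_ro_one]
    gcongr
  have hder : HasDerivAt (fun t => ∑ i, ∑ A, ((∑ B, γ t A B * v (i, B)) - y (i, A)) ^ 2)
      (∑ i, ∑ A, 2 * ((∑ B, γ 0 A B * v (i, B)) - y (i, A)) *
        (∑ B, S.adm (Pi.single C 1) A B * v (i, B))) 0 := by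
    refine HasDerivAt.fun_sum fun i _ => HasDerivAt.fun_sum fun A _ => ?_
    have h2 : HasDerivAt (fun t => (∑ B, γ t A B * v (i, B)) - y (i, A))
        (∑ B, S.adm (Pi.single C 1) A B * v (i, B)) 0 := by
      refine HasDerivAt.sub_const _ ?_
      refine HasDerivAt.fun_sum fun B _ => ?_
      exact (hγd A B).mul_const _
    have h3 := h2.fun_pow 2
    refine h3.congr_deriv ?_
    norm_num
  have hloc : IsLocalMin (fun t => ∑ i, ∑ A, ((∑ B, γ t A B * v (i, B)) - y (i, A)) ^ 2) 0 := by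
    refine Filter.Eventually.of_forall fun t => ?_
    have := hmin' t
    rw [hg, hg] at this
    exact this
  have hz := hloc.hasDerivAt_eq_zero hder
  have hγ0' : ∀ i A, ∑ B, γ 0 A B * v (i, B) = v (i, A) := by
    intro i A
    rw [hγ0]
    simp [Matrix.one_apply]
  simp only [hγ0', hadm] at hz
  -- rearrange
  obtain ⟨e, he⟩ : ∃ e, e = v - y := ⟨_, rfl⟩
  have hev : ∀ p, v p = y p + e p := by
    intro p
    rw [he, PiLp.sub_apply]
    ring
  rw [← he]
  have h5 : ∀ i : Fin 9, ∑ A, 2 * (v (i, A) - y (i, A)) * ∑ B, S.f A C B * v (i, B) =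
      2 * ∑ B, ∑ A, S.f C B A * y (i, B) * e (i, A) := by
    intro i
    have h6 : ∑ A, ∑ B, S.f A C B * e (i, A) * e (i, B) = 0 := by
      have h7 : ∑ A, ∑ B, S.f A C B * e (i, A) * e (i, B) =
          - ∑ A, ∑ B, S.f A C B * e (i, A) * e (i, B) := by
        conv_lhs => rw [Finset.sum_comm]
        rw [← Finset.sum_neg_distrib]
        refine Finset.sum_congr rfl fun B _ => ?_
        rw [← Finset.sum_neg_distrib]
        refine Finset.sum_congr rfl fun A _ => ?_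
        rw [S.f_cyc A C B, S.f_swap C B A, ← S.f_cyc A B C, S.f_cyc A B C]
        ring
      linarith
    have h8 : ∑ A, 2 * (v (i, A) - y (i, A)) * ∑ B, S.f A C B * v (i, B) =
        2 * (∑ A, ∑ B, S.f A C B * e (i, A) * y (i, B)) +
          2 * ∑ A, ∑ B, S.f A C B * e (i, A) * e (i, B) := by
      rw [Finset.mul_sum, Finset.mul_sum, ← Finset.sum_add_distrib]
      refine Finset.sum_congr rfl fun A _ => ?_
      rw [Finset.mul_sum, Finset.mul_sum, Finset.mul_sum, ← Finset.sum_add_distrib]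
      refine Finset.sum_congr rfl fun B _ => ?_
      rw [hev (i, A), hev (i, B)]
      ring
    rw [h8, h6, mul_zero, add_zero, Finset.sum_comm]
    congr 1
    refine Finset.sum_congr rfl fun B _ => Finset.sum_congr rfl fun A _ => ?_
    rw [S.f_cyc A C B]
    ring
  rw [Finset.sum_congr rfl fun i _ => h5 i, ← Finset.mul_sum] at hz
  exact (mul_eq_zero.1 hz).resolve_left two_ne_zero

/-- reduction of a sum over `Fin 9` to `I3` -/
theorem coe_sum9 {M : Type*} [AddCommMonoid M] (g : Fin 9 → M) (h : ∀ i, ¬ i.val < 3 → g i = 0) :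
    ∑ i, g i = ∑ k : Fin 3, g (Setup.c3 k) := by
  symm
  refine Finset.sum_of_injOn Setup.c3 ?_ (fun _ _ => Finset.mem_coe.2 (Finset.mem_univ _)) ?_
    (fun _ _ => rfl)
  · intro k _ l _ hkl
    have h1 : (Setup.c3 k).val = (Setup.c3 l).val := congrArg Fin.val hkl
    exact Fin.ext h1
  · intro i _ hi
    refine h i fun hlt => hi ⟨⟨i.val, hlt⟩, Finset.mem_coe.2 (Finset.mem_univ _), Fin.ext rfl⟩

/-! ### the local statement -/

/-- the property of a set of directions -/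
def CoeP (S : Setup d F) (s : Set (Cfg d)) : Prop :=
  ∃ c R : ℝ, 0 < c ∧ ∀ u ∈ s, ∀ r : ℝ, R ≤ r → c * r ^ 2 ≤ S.Vm 1 (r • u)

/-- directions with a component in `I6` -/
theorem coe_case1 (S : Setup d F) (hsq : SqStmt S) (y : Cfg d) (i : Fin 9) (hi : ¬ i.val < 3)
    (A : Fin d) (hy : y (i, A) ≠ 0) : ∃ t ∈ 𝓝 y, CoeP S t := by
  have h0 : 0 < y (i, A) ^ 2 := by positivity
  refine ⟨{u | y (i, A) ^ 2 / 2 < u (i, A) ^ 2}, ?_, y (i, A) ^ 2 / 4, 0, by positivity,
    fun u hu r _ => ?_⟩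
  · refine (isOpen_lt continuous_const (by fun_prop)).mem_nhds ?_
    change y (i, A) ^ 2 / 2 < y (i, A) ^ 2
    linarith
  · have h1 := coe_V2 S hsq (r • u) i hi A
    rw [PiLp.smul_apply, smul_eq_mul, mul_pow] at h1
    have hu' : y (i, A) ^ 2 / 2 < u (i, A) ^ 2 := hu
    nlinarith [sq_nonneg r]

/-- directions with a nonvanishing commutator -/
theorem coe_case2 (S : Setup d F) (hsq : SqStmt S) (y : Cfg d) (k : Fin 3)
    (hy : coeB S (coeV y (Setup.c3 (k + 1))) (coeV y (Setup.c3 (k + 2))) ≠ 0) :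
    ∃ t ∈ 𝓝 y, CoeP S t := by
  obtain ⟨K, hK, hbd⟩ := coeB_bd S
  obtain ⟨φ, hφ⟩ : ∃ φ : Cfg d → ℝ, φ = fun x =>
    ‖coeB S (coeV x (Setup.c3 (k + 1))) (coeV x (Setup.c3 (k + 2)))‖ := ⟨_, rfl⟩
  have h0 : 0 < φ y := by
    rw [hφ]
    exact norm_pos_iff.2 hy
  have hcont : Continuous φ := by
    have h1 : Continuous fun x : Cfg d =>
        coeB S (coeV x (Setup.c3 (k + 1))) (coeV x (Setup.c3 (k + 2))) := by
      refine (PiLp.continuous_toLp 2 _).comp (continuous_pi fun A => ?_)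
      refine continuous_finsetSum _ fun B _ => continuous_finsetSum _ fun C _ => ?_
      simp only [coeV_apply]
      fun_prop
    rw [hφ]
    exact h1.norm
  have hκ := S.κ_pos
  refine ⟨{u | φ y / 2 < φ u ∧ ‖u‖ < ‖y‖ + 1}, ?_, 1 / 2,
    (2 * ‖y‖ + 3) / (S.κ * φ y / 2), by norm_num, fun u hu r hr => ?_⟩
  · refine ((isOpen_lt continuous_const hcont).inter
      (isOpen_lt continuous_norm continuous_const)).mem_nhds ⟨?_, ?_⟩
    · change φ y / 2 < φ y
      linarith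
    · change ‖y‖ < ‖y‖ + 1
      linarith
  · obtain ⟨hu1, hu2⟩ := hu
    have h1 := coe_V1 S hsq (r • u) k
    rw [coeG_smul, norm_smul, mul_pow, Real.norm_eq_abs, sq_abs] at h1
    rw [div_le_iff₀ (by positivity)] at hr
    have hyn := norm_nonneg y
    have hr0 : 0 < r := by
      by_contra hneg
      push Not at hneg
      have : r * (S.κ * φ y / 2) ≤ 0 := mul_nonpos_of_nonpos_of_nonneg hneg (by positivity)
      linarith
    have h2 : 1 ≤ ‖(S.κ * r) • coeB S (coeV u (Setup.c3 (k + 1))) (coeV u (Setup.c3 (k + 2))) +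
        (2 : ℝ) • coeV u (Setup.c3 k)‖ := by
      have h3 := norm_sub_le_norm_add ((S.κ * r) • coeB S (coeV u (Setup.c3 (k + 1)))
        (coeV u (Setup.c3 (k + 2)))) ((2 : ℝ) • coeV u (Setup.c3 k))
      rw [norm_smul, norm_smul, Real.norm_of_nonneg (by positivity : (0 : ℝ) ≤ S.κ * r),
        Real.norm_of_nonneg (by norm_num : (0 : ℝ) ≤ 2)] at h3
      have h4 := coeV_norm_le u (Setup.c3 k)
      have h5 : φ u = ‖coeB S (coeV u (Setup.c3 (k + 1))) (coeV u (Setup.c3 (k + 2)))‖ := by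
        rw [hφ]
      rw [← h5] at h3
      have h6 : S.κ * r * (φ y / 2) ≤ S.κ * r * φ u :=
        mul_le_mul_of_nonneg_left hu1.le (by positivity)
      nlinarith
    have h7 : (1 : ℝ) ≤ ‖(S.κ * r) • coeB S (coeV u (Setup.c3 (k + 1)))
        (coeV u (Setup.c3 (k + 2))) + (2 : ℝ) • coeV u (Setup.c3 k)‖ ^ 2 := by nlinarith
    nlinarith [sq_nonneg r]

/-- commuting directions -/
theorem coe_case3 (S : Setup d F) (hsq : SqStmt S) (hcpt : GrpCptStmt S) (hexp : GrpExpStmt S)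
    (y : Cfg d) (hy1 : ‖y‖ = 1) (hy6 : ∀ i : Fin 9, ¬ i.val < 3 → ∀ A, y (i, A) = 0)
    (hy3 : ∀ k : Fin 3, coeB S (coeV y (Setup.c3 (k + 1))) (coeV y (Setup.c3 (k + 2))) = 0) :
    ∃ t ∈ 𝓝 y, CoeP S t := by
  have hV6 : ∀ i : Fin 9, ¬ i.val < 3 → coeV y i = 0 := by
    intro i hi
    ext A
    exact hy6 i hi A
  have hcomm : ∀ i j : Fin 3, (coeBr S).br (coeV y (Setup.c3 i)) (coeV y (Setup.c3 j)) = 0 := by
    have h12 : (coeBr S).br (coeV y (Setup.c3 1)) (coeV y (Setup.c3 2)) = 0 := hy3 0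
    have h20 : (coeBr S).br (coeV y (Setup.c3 2)) (coeV y (Setup.c3 0)) = 0 := hy3 1
    have h01 : (coeBr S).br (coeV y (Setup.c3 0)) (coeV y (Setup.c3 1)) = 0 := hy3 2
    have h21 : (coeBr S).br (coeV y (Setup.c3 2)) (coeV y (Setup.c3 1)) = 0 := by
      rw [(coeBr S).swap, h12, neg_zero]
    have h02 : (coeBr S).br (coeV y (Setup.c3 0)) (coeV y (Setup.c3 2)) = 0 := by
      rw [(coeBr S).swap, h20, neg_zero]
    have h10 : (coeBr S).br (coeV y (Setup.c3 1)) (coeV y (Setup.c3 0)) = 0 := by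
      rw [(coeBr S).swap, h01, neg_zero]
    intro i j
    fin_cases i <;> fin_cases j
    · exact (coeBr S).coe_self _
    · exact h01
    · exact h02
    · exact h10
    · exact (coeBr S).coe_self _
    · exact h12
    · exact h20
    · exact h21
    · exact (coeBr S).coe_self _
  have hnorm : ∑ k : Fin 3, ‖coeV y (Setup.c3 k)‖ ^ 2 = 1 := by
    rw [← coe_sum9 (fun i => ‖coeV y i‖ ^ 2) (fun i hi => by
      change ‖coeV y i‖ ^ 2 = 0
      rw [hV6 i hi]
      simp), ← coeV_norm, hy1, one_pow]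
  obtain ⟨δ, R, hδ, hloc⟩ := (coeBr S).coe_local S.κ_pos hcomm hnorm
  refine ⟨Metric.ball y δ, Metric.ball_mem_nhds y hδ, 1 / 32, max R 0, by norm_num,
    fun u hu r hr => ?_⟩
  obtain ⟨O, hO, hle, hperp⟩ := coe_min S hcpt hexp u y
  obtain ⟨e, he⟩ : ∃ e, e = ro O u - y := ⟨_, rfl⟩
  rw [← he] at hle hperp
  have hro : ro O u = y + e := by rw [he]; abel
  have hVm : S.Vm 1 (r • u) = S.Vm 1 (r • (y + e)) := by
    rw [← hcpt.2.2.2.2.1 O hO 1 (r • u), coe_ro_smul, hro]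
  have hsmall : ∀ k : Fin 3, ‖coeV e (Setup.c3 k)‖ ≤ δ := by
    intro k
    refine (coeV_norm_le e _).trans (hle.trans ?_)
    rw [Metric.mem_ball, dist_eq_norm] at hu
    exact hu.le
  have hsum : ∑ k : Fin 3, (coeBr S).br (coeV y (Setup.c3 k)) (coeV e (Setup.c3 k)) = 0 := by
    rw [← coe_sum9 (fun i => (coeBr S).br (coeV y i) (coeV e i)) (fun i hi => by
      change (coeBr S).br (coeV y i) (coeV e i) = 0
      rw [hV6 i hi, map_zero, LinearMap.zero_apply])]
    ext C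
    have h1 : (∑ i, (coeBr S).br (coeV y i) (coeV e i)) C =
        ∑ i, ∑ B, ∑ A, S.f C B A * y (i, B) * e (i, A) := by
      rw [WithLp.ofLp_sum, Finset.sum_apply]
      rfl
    rw [h1, hperp C]
    rfl
  obtain ⟨k, hk⟩ := hloc (fun k => coeV e (Setup.c3 k)) hsmall hsum r ((le_max_left _ _).trans hr)
  have hr0 : 0 ≤ r := (le_max_right _ _).trans hr
  have h2 := coe_V1 S hsq (r • (y + e)) k
  rw [coeG_smul, norm_smul, mul_pow, Real.norm_eq_abs, sq_abs, coeV_add, coeV_add, coeV_add] at h2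
  have h3 : (1 / 4 : ℝ) < ‖(S.κ * r) • coeB S (coeV y (Setup.c3 (k + 1)) + coeV e (Setup.c3 (k + 1)))
      (coeV y (Setup.c3 (k + 2)) + coeV e (Setup.c3 (k + 2))) +
      (2 : ℝ) • (coeV y (Setup.c3 k) + coeV e (Setup.c3 k))‖ := hk
  rw [hVm]
  have h4 : (1 / 16 : ℝ) ≤ ‖(S.κ * r) • coeB S (coeV y (Setup.c3 (k + 1)) +
      coeV e (Setup.c3 (k + 1))) (coeV y (Setup.c3 (k + 2)) + coeV e (Setup.c3 (k + 2))) +
      (2 : ℝ) • (coeV y (Setup.c3 k) + coeV e (Setup.c3 k))‖ ^ 2 := by nlinarith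
  nlinarith [sq_nonneg r]

/-- **C-Coe**: coercivity of the BMN potential. -/
theorem coe_thm (S : Setup d F) (hsq : SqStmt S) (hcpt : GrpCptStmt S) (hexp : GrpExpStmt S) :
    CoeStmt S := by
  have hP : CoeP S (Metric.sphere (0 : Cfg d) 1) := by
    refine (isCompact_sphere (0 : Cfg d) 1).induction_on (p := CoeP S) ?_ ?_ ?_ ?_
    · exact ⟨1, 0, one_pos, fun u hu => absurd hu (Set.notMem_empty u)⟩
    · rintro s t hst ⟨c, R, hc, h⟩
      exact ⟨c, R, hc, fun u hu => h u (hst hu)⟩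
    · rintro s t ⟨c, R, hc, h⟩ ⟨c', R', hc', h'⟩
      refine ⟨min c c', max R R', lt_min hc hc', ?_⟩
      rintro u (hu | hu) r hr
      · refine le_trans ?_ (h u hu r ((le_max_left _ _).trans hr))
        exact mul_le_mul_of_nonneg_right (min_le_left _ _) (sq_nonneg r)
      · refine le_trans ?_ (h' u hu r ((le_max_right _ _).trans hr))
        exact mul_le_mul_of_nonneg_right (min_le_right _ _) (sq_nonneg r)
    · intro y hy
      rw [mem_sphere_zero_iff_norm] at hy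
      suffices h : ∃ t ∈ 𝓝 y, CoeP S t by
        obtain ⟨t, ht, hp⟩ := h
        exact ⟨t, mem_nhdsWithin_of_mem_nhds ht, hp⟩
      by_cases h6 : ∀ i : Fin 9, ¬ i.val < 3 → ∀ A, y (i, A) = 0
      · by_cases h3 : ∀ k : Fin 3, coeB S (coeV y (Setup.c3 (k + 1)))
            (coeV y (Setup.c3 (k + 2))) = 0
        · exact coe_case3 S hsq hcpt hexp y hy h6 h3
        · push Not at h3
          obtain ⟨k, hk⟩ := h3
          exact coe_case2 S hsq y k hk
      · push Not at h6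
        obtain ⟨i, hi, A, hA⟩ := h6
        exact coe_case1 S hsq y i (not_lt.2 hi) A hA
  obtain ⟨c, R, hc, h⟩ := hP
  refine ⟨c, c * (max R 1) ^ 2, hc, by positivity, fun x => ?_⟩
  by_cases hx : max R 1 ≤ ‖x‖
  · have hx0 : 0 < ‖x‖ := lt_of_lt_of_le one_pos ((le_max_right _ _).trans hx)
    have h1 := h (‖x‖⁻¹ • x) (by
      rw [mem_sphere_zero_iff_norm, norm_smul, norm_inv, norm_norm, inv_mul_cancel₀ hx0.ne'])
      ‖x‖ ((le_max_left _ _).trans hx)
    rw [smul_smul, mul_inv_cancel₀ hx0.ne', one_smul] at h1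
    have h2 : 0 ≤ c * (max R 1) ^ 2 := by positivity
    linarith
  · push Not at hx
    have h1 := coe_V0 S hsq x
    have h2 : ‖x‖ ^ 2 ≤ (max R 1) ^ 2 := by
      have := norm_nonneg x
      gcongr
    have h3 := mul_le_mul_of_nonneg_left h2 hc.le
    linarith

end Vale.Agent.P353.Z.U
end
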