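import Mathlib
import Vale.Agent.P353.BdZ.B2
import Vale.Agent.P353.BdZ.B3

set_option linter.all false

section

/-! # P353, general `N`: statements of part D (zero modes of `H_N` give low states of the BMN model) -/

open MeasureTheory Filter Topology
open scoped ContDiff

namespace Vale.Agent.P353.Z.U

variable {d : ℕ} {F : Type*} [NormedAddCommGroup F] [InnerProductSpace ℂ F]

/-- **D-J** zero modes are rotation invariant (conversion of the landed `RotA–RotF`, `Exact` (`J_exact`)). -/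
def ZJStmt (S : Setup d F) : Prop := ∀ Ψ : Lp F 2 (volume : Measure (Cfg d)), S.IsZM Ψ →
  ∀ k l : Fin 9, k ≠ l → ∀ ζ, Setup.Tst ζ → ∫ x, inner ℂ (S.J k l ζ x) (Ψ x) = 0

/-- **D-App** approximation of an invariant weak zero mode of `H_0` by invariant test functions with support in a ball,
without any moment assumption.  PROOF as `InvLem` (`Vale/Agent/P353/U/InvLem*.lean`, `Moll*.lean`): `u = χ_R·(ρ_ε*Ψ)`,
`Q_βu = -i(γθ∇χ_R)_β(ρ_ε*Ψ) + χ_R[W_β,ρ_ε*]Ψ`; on `|x| ≤ R` the commutator is `≤ Cε(1+R)(ρ_ε*|Ψ|)`; choose `ε` small depending on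
`R, δ`. Weak gauge and `J` invariance give exact invariance of `u` (radial mollifier and cutoff). -/
def AppStmt (S : Setup d F) : Prop := ∀ Ψ : Cfg d → F, MemLp Ψ 2 (volume : Measure (Cfg d)) →
  S.wG Ψ → S.wJ Ψ → (∀ β, S.wQ 0 β Ψ (fun _ => 0)) →
  ∃ C : ℝ, 0 ≤ C ∧ ∀ R : ℝ, 1 ≤ R → ∀ δ : ℝ, 0 < δ → ∃ u : Cfg d → F, S.Inv u ∧
    (∀ x, R ≤ ‖x‖ → u x = 0) ∧
    nsq (fun x => u x - Ψ x) ≤ δ + C * ∫ x, (if R / 4 ≤ ‖x‖ then ‖Ψ x‖ ^ 2 else 0) ∧
    ∀ β, nsq (S.Q β u) ≤ δ + C / R ^ 2 * ∫ x, (if R / 4 ≤ ‖x‖ then ‖Ψ x‖ ^ 2 else 0)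

/-- **D-Small** `k` linearly independent zero modes give `Low k m (8m)` for some small `m`.
PROOF. Apply D-App to `Ψ_j` (weak invariance: D-J, and the approximants `Apx`) with `R = m^{-1/2}`, `δ = m²`: invariant `u_j` with
`nsq(u_j - Ψ_j) → 0`, `nsq(Q_βu_j) ≤ m² + Cm·o(1)`; and `m²·nsq(M_βu_j) ≤ Cm²∫|x|²|u_j|²`, `∫|x|²|u_j|² ≤ 2R²nsq(u_j-Ψ_j) + 2∫_{|x| ≤ R}|x|²|Ψ_j|²
= R²·o(1)` (dominated convergence: `∫ min(|x|²/R²,1)|Ψ|² → 0`), so `∑_βnsq(Q^m_βu_j) = o(m)`. On the `k` dimensional span all norms are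
comparable (Gram matrix of `u_j` tends to that of `Ψ_j`, positive definite). -/
def SmallStmt (S : Setup d F) (k : ℕ) : Prop :=
  ∀ Ψ : Fin k → Lp F 2 (volume : Measure (Cfg d)), (∀ j, S.IsZM (Ψ j)) → LinearIndependent ℂ Ψ →
    ∃ m : ℝ, 0 < m ∧ S.Low k m (8 * m)

/-- **Bound** the number of linearly independent zero modes is at most the number of orbits of zeros of `V_1`. -/
def BoundStmt (S : Setup d F) : Prop := S.Irr → (∃ v : F, v ≠ 0) → ∀ n, S.OrbCount n →
  ∀ Ψ : Fin (n + 1) → Lp F 2 (volume : Measure (Cfg d)), (∀ j, S.IsZM (Ψ j)) →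
    ¬ LinearIndependent ℂ Ψ

end Vale.Agent.P353.Z.U
end

section

/-! # Energy identities for supercharges with a multiplier that is linear in `x` -/

open MeasureTheory Filter Topology
open scoped ContDiff Matrix

namespace Vale.Agent.P353.Z.U.En

variable {dc : ℕ}

variable {F : Type*} [NormedAddCommGroup F] [InnerProductSpace ℂ F]

/-- multiplier linear in `x`, with coefficient matrices `N j B A` -/
noncomputable def TT (S : Setup dc F) (N : Fin 9 → Fin dc → Fin dc → Matrix (Fin 16) (Fin 16) ℂ)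
    (β : Fin 16) (x : (Cfg dc)) : F →L[ℂ] F :=
  ∑ j, ∑ B, ((x (j, B) : ℝ) : ℂ) • ∑ A, S.vec (N j B A) A β

/-- the matrix in front of `θ^A` -/
noncomputable def NX (N : Fin 9 → Fin dc → Fin dc → Matrix (Fin 16) (Fin 16) ℂ) (x : (Cfg dc))
    (A : Fin dc) : Matrix (Fin 16) (Fin 16) ℂ :=
  ∑ j, ∑ B, ((x (j, B) : ℝ) : ℂ) • N j B A

/-- the supercharge with a linear multiplier -/
noncomputable def QT (S : Setup dc F) (N : Fin 9 → Fin dc → Fin dc → Matrix (Fin 16) (Fin 16) ℂ)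
    (β : Fin 16) (u : (Cfg dc) → F) (x : (Cfg dc)) : F := S.Q0 β u x + TT S N β x (u x)

variable (S : Setup dc F) (N : Fin 9 → Fin dc → Fin dc → Matrix (Fin 16) (Fin 16) ℂ)

lemma TT_eq (β : Fin 16) (x : (Cfg dc)) : TT S N β x = ∑ A, S.vec (NX N x A) A β := by
  have key : ∀ f : Fin 9 → Fin dc → Fin dc → (F →L[ℂ] F),
      ∑ j, ∑ B, ∑ A, f j B A = ∑ A, ∑ j, ∑ B, f j B A := by
    intro f
    calc ∑ j, ∑ B, ∑ A, f j B A = ∑ j, ∑ A, ∑ B, f j B A :=
          Finset.sum_congr rfl fun j _ => Finset.sum_comm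
      _ = _ := Finset.sum_comm
  simp only [TT, NX, S.vec_sum, S.vec_smul, Finset.smul_sum]
  exact key fun j B A => ((x (j, B) : ℝ) : ℂ) • S.vec (N j B A) A β

lemma contDiff_TT (β : Fin 16) : ContDiff ℝ ∞ (TT S N β) := by
  unfold TT
  refine ContDiff.sum fun i _ => ContDiff.sum fun A _ => ?_
  exact (Setup.contDiff_ofReal (Setup.contDiff_coord _)).smul contDiff_const

lemma fderiv_TT (β : Fin 16) (x : (Cfg dc)) (j : Fin 9) (B : Fin dc) :
    fderiv ℝ (TT S N β) x (EuclideanSpace.single (j, B) (1 : ℝ)) = ∑ A, S.vec (N j B A) A β := by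
  have hd : HasFDerivAt (TT S N β) (∑ i, ∑ C,
      ((Complex.ofRealCLM.comp (EuclideanSpace.proj (𝕜 := ℝ) (i, C) : (Cfg dc) →L[ℝ] ℝ)).smulRight
        (∑ A, S.vec (N i C A) A β))) x := by
    unfold TT
    refine HasFDerivAt.fun_sum fun i _ => HasFDerivAt.fun_sum fun C _ => ?_
    have h1 := (Complex.ofRealCLM.hasFDerivAt (x := x (i, C))).comp x
      (Setup.hasFDerivAt_coord (i, C) x)
    exact h1.smul_const (∑ A, S.vec (N i C A) A β)
  rw [hd.fderiv]
  simp only [_root_.sum_apply, ContinuousLinearMap.smulRight_apply,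
    ContinuousLinearMap.comp_apply, Complex.ofRealCLM_apply, PiLp.proj_apply,
    PiLp.single_apply, Prod.mk.injEq]
  rw [Finset.sum_eq_single j, Finset.sum_eq_single B]
  · simp
  · intro C _ hC
    simp [hC]
  · intro h; exact absurd (Finset.mem_univ _) h
  · intro i _ hi
    refine Finset.sum_eq_zero fun C _ => ?_
    simp [hi]
  · intro h; exact absurd (Finset.mem_univ _) h

lemma NX_im (hN : ∀ j B A α β, (N j B A α β).im = 0) (x : (Cfg dc)) (A : Fin dc) (α β : Fin 16) :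
    (NX N x A α β).im = 0 := by
  simp only [NX, Matrix.sum_apply, Matrix.smul_apply, smul_eq_mul, Complex.im_sum]
  refine Finset.sum_eq_zero fun j _ => Finset.sum_eq_zero fun B _ => ?_
  rw [Complex.mul_im, hN, Complex.ofReal_im]
  ring

lemma TT_symm (hN : ∀ j B A α β, (N j B A α β).im = 0) (β : Fin 16) (x : (Cfg dc)) (v w : F) :
    inner ℂ (TT S N β x v) w = inner ℂ v (TT S N β x w) := by
  rw [TT_eq]
  simp only [_root_.sum_apply, sum_inner, inner_sum, S.vec_symm _ (NX_im N hN x _)]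

lemma contDiff_QT (β : Fin 16) {u : (Cfg dc) → F} (hu : ContDiff ℝ ∞ u) :
    ContDiff ℝ ∞ (QT S N β u) := by
  unfold QT Setup.Q0
  refine ContDiff.add (contDiff_const.smul (ContDiff.sum fun i _ => ContDiff.sum fun A _ => ?_))
    (Setup.contDiff_clm_apply' (contDiff_TT S N β) hu)
  exact Setup.contDiff_clm_apply' contDiff_const (contDiff_pd hu)

lemma hasCompactSupport_QT (β : Fin 16) {u : (Cfg dc) → F} (hu : HasCompactSupport u) :
    HasCompactSupport (QT S N β u) := by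
  refine HasCompactSupport.intro' (K := tsupport u) hu (isClosed_tsupport u) ?_
  intro x hx
  have h0 : u x = 0 := image_eq_zero_of_notMem_tsupport hx
  have h1 : ∀ i A, pd i A u x = 0 := by
    intro i A
    have : fderiv ℝ u x = 0 := by
      have h := (tsupport_fderiv_subset ℝ (f := u))
      by_contra hne
      exact hx (h (subset_tsupport _ hne))
    simp [pd, this]
  simp [QT, Setup.Q0, h0, h1]

lemma tst_QT {u : (Cfg dc) → F} (hu : Setup.Tst u) (β : Fin 16) : Setup.Tst (QT S N β u) :=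
  ⟨contDiff_QT S N β hu.1, hasCompactSupport_QT S N β hu.2⟩

theorem QT_symm (hN : ∀ j B A α β, (N j B A α β).im = 0) (β : Fin 16) (u v : (Cfg dc) → F)
    (hu : Setup.Tst u) (hv : ContDiff ℝ ∞ v) :
    ∫ x, inner ℂ (QT S N β u x) (v x) = ∫ x, inner ℂ (u x) (QT S N β v x) := by
  have hv1 : ContDiff ℝ 1 v := hv.of_le (by simp)
  have hu1 : ContDiff ℝ 1 u := hu.1.of_le (by simp)
  have hpt : ∀ x, inner ℂ (QT S N β u x) (v x) - inner ℂ (u x) (QT S N β v x) =
      ∑ i, ∑ A, Complex.I * (fderiv ℝ (fun y => inner ℂ (u y) (S.vec (S.g i) A β (v y))) x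
        (EuclideanSpace.single (i, A) (1 : ℝ))) := by
    intro x
    have hd : ∀ i A, fderiv ℝ (fun y => inner ℂ (u y) (S.vec (S.g i) A β (v y))) x
        (EuclideanSpace.single (i, A) (1 : ℝ)) =
        inner ℂ (u x) (S.vec (S.g i) A β (pd i A v x)) +
          inner ℂ (pd i A u x) (S.vec (S.g i) A β (v x)) := by
      intro i A
      have hdv : DifferentiableAt ℝ v x := (hv1.differentiable (by simp)) x
      have hdT : DifferentiableAt ℝ (fun y => S.vec (S.g i) A β (v y)) x :=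
        ((S.vec (S.g i) A β).restrictScalars ℝ).differentiableAt.comp x hdv
      rw [fderiv_inner_apply ℂ ((hu1.differentiable (by simp)) x) hdT]
      have := pd_clm (i := i) (A := A) (S.vec (S.g i) A β) hdv
      unfold pd at this ⊢
      rw [this]
    simp only [hd, QT, Setup.Q0, inner_add_left, inner_add_right, inner_smul_left, inner_smul_right,
      sum_inner, inner_sum, TT_symm S N hN, S.vec_symm _ (S.g_im _)]
    simp only [map_neg, Complex.conj_I, neg_neg]
    simp only [mul_add, Finset.sum_add_distrib, Finset.mul_sum]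
    simp only [neg_mul, Finset.sum_neg_distrib]
    ring
  have hI : ∫ x, (inner ℂ (QT S N β u x) (v x) - inner ℂ (u x) (QT S N β v x)) = 0 := by
    simp only [hpt]
    have hw : ∀ i A, ContDiff ℝ 1 (fun y => inner ℂ (u y) (S.vec (S.g i) A β (v y))) := by
      intro i A
      exact hu1.inner ℂ ((S.vec (S.g i) A β).restrictScalars ℝ |>.contDiff.comp hv1)
    have hcs : ∀ i A, HasCompactSupport (fun y => inner ℂ (u y) (S.vec (S.g i) A β (v y))) :=
      fun i A => hu.inner_cs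
    have hint : ∀ i A, Integrable (fun x => fderiv ℝ (fun y => inner ℂ (u y)
        (S.vec (S.g i) A β (v y))) x (EuclideanSpace.single (i, A) (1 : ℝ))) := by
      intro i A
      exact (((hw i A).continuous_fderiv (by simp)).clm_apply
        continuous_const).integrable_of_hasCompactSupport ((hcs i A).fderiv_apply (𝕜 := ℝ) _)
    rw [integral_finsetSum _ fun i _ => integrable_finsetSum _ fun A _ => (hint i A).const_mul _]
    refine Finset.sum_eq_zero fun i _ => ?_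
    rw [integral_finsetSum _ fun A _ => (hint i A).const_mul _]
    refine Finset.sum_eq_zero fun A _ => ?_
    rw [integral_const_mul, integral_fderiv_eq_zero _ (hw i A) (hcs i A), mul_zero]
  rw [integral_sub ((tst_QT S N hu β).inner_int hv.continuous)
    (hu.inner_int (contDiff_QT S N β hv).continuous)] at hI
  exact sub_eq_zero.mp hI

lemma pd_QT (b : Fin 16) {u : (Cfg dc) → F} (hu : ContDiff ℝ ∞ u) (j : Fin 9) (B : Fin dc) (x : (Cfg dc)) :
    pd j B (QT S N b u) x = (-Complex.I) • ∑ i, ∑ A, S.vec (S.g i) A b (pd j B (pd i A u) x)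
      + (∑ A, S.vec (N j B A) A b) (u x) + TT S N b x (pd j B u x) := by
  have hd : ∀ i A, DifferentiableAt ℝ (pd i A u) x := fun i A =>
    (contDiff_pd hu).differentiable (by simp) x
  have hdv : ∀ i A, DifferentiableAt ℝ (fun y => S.vec (S.g i) A b (pd i A u y)) x := fun i A =>
    ((S.vec (S.g i) A b).restrictScalars ℝ).differentiableAt.comp x (hd i A)
  have hWd : DifferentiableAt ℝ (TT S N b) x := (contDiff_TT S N b).differentiable (by simp) x
  have hud : DifferentiableAt ℝ u x := hu.differentiable (by simp) x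
  have h1 : DifferentiableAt ℝ (fun y => (-Complex.I) • ∑ i, ∑ A,
      S.vec (S.g i) A b (pd i A u y)) x := by
    refine DifferentiableAt.const_smul ?_ _
    refine DifferentiableAt.fun_sum fun i _ => DifferentiableAt.fun_sum fun A _ => hdv i A
  have h2 : DifferentiableAt ℝ (fun y => TT S N b y (u y)) x :=
    (Setup.contDiff_clm_apply' (contDiff_TT S N b) hu).differentiable (by simp) x
  have e : QT S N b u = fun y => (-Complex.I) • ∑ i, ∑ A, S.vec (S.g i) A b (pd i A u y)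
      + TT S N b y (u y) := rfl
  rw [e, pd_add h1 h2, pd_clm_apply hWd hud, ← add_assoc, fderiv_TT]
  congr 2
  have h3 : pd j B (fun y => (-Complex.I) • ∑ i, ∑ A, S.vec (S.g i) A b (pd i A u y)) x =
      (-Complex.I) • pd j B (fun y => ∑ i, ∑ A, S.vec (S.g i) A b (pd i A u y)) x := by
    unfold pd
    rw [fderiv_fun_const_smul]
    · rfl
    · exact DifferentiableAt.fun_sum fun i _ => DifferentiableAt.fun_sum fun A _ => hdv i A
  rw [h3]
  congr 1
  rw [pd_sum _ (fun i _ => DifferentiableAt.fun_sum fun A _ => hdv i A)]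
  refine Finset.sum_congr rfl fun i _ => ?_
  rw [pd_sum _ (fun A _ => hdv i A)]
  refine Finset.sum_congr rfl fun A _ => ?_
  rw [pd_clm _ (hd i A)]

/-- first order terms vanish -/
lemma first_order_TT (h1 : ∀ j k C B, (S.g j * (N k C B)ᵀ).trace = 0) (j : Fin 9) (B : Fin dc)
    (x : (Cfg dc)) :
    ∑ b, (S.vec (S.g j) B b * TT S N b x + TT S N b x * S.vec (S.g j) B b) = 0 := by
  have h : ∀ b, S.vec (S.g j) B b * TT S N b x + TT S N b x * S.vec (S.g j) B b =
      ∑ A, (if B = A then ((S.g j * (NX N x A)ᵀ) b b) • (1 : F →L[ℂ] F) else 0) := by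
    intro b
    rw [TT_eq, Finset.mul_sum, Finset.sum_mul, ← Finset.sum_add_distrib]
    simp only [S.vec_anti]
  simp only [h]
  rw [Finset.sum_comm]
  refine Finset.sum_eq_zero fun A _ => ?_
  by_cases hA : B = A
  · simp only [hA, if_true, ← Finset.sum_smul]
    have h3 : ∑ b, (S.g j * (NX N x A)ᵀ) b b = (S.g j * (NX N x A)ᵀ).trace := rfl
    have h4 : (S.g j * (NX N x A)ᵀ).trace = 0 := by
      simp only [NX, Matrix.transpose_sum, Matrix.transpose_smul, Matrix.mul_sum, Matrix.mul_smul,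
        Matrix.trace_sum, Matrix.trace_smul, h1, smul_zero, Finset.sum_const_zero]
    rw [h3, h4, zero_smul]
  · simp [hA]

/-- the square of the multiplier -/
lemma zero_order_TT (x : (Cfg dc)) :
    ∑ b, TT S N b x * TT S N b x =
      ((1 / 2 : ℂ) * ∑ A, (NX N x A * (NX N x A)ᵀ).trace) • (1 : F →L[ℂ] F) := by
  have h : ∀ b, (2 : ℂ) • (TT S N b x * TT S N b x) =
      ∑ A, ((NX N x A * (NX N x A)ᵀ) b b) • (1 : F →L[ℂ] F) := by
    intro b
    have e1 : TT S N b x * TT S N b x = ∑ A, ∑ B, S.vec (NX N x A) A b * S.vec (NX N x B) B b := by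
      rw [TT_eq, Finset.sum_mul_sum]
    have e2 : TT S N b x * TT S N b x = ∑ A, ∑ B, S.vec (NX N x B) B b * S.vec (NX N x A) A b := by
      rw [e1, Finset.sum_comm]
    rw [two_smul]
    nth_rewrite 1 [e1]
    rw [e2, ← Finset.sum_add_distrib]
    simp only [← Finset.sum_add_distrib, S.vec_anti]
    simp
  have h2 : (2 : ℂ) • ∑ b, TT S N b x * TT S N b x =
      (∑ A, (NX N x A * (NX N x A)ᵀ).trace) • (1 : F →L[ℂ] F) := by
    rw [Finset.smul_sum]
    simp only [h]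
    rw [Finset.sum_comm, Finset.sum_smul]
    refine Finset.sum_congr rfl fun A _ => ?_
    rw [← Finset.sum_smul]
    rfl
  rw [mul_smul, ← h2, smul_smul]
  norm_num

/-- the constant term -/
noncomputable def KT : F →L[ℂ] F :=
  (-Complex.I) • ∑ j, ∑ B, ∑ A, S.bil (S.g j * N j B A) B A

lemma ferm_order_TT :
    (-Complex.I) • ∑ b, ∑ j, ∑ B, S.vec (S.g j) B b * (∑ A, S.vec (N j B A) A b) = KT S N := by
  unfold KT
  congr 1
  rw [Finset.sum_comm]
  refine Finset.sum_congr rfl fun j _ => ?_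
  rw [Finset.sum_comm]
  refine Finset.sum_congr rfl fun B _ => ?_
  simp only [Finset.mul_sum]
  rw [Finset.sum_comm]
  refine Finset.sum_congr rfl fun A _ => ?_
  rw [S.sum_vec_mul_vec, S.g_symm]

/-- `∑_b Q_b Q_b u` -/
theorem sum_QTQT (h1 : ∀ j k C B, (S.g j * (N k C B)ᵀ).trace = 0) {u : (Cfg dc) → F}
    (hu : ContDiff ℝ ∞ u) (x : (Cfg dc)) :
    ∑ b, QT S N b (QT S N b u) x = -((8 : ℂ) • ∑ i, ∑ A, pd i A (pd i A u) x) +
      ((1 / 2 : ℂ) * ∑ A, (NX N x A * (NX N x A)ᵀ).trace) • u x + KT S N (u x) := by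
  have h0 : ∀ b, QT S N b (QT S N b u) x =
      -(∑ j, ∑ B, ∑ i, ∑ A, S.vec (S.g j) B b (S.vec (S.g i) A b (pd j B (pd i A u) x)))
      + ((-Complex.I) • ∑ j, ∑ B, S.vec (S.g j) B b * (∑ A, S.vec (N j B A) A b)) (u x)
      + (-Complex.I) • ∑ j, ∑ B, (S.vec (S.g j) B b * TT S N b x + TT S N b x * S.vec (S.g j) B b)
          (pd j B u x)
      + (TT S N b x * TT S N b x) (u x) := by
    intro b
    conv_lhs => rw [QT, Setup.Q0]
    simp only [pd_QT S N b hu]
    rw [QT, Setup.Q0]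
    simp only [map_add, map_smul, map_sum, Finset.sum_add_distrib, smul_add,
      _root_.smul_apply, _root_.sum_apply, _root_.add_apply, mul_apply_eq_comp,
      ← Finset.smul_sum, smul_smul]
    have hI : (-Complex.I) * (-Complex.I) = -1 := by
      rw [neg_mul_neg, Complex.I_mul_I]
    rw [hI, neg_one_smul]
    abel
  simp only [h0, Finset.sum_add_distrib, Finset.sum_neg_distrib]
  rw [S.second_order (fun j B i A => pd j B (pd i A u) x)
    (fun i A j B => pd_comm hu i j A B x)]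
  have h2 : ∑ b, ((-Complex.I) • ∑ j, ∑ B, S.vec (S.g j) B b * (∑ A, S.vec (N j B A) A b)) (u x) =
        KT S N (u x) := by
    rw [← _root_.sum_apply, ← Finset.smul_sum, ferm_order_TT]
  have h3 : ∑ b, (-Complex.I) • ∑ j, ∑ B, (S.vec (S.g j) B b * TT S N b x +
      TT S N b x * S.vec (S.g j) B b) (pd j B u x) = 0 := by
    rw [← Finset.smul_sum, Finset.sum_comm]
    have : ∀ j, ∑ b, ∑ B, (S.vec (S.g j) B b * TT S N b x +
      TT S N b x * S.vec (S.g j) B b) (pd j B u x) = 0 := by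
      intro j
      rw [Finset.sum_comm]
      refine Finset.sum_eq_zero fun B _ => ?_
      rw [← _root_.sum_apply, first_order_TT S N h1]
      rfl
    simp only [this, Finset.sum_const_zero, smul_zero]
  have h4 : ∑ b, (TT S N b x * TT S N b x) (u x) =
      ((1 / 2 : ℂ) * ∑ A, (NX N x A * (NX N x A)ᵀ).trace) • u x := by
    rw [← _root_.sum_apply, zero_order_TT]
    rfl
  rw [h2, h3, h4]
  abel

/-- the energy identity for a linear multiplier -/
theorem energy_QT (hN : ∀ j B A α β, (N j B A α β).im = 0)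
    (h1 : ∀ j k C B, (S.g j * (N k C B)ᵀ).trace = 0) (q : (Cfg dc) → ℝ) (hq : Continuous q)
    (h2 : ∀ x, (1 / 2 : ℂ) * ∑ A, (NX N x A * (NX N x A)ᵀ).trace = ((q x : ℝ) : ℂ))
    (u : (Cfg dc) → F) (hu : Setup.Tst u) :
    ∑ β, nsq (QT S N β u) = 8 * (∑ i, ∑ A, nsq (pd i A u)) + (∫ x, q x * ‖u x‖ ^ 2)
        + (∫ x, inner ℂ (u x) (KT S N (u x))).re := by
  have hI : ∀ v : (Cfg dc) → F, Setup.Tst v → ((nsq v : ℝ) : ℂ) = ∫ x, inner ℂ (v x) (v x) := by
    intro v _
    rw [nsq, ← integral_complex_ofReal]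
    congr 1
    ext x
    rw [inner_self_eq_norm_sq_to_K]
    norm_cast
  have h3 : ((∑ β, nsq (QT S N β u) : ℝ) : ℂ) =
      ∫ x, inner ℂ (u x) (∑ b, QT S N b (QT S N b u) x) := by
    push_cast
    simp only [inner_sum]
    rw [integral_finsetSum]
    · refine Finset.sum_congr rfl fun b _ => ?_
      rw [hI _ (tst_QT S N hu b), QT_symm S N hN b u _ hu (contDiff_QT S N b hu.1)]
    · intro b _
      exact hu.inner_int (contDiff_QT S N b (contDiff_QT S N b hu.1)).continuous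
  have hF : Setup.Tst (fun x => KT S N (u x)) := hu.clm contDiff_const
  have h4 : ∀ x, inner ℂ (u x) (∑ b, QT S N b (QT S N b u) x) =
      -(8 : ℂ) * ∑ i, ∑ A, inner ℂ (u x) (pd i A (pd i A u) x) +
      ((q x * ‖u x‖ ^ 2 : ℝ) : ℂ) + inner ℂ (u x) (KT S N (u x)) := by
    intro x
    rw [sum_QTQT S N h1 hu.1, h2, inner_add_right, inner_add_right, inner_neg_right,
      inner_smul_right, inner_smul_right]
    simp only [inner_sum, inner_self_eq_norm_sq_to_K]
    push_cast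
    simp only [Complex.coe_algebraMap]
    ring
  have h5 : (∫ x, inner ℂ (u x) (∑ b, QT S N b (QT S N b u) x)) =
      (8 : ℂ) * ∑ i, ∑ A, ((nsq (pd i A u) : ℝ) : ℂ) +
      ((∫ x, q x * ‖u x‖ ^ 2 : ℝ) : ℂ) +
      ∫ x, inner ℂ (u x) (KT S N (u x)) := by
    simp only [h4]
    have i1 : ∀ i A, Integrable (fun x => inner ℂ (u x) (pd i A (pd i A u) x)) := fun i A =>
      hu.inner_int (contDiff_pd (contDiff_pd hu.1)).continuous
    have i1' : Integrable (fun x => -(8 : ℂ) * ∑ i, ∑ A, inner ℂ (u x) (pd i A (pd i A u) x)) :=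
      (integrable_finsetSum _ fun i _ => integrable_finsetSum _ fun A _ => i1 i A).const_mul _
    have i2 : Integrable (fun x => ((q x * ‖u x‖ ^ 2 : ℝ) : ℂ)) :=
      (hu.mul_norm_sq_int hq).ofReal
    have i3 : Integrable (fun x => inner ℂ (u x) (KT S N (u x))) :=
      (hu.inner_int hF.1.continuous)
    have i12 : Integrable (fun x => -(8 : ℂ) * ∑ i, ∑ A, inner ℂ (u x) (pd i A (pd i A u) x) +
        ((q x * ‖u x‖ ^ 2 : ℝ) : ℂ)) := i1'.add i2
    rw [integral_add i12 i3, integral_add i1' i2, integral_const_mul, integral_complex_ofReal]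
    congr 2
    rw [integral_finsetSum _ fun i _ => integrable_finsetSum _ fun A _ => i1 i A, neg_mul,
      ← mul_neg, ← Finset.sum_neg_distrib]
    congr 1
    refine Finset.sum_congr rfl fun i _ => ?_
    rw [integral_finsetSum _ fun A _ => i1 i A, ← Finset.sum_neg_distrib]
    refine Finset.sum_congr rfl fun A _ => ?_
    rw [← integral_inner_pd u (pd i A u) (hu.1.of_le (by simp)) ((contDiff_pd hu.1).of_le (by simp))
      hu.2 i A, hI _ (hu.pd i A)]
  have h6 := h3.trans h5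
  have h7 := congrArg Complex.re h6
  rw [Complex.ofReal_re] at h7
  rw [h7]
  simp only [Complex.add_re, Complex.ofReal_re, ← Complex.ofReal_sum]
  congr 2
  simp

/-- completing the square with a function `L` whose derivative in direction `(i, A)` is constant -/
theorem nsq_pd_add (L : (Cfg dc) → ℝ) (hL : ContDiff ℝ ∞ L) (i : Fin 9) (A : Fin dc) (c : ℝ)
    (hc : ∀ x, fderiv ℝ L x (EuclideanSpace.single (i, A) (1 : ℝ)) = c)
    (v : (Cfg dc) → F) (hv : Setup.Tst v) :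
    nsq (fun x => pd i A v x + ((L x : ℝ) : ℂ) • v x) =
      nsq (pd i A v) + (∫ x, L x ^ 2 * ‖v x‖ ^ 2) - c * nsq v := by
  have hv1 : ContDiff ℝ 1 v := hv.1.of_le (by simp)
  have hLv : Setup.Tst (fun x => ((L x : ℝ) : ℂ) • v x) := hv.rsmul hL
  have hw : ContDiff ℝ 1 (fun x => inner ℂ (v x) (((L x : ℝ) : ℂ) • v x)) :=
    hv1.inner ℂ (hLv.1.of_le (by simp))
  have h0 := integral_fderiv_eq_zero _ hw hv.inner_cs (EuclideanSpace.single (i, A) (1 : ℝ))
  have hd : ∀ x, fderiv ℝ (fun x => inner ℂ (v x) (((L x : ℝ) : ℂ) • v x)) x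
      (EuclideanSpace.single (i, A) (1 : ℝ)) =
      inner ℂ (v x) (((L x : ℝ) : ℂ) • pd i A v x) + inner ℂ (pd i A v x) (((L x : ℝ) : ℂ) • v x)
        + (c : ℂ) * inner ℂ (v x) (v x) := by
    intro x
    have hdv : DifferentiableAt ℝ v x := hv.diff x
    have hdL : DifferentiableAt ℝ L x := hL.differentiable (by simp) x
    rw [fderiv_inner_apply ℂ hdv ((hLv.1.differentiable (by simp)) x)]
    have h := pd_rsmul (i := i) (A := A) hdL hdv
    rw [hc] at h
    change inner ℂ (v x) (pd i A (fun y => ((L y : ℝ) : ℂ) • v y) x) +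
      inner ℂ (pd i A v x) (((L x : ℝ) : ℂ) • v x) = _
    rw [h, inner_add_right, inner_smul_right]
    ring
  simp only [hd] at h0
  have hLc : Continuous (fun x => ((L x : ℝ) : ℂ)) := (Setup.contDiff_ofReal hL).continuous
  have j1 : Integrable (fun x => inner ℂ (v x) (((L x : ℝ) : ℂ) • pd i A v x)) :=
    hv.inner_int (hLc.smul (hv.pd i A).1.continuous)
  have j2 : Integrable (fun x => inner ℂ (pd i A v x) (((L x : ℝ) : ℂ) • v x)) :=
    (hv.pd i A).inner_int (hLc.smul hv.1.continuous)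
  have j3 : Integrable (fun x => (c : ℂ) * inner ℂ (v x) (v x)) :=
    (hv.inner_int hv.1.continuous).const_mul _
  have j12 : Integrable (fun x => inner ℂ (v x) (((L x : ℝ) : ℂ) • pd i A v x) +
      inner ℂ (pd i A v x) (((L x : ℝ) : ℂ) • v x)) := j1.add j2
  rw [integral_add j12 j3, integral_const_mul] at h0
  have hre := congrArg Complex.re h0
  rw [Complex.add_re, Complex.re_ofReal_mul, Complex.zero_re] at hre
  have e3 : (∫ x, inner ℂ (v x) (v x)).re = nsq v := by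
    have : ∫ x, inner ℂ (v x) (v x) = ((nsq v : ℝ) : ℂ) := by
      rw [nsq, ← integral_complex_ofReal]
      congr 1
      ext x
      rw [inner_self_eq_norm_sq_to_K]
      norm_cast
    rw [this, Complex.ofReal_re]
  rw [e3] at hre
  have e12 : (∫ x, (inner ℂ (v x) (((L x : ℝ) : ℂ) • pd i A v x) +
      inner ℂ (pd i A v x) (((L x : ℝ) : ℂ) • v x))).re =
      ∫ x, 2 * (inner ℂ (pd i A v x) (((L x : ℝ) : ℂ) • v x)).re := by
    have := integral_re j12
    have h' : (∫ x, (inner ℂ (v x) (((L x : ℝ) : ℂ) • pd i A v x) +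
      inner ℂ (pd i A v x) (((L x : ℝ) : ℂ) • v x))).re = ∫ x, RCLike.re
      (inner ℂ (v x) (((L x : ℝ) : ℂ) • pd i A v x) +
      inner ℂ (pd i A v x) (((L x : ℝ) : ℂ) • v x)) := this.symm
    rw [h']
    refine integral_congr_ae (Filter.Eventually.of_forall fun x => ?_)
    simp only [map_add]
    have e : (inner ℂ (v x) (((L x : ℝ) : ℂ) • pd i A v x)).re =
        (inner ℂ (pd i A v x) (((L x : ℝ) : ℂ) • v x)).re := by
      rw [inner_smul_right, inner_smul_right, Complex.re_ofReal_mul, Complex.re_ofReal_mul]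
      congr 1
      exact inner_re_symm (𝕜 := ℂ) (v x) (pd i A v x)
    change (inner ℂ (v x) (((L x : ℝ) : ℂ) • pd i A v x)).re +
      (inner ℂ (pd i A v x) (((L x : ℝ) : ℂ) • v x)).re = _
    rw [e]
    ring
  rw [e12] at hre
  have hpt : ∀ x, ‖pd i A v x + ((L x : ℝ) : ℂ) • v x‖ ^ 2 = ‖pd i A v x‖ ^ 2 +
      L x ^ 2 * ‖v x‖ ^ 2 + 2 * (inner ℂ (pd i A v x) (((L x : ℝ) : ℂ) • v x)).re := by
    intro x
    have h := norm_add_sq (𝕜 := ℂ) (pd i A v x) (((L x : ℝ) : ℂ) • v x)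
    rw [h, norm_smul, mul_pow]
    have hn : ‖((L x : ℝ) : ℂ)‖ ^ 2 = L x ^ 2 := by
      rw [Complex.norm_real, Real.norm_eq_abs, sq_abs]
    rw [hn]
    change ‖pd i A v x‖ ^ 2 + 2 * (inner ℂ (pd i A v x) (((L x : ℝ) : ℂ) • v x)).re +
      L x ^ 2 * ‖v x‖ ^ 2 = _
    ring
  have k1 : Integrable (fun x => ‖pd i A v x‖ ^ 2) := (hv.pd i A).norm_sq_int
  have k2 : Integrable (fun x => L x ^ 2 * ‖v x‖ ^ 2) :=
    hv.mul_norm_sq_int (hL.continuous.pow 2)
  have k3 : Integrable (fun x => 2 * (inner ℂ (pd i A v x) (((L x : ℝ) : ℂ) • v x)).re) :=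
    (j2.re).const_mul 2
  have k12 : Integrable (fun x => ‖pd i A v x‖ ^ 2 + L x ^ 2 * ‖v x‖ ^ 2) := k1.add k2
  rw [nsq]
  simp only [hpt]
  rw [integral_add k12 k3, integral_add k1 k2]
  change nsq (pd i A v) + _ + _ = _
  linarith

end Vale.Agent.P353.Z.U.En
end

section

/-! # P353, general `N`: energy identity at a critical point (`EnStmt`) -/

open MeasureTheory Filter Topology
open scoped ContDiff Matrix

namespace Vale.Agent.P353.Z.U.En

variable {dc : ℕ}

variable {F : Type*} [NormedAddCommGroup F] [InnerProductSpace ℂ F]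

/-- `a' = 3 + a` -/
def cj (a : Fin 6) : Fin 9 := ⟨3 + a.val, by omega⟩

lemma sum9 {M : Type*} [AddCommMonoid M] (f : Fin 9 → M) :
    ∑ i, f i = ∑ l : Fin 3, f (Setup.c3 l) + ∑ a : Fin 6, f (cj a) :=
  Fin.sum_univ_add (a := 3) (b := 6) f

lemma c3_lt (l : Fin 3) : (Setup.c3 l).val < 3 := by simp [Setup.c3]

lemma cj_not (a : Fin 6) : ¬ (cj a).val < 3 := by simp [cj]

/-- the norm of a combination of orthogonal matrices -/
lemma trace_family {ι : Type*} [Fintype ι] [DecidableEq ι] (E : ι → Matrix (Fin 16) (Fin 16) ℂ)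
    (hE : ∀ i j, (E i * (E j)ᵀ).trace = if i = j then 16 else 0) (c : ι → ℝ) :
    ((∑ i, ((c i : ℝ) : ℂ) • E i) * (∑ i, ((c i : ℝ) : ℂ) • E i)ᵀ).trace =
      ((16 * ∑ i, c i ^ 2 : ℝ) : ℂ) := by
  simp only [Matrix.transpose_sum, Matrix.transpose_smul, Matrix.sum_mul, Matrix.mul_sum,
    Matrix.smul_mul, Matrix.mul_smul, Matrix.trace_sum, Matrix.trace_smul, hE,
    smul_eq_mul, mul_ite, mul_zero]
  push_cast
  rw [Finset.mul_sum]
  refine Finset.sum_congr rfl fun i _ => ?_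
  simp
  ring

/-! ### gamma matrices -/

section gam

variable (S : Setup dc F)

lemma Gam_mul_transpose : S.Gam * S.Gamᵀ = 1 := by
  rw [S.Gam_transpose, Matrix.mul_neg, S.Gam_sq, neg_neg]

lemma trace_gGgG (i k : Fin 9) :
    ((S.g i * S.Gam) * (S.g k * S.Gam)ᵀ).trace = if i = k then 16 else 0 := by
  have h : (S.g i * S.Gam) * (S.g k * S.Gam)ᵀ = S.g i * S.g k := by
    rw [Matrix.transpose_mul, S.g_symm]
    calc S.g i * S.Gam * (S.Gamᵀ * S.g k) = S.g i * (S.Gam * S.Gamᵀ) * S.g k := by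
          simp only [Matrix.mul_assoc]
      _ = S.g i * S.g k := by rw [Gam_mul_transpose, Matrix.mul_one]
  rw [h, S.trace_g_g]

lemma exists_third (j k : Fin 9) : ∃ i : Fin 9, 3 ≤ i.val ∧ i ≠ j ∧ i ≠ k := by
  revert j k; decide

lemma trace_gGg (j k : Fin 9) : (S.g j * (S.g k * S.Gam)ᵀ).trace = 0 := by
  obtain ⟨i, hi, hij, hik⟩ := exists_third j k
  have e : S.g j * (S.g k * S.Gam)ᵀ = -(S.g j * S.Gam * S.g k) := by
    rw [Matrix.transpose_mul, S.g_symm, S.Gam_transpose]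
    simp only [Matrix.neg_mul, Matrix.mul_neg, Matrix.mul_assoc]
  have h1 : S.g i * S.g j = -(S.g j * S.g i) := S.g_ac hij
  have h2 : S.g i * S.Gam = -(S.Gam * S.g i) := S.g_Gam_anti hi
  have h3 : S.g i * S.g k = -(S.g k * S.g i) := S.g_ac hik
  have h4 : S.g i * (S.g j * S.Gam * S.g k) = -((S.g j * S.Gam * S.g k) * S.g i) := by
    calc S.g i * (S.g j * S.Gam * S.g k) = (S.g i * S.g j) * (S.Gam * S.g k) := by
          simp only [Matrix.mul_assoc]
      _ = -(S.g j * (S.g i * S.Gam) * S.g k) := by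
          rw [h1]; simp only [Matrix.mul_assoc, Matrix.neg_mul]
      _ = S.g j * S.Gam * (S.g i * S.g k) := by
          rw [h2]; simp only [Matrix.mul_assoc, Matrix.neg_mul, Matrix.mul_neg, neg_neg]
      _ = -((S.g j * S.Gam * S.g k) * S.g i) := by
          rw [h3]; simp only [Matrix.mul_assoc, Matrix.mul_neg]
  have h5 : (S.g j * S.Gam * S.g k).trace = 0 := by
    have a1 : (S.g i * (S.g i * (S.g j * S.Gam * S.g k))).trace =
        (S.g j * S.Gam * S.g k).trace := by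
      rw [← Matrix.mul_assoc, S.g_sq', Matrix.one_mul]
    have a2 : (S.g i * (S.g i * (S.g j * S.Gam * S.g k))).trace =
        -(S.g j * S.Gam * S.g k).trace := by
      rw [h4, Matrix.mul_neg, Matrix.trace_neg, ← Matrix.mul_assoc, Matrix.trace_mul_comm,
        ← Matrix.mul_assoc, S.g_sq', Matrix.one_mul]
    have a3 : (S.g j * S.Gam * S.g k).trace = -(S.g j * S.Gam * S.g k).trace := a1.symm.trans a2
    have : (2 : ℂ) * (S.g j * S.Gam * S.g k).trace = 0 := by linear_combination a3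
    simpa using this
  rw [e, Matrix.trace_neg, h5, neg_zero]

lemma trace_g_g2T (j k l : Fin 9) : (S.g j * (S.g2 k l)ᵀ).trace = 0 := by
  rw [S.g2_transpose', Matrix.mul_neg, Matrix.trace_neg, S.trace_g_g2E, neg_zero]

lemma gG0 : S.g 0 * S.Gam = S.g 1 * S.g 2 := by
  calc S.g 0 * (S.g 0 * S.g 1 * S.g 2) = (S.g 0 * S.g 0) * (S.g 1 * S.g 2) := by
        simp only [Matrix.mul_assoc]
    _ = S.g 1 * S.g 2 := by rw [S.g_sq', Matrix.one_mul]

lemma gG1 : S.g 1 * S.Gam = S.g 2 * S.g 0 := by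
  have h10 : S.g 1 * S.g 0 = -(S.g 0 * S.g 1) := S.g_ac (by decide)
  have h02 : S.g 0 * S.g 2 = -(S.g 2 * S.g 0) := S.g_ac (by decide)
  calc S.g 1 * (S.g 0 * S.g 1 * S.g 2) = (S.g 1 * S.g 0) * (S.g 1 * S.g 2) := by
        simp only [Matrix.mul_assoc]
    _ = -(S.g 0 * (S.g 1 * S.g 1) * S.g 2) := by
        rw [h10]; simp only [Matrix.mul_assoc, Matrix.neg_mul]
    _ = S.g 2 * S.g 0 := by rw [S.g_sq', Matrix.mul_one, h02, neg_neg]

lemma gG2 : S.g 2 * S.Gam = S.g 0 * S.g 1 := by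
  have h20 : S.g 2 * S.g 0 = -(S.g 0 * S.g 2) := S.g_ac (by decide)
  have h21 : S.g 2 * S.g 1 = -(S.g 1 * S.g 2) := S.g_ac (by decide)
  calc S.g 2 * (S.g 0 * S.g 1 * S.g 2) = (S.g 2 * S.g 0) * (S.g 1 * S.g 2) := by
        simp only [Matrix.mul_assoc]
    _ = -(S.g 0 * (S.g 2 * S.g 1) * S.g 2) := by
        rw [h20]; simp only [Matrix.mul_assoc, Matrix.neg_mul]
    _ = S.g 0 * S.g 1 * (S.g 2 * S.g 2) := by
        rw [h21]; simp only [Matrix.mul_assoc, Matrix.neg_mul, Matrix.mul_neg, neg_neg]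
    _ = S.g 0 * S.g 1 := by rw [S.g_sq', Matrix.mul_one]

lemma g2_ne {k l : Fin 9} (h : k ≠ l) : S.g2 k l = S.g k * S.g l := by
  have h1 : S.g l * S.g k = -(S.g k * S.g l) := S.g_ac h.symm
  unfold CS.g2
  rw [h1, sub_neg_eq_add, ← two_smul ℂ, smul_smul]
  norm_num

/-- `γ^kΓ = γ^{k+1,k+2}` for `k ∈ I3` -/
lemma gG_c3 (k : Fin 3) : S.g (Setup.c3 k) * S.Gam =
    S.g2 (Setup.c3 (k + 1)) (Setup.c3 (k + 2)) := by
  fin_cases k
  · change S.g 0 * S.Gam = S.g2 1 2
    rw [gG0, g2_ne S (by decide)]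
  · change S.g 1 * S.Gam = S.g2 2 0
    rw [gG1, g2_ne S (by decide)]
  · change S.g 2 * S.Gam = S.g2 0 1
    rw [gG2, g2_ne S (by decide)]

/-- `γ^aΓ` is symmetric for `a ∈ I6` -/
lemma gG_symm (a : Fin 9) (ha : 3 ≤ a.val) : (S.g a * S.Gam)ᵀ = S.g a * S.Gam := by
  rw [Matrix.transpose_mul, S.g_symm, S.Gam_transpose, Matrix.neg_mul, S.g_Gam_anti ha]

/-- norm of an antisymmetric combination of the `γ^{ij}` -/
lemma trace_R (L : Fin 9 → Fin 9 → ℝ) (hL : ∀ i j, L i j = - L j i) :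
    (((1 / 2 : ℂ) • ∑ i, ∑ j, ((L i j : ℝ) : ℂ) • S.g2 i j) *
      ((1 / 2 : ℂ) • ∑ i, ∑ j, ((L i j : ℝ) : ℂ) • S.g2 i j)ᵀ).trace =
      ((8 * ∑ i, ∑ j, L i j ^ 2 : ℝ) : ℂ) := by
  have h1 : (((1 / 2 : ℂ) • ∑ i, ∑ j, ((L i j : ℝ) : ℂ) • S.g2 i j) *
      ((1 / 2 : ℂ) • ∑ i, ∑ j, ((L i j : ℝ) : ℂ) • S.g2 i j)ᵀ).trace =
      -(1 / 4 : ℂ) * ∑ i, ∑ j, ∑ k, ∑ l,
      ((L i j : ℝ) : ℂ) * ((L k l : ℝ) : ℂ) * (S.g2 i j * S.g2 k l).trace := by
    simp only [Matrix.transpose_smul, Matrix.transpose_sum, S.g2_transpose', smul_neg,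
      Finset.sum_neg_distrib, Matrix.mul_neg, Matrix.trace_neg]
    simp only [smul_mul_smul_comm, Matrix.trace_smul, Matrix.sum_mul, smul_eq_mul,
      Matrix.trace_sum]
    simp only [Matrix.mul_sum, Matrix.smul_mul, Matrix.mul_smul, Matrix.trace_smul, smul_eq_mul,
      Matrix.trace_sum]
    rw [show (1 / 2 : ℂ) * (1 / 2) = 1 / 4 by norm_num, neg_mul]
    congr 2
    refine Finset.sum_congr rfl fun i _ => Finset.sum_congr rfl fun j _ =>
      Finset.sum_congr rfl fun k _ => Finset.sum_congr rfl fun l _ => ?_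
    ring
  have h2 : ∀ i j, ∑ k, ∑ l,
      ((L i j : ℝ) : ℂ) * ((L k l : ℝ) : ℂ) * (S.g2 i j * S.g2 k l).trace =
      - 32 * ((L i j : ℝ) : ℂ) ^ 2 := by
    intro i j
    simp only [S.trace_g2_g2, mul_sub, Finset.sum_sub_distrib]
    rw [Finset.sum_eq_single j, Finset.sum_eq_single i, Finset.sum_eq_single i,
      Finset.sum_eq_single j]
    · rw [hL j i]
      simp only [if_true]
      push_cast
      ring
    · intro l _ hl; simp [Ne.symm hl]
    · intro h; exact absurd (Finset.mem_univ _) h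
    · intro k _ hk
      refine Finset.sum_eq_zero fun l _ => ?_
      simp [Ne.symm hk]
    · intro h; exact absurd (Finset.mem_univ _) h
    · intro l _ hl; simp [Ne.symm hl]
    · intro h; exact absurd (Finset.mem_univ _) h
    · intro k _ hk
      refine Finset.sum_eq_zero fun l _ => ?_
      simp [Ne.symm hk]
    · intro h; exact absurd (Finset.mem_univ _) h
  rw [h1]
  simp only [h2, ← Finset.mul_sum]
  push_cast
  ring

/-- symmetric and antisymmetric matrices are orthogonal -/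
lemma trace_PR (P R : Matrix (Fin 16) (Fin 16) ℂ) (hP : Pᵀ = P) (hR : Rᵀ = -R) :
    ((P + R) * (P + R)ᵀ).trace = (P * Pᵀ).trace + (R * Rᵀ).trace := by
  have h : (P * R).trace = -(P * R).trace := by
    conv_lhs => rw [← Matrix.trace_transpose, Matrix.transpose_mul, hP, hR, Matrix.neg_mul,
      Matrix.trace_neg, Matrix.trace_mul_comm]
  have h0 : (P * R).trace = 0 := by
    have : (2 : ℂ) * (P * R).trace = 0 := by linear_combination h
    simpa using this
  have h1 : (R * P).trace = 0 := by rw [Matrix.trace_mul_comm, h0]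
  rw [Matrix.transpose_add, Matrix.add_mul, Matrix.mul_add, Matrix.mul_add, Matrix.trace_add,
    Matrix.trace_add, Matrix.trace_add, hP, hR, Matrix.mul_neg, Matrix.mul_neg, Matrix.trace_neg,
    h0, h1]
  ring

end gam

/-! ### coefficient matrices at `ξ` -/

section coef

variable (S : Setup dc F) (ξ : Cfg dc)

/-- coefficient matrices of `M_β` -/
noncomputable def N0c (j : Fin 9) (B A : Fin dc) : Matrix (Fin 16) (Fin 16) ℂ :=
  if A = B then (aw j : ℂ) • (S.g j * S.Gam) else 0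

/-- coefficient matrices of `DW_β` (without `κ`) -/
noncomputable def D1c (j : Fin 9) (C A : Fin dc) : Matrix (Fin 16) (Fin 16) ℂ :=
  ∑ B, ∑ i, ((S.f A B C : ℂ) * (ξ (i, B) : ℂ)) • S.g2 i j

/-- coefficient matrices of `M_β + DW_β` -/
noncomputable def N1c (j : Fin 9) (C A : Fin dc) : Matrix (Fin 16) (Fin 16) ℂ :=
  N0c S j C A + (S.κ : ℂ) • D1c S ξ j C A

lemma sum_perm5 {M : Type*} [AddCommMonoid M]
    (f : Fin dc → Fin dc → Fin dc → Fin 9 → Fin 9 → M) :
    ∑ A, ∑ B, ∑ C, ∑ i, ∑ j, f A B C i j = ∑ j, ∑ C, ∑ A, ∑ B, ∑ i, f A B C i j := by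
  calc ∑ A, ∑ B, ∑ C, ∑ i, ∑ j, f A B C i j
      = ∑ A, ∑ B, ∑ C, ∑ j, ∑ i, f A B C i j :=
        Finset.sum_congr rfl fun A _ => Finset.sum_congr rfl fun B _ =>
          Finset.sum_congr rfl fun C _ => Finset.sum_comm
    _ = ∑ A, ∑ B, ∑ j, ∑ C, ∑ i, f A B C i j :=
        Finset.sum_congr rfl fun A _ => Finset.sum_congr rfl fun B _ => Finset.sum_comm
    _ = ∑ A, ∑ j, ∑ B, ∑ C, ∑ i, f A B C i j :=
        Finset.sum_congr rfl fun A _ => Finset.sum_comm
    _ = ∑ j, ∑ A, ∑ B, ∑ C, ∑ i, f A B C i j := Finset.sum_comm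
    _ = ∑ j, ∑ A, ∑ C, ∑ B, ∑ i, f A B C i j :=
        Finset.sum_congr rfl fun j _ => Finset.sum_congr rfl fun A _ => Finset.sum_comm
    _ = _ := Finset.sum_congr rfl fun j _ => Finset.sum_comm

lemma TT_N0c (β : Fin 16) (x : Cfg dc) : TT S (N0c S) β x = S.MM β x := by
  unfold TT Setup.MM
  refine Finset.sum_congr rfl fun j _ => Finset.sum_congr rfl fun B _ => ?_
  rw [Finset.sum_eq_single B]
  · rw [N0c, if_pos rfl, S.vec_smul, smul_smul]
    congr 1
    push_cast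
    ring
  · intro A _ hA
    rw [N0c, if_neg hA, S.vec_zero]
  · intro h; exact absurd (Finset.mem_univ _) h

lemma TT_N1c (β : Fin 16) (x : Cfg dc) : TT S (N1c S ξ) β x = S.MM β x + S.DW ξ β x := by
  rw [← TT_N0c]
  unfold Setup.DW
  rw [sum_perm5]
  unfold TT N1c
  simp only [S.vec_add, S.vec_smul, Finset.sum_add_distrib, smul_add]
  congr 1
  rw [Finset.smul_sum]
  refine Finset.sum_congr rfl fun j _ => ?_
  rw [Finset.smul_sum]
  refine Finset.sum_congr rfl fun C _ => ?_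
  simp only [D1c, S.vec_sum, S.vec_smul, Finset.smul_sum, smul_smul]
  refine Finset.sum_congr rfl fun A _ => Finset.sum_congr rfl fun B _ =>
    Finset.sum_congr rfl fun i _ => ?_
  congr 1
  ring

lemma N0c_im (j : Fin 9) (B A : Fin dc) (α β : Fin 16) : (N0c S j B A α β).im = 0 := by
  unfold N0c
  split_ifs
  · rw [Matrix.smul_apply, smul_eq_mul, Complex.mul_im, Complex.ofReal_im,
      Setup.mul_im_zero (S.g_im j) S.Gam_real]
    ring
  · simp

lemma N1c_im (j : Fin 9) (C A : Fin dc) (α β : Fin 16) : (N1c S ξ j C A α β).im = 0 := by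
  unfold N1c D1c
  rw [Matrix.add_apply, Complex.add_im, N0c_im, zero_add, Matrix.smul_apply, smul_eq_mul,
    Complex.im_ofReal_mul]
  simp only [Matrix.sum_apply, Matrix.smul_apply, smul_eq_mul, Complex.im_sum]
  have h : ∀ B i, (((S.f A B C : ℝ) : ℂ) * ((ξ (i, B) : ℝ) : ℂ) * S.g2 i j α β).im = 0 := by
    intro B i
    rw [← Complex.ofReal_mul, Complex.im_ofReal_mul, Setup.g2_im, mul_zero]
  simp only [h, Finset.sum_const_zero, mul_zero]

lemma N0c_trace (j k : Fin 9) (C B : Fin dc) : (S.g j * (N0c S k C B)ᵀ).trace = 0 := by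
  unfold N0c
  split_ifs
  · rw [Matrix.transpose_smul, Matrix.mul_smul, Matrix.trace_smul, trace_gGg, smul_zero]
  · simp

lemma N1c_trace (j k : Fin 9) (C B : Fin dc) : (S.g j * (N1c S ξ k C B)ᵀ).trace = 0 := by
  unfold N1c D1c
  rw [Matrix.transpose_add, Matrix.mul_add, Matrix.trace_add, N0c_trace, zero_add]
  simp only [Matrix.transpose_smul, Matrix.transpose_sum, Matrix.mul_smul, Matrix.mul_sum,
    Matrix.trace_smul, Matrix.trace_sum, trace_g_g2T, smul_zero, Finset.sum_const_zero]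

lemma LF_swap (A : Fin dc) (i j : Fin 9) (x : Cfg dc) : S.LF ξ A i j x = - S.LF ξ A j i x := by
  unfold Setup.LF
  rw [← mul_neg, ← Finset.sum_neg_distrib]
  congr 1
  rw [Finset.sum_comm]
  refine Finset.sum_congr rfl fun B _ => ?_
  rw [← Finset.sum_neg_distrib]
  refine Finset.sum_congr rfl fun C _ => ?_
  rw [S.f_swap' A B C]
  ring

/-- the antisymmetric coefficients -/
noncomputable def Lc (x : Cfg dc) (A : Fin dc) (i j : Fin 9) : ℝ :=
  S.LF ξ A i j x + ∑ k : Fin 3, 2 * x (Setup.c3 k, A) *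
    ((if i = Setup.c3 (k + 1) then 1 else 0) * (if j = Setup.c3 (k + 2) then 1 else 0) -
      (if i = Setup.c3 (k + 2) then 1 else 0) * (if j = Setup.c3 (k + 1) then 1 else 0))

lemma Lc_swap (x : Cfg dc) (A : Fin dc) (i j : Fin 9) : Lc S ξ x A i j = - Lc S ξ x A j i := by
  unfold Lc
  rw [LF_swap, neg_add, ← Finset.sum_neg_distrib]
  congr 1
  refine Finset.sum_congr rfl fun k _ => ?_
  ring

lemma sum_DW (x : Cfg dc) (A : Fin dc) :
    (S.κ : ℂ) • ∑ j, ∑ C, ((x (j, C) : ℝ) : ℂ) • D1c S ξ j C A =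
      (1 / 2 : ℂ) • ∑ i, ∑ j, ((S.LF ξ A i j x : ℝ) : ℂ) • S.g2 i j := by
  have h1 : (S.κ : ℂ) • ∑ j, ∑ C, ((x (j, C) : ℝ) : ℂ) • D1c S ξ j C A =
      ∑ i, ∑ j, ((S.κ * ∑ B, ∑ C, S.f A B C * (ξ (i, B) * x (j, C)) : ℝ) : ℂ) • S.g2 i j := by
    have h2 : ∀ j, ∑ C, ((x (j, C) : ℝ) : ℂ) • D1c S ξ j C A =
        ∑ i, ∑ B, ∑ C, ((S.f A B C * (ξ (i, B) * x (j, C)) : ℝ) : ℂ) • S.g2 i j := by
      intro j
      calc ∑ C, ((x (j, C) : ℝ) : ℂ) • D1c S ξ j C A
          = ∑ C, ∑ B, ∑ i, ((S.f A B C * (ξ (i, B) * x (j, C)) : ℝ) : ℂ) • S.g2 i j := by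
            refine Finset.sum_congr rfl fun C _ => ?_
            simp only [D1c, Finset.smul_sum, smul_smul]
            refine Finset.sum_congr rfl fun B _ => Finset.sum_congr rfl fun i _ => ?_
            congr 1
            push_cast
            ring
        _ = ∑ C, ∑ i, ∑ B, ((S.f A B C * (ξ (i, B) * x (j, C)) : ℝ) : ℂ) • S.g2 i j :=
            Finset.sum_congr rfl fun C _ => Finset.sum_comm
        _ = ∑ i, ∑ C, ∑ B, ((S.f A B C * (ξ (i, B) * x (j, C)) : ℝ) : ℂ) • S.g2 i j :=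
            Finset.sum_comm
        _ = _ := Finset.sum_congr rfl fun i _ => Finset.sum_comm
    simp only [h2]
    rw [Finset.sum_comm, Finset.smul_sum]
    refine Finset.sum_congr rfl fun i _ => ?_
    rw [Finset.smul_sum]
    refine Finset.sum_congr rfl fun j _ => ?_
    push_cast
    rw [mul_smul, Finset.sum_smul]
    simp only [Finset.sum_smul]
  have h3 : ∑ i, ∑ j, ((S.κ * ∑ B, ∑ C, S.f A B C * (ξ (i, B) * x (j, C)) : ℝ) : ℂ) • S.g2 i j =
      ∑ i, ∑ j, ((S.κ * ∑ B, ∑ C, S.f A B C * (x (i, B) * ξ (j, C)) : ℝ) : ℂ) • S.g2 i j := by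
    rw [Finset.sum_comm]
    refine Finset.sum_congr rfl fun i _ => Finset.sum_congr rfl fun j _ => ?_
    rw [S.g2_swap j i, smul_neg, ← neg_smul, ← Complex.ofReal_neg]
    congr 2
    rw [← mul_neg, ← Finset.sum_neg_distrib, Finset.sum_comm]
    congr 1
    refine Finset.sum_congr rfl fun B _ => ?_
    rw [← Finset.sum_neg_distrib]
    refine Finset.sum_congr rfl fun C _ => ?_
    rw [S.f_swap' A B C]
    ring
  have h4 : ∑ i, ∑ j, ((S.LF ξ A i j x : ℝ) : ℂ) • S.g2 i j =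
      ∑ i, ∑ j, ((S.κ * ∑ B, ∑ C, S.f A B C * (ξ (i, B) * x (j, C)) : ℝ) : ℂ) • S.g2 i j +
      ∑ i, ∑ j, ((S.κ * ∑ B, ∑ C, S.f A B C * (x (i, B) * ξ (j, C)) : ℝ) : ℂ) • S.g2 i j := by
    rw [← Finset.sum_add_distrib]
    refine Finset.sum_congr rfl fun i _ => ?_
    rw [← Finset.sum_add_distrib]
    refine Finset.sum_congr rfl fun j _ => ?_
    rw [← add_smul, ← Complex.ofReal_add]
    congr 2
    unfold Setup.LF
    rw [← mul_add, ← Finset.sum_add_distrib]
    congr 1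
    refine Finset.sum_congr rfl fun B _ => ?_
    rw [← Finset.sum_add_distrib]
    refine Finset.sum_congr rfl fun C _ => ?_
    ring
  rw [h4, ← h3, h1, ← two_smul ℂ, smul_smul]
  norm_num

/-- the symmetric part -/
noncomputable def Pc (x : Cfg dc) (A : Fin dc) : Matrix (Fin 16) (Fin 16) ℂ :=
  ∑ i : Fin 9, (((if i.val < 3 then 0 else x (i, A)) : ℝ) : ℂ) • (S.g i * S.Gam)

/-- the antisymmetric part -/
noncomputable def Rc (x : Cfg dc) (A : Fin dc) : Matrix (Fin 16) (Fin 16) ℂ :=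
  (1 / 2 : ℂ) • ∑ i, ∑ j, ((Lc S ξ x A i j : ℝ) : ℂ) • S.g2 i j

lemma Pc_symm (x : Cfg dc) (A : Fin dc) : (Pc S x A)ᵀ = Pc S x A := by
  unfold Pc
  rw [Matrix.transpose_sum]
  refine Finset.sum_congr rfl fun i _ => ?_
  rw [Matrix.transpose_smul]
  by_cases h : i.val < 3
  · simp [h]
  · rw [gG_symm S i (by omega)]

lemma Rc_anti (x : Cfg dc) (A : Fin dc) : (Rc S ξ x A)ᵀ = -Rc S ξ x A := by
  simp only [Rc, Matrix.transpose_smul, Matrix.transpose_sum, S.g2_transpose', smul_neg,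
    Finset.sum_neg_distrib]

lemma sum_Tk (c : ℂ) (p q : Fin 9) : ∑ i, ∑ j,
    (c * ((if i = p then 1 else 0) * (if j = q then 1 else 0) -
      (if i = q then 1 else 0) * (if j = p then 1 else 0))) • S.g2 i j =
    (2 * c) • S.g2 p q := by
  have h : ∀ (c : ℂ) (p q : Fin 9), ∑ i, ∑ j,
      (c * ((if i = p then 1 else 0) * (if j = q then 1 else 0))) • S.g2 i j = c • S.g2 p q := by
    intro c p q
    rw [Finset.sum_eq_single p, Finset.sum_eq_single q]
    · simp
    · intro j _ hj; simp [hj]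
    · intro h; exact absurd (Finset.mem_univ _) h
    · intro i _ hi
      refine Finset.sum_eq_zero fun j _ => ?_
      simp [hi]
    · intro h; exact absurd (Finset.mem_univ _) h
  simp only [mul_sub, sub_smul, Finset.sum_sub_distrib]
  rw [h, h, S.g2_swap q p]
  module

lemma sum_T (x : Cfg dc) (A : Fin dc) : (1 / 2 : ℂ) • ∑ i, ∑ j,
    (((∑ k : Fin 3, 2 * x (Setup.c3 k, A) *
    ((if i = Setup.c3 (k + 1) then 1 else 0) * (if j = Setup.c3 (k + 2) then 1 else 0) -
      (if i = Setup.c3 (k + 2) then 1 else 0) * (if j = Setup.c3 (k + 1) then 1 else 0)) : ℝ)) : ℂ)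
      • S.g2 i j =
    ∑ k : Fin 3, ((2 * x (Setup.c3 k, A) : ℝ) : ℂ) • (S.g (Setup.c3 k) * S.Gam) := by
  have h : ∑ i, ∑ j,
    (((∑ k : Fin 3, 2 * x (Setup.c3 k, A) *
    ((if i = Setup.c3 (k + 1) then 1 else 0) * (if j = Setup.c3 (k + 2) then 1 else 0) -
      (if i = Setup.c3 (k + 2) then 1 else 0) * (if j = Setup.c3 (k + 1) then 1 else 0)) : ℝ)) : ℂ)
      • S.g2 i j = ∑ k : Fin 3, ∑ i, ∑ j, (((2 * x (Setup.c3 k, A) : ℝ) : ℂ) *
    ((if i = Setup.c3 (k + 1) then 1 else 0) * (if j = Setup.c3 (k + 2) then 1 else 0) -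
      (if i = Setup.c3 (k + 2) then 1 else 0) * (if j = Setup.c3 (k + 1) then 1 else 0))) •
      S.g2 i j := by
    rw [Finset.sum_comm (γ := Fin 3)]
    refine Finset.sum_congr rfl fun i _ => ?_
    rw [Finset.sum_comm (γ := Fin 3)]
    refine Finset.sum_congr rfl fun j _ => ?_
    rw [Complex.ofReal_sum, Finset.sum_smul]
    refine Finset.sum_congr rfl fun k _ => ?_
    have hi : ∀ p : Prop, [Decidable p] → (((if p then 1 else 0 : ℝ)) : ℂ) = if p then 1 else 0 := by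
      intro p _
      split_ifs <;> simp
    congr 1
    simp only [Complex.ofReal_mul, Complex.ofReal_sub, hi]
  rw [h, Finset.smul_sum]
  refine Finset.sum_congr rfl fun k _ => ?_
  rw [sum_Tk, smul_smul, gG_c3]
  congr 1
  ring

lemma NX_N1c (x : Cfg dc) (A : Fin dc) : NX (N1c S ξ) x A = Pc S x A + Rc S ξ x A := by
  have h1 : NX (N1c S ξ) x A = ∑ i, ((aw i * x (i, A) : ℝ) : ℂ) • (S.g i * S.Gam) +
      (S.κ : ℂ) • ∑ j, ∑ C, ((x (j, C) : ℝ) : ℂ) • D1c S ξ j C A := by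
    unfold NX N1c
    simp only [smul_add, Finset.sum_add_distrib, Finset.smul_sum]
    congr 1
    · refine Finset.sum_congr rfl fun j _ => ?_
      rw [Finset.sum_eq_single A]
      · rw [N0c, if_pos rfl, smul_smul]
        congr 1
        push_cast
        ring
      · intro B _ hB
        rw [N0c, if_neg (Ne.symm hB), smul_zero]
      · intro h; exact absurd (Finset.mem_univ _) h
    · refine Finset.sum_congr rfl fun j _ => Finset.sum_congr rfl fun C _ => ?_
      rw [smul_comm]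
  have h2 : ∑ i, ((aw i * x (i, A) : ℝ) : ℂ) • (S.g i * S.Gam) = Pc S x A +
      ∑ k : Fin 3, ((2 * x (Setup.c3 k, A) : ℝ) : ℂ) • (S.g (Setup.c3 k) * S.Gam) := by
    unfold Pc
    rw [sum9, sum9]
    have a1 : ∀ l : Fin 3, aw (Setup.c3 l) = 2 := fun l => if_pos (c3_lt l)
    have a2 : ∀ a : Fin 6, aw (cj a) = 1 := fun a => if_neg (cj_not a)
    simp only [a1, a2, c3_lt, cj_not, if_true, if_false, one_mul, Complex.ofReal_zero, zero_smul,
      Finset.sum_const_zero, zero_add]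
    rw [add_comm]
  rw [h1, h2, sum_DW, ← sum_T]
  unfold Rc Lc
  simp only [Complex.ofReal_add, add_smul, Finset.sum_add_distrib, smul_add]
  abel

lemma c3_inj {l k : Fin 3} : Setup.c3 l = Setup.c3 k ↔ l = k := by
  constructor
  · intro h
    have := congrArg Fin.val h
    simp only [Setup.c3] at this
    exact Fin.ext this
  · rintro rfl; rfl

lemma cj_ne_c3 (l : Fin 3) (a : Fin 6) : cj a ≠ Setup.c3 l := by
  intro h
  have := congrArg Fin.val h
  simp only [Setup.c3, cj] at this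
  omega

lemma Lc_cj_right (x : Cfg dc) (A : Fin dc) (i : Fin 9) (a : Fin 6) :
    Lc S ξ x A i (cj a) = S.LF ξ A i (cj a) x := by
  simp [Lc, cj_ne_c3]

lemma Lc_cj_left (x : Cfg dc) (A : Fin dc) (j : Fin 9) (a : Fin 6) :
    Lc S ξ x A (cj a) j = S.LF ξ A (cj a) j x := by
  simp [Lc, cj_ne_c3]

lemma Lc_diag (x : Cfg dc) (A : Fin dc) (i : Fin 9) : Lc S ξ x A i i = 0 := by
  have h := Lc_swap S ξ x A i i
  linarith

lemma Lc_cyc (x : Cfg dc) (A : Fin dc) (k : Fin 3) :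
    Lc S ξ x A (Setup.c3 (k + 1)) (Setup.c3 (k + 2)) = S.LG ξ k A x := by
  unfold Lc Setup.LG
  congr 1
  simp only [c3_inj]
  fin_cases k <;> simp [Fin.sum_univ_three]

lemma sum_Lc_sq (x : Cfg dc) (A : Fin dc) : ∑ i, ∑ j, Lc S ξ x A i j ^ 2 =
    2 * ∑ k, S.LG ξ k A x ^ 2 +
      ∑ i : Fin 9, ∑ j : Fin 9, if i.val < 3 ∧ j.val < 3 then 0 else S.LF ξ A i j x ^ 2 := by
  have h3 : ∑ l : Fin 3, ∑ l' : Fin 3, Lc S ξ x A (Setup.c3 l) (Setup.c3 l') ^ 2 =
      2 * ∑ k, S.LG ξ k A x ^ 2 := by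
    have h0 : Lc S ξ x A (Setup.c3 1) (Setup.c3 2) = S.LG ξ 0 A x := Lc_cyc S ξ x A 0
    have h1 : Lc S ξ x A (Setup.c3 2) (Setup.c3 0) = S.LG ξ 1 A x := Lc_cyc S ξ x A 1
    have h2 : Lc S ξ x A (Setup.c3 0) (Setup.c3 1) = S.LG ξ 2 A x := Lc_cyc S ξ x A 2
    have h0' : Lc S ξ x A (Setup.c3 2) (Setup.c3 1) = - S.LG ξ 0 A x := by rw [Lc_swap, h0]
    have h1' : Lc S ξ x A (Setup.c3 0) (Setup.c3 2) = - S.LG ξ 1 A x := by rw [Lc_swap, h1]
    have h2' : Lc S ξ x A (Setup.c3 1) (Setup.c3 0) = - S.LG ξ 2 A x := by rw [Lc_swap, h2]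
    simp only [Fin.sum_univ_three, Lc_diag, h0, h1, h2, h0', h1', h2']
    ring
  simp only [sum9, Finset.sum_add_distrib, Lc_cj_right, Lc_cj_left, c3_lt, cj_not, if_true,
    if_false, and_true, and_false, Finset.sum_const_zero, h3]
  ring

lemma N1c_sq (x : Cfg dc) : (1 / 2 : ℂ) * ∑ A, (NX (N1c S ξ) x A * (NX (N1c S ξ) x A)ᵀ).trace =
    ((16 * S.hq ξ x : ℝ) : ℂ) := by
  have h : ∀ A, (NX (N1c S ξ) x A * (NX (N1c S ξ) x A)ᵀ).trace =
      ((16 * ∑ i : Fin 9, (if i.val < 3 then 0 else x (i, A)) ^ 2 +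
        8 * ∑ i, ∑ j, Lc S ξ x A i j ^ 2 : ℝ) : ℂ) := by
    intro A
    rw [NX_N1c, trace_PR _ _ (Pc_symm S x A) (Rc_anti S ξ x A), Complex.ofReal_add]
    congr 1
    · exact trace_family (fun i => S.g i * S.Gam) (trace_gGgG S)
        (fun i => if i.val < 3 then 0 else x (i, A))
    · exact trace_R S _ (Lc_swap S ξ x A)
  simp only [h, sum_Lc_sq]
  rw [← Complex.ofReal_sum]
  have h2 : (1 / 2 : ℂ) = ((1 / 2 : ℝ) : ℂ) := by push_cast; rfl
  rw [h2, ← Complex.ofReal_mul]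
  congr 1
  unfold Setup.hq
  have e1 : ∑ k, ∑ A, S.LG ξ k A x ^ 2 = ∑ A, ∑ k, S.LG ξ k A x ^ 2 := Finset.sum_comm
  have e2 : (∑ i : Fin 9, ∑ A, if i.val < 3 then 0 else x (i, A) ^ 2) =
      ∑ A, ∑ i : Fin 9, (if i.val < 3 then 0 else x (i, A)) ^ 2 := by
    rw [Finset.sum_comm]
    refine Finset.sum_congr rfl fun A _ => Finset.sum_congr rfl fun i _ => ?_
    split_ifs <;> simp
  have e3 : (∑ i : Fin 9, ∑ j : Fin 9, ∑ A,
      if i.val < 3 ∧ j.val < 3 then 0 else S.LF ξ A i j x ^ 2) =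
      ∑ A, ∑ i : Fin 9, ∑ j : Fin 9, if i.val < 3 ∧ j.val < 3 then 0 else S.LF ξ A i j x ^ 2 := by
    calc (∑ i : Fin 9, ∑ j : Fin 9, ∑ A,
        if i.val < 3 ∧ j.val < 3 then 0 else S.LF ξ A i j x ^ 2) =
        ∑ i : Fin 9, ∑ A, ∑ j : Fin 9,
          if i.val < 3 ∧ j.val < 3 then 0 else S.LF ξ A i j x ^ 2 :=
          Finset.sum_congr rfl fun i _ => Finset.sum_comm
      _ = _ := Finset.sum_comm
  rw [e1, e2, e3]
  simp only [Finset.sum_add_distrib, ← Finset.mul_sum]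
  ring

lemma sum_aw : ∑ i, aw i = 12 := by
  rw [sum9]
  have h1 : ∀ l : Fin 3, aw (Setup.c3 l) = 2 := fun l => if_pos (c3_lt l)
  have h2 : ∀ a : Fin 6, aw (cj a) = 1 := fun a => if_neg (cj_not a)
  simp only [h1, h2, Finset.sum_const, Finset.card_univ, Fintype.card_fin]
  norm_num

lemma KT_N0c : KT S (N0c S) = -((12 : ℂ) • S.FG) := by
  have h : ∀ j : Fin 9, ∑ B, ∑ A, S.bil (S.g j * N0c S j B A) B A = (aw j : ℂ) • S.tot S.Gam := by
    intro j
    rw [CS.tot, Finset.smul_sum]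
    refine Finset.sum_congr rfl fun B _ => ?_
    rw [Finset.sum_eq_single B]
    · rw [N0c, if_pos rfl, Matrix.mul_smul, S.bil_smul, ← Matrix.mul_assoc, S.g_sq',
        Matrix.one_mul]
    · intro A _ hA
      rw [N0c, if_neg hA, Matrix.mul_zero, S.bil_zero]
    · intro h; exact absurd (Finset.mem_univ _) h
  unfold KT
  simp only [h]
  rw [← Finset.sum_smul, ← Complex.ofReal_sum, sum_aw, smul_smul]
  unfold Setup.FG
  rw [smul_smul, ← neg_smul]
  congr 1
  push_cast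
  ring

lemma sum_g_g2' (i : Fin 9) : ∑ j, S.g j * S.g2 i j = -((8 : ℂ) • S.g i) := by
  rw [← S.sum_g_g2, ← Finset.sum_neg_distrib]
  refine Finset.sum_congr rfl fun j _ => ?_
  rw [S.g2_swap, Matrix.mul_neg]

lemma KT_D1c : ∑ j, ∑ C, ∑ A, S.bil (S.g j * D1c S ξ j C A) C A =
    -((8 : ℂ) • ∑ q, ∑ A, ∑ B, ∑ C, ((S.f A B C : ℂ) * (ξ (q, C) : ℂ)) • S.bil (S.g q) A B) := by
  calc ∑ j, ∑ C, ∑ A, S.bil (S.g j * D1c S ξ j C A) C A
      = ∑ j, ∑ C, ∑ A, ∑ B, ∑ i,
          ((S.f A B C : ℂ) * (ξ (i, B) : ℂ)) • S.bil (S.g j * S.g2 i j) C A := by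
        refine Finset.sum_congr rfl fun j _ => Finset.sum_congr rfl fun C _ =>
          Finset.sum_congr rfl fun A _ => ?_
        simp only [D1c, Matrix.mul_sum, Matrix.mul_smul, S.bil_sum, S.bil_smul]
    _ = ∑ j, ∑ C, ∑ A, ∑ i, ∑ B,
          ((S.f A B C : ℂ) * (ξ (i, B) : ℂ)) • S.bil (S.g j * S.g2 i j) C A :=
        Finset.sum_congr rfl fun j _ => Finset.sum_congr rfl fun C _ =>
          Finset.sum_congr rfl fun A _ => Finset.sum_comm
    _ = ∑ j, ∑ C, ∑ i, ∑ A, ∑ B,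
          ((S.f A B C : ℂ) * (ξ (i, B) : ℂ)) • S.bil (S.g j * S.g2 i j) C A :=
        Finset.sum_congr rfl fun j _ => Finset.sum_congr rfl fun C _ => Finset.sum_comm
    _ = ∑ j, ∑ i, ∑ C, ∑ A, ∑ B,
          ((S.f A B C : ℂ) * (ξ (i, B) : ℂ)) • S.bil (S.g j * S.g2 i j) C A :=
        Finset.sum_congr rfl fun j _ => Finset.sum_comm
    _ = ∑ i, ∑ j, ∑ C, ∑ A, ∑ B,
          ((S.f A B C : ℂ) * (ξ (i, B) : ℂ)) • S.bil (S.g j * S.g2 i j) C A := Finset.sum_comm
    _ = ∑ i, ∑ C, ∑ j, ∑ A, ∑ B,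
          ((S.f A B C : ℂ) * (ξ (i, B) : ℂ)) • S.bil (S.g j * S.g2 i j) C A :=
        Finset.sum_congr rfl fun i _ => Finset.sum_comm
    _ = ∑ i, ∑ C, ∑ A, ∑ j, ∑ B,
          ((S.f A B C : ℂ) * (ξ (i, B) : ℂ)) • S.bil (S.g j * S.g2 i j) C A :=
        Finset.sum_congr rfl fun i _ => Finset.sum_congr rfl fun C _ => Finset.sum_comm
    _ = ∑ i, ∑ C, ∑ A, ∑ B, ∑ j,
          ((S.f A B C : ℂ) * (ξ (i, B) : ℂ)) • S.bil (S.g j * S.g2 i j) C A :=
        Finset.sum_congr rfl fun i _ => Finset.sum_congr rfl fun C _ =>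
          Finset.sum_congr rfl fun A _ => Finset.sum_comm
    _ = _ := by
        rw [Finset.smul_sum, ← Finset.sum_neg_distrib]
        refine Finset.sum_congr rfl fun i _ => ?_
        rw [Finset.smul_sum, ← Finset.sum_neg_distrib]
        refine Finset.sum_congr rfl fun C _ => ?_
        rw [Finset.smul_sum, ← Finset.sum_neg_distrib]
        refine Finset.sum_congr rfl fun A _ => ?_
        rw [Finset.smul_sum, ← Finset.sum_neg_distrib]
        refine Finset.sum_congr rfl fun B _ => ?_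
        rw [← Finset.smul_sum, ← S.bil_sum, sum_g_g2', S.bil_neg, S.bil_smul,
          show S.f A B C = S.f C A B from (S.f_cyc C A B).symm]
        module

lemma KT_N1c : KT S (N1c S ξ) = (16 : ℂ) • S.Fx ξ - (12 : ℂ) • S.FG := by
  have h0 : KT S (N1c S ξ) = KT S (N0c S) +
      (-Complex.I * (S.κ : ℂ)) • ∑ j, ∑ C, ∑ A, S.bil (S.g j * D1c S ξ j C A) C A := by
    unfold KT N1c
    simp only [Matrix.mul_add, Matrix.mul_smul, S.bil_add, S.bil_smul, Finset.sum_add_distrib,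
      ← Finset.smul_sum]
    module
  rw [h0, KT_D1c, KT_N0c]
  unfold Setup.Fx
  module

lemma Qlin_eq (β : Fin 16) (v : Cfg dc → F) (x : Cfg dc) :
    S.Qlin ξ β v x = QT S (N1c S ξ) β v x := by
  unfold Setup.Qlin QT
  rw [TT_N1c, _root_.add_apply, add_assoc]

lemma norm_K_sq (K : Cfg dc →L[ℝ] Cfg dc) (x : Cfg dc) :
    ‖K x‖ ^ 2 = ∑ i, ∑ A, (K x (i, A)) ^ 2 := by
  rw [EuclideanSpace.real_norm_sq_eq, Fintype.sum_prod_type]

/-- one component of `K` -/
noncomputable def KL (K : Cfg dc →L[ℝ] Cfg dc) (i : Fin 9) (A : Fin dc) : Cfg dc →L[ℝ] ℝ :=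
  (EuclideanSpace.proj (𝕜 := ℝ) (i, A) : Cfg dc →L[ℝ] ℝ).comp K

lemma KL_apply (K : Cfg dc →L[ℝ] Cfg dc) (i : Fin 9) (A : Fin dc) (x : Cfg dc) :
    KL K i A x = K x (i, A) := rfl

end coef

/-- **C-En** -/
theorem en (S : Setup dc F) : EnStmt S := by
  intro ξ K _ hK v hv
  have hAc : ∀ i A, ContDiff ℝ ∞ (fun x : Cfg dc => K x (i, A)) := fun i A => (KL K i A).contDiff
  have hqe : ∀ x, 16 * S.hq ξ x = 8 * ∑ i, ∑ A, (K x (i, A)) ^ 2 := by
    intro x
    rw [← norm_K_sq, hK.sq]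
    ring
  have hq : Continuous fun x : Cfg dc => 8 * ∑ i, ∑ A, (K x (i, A)) ^ 2 :=
    continuous_const.mul (continuous_finsetSum _ fun i _ => continuous_finsetSum _ fun A _ =>
      ((hAc i A).continuous.pow 2))
  have hE := energy_QT S (N1c S ξ) (N1c_im S ξ) (N1c_trace S ξ) _ hq
    (fun x => by rw [N1c_sq S ξ x, hqe]) v hv
  have hQ : ∀ β, S.Qlin ξ β v = QT S (N1c S ξ) β v := fun β => funext (Qlin_eq S ξ β v)
  simp only [hQ]
  rw [hE]
  have hsq : ∀ i A, nsq (fun x => pd i A v x + ((K x (i, A) : ℝ) : ℂ) • v x) =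
      nsq (pd i A v) + (∫ x, (K x (i, A)) ^ 2 * ‖v x‖ ^ 2) -
        K (EuclideanSpace.single (i, A) (1 : ℝ)) (i, A) * nsq v := by
    intro i A
    refine nsq_pd_add (fun x => K x (i, A)) (hAc i A) i A _ ?_ v hv
    intro x
    have h' : fderiv ℝ (fun x : Cfg dc => K x (i, A)) x = KL K i A :=
      (KL K i A).hasFDerivAt.fderiv
    rw [h', KL_apply]
  have hint : ∀ i A, Integrable (fun x : Cfg dc => (K x (i, A)) ^ 2 * ‖v x‖ ^ 2) := by
    intro i A
    exact hv.mul_norm_sq_int ((hAc i A).continuous.pow 2)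
  simp only [hsq, Finset.sum_sub_distrib, Finset.sum_add_distrib]
  have i1 : ∫ x, (8 * ∑ i, ∑ A, (K x (i, A)) ^ 2) * ‖v x‖ ^ 2 =
      8 * ∑ i, ∑ A, ∫ x, (K x (i, A)) ^ 2 * ‖v x‖ ^ 2 := by
    have e : ∀ x : Cfg dc, (8 * ∑ i, ∑ A, (K x (i, A)) ^ 2) * ‖v x‖ ^ 2 =
        8 * ∑ i, ∑ A, (K x (i, A)) ^ 2 * ‖v x‖ ^ 2 := by
      intro x
      simp only [Finset.sum_mul, mul_assoc]
    simp only [e]
    rw [integral_const_mul, integral_finsetSum _ fun i _ => integrable_finsetSum _ fun A _ =>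
      hint i A]
    congr 1
    refine Finset.sum_congr rfl fun i _ => ?_
    rw [integral_finsetSum _ fun A _ => hint i A]
  have i2 : ∑ i : Fin 9, ∑ A : Fin dc, K (EuclideanSpace.single (i, A) (1 : ℝ)) (i, A) * nsq v =
      trK K * nsq v := by
    simp only [← Finset.sum_mul]
    rfl
  have i4 : (∫ x, inner ℂ (v x) (KT S (N1c S ξ) (v x))).re =
      16 * (∫ x, inner ℂ (v x) (S.Nx (trK K) ξ (v x))).re - 8 * trK K * nsq v := by
    have e : ∀ x, inner ℂ (v x) (KT S (N1c S ξ) (v x)) =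
        (16 : ℂ) * inner ℂ (v x) (S.Nx (trK K) ξ (v x)) -
          ((8 * trK K : ℝ) : ℂ) * inner ℂ (v x) (v x) := by
      intro x
      have hN : KT S (N1c S ξ) (v x) = (16 : ℂ) • S.Nx (trK K) ξ (v x) -
          ((8 * trK K : ℝ) : ℂ) • v x := by
        rw [KT_N1c]
        unfold Setup.Nx
        simp only [_root_.sub_apply, _root_.add_apply, _root_.smul_apply,
          one_apply_eq_self]
        push_cast
        module
      rw [hN, inner_sub_right, inner_smul_right, inner_smul_right]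
    have hF : Setup.Tst (fun x => S.Nx (trK K) ξ (v x)) := hv.clm contDiff_const
    simp only [e]
    rw [integral_sub ((hv.inner_int hF.1.continuous).const_mul _)
      ((hv.inner_int hv.1.continuous).const_mul _), integral_const_mul, integral_const_mul]
    have : ∫ x, inner ℂ (v x) (v x) = ((nsq v : ℝ) : ℂ) := by
      rw [nsq, ← integral_complex_ofReal]
      congr 1
      ext x
      rw [inner_self_eq_norm_sq_to_K]
      norm_cast
    rw [this, Complex.sub_re, Complex.re_ofReal_mul, Complex.ofReal_re]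
    congr 1
    have h16 : (16 : ℂ) = ((16 : ℝ) : ℂ) := by push_cast; rfl
    rw [h16, Complex.re_ofReal_mul]
  rw [i1, i2, i4]
  ring

end Vale.Agent.P353.Z.U.En
end

section

/-! # P353, general `N`: nearest points in the orbits and in the wells (`FootStmt`) -/

open MeasureTheory Filter Topology
open scoped ContDiff

namespace Vale.Agent.P353.Z.U

variable {d : ℕ} {F : Type*} [NormedAddCommGroup F] [InnerProductSpace ℂ F]

theorem foot_ro_apply (O : Matrix (Fin d) (Fin d) ℝ) (x : Cfg d) (p : Fin 9 × Fin d) :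
    ro O x p = ∑ B, O p.2 B * x (p.1, B) := rfl

theorem foot_ro_mul (O O' : Matrix (Fin d) (Fin d) ℝ) (x : Cfg d) :
    ro (O * O') x = ro O (ro O' x) := by
  ext p
  simp only [foot_ro_apply, Matrix.mul_apply, Finset.sum_mul, Finset.mul_sum]
  rw [Finset.sum_comm]
  exact Finset.sum_congr rfl fun B _ => Finset.sum_congr rfl fun C _ => by ring

theorem foot_ro_one (x : Cfg d) : ro 1 x = x := by
  ext p
  simp only [foot_ro_apply, Matrix.one_apply, ite_mul, one_mul, zero_mul, Finset.sum_ite_eq,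
    Finset.mem_univ, if_true]

theorem foot_ro_cont (x : Cfg d) : Continuous fun O : Matrix (Fin d) (Fin d) ℝ => ro O x := by
  unfold ro
  refine (PiLp.continuous_toLp 2 _).comp (continuous_pi fun p => ?_)
  exact continuous_finset_sum _ fun B _ =>
    (continuous_id.matrix_elem p.2 B).mul continuous_const

/-- first order condition at a nearest point of the orbit -/
theorem foot_perp (S : Setup d F) (hE : GrpExpStmt S) (ξ x : Cfg d)
    (hmin : ∀ O ∈ S.grp, ‖x - ξ‖ ≤ ‖x - ro O ξ‖) : S.Perp ξ (x - ξ) := by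
  intro C
  obtain ⟨γ, hγ, hγ0, hd⟩ := hE (Pi.single C 1)
  -- the squared distance along the curve
  have hnorm : ∀ t, ‖x - ro (γ t) ξ‖ ^ 2 = ∑ p : Fin 9 × Fin d, (x p - ro (γ t) ξ p) ^ 2 := by
    intro t
    rw [EuclideanSpace.norm_sq_eq]
    refine Finset.sum_congr rfl fun p _ => ?_
    rw [Real.norm_eq_abs, sq_abs]
    rfl
  have hder : HasDerivAt (fun t => ‖x - ro (γ t) ξ‖ ^ 2)
      (∑ p : Fin 9 × Fin d, 2 * (x p - ξ p) *
        (-∑ B, S.adm (Pi.single C 1) p.2 B * ξ (p.1, B))) 0 := by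
    have h1 : (fun t => ‖x - ro (γ t) ξ‖ ^ 2) =
        fun t => ∑ p : Fin 9 × Fin d, (x p - ro (γ t) ξ p) ^ 2 := funext hnorm
    rw [h1]
    refine HasDerivAt.fun_sum fun p _ => ?_
    have h2 : HasDerivAt (fun t => ro (γ t) ξ p)
        (∑ B, S.adm (Pi.single C 1) p.2 B * ξ (p.1, B)) 0 := by
      simp only [foot_ro_apply]
      exact HasDerivAt.fun_sum fun B _ => (hd p.2 B).mul_const _
    have h3 := ((hasDerivAt_const (0 : ℝ) (x p)).sub h2).pow 2
    have h4 : ro (γ 0) ξ p = ξ p := by rw [hγ0, foot_ro_one]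
    refine h3.congr_deriv ?_
    simp only [Pi.sub_apply, h4]
    ring
  have hloc : IsLocalMin (fun t => ‖x - ro (γ t) ξ‖ ^ 2) 0 := by
    refine Filter.Eventually.of_forall fun t => ?_
    simp only
    rw [hγ0, foot_ro_one]
    have := hmin (γ t) (hγ t)
    exact pow_le_pow_left₀ (norm_nonneg _) this 2
  have h0 := hloc.hasDerivAt_eq_zero hder
  -- translate
  have key : ∑ p : Fin 9 × Fin d, 2 * (x p - ξ p) *
        (-∑ B, S.adm (Pi.single C 1) p.2 B * ξ (p.1, B)) =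
      -2 * ∑ i, ∑ A, ∑ B, S.f C A B * ξ (i, A) * (x - ξ) (i, B) := by
    rw [Fintype.sum_prod_type, Finset.mul_sum]
    refine Finset.sum_congr rfl fun i _ => ?_
    have e1 : ∀ A B : Fin d, S.adm (Pi.single C 1) A B = S.f C B A := by
      intro A B
      simp only [Setup.adm, Matrix.of_apply]
      rw [Finset.sum_eq_single C]
      · rw [Pi.single_eq_same, mul_one, S.f_cyc A C B]
      · intro D _ hD
        rw [Pi.single_eq_of_ne hD, mul_zero]
      · intro h
        exact absurd (Finset.mem_univ _) h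
    simp only [e1]
    rw [Finset.sum_comm (s := Finset.univ) (t := Finset.univ)
      (f := fun A B => S.f C A B * ξ (i, A) * (x - ξ) (i, B)), Finset.mul_sum]
    refine Finset.sum_congr rfl fun A _ => ?_
    rw [← Finset.sum_neg_distrib, Finset.mul_sum, Finset.mul_sum]
    refine Finset.sum_congr rfl fun B _ => ?_
    have e2 : (x - ξ) (i, A) = x (i, A) - ξ (i, A) := rfl
    rw [e2]
    ring
  rw [key] at h0
  linarith

theorem foot_Vm_cont (S : Setup d F) (m : ℝ) : Continuous (S.Vm m) := by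
  unfold Setup.Vm Setup.V Setup.FF Setup.det3
  fun_prop

theorem foot_Vm_zero (S : Setup d F) (m : ℝ) : S.Vm m 0 = 0 := by
  unfold Setup.Vm Setup.V Setup.FF Setup.det3
  simp

/-- **C-Foot** -/
theorem foot (S : Setup d F) (hE : GrpExpStmt S) (hK : GrpCptStmt S) : FootStmt S := by
  obtain ⟨hcpt, h1, hmul, -, hV, -⟩ := hK
  constructor
  · intro ξ x
    have horb : S.Orb ξ = (fun O => ro O ξ) '' S.grp := by
      ext y
      constructor
      · rintro ⟨O, hO, rfl⟩
        exact ⟨O, hO, rfl⟩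
      · rintro ⟨O, hO, rfl⟩
        exact ⟨O, hO, rfl⟩
    have hc : IsCompact (S.Orb ξ) := by
      rw [horb]
      exact hcpt.image (foot_ro_cont ξ)
    have hne : (S.Orb ξ).Nonempty := ⟨ξ, 1, h1, (foot_ro_one ξ).symm⟩
    obtain ⟨ξ', hξ', hdist⟩ := hc.exists_infDist_eq_dist hne x
    refine ⟨ξ', hξ', by rw [hdist, dist_eq_norm], ?_⟩
    refine foot_perp S hE ξ' x fun O hO => ?_
    obtain ⟨O', hO', rfl⟩ := hξ'
    have hmem : ro O (ro O' ξ) ∈ S.Orb ξ := ⟨O * O', hmul O hO O' hO', (foot_ro_mul O O' ξ).symm⟩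
    have h := Metric.infDist_le_dist_of_mem (x := x) hmem
    rwa [hdist, dist_eq_norm, dist_eq_norm] at h
  · intro x
    have hc : IsClosed (S.wells 1) := isClosed_eq (foot_Vm_cont S 1) continuous_const
    have hne : (S.wells 1).Nonempty := ⟨0, foot_Vm_zero S 1⟩
    obtain ⟨ξ', hξ', hdist⟩ := hc.exists_infDist_eq_dist hne x
    refine ⟨ξ', hξ', by rw [hdist, dist_eq_norm], ?_⟩
    refine foot_perp S hE ξ' x fun O hO => ?_
    have hmem : ro O ξ' ∈ S.wells 1 := by
      change S.Vm 1 (ro O ξ') = 0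
      rw [hV O hO 1 ξ']
      exact hξ'
    have h := Metric.infDist_le_dist_of_mem (x := x) hmem
    rwa [hdist, dist_eq_norm, dist_eq_norm] at h

end Vale.Agent.P353.Z.U
end
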