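import Mathlib
import Vale.Agent.P353.BdZ.B2
import Vale.Agent.P353.BdZ.B4
import Vale.Agent.P353.BdZ.B8

set_option linter.all false

section

/-! # P353, uniqueness, task B8: approximation by (invariant) test functions -/

open MeasureTheory Filter Topology
open scoped ContDiff

namespace Vale.Agent.P353.Z.U.InvL

variable {dc : ℕ}

open Vale.Agent.P353.Z.Moll

variable {F : Type*} [NormedAddCommGroup F] [InnerProductSpace ℂ F]

lemma int_op_cs {T : (Cfg dc) → F →L[ℂ] F} (hT : Continuous T) (hTc : HasCompactSupport T)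
    {f : (Cfg dc) → F} (hf : MemLp f 2 (volume : Measure (Cfg dc))) : Integrable (fun y => T y (f y)) := by
  have h1 : Integrable (fun y => ‖T y‖ ^ 2) := by
    refine (hT.norm.pow 2).integrable_of_hasCompactSupport ?_
    refine hTc.mono fun x hx => ?_
    simp only [Function.mem_support] at hx ⊢
    intro h0
    exact hx (by simp [h0])
  refine (h1.add (memLp_norm_sq_int hf)).mono' (continuous_apply_clm hT hf.1)
    (Eventually.of_forall fun y => ?_)
  have h2 := (T y).le_opNorm (f y)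
  simp only [Pi.add_apply]
  nlinarith [sq_nonneg (‖T y‖ - ‖f y‖), norm_nonneg (T y), norm_nonneg (f y),
    mul_nonneg (norm_nonneg (T y)) (norm_nonneg (f y))]

section kernel

variable {ρ : (Cfg dc) → ℝ}

lemma pdr_kernel (hρ : ContDiff ℝ ∞ ρ) (i : Fin 9) (A : Fin dc) (x y : (Cfg dc)) :
    pdr i A (fun y => ρ (x - y)) y = -pdr i A ρ (x - y) := by
  have h1 : HasFDerivAt (fun y : (Cfg dc) => x - y) (-ContinuousLinearMap.id ℝ (Cfg dc)) y :=
    (hasFDerivAt_id y).const_sub x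
  have h2 := ((hρ.differentiable (by simp)) (x - y)).hasFDerivAt.comp y h1
  have h3 : fderiv ℝ (fun y => ρ (x - y)) y = _ := h2.fderiv
  rw [pdr, h3]
  simp [pdr]

lemma contDiff_kernel (hρ : ContDiff ℝ ∞ ρ) (x : (Cfg dc)) : ContDiff ℝ ∞ (fun y => ρ (x - y)) :=
  hρ.comp (contDiff_const.sub contDiff_id)

lemma hcs_kernel (hc : HasCompactSupport ρ) (x : (Cfg dc)) :
    HasCompactSupport (fun y => ρ (x - y)) :=
  hc.comp_homeomorph (Homeomorph.subLeft x)

lemma Tst_kernel (hρ : ContDiff ℝ ∞ ρ) (hc : HasCompactSupport ρ) (x : (Cfg dc)) (v : F) :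
    Setup.Tst (fun y => ((ρ (x - y) : ℝ) : ℂ) • v) := by
  refine ⟨(Setup.contDiff_ofReal (contDiff_kernel hρ x)).smul contDiff_const,
    (hcs_kernel hc x).mono fun y hy => ?_⟩
  simp only [Function.mem_support] at hy ⊢
  intro h0
  exact hy (by simp [h0])

lemma pd_kernel (hρ : ContDiff ℝ ∞ ρ) (i : Fin 9) (A : Fin dc) (x y : (Cfg dc)) (v : F) :
    pd i A (fun y => ((ρ (x - y) : ℝ) : ℂ) • v) y = (-(pdr i A ρ (x - y) : ℝ) : ℂ) • v := by
  have h1 := pd_rsmul (i := i) (A := A) (φ := fun y => ρ (x - y)) (u := fun _ : (Cfg dc) => v) (x := y)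
    ((contDiff_kernel hρ x).differentiable (by simp) y) (differentiableAt_const v)
  have h2 : pd i A (fun _ : (Cfg dc) => v) y = 0 := by simp [pd]
  have h3 := pdr_kernel hρ i A x y
  rw [pdr] at h3
  rw [h1, h2, smul_zero, add_zero, h3]
  push_cast
  rfl

lemma inner_mo_eq (hρ : Continuous ρ) (hc : HasCompactSupport ρ) {f : (Cfg dc) → F} [CompleteSpace F]
    (hf : MemLp f 2 (volume : Measure (Cfg dc))) (x : (Cfg dc)) (v : F) :
    ∫ y, inner ℂ (((ρ (x - y) : ℝ) : ℂ) • v) (f y) = inner ℂ v (mo ρ f x) := by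
  rw [mo, ← integral_inner (integrable_mo hρ hc (locInt hf) x) v]
  refine integral_congr_ae (Eventually.of_forall fun y => ?_)
  simp only
  rw [inner_smul_left, Complex.conj_ofReal, ← Complex.coe_smul, inner_smul_right]

lemma pd_mo (hρ : ContDiff ℝ ∞ ρ) (hc : HasCompactSupport ρ) {f : (Cfg dc) → F}
    (hf : MemLp f 2 (volume : Measure (Cfg dc))) (i : Fin 9) (A : Fin dc) (x : (Cfg dc)) :
    pd i A (mo ρ f) x = mo (pdr i A ρ) f x :=
  fderiv_mo hρ hc (locInt hf) x _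

lemma contDiff_pdr' (hρ : ContDiff ℝ ∞ ρ) (i : Fin 9) (A : Fin dc) : ContDiff ℝ ∞ (pdr i A ρ) :=
  (hρ.fderiv_right (m := ∞) (by simp)).clm_apply contDiff_const

lemma hcs_pdr (hc : HasCompactSupport ρ) (i : Fin 9) (A : Fin dc) :
    HasCompactSupport (pdr i A ρ) :=
  hc.fderiv_apply (𝕜 := ℝ) (EuclideanSpace.single (i, A) (1 : ℝ) : (Cfg dc))

end kernel

variable (S : Setup dc F)

/-- zero order part of `Q_β + m M_β` -/
noncomputable def AA (m : ℝ) (β : Fin 16) (x : (Cfg dc)) : F →L[ℂ] F :=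
  S.W β x + (m : ℂ) • S.MM β x

lemma MM_symm (β : Fin 16) (x : (Cfg dc)) (v w : F) :
    inner ℂ (S.MM β x v) w = inner ℂ v (S.MM β x w) := by
  simp only [Setup.MM, _root_.sum_apply, _root_.smul_apply, sum_inner,
    inner_sum, inner_smul_left, inner_smul_right,
    S.vec_symm _ (Setup.mul_im_zero (S.g_im _) S.Gam_real), Complex.conj_ofReal]

lemma continuous_AA (m : ℝ) (β : Fin 16) : Continuous (AA S m β) := by
  have h1 : ContDiff ℝ ∞ (S.MM β) := by
    unfold Setup.MM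
    refine ContDiff.sum fun i _ => ContDiff.sum fun A _ => ?_
    exact (Setup.contDiff_ofReal (contDiff_const.mul (Setup.contDiff_coord _))).smul contDiff_const
  exact (S.contDiff_W β).continuous.add (h1.continuous.const_smul (m : ℂ))

variable {S} {m : ℝ} {β : Fin 16} {Ψ Θ : (Cfg dc) → F} {ρ : (Cfg dc) → ℝ}

lemma int_AA (hΨ : MemLp Ψ 2 (volume : Measure (Cfg dc))) (hρ : Continuous ρ)
    (hc : HasCompactSupport ρ) (x : (Cfg dc)) :
    Integrable (fun y => ρ (x - y) • AA S m β y (Ψ y)) := by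
  have h1 : Continuous (fun y => ((ρ (x - y) : ℝ) : ℂ) • AA S m β y) :=
    Setup.continuous_rsmul_op (hρ.comp (continuous_const.sub continuous_id)) (continuous_AA S m β)
  have h2 : HasCompactSupport (fun y => ((ρ (x - y) : ℝ) : ℂ) • AA S m β y) := by
    refine (hcs_kernel hc x).mono fun y hy => ?_
    simp only [Function.mem_support] at hy ⊢
    intro h0
    exact hy (by simp [h0])
  refine (int_op_cs h1 h2 hΨ).congr (Eventually.of_forall fun y => ?_)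
  simp only [_root_.smul_apply, Complex.coe_smul]

/-- the weak equation tested with kernels -/
lemma weakQ [CompleteSpace F] (hΨ : MemLp Ψ 2 (volume : Measure (Cfg dc)))
    (hΘ : MemLp Θ 2 (volume : Measure (Cfg dc))) (h : S.wQ m β Ψ Θ) (hρ : ContDiff ℝ ∞ ρ)
    (hc : HasCompactSupport ρ) (x : (Cfg dc)) :
    (-Complex.I) • ∑ i, ∑ A, S.vec (S.g i) A β (mo (pdr i A ρ) Ψ x) +
      ∫ y, ρ (x - y) • AA S m β y (Ψ y) = mo ρ Θ x := by
  have i1 : ∀ i A, Integrable (fun y => S.vec (S.g i) A β (pdr i A ρ (x - y) • Ψ y)) :=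
    fun i A => (S.vec (S.g i) A β).integrable_comp
      (integrable_mo (contDiff_pdr' hρ i A).continuous (hcs_pdr hc i A) (locInt hΨ) x)
  have i2 := int_AA (S := S) (m := m) (β := β) hΨ hρ.continuous hc x
  have i3 : Integrable (fun y => (-Complex.I) • ∑ i, ∑ A,
      S.vec (S.g i) A β (pdr i A ρ (x - y) • Ψ y)) :=
    (integrable_finsetSum _ fun i _ => integrable_finsetSum _ fun A _ => i1 i A).smul _
  have e1 : (-Complex.I) • ∑ i, ∑ A, S.vec (S.g i) A β (mo (pdr i A ρ) Ψ x) +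
      ∫ y, ρ (x - y) • AA S m β y (Ψ y) = ∫ y, ((-Complex.I) • ∑ i, ∑ A,
      S.vec (S.g i) A β (pdr i A ρ (x - y) • Ψ y) + ρ (x - y) • AA S m β y (Ψ y)) := by
    rw [integral_add i3 i2, integral_smul, integral_finsetSum _ fun i _ =>
      integrable_finsetSum _ fun A _ => i1 i A]
    congr 2
    refine Finset.sum_congr rfl fun i _ => ?_
    rw [integral_finsetSum _ fun A _ => i1 i A]
    refine Finset.sum_congr rfl fun A _ => ?_
    rw [(S.vec (S.g i) A β).integral_comp_comm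
      (integrable_mo (contDiff_pdr' hρ i A).continuous (hcs_pdr hc i A) (locInt hΨ) x)]
    rfl
  have i4 : Integrable (fun y => (-Complex.I) • ∑ i, ∑ A,
      S.vec (S.g i) A β (pdr i A ρ (x - y) • Ψ y) + ρ (x - y) • AA S m β y (Ψ y)) := i3.add i2
  rw [e1]
  refine ext_inner_left ℂ fun v => ?_
  rw [← integral_inner i4 v, ← inner_mo_eq hρ.continuous hc hΘ x v,
    ← h _ (Tst_kernel hρ hc x v)]
  refine integral_congr_ae (Eventually.of_forall fun y => ?_)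
  simp only [Setup.Qm, Setup.Q, pd_kernel hρ, AA]
  simp only [← Complex.coe_smul, inner_add_left, inner_add_right, inner_smul_left,
    inner_smul_right, sum_inner, inner_sum, map_smul, map_neg, Complex.conj_ofReal,
    Complex.conj_I, _root_.add_apply, _root_.smul_apply,
    S.vec_symm _ (S.g_im _), S.W_symm, MM_symm, neg_mul, mul_neg, neg_neg,
    Finset.sum_neg_distrib]
  ring

/-- `Q_β (ρ * Ψ) = ρ * Θ_β + commutator` -/
lemma Qm_mo [CompleteSpace F] (hΨ : MemLp Ψ 2 (volume : Measure (Cfg dc)))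
    (hΘ : MemLp Θ 2 (volume : Measure (Cfg dc))) (h : S.wQ m β Ψ Θ) (hρ : ContDiff ℝ ∞ ρ)
    (hc : HasCompactSupport ρ) (x : (Cfg dc)) :
    S.Qm m β (mo ρ Ψ) x = mo ρ Θ x +
      ∫ y, ρ (x - y) • ((AA S m β x - AA S m β y) (Ψ y)) := by
  have h1 := weakQ hΨ hΘ h hρ hc x
  have i2 := int_AA (S := S) (m := m) (β := β) hΨ hρ.continuous hc x
  have i0 := integrable_mo hρ.continuous hc (locInt hΨ) x
  have i1 : Integrable (fun y => ρ (x - y) • AA S m β x (Ψ y)) := by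
    refine ((AA S m β x).integrable_comp i0).congr (Eventually.of_forall fun y => ?_)
    simp only [← Complex.coe_smul, map_smul]
  have e1 : ∫ y, ρ (x - y) • ((AA S m β x - AA S m β y) (Ψ y)) =
      AA S m β x (mo ρ Ψ x) - ∫ y, ρ (x - y) • AA S m β y (Ψ y) := by
    have e2 : AA S m β x (mo ρ Ψ x) = ∫ y, ρ (x - y) • AA S m β x (Ψ y) := by
      rw [mo, ← (AA S m β x).integral_comp_comm i0]
      refine integral_congr_ae (Eventually.of_forall fun y => ?_)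
      simp only [← Complex.coe_smul, map_smul]
    rw [e2, ← integral_sub i1 i2]
    refine integral_congr_ae (Eventually.of_forall fun y => ?_)
    simp only [_root_.sub_apply, smul_sub]
  rw [e1, ← h1]
  simp only [Setup.Qm, Setup.Q, pd_mo hρ hc hΨ, AA, _root_.add_apply, _root_.smul_apply]
  abel

/-- bound of the commutator -/
lemma comm_bound {ε η : ℝ} (hρ : IsMol ε ρ) (hΨ : MemLp Ψ 2 (volume : Measure (Cfg dc))) {x : (Cfg dc)}
    (hx : ∀ y, ‖x - y‖ < ε → ‖AA S m β x - AA S m β y‖ ≤ η) :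
    ‖∫ y, ρ (x - y) • ((AA S m β x - AA S m β y) (Ψ y))‖ ≤ η * mo ρ (fun y => ‖Ψ y‖) x := by
  have i1 : Integrable (fun y => ρ (x - y) • ‖Ψ y‖) :=
    integrable_mo hρ.contDiff.continuous hρ.hcs (fun z => (locInt hΨ z).norm) x
  rw [mo, ← integral_const_mul]
  refine norm_integral_le_of_norm_le (i1.const_mul η) (Eventually.of_forall fun y => ?_)
  rw [norm_smul, Real.norm_of_nonneg (hρ.nonneg _), smul_eq_mul]
  by_cases hy : ‖x - y‖ < ε
  · have h1 := ((AA S m β x - AA S m β y).le_opNorm (Ψ y)).trans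
      (mul_le_mul_of_nonneg_right (hx y hy) (norm_nonneg _))
    calc ρ (x - y) * ‖(AA S m β x - AA S m β y) (Ψ y)‖ ≤ ρ (x - y) * (η * ‖Ψ y‖) :=
          mul_le_mul_of_nonneg_left h1 (hρ.nonneg _)
      _ = η * (ρ (x - y) * ‖Ψ y‖) := by ring
  · rw [hρ.supp _ (not_lt.1 hy)]
    simp

end Vale.Agent.P353.Z.U.InvL
end

section

/-! # P353, uniqueness, task B8: invariance of mollified functions -/

open MeasureTheory Filter Topology
open scoped ContDiff

namespace Vale.Agent.P353.Z.U.InvL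

variable {dc : ℕ}

open Vale.Agent.P353.Z.Moll

variable {F : Type*} [NormedAddCommGroup F] [InnerProductSpace ℂ F]

lemma f_sum_zero (S : Setup dc F) (C : Fin dc) (a : Fin dc → ℂ) :
    ∑ A, ∑ B, (S.f C A B : ℂ) * (a A * a B) = 0 := by
  have he : ∀ A B : Fin dc, S.f C B A = - S.f C A B := fun A B => S.f_swap' C A B
  have h1 : ∑ A, ∑ B, (S.f C A B : ℂ) * (a A * a B) =
      -∑ A, ∑ B, (S.f C A B : ℂ) * (a A * a B) := by
    conv_lhs => rw [Finset.sum_comm]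
    rw [← Finset.sum_neg_distrib]
    refine Finset.sum_congr rfl fun A _ => ?_
    rw [← Finset.sum_neg_distrib]
    refine Finset.sum_congr rfl fun B _ => ?_
    rw [he A B]
    push_cast
    ring
  have h2 : (2 : ℂ) * ∑ A, ∑ B, (S.f C A B : ℂ) * (a A * a B) = 0 := by
    linear_combination h1
  simpa using h2

variable (S : Setup dc F)

lemma G_rad {f : ℝ → ℝ} (hf : ContDiff ℝ ∞ f) (C : Fin dc) (u : (Cfg dc) → F) (x : (Cfg dc))
    (hu : DifferentiableAt ℝ u x) :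
    S.G C (fun y => ((rad f y : ℝ) : ℂ) • u y) x = ((rad f x : ℝ) : ℂ) • S.G C u x := by
  have h : ∀ i A, pd i A (fun y => ((rad f y : ℝ) : ℂ) • u y) x =
      ((2 * deriv f (‖x‖ ^ 2) * x (i, A) : ℝ) : ℂ) • u x + ((rad f x : ℝ) : ℂ) • pd i A u x := by
    intro i A
    rw [pd_rsmul ((contDiff_rad hf).differentiable (by simp) x) hu]
    have := pdr_rad hf i A x
    rw [pdr] at this
    rw [this]
  have e : ∑ i, ∑ A, ∑ B, ((S.f C A B : ℂ) * (x (i, A) : ℂ)) •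
      (((2 * deriv f (‖x‖ ^ 2) * x (i, B) : ℝ) : ℂ) • u x) = 0 := by
    refine Finset.sum_eq_zero fun i _ => ?_
    have e1 := f_sum_zero S C (fun A => (x (i, A) : ℂ))
    have e2 : ∑ A, ∑ B, ((S.f C A B : ℂ) * (x (i, A) : ℂ)) •
        (((2 * deriv f (‖x‖ ^ 2) * x (i, B) : ℝ) : ℂ) • u x) =
        ((2 * deriv f (‖x‖ ^ 2) : ℝ) : ℂ) •
          (∑ A, ∑ B, (S.f C A B : ℂ) * ((x (i, A) : ℂ) * (x (i, B) : ℂ))) • u x := by
      rw [Finset.sum_smul, Finset.smul_sum]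
      refine Finset.sum_congr rfl fun A _ => ?_
      rw [Finset.sum_smul, Finset.smul_sum]
      refine Finset.sum_congr rfl fun B _ => ?_
      rw [smul_smul, smul_smul]
      congr 1
      push_cast
      ring
    rw [e2, e1, zero_smul, smul_zero]
  have e3 : ∑ i, ∑ A, ∑ B, ((S.f C A B : ℂ) * (x (i, A) : ℂ)) •
      (((2 * deriv f (‖x‖ ^ 2) * x (i, B) : ℝ) : ℂ) • u x + ((rad f x : ℝ) : ℂ) • pd i B u x) =
      ((rad f x : ℝ) : ℂ) • ∑ i, ∑ A, ∑ B, ((S.f C A B : ℂ) * (x (i, A) : ℂ)) • pd i B u x := by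
    simp only [smul_add, Finset.sum_add_distrib]
    rw [e, zero_add]
    simp only [Finset.smul_sum]
    refine Finset.sum_congr rfl fun i _ => Finset.sum_congr rfl fun A _ =>
      Finset.sum_congr rfl fun B _ => ?_
    rw [smul_comm]
  simp only [Setup.G, h]
  rw [e3, map_smul, smul_add, smul_comm ((rad f x : ℝ) : ℂ) (-Complex.I)]

variable {S} {Ψ : (Cfg dc) → F} {g : ℝ → ℝ}

/-- the radial kernel is killed by the sum of the gauge generators in `x` and in `y` -/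
lemma ker_G (hg : ContDiff ℝ ∞ g) (C : Fin dc) (x y : (Cfg dc)) :
    ∑ i, ∑ A, ∑ B, (S.f C A B : ℂ) * (y (i, A) : ℂ) * ((pdr i B (rad g) (x - y) : ℝ) : ℂ) =
      ∑ i, ∑ A, ∑ B, (S.f C A B : ℂ) * (x (i, A) : ℂ) * ((pdr i B (rad g) (x - y) : ℝ) : ℂ) := by
  refine Finset.sum_congr rfl fun i _ => ?_
  have e1 := f_sum_zero S C (fun A => ((x - y) (i, A) : ℂ))
  have e2 : ∑ A, ∑ B, ((S.f C A B : ℂ) * (x (i, A) : ℂ) * ((pdr i B (rad g) (x - y) : ℝ) : ℂ) -
      (S.f C A B : ℂ) * (y (i, A) : ℂ) * ((pdr i B (rad g) (x - y) : ℝ) : ℂ)) =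
      ((2 * deriv g (‖x - y‖ ^ 2) : ℝ) : ℂ) * ∑ A, ∑ B, (S.f C A B : ℂ) *
        (((x - y) (i, A) : ℂ) * ((x - y) (i, B) : ℂ)) := by
    rw [Finset.mul_sum]
    refine Finset.sum_congr rfl fun A _ => ?_
    rw [Finset.mul_sum]
    refine Finset.sum_congr rfl fun B _ => ?_
    rw [pdr_rad hg]
    simp only [PiLp.sub_apply]
    push_cast
    ring
  rw [e1, mul_zero] at e2
  simp only [Finset.sum_sub_distrib] at e2
  exact (sub_eq_zero.1 e2).symm

lemma ker_J (hg : ContDiff ℝ ∞ g) (k l : Fin 9) (A : Fin dc) (x y : (Cfg dc)) :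
    (y (k, A) : ℂ) * ((pdr l A (rad g) (x - y) : ℝ) : ℂ) -
      (y (l, A) : ℂ) * ((pdr k A (rad g) (x - y) : ℝ) : ℂ) =
    (x (k, A) : ℂ) * ((pdr l A (rad g) (x - y) : ℝ) : ℂ) -
      (x (l, A) : ℂ) * ((pdr k A (rad g) (x - y) : ℝ) : ℂ) := by
  rw [pdr_rad hg, pdr_rad hg]
  simp only [PiLp.sub_apply]
  push_cast
  ring

lemma G_mo_zero [CompleteSpace F] (hΨ : MemLp Ψ 2 (volume : Measure (Cfg dc))) (h : S.wG Ψ)
    (hg : ContDiff ℝ ∞ g) (hc : HasCompactSupport (rad (dc := dc) g)) (C : Fin dc) (x : (Cfg dc)) :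
    S.G C (mo (rad g) Ψ) x = 0 := by
  have hρ := contDiff_rad (dc := dc) hg
  have i1 : ∀ i B, Integrable (fun y => pdr i B (rad g) (x - y) • Ψ y) := fun i B =>
    integrable_mo (contDiff_pdr' hρ i B).continuous (hcs_pdr hc i B) (locInt hΨ) x
  have i6 : ∀ (c : ℂ) i B, Integrable (fun y => c • (pdr i B (rad g) (x - y) • Ψ y)) :=
    fun c i B => (i1 i B).smul c
  have i0 := integrable_mo hρ.continuous hc (locInt hΨ) x
  have i2 : Integrable (fun y => S.cS C ((rad g) (x - y) • Ψ y)) := (S.cS C).integrable_comp i0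
  have i3 : Integrable (fun y => (-Complex.I) • ∑ i, ∑ A, ∑ B,
      ((S.f C A B : ℂ) * (x (i, A) : ℂ)) • (pdr i B (rad g) (x - y) • Ψ y)) :=
    (integrable_finsetSum _ fun i _ => integrable_finsetSum _ fun A _ =>
      integrable_finsetSum _ fun B _ => i6 _ i B).smul _
  have i4 : Integrable (fun y => (-Complex.I) • ∑ i, ∑ A, ∑ B,
      ((S.f C A B : ℂ) * (x (i, A) : ℂ)) • (pdr i B (rad g) (x - y) • Ψ y) +
      S.cS C ((rad g) (x - y) • Ψ y)) := i3.add i2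
  have e1 : S.G C (mo (rad g) Ψ) x = ∫ y, ((-Complex.I) • ∑ i, ∑ A, ∑ B,
      ((S.f C A B : ℂ) * (x (i, A) : ℂ)) • (pdr i B (rad g) (x - y) • Ψ y) +
      S.cS C ((rad g) (x - y) • Ψ y)) := by
    rw [integral_add i3 i2, integral_smul, integral_finsetSum _ fun i _ =>
      integrable_finsetSum _ fun A _ => integrable_finsetSum _ fun B _ => i6 _ i B,
      (S.cS C).integral_comp_comm i0]
    simp only [Setup.G, pd_mo hρ hc hΨ]
    congr 2
    refine Finset.sum_congr rfl fun i _ => ?_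
    rw [integral_finsetSum _ fun A _ => integrable_finsetSum _ fun B _ => i6 _ i B]
    refine Finset.sum_congr rfl fun A _ => ?_
    rw [integral_finsetSum _ fun B _ => i6 _ i B]
    refine Finset.sum_congr rfl fun B _ => ?_
    rw [integral_smul]
    rfl
  rw [e1]
  refine ext_inner_left ℂ fun v => ?_
  rw [← integral_inner i4 v, inner_zero_right, ← h C _ (Tst_kernel hρ hc x v)]
  refine integral_congr_ae (Eventually.of_forall fun y => ?_)
  have e2 : S.G C (fun y => ((rad g (x - y) : ℝ) : ℂ) • v) y =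
      (Complex.I * ∑ i, ∑ A, ∑ B, (S.f C A B : ℂ) * (x (i, A) : ℂ) *
        ((pdr i B (rad g) (x - y) : ℝ) : ℂ)) • v + ((rad g (x - y) : ℝ) : ℂ) • S.cS C v := by
    simp only [Setup.G, pd_kernel hρ, map_smul]
    congr 1
    rw [← ker_G hg C x y, mul_smul, Finset.sum_smul, neg_smul, ← smul_neg]
    congr 1
    rw [← Finset.sum_neg_distrib]
    refine Finset.sum_congr rfl fun i _ => ?_
    rw [Finset.sum_smul, ← Finset.sum_neg_distrib]
    refine Finset.sum_congr rfl fun A _ => ?_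
    rw [Finset.sum_smul, ← Finset.sum_neg_distrib]
    refine Finset.sum_congr rfl fun B _ => ?_
    rw [smul_smul, mul_neg, neg_smul, neg_neg]
  have e3 : (-Complex.I) • ∑ i, ∑ A, ∑ B,
      ((S.f C A B : ℂ) * (x (i, A) : ℂ)) • (pdr i B (rad g) (x - y) • Ψ y) =
      (-Complex.I * ∑ i, ∑ A, ∑ B, (S.f C A B : ℂ) * (x (i, A) : ℂ) *
        ((pdr i B (rad g) (x - y) : ℝ) : ℂ)) • Ψ y := by
    rw [mul_smul, Finset.sum_smul]
    congr 1
    refine Finset.sum_congr rfl fun i _ => ?_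
    rw [Finset.sum_smul]
    refine Finset.sum_congr rfl fun A _ => ?_
    rw [Finset.sum_smul]
    refine Finset.sum_congr rfl fun B _ => ?_
    rw [← Complex.coe_smul, smul_smul]
  have e4 : (starRingEnd ℂ) (∑ i, ∑ A, ∑ B, (S.f C A B : ℂ) * (x (i, A) : ℂ) *
        ((pdr i B (rad g) (x - y) : ℝ) : ℂ)) = ∑ i, ∑ A, ∑ B, (S.f C A B : ℂ) * (x (i, A) : ℂ) *
        ((pdr i B (rad g) (x - y) : ℝ) : ℂ) := by
    simp only [map_sum, map_mul, Complex.conj_ofReal]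
  simp only
  rw [e2, e3, ← Complex.coe_smul, map_smul]
  simp only [inner_add_left, inner_add_right, inner_smul_left, inner_smul_right, map_mul,
    Complex.conj_I, Complex.conj_ofReal, S.cS_symm, e4]

lemma J_mo_zero [CompleteSpace F] (hΨ : MemLp Ψ 2 (volume : Measure (Cfg dc))) (h : S.wJ Ψ)
    (hg : ContDiff ℝ ∞ g) (hc : HasCompactSupport (rad (dc := dc) g)) {k l : Fin 9} (hkl : Same k l)
    (x : (Cfg dc)) : S.J k l (mo (rad g) Ψ) x = 0 := by
  have hρ := contDiff_rad (dc := dc) hg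
  have i1 : ∀ i B, Integrable (fun y => pdr i B (rad g) (x - y) • Ψ y) := fun i B =>
    integrable_mo (contDiff_pdr' hρ i B).continuous (hcs_pdr hc i B) (locInt hΨ) x
  have i6 : ∀ (c : ℂ) i B, Integrable (fun y => c • (pdr i B (rad g) (x - y) • Ψ y)) :=
    fun c i B => (i1 i B).smul c
  have i0 := integrable_mo hρ.continuous hc (locInt hΨ) x
  have i2 : Integrable (fun y => S.Skl k l ((rad g) (x - y) • Ψ y)) :=
    (S.Skl k l).integrable_comp i0
  have i5 : ∀ A, Integrable (fun y => (x (k, A) : ℂ) • (pdr l A (rad g) (x - y) • Ψ y) -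
      (x (l, A) : ℂ) • (pdr k A (rad g) (x - y) • Ψ y)) := fun A =>
    (i6 _ l A).sub (i6 _ k A)
  have i3 : Integrable (fun y => (-Complex.I) • ∑ A, ((x (k, A) : ℂ) •
      (pdr l A (rad g) (x - y) • Ψ y) - (x (l, A) : ℂ) • (pdr k A (rad g) (x - y) • Ψ y))) :=
    (integrable_finsetSum _ fun A _ => i5 A).smul _
  have i4 : Integrable (fun y => (-Complex.I) • ∑ A, ((x (k, A) : ℂ) •
      (pdr l A (rad g) (x - y) • Ψ y) - (x (l, A) : ℂ) • (pdr k A (rad g) (x - y) • Ψ y)) +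
      S.Skl k l ((rad g) (x - y) • Ψ y)) := i3.add i2
  have e1 : S.J k l (mo (rad g) Ψ) x = ∫ y, ((-Complex.I) • ∑ A, ((x (k, A) : ℂ) •
      (pdr l A (rad g) (x - y) • Ψ y) - (x (l, A) : ℂ) • (pdr k A (rad g) (x - y) • Ψ y)) +
      S.Skl k l ((rad g) (x - y) • Ψ y)) := by
    rw [integral_add i3 i2, integral_smul, integral_finsetSum _ fun A _ => i5 A,
      (S.Skl k l).integral_comp_comm i0]
    simp only [Setup.J, pd_mo hρ hc hΨ]
    congr 2
    refine Finset.sum_congr rfl fun A _ => ?_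
    rw [integral_sub (i6 _ l A) (i6 _ k A), integral_smul, integral_smul]
    rfl
  rw [e1]
  refine ext_inner_left ℂ fun v => ?_
  rw [← integral_inner i4 v, inner_zero_right, ← h k l hkl _ (Tst_kernel hρ hc x v)]
  refine integral_congr_ae (Eventually.of_forall fun y => ?_)
  have e2 : S.J k l (fun y => ((rad g (x - y) : ℝ) : ℂ) • v) y =
      (Complex.I * ∑ A, ((x (k, A) : ℂ) * ((pdr l A (rad g) (x - y) : ℝ) : ℂ) -
        (x (l, A) : ℂ) * ((pdr k A (rad g) (x - y) : ℝ) : ℂ))) • v +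
        ((rad g (x - y) : ℝ) : ℂ) • S.Skl k l v := by
    simp only [Setup.J, pd_kernel hρ, map_smul]
    congr 1
    rw [mul_smul, Finset.sum_smul, neg_smul, ← smul_neg]
    congr 1
    rw [← Finset.sum_neg_distrib]
    refine Finset.sum_congr rfl fun A _ => ?_
    rw [← ker_J hg k l A x y, sub_smul, smul_smul, smul_smul, mul_neg, mul_neg, neg_smul,
      neg_smul]
    abel
  have e3 : (-Complex.I) • ∑ A, ((x (k, A) : ℂ) •
      (pdr l A (rad g) (x - y) • Ψ y) - (x (l, A) : ℂ) • (pdr k A (rad g) (x - y) • Ψ y)) =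
      (-Complex.I * ∑ A, ((x (k, A) : ℂ) * ((pdr l A (rad g) (x - y) : ℝ) : ℂ) -
        (x (l, A) : ℂ) * ((pdr k A (rad g) (x - y) : ℝ) : ℂ))) • Ψ y := by
    rw [mul_smul, Finset.sum_smul]
    congr 1
    refine Finset.sum_congr rfl fun A _ => ?_
    rw [← Complex.coe_smul, ← Complex.coe_smul, smul_smul, smul_smul, sub_smul]
  have e4 : (starRingEnd ℂ) (∑ A, ((x (k, A) : ℂ) * ((pdr l A (rad g) (x - y) : ℝ) : ℂ) -
        (x (l, A) : ℂ) * ((pdr k A (rad g) (x - y) : ℝ) : ℂ))) =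
        ∑ A, ((x (k, A) : ℂ) * ((pdr l A (rad g) (x - y) : ℝ) : ℂ) -
        (x (l, A) : ℂ) * ((pdr k A (rad g) (x - y) : ℝ) : ℂ)) := by
    simp only [map_sum, map_mul, map_sub, Complex.conj_ofReal]
  simp only
  rw [e2, e3, ← Complex.coe_smul, map_smul]
  simp only [inner_add_left, inner_add_right, inner_smul_left, inner_smul_right, map_mul,
    Complex.conj_I, Complex.conj_ofReal, S.Skl_symm, e4]

end Vale.Agent.P353.Z.U.InvL
end

section

/-! # P353, uniqueness, task B8: approximation by (invariant) test functions -/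

open MeasureTheory Filter Topology
open scoped ContDiff

namespace Vale.Agent.P353.Z.U

variable {dc : ℕ}

namespace InvL

open Vale.Agent.P353.Z.Moll

variable {F : Type*} [NormedAddCommGroup F] [InnerProductSpace ℂ F]

lemma exists_pos_le (a : Fin 16 → ℝ) (h : ∀ β, 0 < a β) : ∃ ε > 0, ∀ β, ε ≤ a β :=
  ⟨Finset.univ.inf' ⟨0, Finset.mem_univ _⟩ a, (Finset.lt_inf'_iff _).2 fun β _ => h β,
    fun β => Finset.inf'_le _ (Finset.mem_univ β)⟩

omit [InnerProductSpace ℂ F] in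
/-- functions dominated by the tail of `f` -/
lemma nsq_tail {f w : (Cfg dc) → F} (hf : MemLp f 2 (volume : Measure (Cfg dc))) {c r : ℝ}
    (h : ∀ x, ‖w x‖ ≤ c * (if r ≤ ‖x‖ then ‖f x‖ else 0)) :
    nsq w ≤ c ^ 2 * ∫ x, (if r ≤ ‖x‖ then ‖f x‖ ^ 2 else 0) := by
  have hi : Integrable (fun x : (Cfg dc) => if r ≤ ‖x‖ then ‖f x‖ ^ 2 else 0) := by
    have h1 := (memLp_norm_sq_int hf).indicator
      (measurableSet_le measurable_const measurable_norm : MeasurableSet {x : (Cfg dc) | r ≤ ‖x‖})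
    refine h1.congr (Eventually.of_forall fun x => ?_)
    simp only [Set.indicator_apply, Set.mem_ofPred_eq]
  rw [nsq, ← integral_const_mul]
  refine integral_mono_of_nonneg (Eventually.of_forall fun x => by positivity)
    (hi.const_mul _) (Eventually.of_forall fun x => ?_)
  have h2 := pow_le_pow_left₀ (norm_nonneg _) (h x) 2
  refine h2.trans (le_of_eq ?_)
  rw [mul_pow]
  congr 1
  split_ifs <;> simp

omit [InnerProductSpace ℂ F] in
lemma tail_nonneg (f : (Cfg dc) → F) (r : ℝ) : 0 ≤ ∫ x, (if r ≤ ‖x‖ then ‖f x‖ ^ 2 else 0) :=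
  integral_nonneg fun x => by
    simp only [Pi.zero_apply]
    split_ifs <;> positivity

omit [InnerProductSpace ℂ F] in
lemma memLp_of_bound {f g : (Cfg dc) → F} {c : ℝ} (hm : AEStronglyMeasurable f volume)
    (hg : MemLp g 2 (volume : Measure (Cfg dc))) (h : ∀ x, ‖f x‖ ≤ c * ‖g x‖) :
    MemLp f 2 (volume : Measure (Cfg dc)) :=
  MemLp.of_le_mul hg hm (Eventually.of_forall h)

lemma asm_smul {φ : (Cfg dc) → ℂ} (hφ : Continuous φ) {f : (Cfg dc) → F}
    (hf : AEStronglyMeasurable f (volume : Measure (Cfg dc))) :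
    AEStronglyMeasurable (fun x => φ x • f x) (volume : Measure (Cfg dc)) :=
  hφ.aestronglyMeasurable.smul hf

lemma contDiff_MM (S : Setup dc F) (β : Fin 16) : ContDiff ℝ ∞ (S.MM β) := by
  unfold Setup.MM
  refine ContDiff.sum fun i _ => ContDiff.sum fun A _ => ?_
  exact (Setup.contDiff_ofReal (contDiff_const.mul (Setup.contDiff_coord _))).smul contDiff_const

lemma continuous_Qm (S : Setup dc F) (m : ℝ) (β : Fin 16) {u : (Cfg dc) → F} (hu : ContDiff ℝ ∞ u) :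
    Continuous (S.Qm m β u) :=
  (S.contDiff_Q β hu).continuous.add
    ((Setup.contDiff_clm_apply' (contDiff_MM S β) hu).continuous.const_smul (m : ℂ))

/-- uniform continuity of the zero order coefficients on balls -/
lemma AA_unif (S : Setup dc F) (m : ℝ) (β : Fin 16) (R : ℝ) {η : ℝ} (hη : 0 < η) :
    ∃ ε > 0, ∀ x y : (Cfg dc), ‖x‖ ≤ R → ‖x - y‖ < ε → ‖AA S m β x - AA S m β y‖ ≤ η := by
  have h1 := (isCompact_closedBall (0 : (Cfg dc)) (R + 1)).uniformContinuousOn_of_continuous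
    (continuous_AA S m β).continuousOn
  obtain ⟨ε, hε, h2⟩ := Metric.uniformContinuousOn_iff.1 h1 η hη
  refine ⟨min ε 1, lt_min hε one_pos, fun x y hx hxy => ?_⟩
  rw [← dist_eq_norm]
  refine (h2 x ?_ y ?_ ?_).le
  · rw [Metric.mem_closedBall, dist_zero_right]; linarith
  · rw [Metric.mem_closedBall, dist_zero_right]
    have h3 : ‖y‖ ≤ ‖x‖ + ‖x - y‖ := by
      have := norm_sub_norm_le y x
      rw [norm_sub_rev] at this
      linarith
    have h4 := hxy.trans_le (min_le_right _ _)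
    linarith
  · rw [dist_eq_norm]
    exact hxy.trans_le (min_le_left _ _)

/-- size of the gradient operator of a cutoff -/
noncomputable def Vc (S : Setup dc F) : ℝ := ∑ β, ∑ i, ∑ A, ‖S.vec (S.g i) A β‖

lemma Vc_nonneg (S : Setup dc F) : 0 ≤ Vc S := by unfold Vc; positivity

lemma gradOp_le (S : Setup dc F) {K R : ℝ} {h : ℝ → ℝ} (hK : 0 ≤ K) (hR : 0 < R) (H : IsRC K R h)
    (β : Fin 16) (x : (Cfg dc)) : ‖S.gradOp (rad h) β x‖ ≤ K * Vc S / R := by
  have h1 : ∑ i, ∑ A, ‖S.vec (S.g i) A β‖ ≤ Vc S :=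
    Finset.single_le_sum (f := fun β => ∑ i, ∑ A, ‖S.vec (S.g i) A β‖)
      (fun β _ => by positivity) (Finset.mem_univ β)
  have h2 : ‖S.gradOp (rad h) β x‖ ≤ ∑ i, ∑ A, K / R * ‖S.vec (S.g i) A β‖ := by
    rw [Setup.gradOp, norm_smul, norm_neg, Complex.norm_I, one_mul]
    refine (norm_sum_le _ _).trans (Finset.sum_le_sum fun i _ => ?_)
    refine (norm_sum_le _ _).trans (Finset.sum_le_sum fun A _ => ?_)
    rw [norm_smul, Complex.norm_real]
    exact mul_le_mul_of_nonneg_right (H.grad i A x) (norm_nonneg _)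
  refine h2.trans ?_
  simp only [← Finset.mul_sum]
  calc K / R * ∑ i, ∑ A, ‖S.vec (S.g i) A β‖ ≤ K / R * Vc S := by gcongr
    _ = K * Vc S / R := by ring

lemma gradOp_zero (S : Setup dc F) {K R : ℝ} {h : ℝ → ℝ} (H : IsRC K R h)
    (β : Fin 16) {x : (Cfg dc)} (hx : ‖x‖ < R / 2) : S.gradOp (rad h) β x = 0 := by
  simp only [Setup.gradOp, H.grad0 _ _ x hx, Complex.ofReal_zero, zero_smul,
    Finset.sum_const_zero, smul_zero]

lemma continuous_gradOp (S : Setup dc F) {h : ℝ → ℝ} (hh : ContDiff ℝ ∞ h) (β : Fin 16) :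
    Continuous (S.gradOp (rad h) β) := by
  have : ContDiff ℝ ∞ (fun x => ∑ i, ∑ A, ((pdr i A (rad h) x : ℝ) : ℂ) • S.vec (S.g i) A β) := by
    refine ContDiff.sum fun i _ => ContDiff.sum fun A _ => ?_
    exact (Setup.contDiff_ofReal (contDiff_pdr' (contDiff_rad hh) i A)).smul contDiff_const
  exact this.continuous.const_smul (-Complex.I)

section cut

variable {K R : ℝ} {h : ℝ → ℝ} {f g : (Cfg dc) → F}

lemma norm_cut_le (H : IsRC K R h) (x : (Cfg dc)) (v : F) : ‖((rad h x : ℝ) : ℂ) • v‖ ≤ 1 * ‖v‖ := by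
  rw [norm_smul, Complex.norm_real, Real.norm_of_nonneg (H.nonneg x)]
  exact mul_le_mul_of_nonneg_right (H.le_one x) (norm_nonneg _)

lemma norm_cut1_le (H : IsRC K R h) (hR : 0 < R) (x : (Cfg dc)) (v : F) :
    ‖(((rad h x : ℝ) : ℂ) - 1) • v‖ ≤ 1 * (if R / 4 ≤ ‖x‖ then ‖v‖ else 0) := by
  by_cases hx : ‖x‖ ≤ R / 2
  · rw [H.one x hx]
    simp only [Complex.ofReal_one, sub_self, zero_smul, norm_zero, one_mul]
    split_ifs <;> positivity
  · push Not at hx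
    rw [if_pos (by linarith), norm_smul]
    refine mul_le_mul_of_nonneg_right ?_ (norm_nonneg _)
    have : ((rad h x : ℝ) : ℂ) - 1 = ((rad h x - 1 : ℝ) : ℂ) := by push_cast; rfl
    rw [this, Complex.norm_real, Real.norm_eq_abs, abs_le]
    constructor <;> linarith [H.nonneg x, H.le_one x]

/-- `‖χ g - f‖² ≤ 2 ‖g - f‖² + 2 ∫_{tail} |f|²` -/
lemma nsq_cut_sub (H : IsRC K R h) (hR : 0 < R) (hf : MemLp f 2 (volume : Measure (Cfg dc)))
    (hg : MemLp g 2 (volume : Measure (Cfg dc))) :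
    nsq (fun x => ((rad h x : ℝ) : ℂ) • g x - f x) ≤
      2 * nsq (fun x => g x - f x) + 2 * ∫ x, (if R / 4 ≤ ‖x‖ then ‖f x‖ ^ 2 else 0) := by
  have hc : Continuous (fun x : (Cfg dc) => ((rad h x : ℝ) : ℂ)) :=
    (Setup.contDiff_ofReal (contDiff_rad H.contDiff)).continuous
  have hgf : MemLp (fun x => g x - f x) 2 (volume : Measure (Cfg dc)) := hg.sub hf
  have m1 : MemLp (fun x => ((rad h x : ℝ) : ℂ) • (g x - f x)) 2 (volume : Measure (Cfg dc)) :=
    memLp_of_bound (asm_smul hc hgf.1) hgf fun x => norm_cut_le H x _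
  have m2 : MemLp (fun x => (((rad h x : ℝ) : ℂ) - 1) • f x) 2 (volume : Measure (Cfg dc)) := by
    refine memLp_of_bound (c := 1) (asm_smul (hc.sub continuous_const) hf.1) hf fun x => ?_
    refine (norm_cut1_le H hR x _).trans ?_
    split_ifs
    · exact le_rfl
    · rw [mul_zero]; positivity
  have e : (fun x => ((rad h x : ℝ) : ℂ) • g x - f x) = fun x =>
      ((rad h x : ℝ) : ℂ) • (g x - f x) + (((rad h x : ℝ) : ℂ) - 1) • f x := by
    funext x
    rw [smul_sub, sub_smul, one_smul]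
    abel
  rw [e]
  refine (nsq_add_le m1 m2).trans ?_
  have b1 := nsq_le_of hgf (fun x => norm_cut_le H x (g x - f x))
  have b2 := nsq_tail hf (fun x => norm_cut1_le H hR x (f x))
  rw [one_pow, one_mul] at b1 b2
  linarith

end cut

/-- the estimate for `Q_β` -/
lemma nsq_Q_est [CompleteSpace F] {S : Setup dc F} {m K R ε η δ₁ : ℝ} {β : Fin 16} {Ψ Θ : (Cfg dc) → F}
    {ρ : (Cfg dc) → ℝ} {h : ℝ → ℝ} (hΨ : MemLp Ψ 2 (volume : Measure (Cfg dc)))
    (hΘ : MemLp Θ 2 (volume : Measure (Cfg dc))) (hw : S.wQ m β Ψ Θ) (hρ : IsMol ε ρ)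
    (hK : 0 ≤ K) (hR : 1 ≤ R) (H : IsRC K R h) (hη : 0 ≤ η)
    (hA : ∀ x y : (Cfg dc), ‖x‖ ≤ R → ‖x - y‖ < ε → ‖AA S m β x - AA S m β y‖ ≤ η)
    (h1 : nsq (fun x => mo ρ Ψ x - Ψ x) ≤ δ₁) (h2 : nsq (fun x => mo ρ Θ x - Θ x) ≤ δ₁) :
    nsq (fun x => S.Qm m β (fun y => ((rad h y : ℝ) : ℂ) • mo ρ Ψ y) x - Θ x) ≤
      4 * δ₁ + 8 * (K * Vc S) ^ 2 * δ₁ + 8 * (η ^ 2 * nsq Ψ) +
      8 * ((K * Vc S / R) ^ 2 * ∫ x, (if R / 4 ≤ ‖x‖ then ‖Ψ x‖ ^ 2 else 0)) +
      4 * ∫ x, (if R / 4 ≤ ‖x‖ then ‖Θ x‖ ^ 2 else 0) := by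
  have hR0 : 0 < R := lt_of_lt_of_le one_pos hR
  have hcd : ContDiff ℝ ∞ (mo ρ Ψ) := contDiff_mo hρ.contDiff hρ.hcs (locInt hΨ)
  have mΨ := (nsq_mo_le hρ hΨ).1
  have mΘ := (nsq_mo_le hρ hΘ).1
  have hc : Continuous (fun x : (Cfg dc) => ((rad h x : ℝ) : ℂ)) :=
    (Setup.contDiff_ofReal (contDiff_rad H.contDiff)).continuous
  have hV := Vc_nonneg S
  -- the commutator term
  have hcom : ∀ x, ‖((rad h x : ℝ) : ℂ) • (S.Qm m β (mo ρ Ψ) x - mo ρ Θ x)‖ ≤
      η * mo ρ (fun y => ‖Ψ y‖) x := by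
    intro x
    have h0 : 0 ≤ mo ρ (fun y => ‖Ψ y‖) x :=
      integral_nonneg fun y => mul_nonneg (hρ.nonneg _) (norm_nonneg _)
    by_cases hx : ‖x‖ ≤ R
    · rw [Qm_mo hΨ hΘ hw hρ.contDiff hρ.hcs, add_sub_cancel_left]
      refine (norm_cut_le H x _).trans ?_
      rw [one_mul]
      exact comm_bound hρ hΨ fun y hy => hA x y hx hy
    · push Not at hx
      rw [H.zero x hx.le, Complex.ofReal_zero, zero_smul, norm_zero]
      positivity
  obtain ⟨m3', b3'⟩ := nsq_le_mo hρ hΨ (asm_smul hc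
    (((continuous_Qm S m β hcd).sub
      (contDiff_mo hρ.contDiff hρ.hcs (locInt hΘ)).continuous).aestronglyMeasurable)) hcom
  have m3 : MemLp (fun x => ((rad h x : ℝ) : ℂ) • (S.Qm m β (mo ρ Ψ) x - mo ρ Θ x)) 2
      (volume : Measure (Cfg dc)) := m3'
  have b3 : nsq (fun x => ((rad h x : ℝ) : ℂ) • (S.Qm m β (mo ρ Ψ) x - mo ρ Θ x)) ≤
      η ^ 2 * nsq Ψ := b3'
  -- the gradient terms
  have hd : MemLp (fun x => mo ρ Ψ x - Ψ x) 2 (volume : Measure (Cfg dc)) := mΨ.sub hΨ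
  have m4 : MemLp (fun x => S.gradOp (rad h) β x (mo ρ Ψ x - Ψ x)) 2 (volume : Measure (Cfg dc)) :=
    memLp_op (continuous_gradOp S H.contDiff β) (gradOp_le S hK hR0 H β) hd
  have b4 := nsq_op_le (gradOp_le S hK hR0 H β) hd
  have m5 : MemLp (fun x => S.gradOp (rad h) β x (Ψ x)) 2 (volume : Measure (Cfg dc)) :=
    memLp_op (continuous_gradOp S H.contDiff β) (gradOp_le S hK hR0 H β) hΨ
  have b5 : nsq (fun x => S.gradOp (rad h) β x (Ψ x)) ≤
      (K * Vc S / R) ^ 2 * ∫ x, (if R / 4 ≤ ‖x‖ then ‖Ψ x‖ ^ 2 else 0) := by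
    refine nsq_tail hΨ fun x => ?_
    by_cases hx : ‖x‖ < R / 2
    · rw [gradOp_zero S H β hx]
      simp only [_root_.zero_apply, norm_zero]
      have : (0 : ℝ) ≤ if R / 4 ≤ ‖x‖ then ‖Ψ x‖ else 0 := by split_ifs <;> positivity
      positivity
    · push Not at hx
      rw [if_pos (by linarith)]
      exact ((S.gradOp (rad h) β x).le_opNorm _).trans
        (mul_le_mul_of_nonneg_right (gradOp_le S hK hR0 H β x) (norm_nonneg _))
  -- the main term
  have b1 := nsq_cut_sub H hR0 hΘ mΘ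
  have m1 : MemLp (fun x => ((rad h x : ℝ) : ℂ) • mo ρ Θ x - Θ x) 2 (volume : Measure (Cfg dc)) :=
    (memLp_of_bound (asm_smul hc mΘ.1) mΘ fun x => norm_cut_le H x _).sub hΘ
  have e : (fun x => S.Qm m β (fun y => ((rad h y : ℝ) : ℂ) • mo ρ Ψ y) x - Θ x) = fun x =>
      (((rad h x : ℝ) : ℂ) • mo ρ Θ x - Θ x) +
      (((rad h x : ℝ) : ℂ) • (S.Qm m β (mo ρ Ψ) x - mo ρ Θ x) +
      (S.gradOp (rad h) β x (mo ρ Ψ x - Ψ x) + S.gradOp (rad h) β x (Ψ x))) := by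
    funext x
    have e1 := S.Q_cut (rad h) β (mo ρ Ψ) x
      ((contDiff_rad H.contDiff).differentiable (by simp) x) (hcd.differentiable (by simp) x)
    rw [Setup.Qm, e1, Setup.Qm, map_smul, map_sub, smul_sub, smul_add,
      smul_comm (m : ℂ) ((rad h x : ℝ) : ℂ)]
    abel
  rw [e]
  have c1 := nsq_add_le m1 (m3.add (m4.add m5))
  have c2 := nsq_add_le m3 (m4.add m5)
  have c3 := nsq_add_le m4 m5
  have b4' : nsq (fun x => S.gradOp (rad h) β x (mo ρ Ψ x - Ψ x)) ≤ (K * Vc S) ^ 2 * δ₁ := by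
    refine b4.trans ?_
    have h3 : (K * Vc S / R) ^ 2 ≤ (K * Vc S) ^ 2 := by
      refine pow_le_pow_left₀ (by positivity) ?_ 2
      exact div_le_self (by positivity) hR
    exact mul_le_mul h3 h1 (nsq_nonneg _) (sq_nonneg _)
  have c1' : nsq (fun x => (((rad h x : ℝ) : ℂ) • mo ρ Θ x - Θ x) +
      (((rad h x : ℝ) : ℂ) • (S.Qm m β (mo ρ Ψ) x - mo ρ Θ x) +
      (S.gradOp (rad h) β x (mo ρ Ψ x - Ψ x) + S.gradOp (rad h) β x (Ψ x)))) ≤
      2 * nsq (fun x => ((rad h x : ℝ) : ℂ) • mo ρ Θ x - Θ x) +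
      2 * nsq (fun x => ((rad h x : ℝ) : ℂ) • (S.Qm m β (mo ρ Ψ) x - mo ρ Θ x) +
      (S.gradOp (rad h) β x (mo ρ Ψ x - Ψ x) + S.gradOp (rad h) β x (Ψ x))) := c1
  have c2' : nsq (fun x => ((rad h x : ℝ) : ℂ) • (S.Qm m β (mo ρ Ψ) x - mo ρ Θ x) +
      (S.gradOp (rad h) β x (mo ρ Ψ x - Ψ x) + S.gradOp (rad h) β x (Ψ x))) ≤
      2 * nsq (fun x => ((rad h x : ℝ) : ℂ) • (S.Qm m β (mo ρ Ψ) x - mo ρ Θ x)) +
      2 * nsq (fun x => S.gradOp (rad h) β x (mo ρ Ψ x - Ψ x) + S.gradOp (rad h) β x (Ψ x)) := c2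
  have hn : 0 ≤ η ^ 2 * nsq Ψ := mul_nonneg (sq_nonneg η) (nsq_nonneg Ψ)
  have h2' : nsq (fun x => mo ρ Θ x - Θ x) ≤ δ₁ := h2
  linarith

end InvL

open Vale.Agent.P353.Z.Moll InvL

variable {F : Type*} [NormedAddCommGroup F] [InnerProductSpace ℂ F]

/-- approximation of weak solutions by (invariant) test functions, general right hand side -/
theorem invApp [FiniteDimensional ℂ F] (S : Setup dc F) (m : ℝ) (Ψ : Cfg dc → F)
    (Θ : Fin 16 → Cfg dc → F) (hΨ : MemLp Ψ 2 (volume : Measure (Cfg dc)))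
    (hΘ : ∀ β, MemLp (Θ β) 2 (volume : Measure (Cfg dc))) (hw : ∀ β, S.wQ m β Ψ (Θ β)) :
    ∃ C : ℝ, 0 ≤ C ∧ ∀ R : ℝ, 1 ≤ R → ∀ δ : ℝ, 0 < δ → ∃ u : Cfg dc → F, Setup.Tst u ∧
    (∀ x, R ≤ ‖x‖ → u x = 0) ∧ (S.wG Ψ → ∀ C x, S.G C u x = 0) ∧
    (S.wJ Ψ → ∀ k l, Same k l → ∀ x, S.J k l u x = 0) ∧
    nsq (fun x => u x - Ψ x) ≤ δ + C * ∫ x, (if R / 4 ≤ ‖x‖ then ‖Ψ x‖ ^ 2 else 0) ∧
    ∀ β, nsq (fun x => S.Qm m β u x - Θ β x) ≤ δ +
      C / R ^ 2 * (∫ x, (if R / 4 ≤ ‖x‖ then ‖Ψ x‖ ^ 2 else 0)) +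
      C * ∫ x, (if R / 4 ≤ ‖x‖ then ‖Θ β x‖ ^ 2 else 0) := by
  have : CompleteSpace F := FiniteDimensional.complete ℂ F
  obtain ⟨K, hK, hcut⟩ := exists_rc
  have hV := Vc_nonneg S
  obtain ⟨G0, hG0⟩ : ∃ G0, G0 = (K * Vc S) ^ 2 := ⟨_, rfl⟩
  have hG0' : 0 ≤ G0 := hG0 ▸ sq_nonneg _
  have hN := nsq_nonneg Ψ
  refine ⟨4 + 8 * G0, by positivity, fun R hR δ hδ => ?_⟩
  have hR0 : 0 < R := lt_of_lt_of_le one_pos hR
  obtain ⟨h, H⟩ := hcut R hR0
  obtain ⟨δ₁, hδ₁⟩ : ∃ δ₁, δ₁ = δ / (8 * (1 + G0) * 2) := ⟨_, rfl⟩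
  have hδ₁' : 0 < δ₁ := by rw [hδ₁]; positivity
  have hδ₂ : 8 * (1 + G0) * δ₁ = δ / 2 := by rw [hδ₁]; field_simp
  obtain ⟨η, hη⟩ : ∃ η, η = Real.sqrt (δ / (16 * (nsq Ψ + 1))) := ⟨_, rfl⟩
  have hη0 : 0 < η := hη ▸ Real.sqrt_pos.2 (by positivity)
  have hη2 : 8 * (η ^ 2 * nsq Ψ) ≤ δ / 2 := by
    rw [hη, Real.sq_sqrt (by positivity)]
    rw [div_mul_eq_mul_div, mul_div_assoc', div_le_iff₀ (by positivity)]
    nlinarith
  obtain ⟨ε₁, hε₁, hm1⟩ := mo_approx hΨ hδ₁'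
  choose ε₂ hε₂ hm2 using fun β => mo_approx (hΘ β) hδ₁'
  choose ε₃ hε₃ hm3 using fun β => AA_unif S m β R hη0
  obtain ⟨ε₄, hε₄, hm4⟩ := exists_pos_le ε₂ hε₂
  obtain ⟨ε₅, hε₅, hm5⟩ := exists_pos_le ε₃ hε₃
  obtain ⟨ε, hε⟩ : ∃ ε, ε = min ε₁ (min ε₄ ε₅) := ⟨_, rfl⟩
  have hε0 : 0 < ε := hε ▸ lt_min hε₁ (lt_min hε₄ hε₅)
  have hε1 : ε ≤ ε₁ := hε ▸ min_le_left _ _
  have hε4 : ε ≤ ε₄ := hε ▸ (min_le_right _ _).trans (min_le_left _ _)
  have hε5 : ε ≤ ε₅ := hε ▸ (min_le_right _ _).trans (min_le_right _ _)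
  obtain ⟨g, hg, hρ⟩ := exists_mol hε0
  have hcd : ContDiff ℝ ∞ (mo (rad g) Ψ) := contDiff_mo hρ.contDiff hρ.hcs (locInt hΨ)
  have hdf : ∀ x, DifferentiableAt ℝ (mo (rad g) Ψ) x := hcd.differentiable (by simp)
  have hzero : ∀ x, R ≤ ‖x‖ → ((rad h x : ℝ) : ℂ) • mo (rad g) Ψ x = 0 := by
    intro x hx
    rw [H.zero x hx, Complex.ofReal_zero, zero_smul]
  have hΨm := hm1 ε hε1 _ hρ
  refine ⟨fun x => ((rad h x : ℝ) : ℂ) • mo (rad g) Ψ x, ⟨?_, ?_⟩, hzero, ?_, ?_, ?_, ?_⟩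
  · exact (Setup.contDiff_ofReal (contDiff_rad H.contDiff)).smul hcd
  · refine HasCompactSupport.intro (isCompact_closedBall (0 : (Cfg dc)) R) fun x hx => ?_
    rw [Metric.mem_closedBall, dist_zero_right, not_le] at hx
    exact hzero x hx.le
  · intro hG C x
    rw [G_rad S H.contDiff C _ x (hdf x), G_mo_zero hΨ hG hg hρ.hcs, smul_zero]
  · intro hJ k l hkl x
    rw [S.J_rad H.contDiff k l _ x (hdf x), J_mo_zero hΨ hJ hg hρ.hcs hkl, smul_zero]
  · have b := nsq_cut_sub H hR0 hΨ (nsq_mo_le hρ hΨ).1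
    have ht := tail_nonneg Ψ (R / 4)
    nlinarith [mul_nonneg hG0' ht, mul_nonneg hG0' hδ₁'.le]
  · intro β
    have hΘm := hm2 β ε (hε4.trans (hm4 β)) _ hρ
    have hA : ∀ x y : (Cfg dc), ‖x‖ ≤ R → ‖x - y‖ < ε → ‖AA S m β x - AA S m β y‖ ≤ η :=
      fun x y hx hxy => hm3 β x y hx (hxy.trans_le (hε5.trans (hm5 β)))
    have b := nsq_Q_est hΨ (hΘ β) (hw β) hρ hK hR H hη0.le hA hΨm hΘm
    have ht := tail_nonneg Ψ (R / 4)
    have ht2 := tail_nonneg (Θ β) (R / 4)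
    have e1 : (K * Vc S / R) ^ 2 = G0 / R ^ 2 := by rw [hG0, div_pow]
    rw [e1, ← hG0] at b
    have hR2 : 0 < R ^ 2 := by positivity
    have e2 : 8 * (G0 / R ^ 2 * ∫ x, (if R / 4 ≤ ‖x‖ then ‖Ψ x‖ ^ 2 else 0)) ≤
        (4 + 8 * G0) / R ^ 2 * ∫ x, (if R / 4 ≤ ‖x‖ then ‖Ψ x‖ ^ 2 else 0) := by
      have : (4 + 8 * G0) / R ^ 2 * ∫ x, (if R / 4 ≤ ‖x‖ then ‖Ψ x‖ ^ 2 else 0) =
          8 * (G0 / R ^ 2 * ∫ x, (if R / 4 ≤ ‖x‖ then ‖Ψ x‖ ^ 2 else 0)) +
          4 / R ^ 2 * ∫ x, (if R / 4 ≤ ‖x‖ then ‖Ψ x‖ ^ 2 else 0) := by ring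
      rw [this]
      have : 0 ≤ 4 / R ^ 2 * ∫ x, (if R / 4 ≤ ‖x‖ then ‖Ψ x‖ ^ 2 else 0) := by positivity
      linarith
    nlinarith [mul_nonneg hG0' ht2, mul_nonneg hG0' hδ₁'.le]

/-- **D-App** -/
theorem app [FiniteDimensional ℂ F] (S : Setup dc F) : AppStmt S := by
  intro Ψ hΨ hG hJ hQ
  have h0 : MemLp (fun _ : Cfg dc => (0 : F)) 2 (volume : Measure (Cfg dc)) := MemLp.zero'
  obtain ⟨C, hC, h⟩ := invApp S 0 Ψ (fun _ _ => 0) hΨ (fun _ => h0) hQ
  refine ⟨C, hC, fun R hR δ hδ => ?_⟩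
  obtain ⟨u, hu, hu0, hG', hJ', h1, h2⟩ := h R hR δ hδ
  refine ⟨u, ⟨hu, hG' hG, hJ' hJ⟩, hu0, h1, fun β => ?_⟩
  have h3 := h2 β
  have e1 : (fun x => S.Qm 0 β u x - 0) = S.Q β u := by
    funext x
    simp [Setup.Qm]
  have e2 : ∫ x : Cfg dc, (if R / 4 ≤ ‖x‖ then ‖(0 : F)‖ ^ 2 else 0) = 0 := by
    simp
  rw [e1, e2, mul_zero, add_zero] at h3
  exact h3

end Vale.Agent.P353.Z.U
end

section

/-! # P353, general `N`: zero modes of `H_N` give low states of the BMN model (`SmallStmt`) -/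

open MeasureTheory Filter Topology
open scoped ContDiff

namespace Vale.Agent.P353.Z.U

variable {d : ℕ} {F : Type*} [NormedAddCommGroup F] [InnerProductSpace ℂ F]

lemma small_weak (S : Setup d F) (hJ : ZJStmt S) (Ψ : Lp F 2 (volume : Measure (Cfg d)))
    (hΨ : S.IsZM Ψ) : S.wG Ψ ∧ S.wJ Ψ ∧ ∀ β, S.wQ 0 β Ψ (fun _ => 0) := by
  refine ⟨?_, fun k l hkl ζ hζ => hJ Ψ hΨ k l hkl.1 ζ hζ, ?_⟩
  all_goals obtain ⟨u, hu⟩ := hΨ
  all_goals have hT := hu.1
  all_goals have hL : L2t u Ψ := Lp_L2t hT hu.2.2.1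
  · have hc : ∀ {f : Cfg d → F}, Setup.Tst f → L2t (fun _ : ℕ => f) f := fun {f} hf =>
      ⟨fun _ => hf.memLp, hf.memLp, by simp [nsq]⟩
    intro C ζ hζ
    have l1 := (hc (hζ.G S C)).lim_inner hL
    refine tendsto_nhds_unique l1 (tendsto_const_nhds.congr fun n => ?_)
    rw [G_symm S C ζ (u n) hζ (hT n).1]
    simp only [hu.2.1 n C, inner_zero_right, integral_zero]
  · have hS : S.Str 0 Ψ (fun _ _ => 0) := by
      have h0 : ∀ β n, S.Qm 0 β (u n) = S.Q β (u n) := by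
        intro β n
        funext x
        simp [Setup.Qm]
      refine ⟨u, hT, hL, fun β => ?_⟩
      simp only [h0]
      exact zero_L2t (fun n => (hT n).Q S β) (hu.2.2.2 β)
    exact fun β => hS.wQ β

lemma small_MM_bound (S : Setup d F) : ∃ K : ℝ, 0 ≤ K ∧ ∀ β x, ‖S.MM β x‖ ≤ K * ‖x‖ := by
  refine ⟨∑ β : Fin 16, ∑ i : Fin 9, ∑ A : Fin d, |aw i| * ‖S.vec (S.g i * S.Gam) A β‖,
    Finset.sum_nonneg fun β _ => Finset.sum_nonneg fun i _ => Finset.sum_nonneg fun A _ =>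
      by positivity, fun β x => ?_⟩
  have h1 : ‖S.MM β x‖ ≤ ∑ i : Fin 9, ∑ A : Fin d, |aw i| * ‖S.vec (S.g i * S.Gam) A β‖ * ‖x‖ := by
    unfold Setup.MM
    refine (norm_sum_le _ _).trans (Finset.sum_le_sum fun i _ => (norm_sum_le _ _).trans
      (Finset.sum_le_sum fun A _ => ?_))
    rw [norm_smul, Complex.norm_real, Real.norm_eq_abs, abs_mul]
    have h2 : |x (i, A)| ≤ ‖x‖ := by
      have := PiLp.norm_apply_le x (i, A)
      simpa using this
    have h3 : 0 ≤ |aw i| := abs_nonneg _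
    have h4 : 0 ≤ ‖S.vec (S.g i * S.Gam) A β‖ := norm_nonneg _
    calc |aw i| * |x (i, A)| * ‖S.vec (S.g i * S.Gam) A β‖
        = |aw i| * ‖S.vec (S.g i * S.Gam) A β‖ * |x (i, A)| := by ring
      _ ≤ |aw i| * ‖S.vec (S.g i * S.Gam) A β‖ * ‖x‖ := by gcongr
  refine h1.trans ?_
  simp only [← Finset.sum_mul]
  refine mul_le_mul_of_nonneg_right ?_ (norm_nonneg _)
  exact Finset.single_le_sum (f := fun β : Fin 16 => ∑ i : Fin 9, ∑ A : Fin d,
    |aw i| * ‖S.vec (S.g i * S.Gam) A β‖) (fun β _ => Finset.sum_nonneg fun i _ =>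
      Finset.sum_nonneg fun A _ => by positivity) (Finset.mem_univ β)

lemma small_nsq_sum_le {k : ℕ} (a : Fin k → ℂ) (v : Fin k → Cfg d → F)
    (hv : ∀ j, MemLp (v j) 2 (volume : Measure (Cfg d))) :
    nsq (fun x => ∑ j, a j • v j x) ≤ (∑ j, ‖a j‖ ^ 2) * ∑ j, nsq (v j) := by
  have h1 : ∑ j, nsq (v j) = ∫ x, ∑ j, ‖v j x‖ ^ 2 := by
    unfold nsq
    rw [integral_finsetSum _ fun j _ => memLp_norm_sq_int (hv j)]
  rw [h1, nsq, ← integral_const_mul]
  refine integral_mono_of_nonneg (Filter.Eventually.of_forall fun x => by positivity)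
    ((integrable_finsetSum _ fun j _ => memLp_norm_sq_int (hv j)).const_mul _)
    (Filter.Eventually.of_forall fun x => ?_)
  have h2 : ‖∑ j, a j • v j x‖ ≤ ∑ j, ‖a j‖ * ‖v j x‖ :=
    (norm_sum_le _ _).trans (Finset.sum_le_sum fun j _ => by rw [norm_smul])
  calc ‖∑ j, a j • v j x‖ ^ 2 ≤ (∑ j, ‖a j‖ * ‖v j x‖) ^ 2 :=
        pow_le_pow_left₀ (norm_nonneg _) h2 2
    _ ≤ (∑ j, ‖a j‖ ^ 2) * ∑ j, ‖v j x‖ ^ 2 := Finset.sum_mul_sq_le_sq_mul_sq _ _ _

lemma small_coe_sum {k : ℕ} (a : Fin k → ℂ) (Ψ : Fin k → Lp F 2 (volume : Measure (Cfg d)))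
    (s : Finset (Fin k)) : ⇑(∑ j ∈ s, a j • Ψ j) =ᵐ[volume] fun x => ∑ j ∈ s, a j • (Ψ j) x := by
  classical
  induction s using Finset.induction_on with
  | empty =>
    simp only [Finset.sum_empty]
    exact Lp.coeFn_zero F 2 volume
  | insert i s hi ih =>
    simp only [Finset.sum_insert hi]
    filter_upwards [Lp.coeFn_add (a i • Ψ i) (∑ j ∈ s, a j • Ψ j), Lp.coeFn_smul (a i) (Ψ i), ih]
      with x h1 h2 h3
    rw [h1, Pi.add_apply, h2, h3, Pi.smul_apply]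

lemma small_gram {k : ℕ} (Ψ : Fin k → Lp F 2 (volume : Measure (Cfg d)))
    (h : LinearIndependent ℂ Ψ) : ∃ c : ℝ, 0 < c ∧ ∀ a : Fin k → ℂ,
      c * ∑ j, ‖a j‖ ^ 2 ≤ nsq (fun x => ∑ j, a j • (Ψ j) x) := by
  have hker : LinearMap.ker (Fintype.linearCombination ℂ Ψ) = ⊥ :=
    LinearMap.ker_eq_bot.mpr (linearIndependent_iff_injective_fintypeLinearCombination.mp h)
  obtain ⟨K, hK, hA⟩ := LinearMap.exists_antilipschitzWith (Fintype.linearCombination ℂ Ψ) hker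
  refine ⟨1 / ((k + 1) * K ^ 2), by positivity, fun a => ?_⟩
  have h1 : ‖a‖ ≤ K * ‖Fintype.linearCombination ℂ Ψ a‖ := by
    have := hA.le_mul_dist a 0
    simpa [dist_zero_right] using this
  have h2 : ‖Fintype.linearCombination ℂ Ψ a‖ ^ 2 = nsq (fun x => ∑ j, a j • (Ψ j) x) := by
    have h3 := norm_toLp (Lp.memLp (Fintype.linearCombination ℂ Ψ a))
    rw [Lp.toLp_coeFn] at h3
    rw [h3, Real.sq_sqrt (nsq_nonneg _)]
    refine integral_congr_ae ?_
    have h4 := small_coe_sum a Ψ Finset.univ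
    rw [Fintype.linearCombination_apply]
    filter_upwards [h4] with x hx
    rw [hx]
  rw [← h2]
  have h5 : ∑ j, ‖a j‖ ^ 2 ≤ k * ‖a‖ ^ 2 := by
    have : ∀ j ∈ Finset.univ, ‖a j‖ ^ 2 ≤ ‖a‖ ^ 2 := fun j _ =>
      pow_le_pow_left₀ (norm_nonneg _) (norm_le_pi_norm a j) 2
    refine (Finset.sum_le_card_nsmul _ _ _ this).trans ?_
    simp
  have h6 : ‖a‖ ^ 2 ≤ (K : ℝ) ^ 2 * ‖Fintype.linearCombination ℂ Ψ a‖ ^ 2 := by
    rw [← mul_pow]
    exact pow_le_pow_left₀ (norm_nonneg _) h1 2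
  have hK' : (0 : ℝ) < K := hK
  rw [one_div, inv_mul_le_iff₀ (by positivity)]
  calc ∑ j, ‖a j‖ ^ 2 ≤ k * ‖a‖ ^ 2 := h5
    _ ≤ (k + 1) * ((K : ℝ) ^ 2 * ‖Fintype.linearCombination ℂ Ψ a‖ ^ 2) := by
        have : (k : ℝ) ≤ k + 1 := by linarith
        have h7 : 0 ≤ (K : ℝ) ^ 2 * ‖Fintype.linearCombination ℂ Ψ a‖ ^ 2 := by positivity
        exact mul_le_mul this h6 (by positivity) (by positivity)
    _ = (k + 1) * (K : ℝ) ^ 2 * ‖Fintype.linearCombination ℂ Ψ a‖ ^ 2 := by ring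

omit [InnerProductSpace ℂ F] in
lemma small_tail {f : Cfg d → F} (hf : MemLp f 2 (volume : Measure (Cfg d))) :
    Tendsto (fun R : ℝ => ∫ x, (if R / 4 ≤ ‖x‖ then ‖f x‖ ^ 2 else 0)) atTop (𝓝 0) := by
  have hint := memLp_norm_sq_int hf
  have h := tendsto_integral_filter_of_dominated_convergence (μ := (volume : Measure (Cfg d)))
    (l := (atTop : Filter ℝ)) (F := fun (R : ℝ) (x : Cfg d) => if R / 4 ≤ ‖x‖ then ‖f x‖ ^ 2 else 0)
    (f := fun _ => (0 : ℝ)) (fun x => ‖f x‖ ^ 2) ?_ ?_ hint ?_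
  · simpa using h
  · refine Filter.Eventually.of_forall fun R => ?_
    have : (fun x : Cfg d => if R / 4 ≤ ‖x‖ then ‖f x‖ ^ 2 else 0) =
        Set.indicator {x | R / 4 ≤ ‖x‖} (fun x => ‖f x‖ ^ 2) := by
      funext x
      simp [Set.indicator]
    rw [this]
    exact hint.1.indicator (measurableSet_le measurable_const measurable_norm)
  · refine Filter.Eventually.of_forall fun R => Filter.Eventually.of_forall fun x => ?_
    by_cases hx : R / 4 ≤ ‖x‖
    · simp [hx]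
    · simp [hx]
  · refine Filter.Eventually.of_forall fun x => ?_
    refine tendsto_const_nhds.congr' ?_
    filter_upwards [eventually_gt_atTop (4 * ‖x‖)] with R hR
    rw [if_neg]
    rw [not_le]
    linarith

omit [InnerProductSpace ℂ F] in
lemma small_mom_int {f : Cfg d → F} (hf : MemLp f 2 (volume : Measure (Cfg d))) (R : ℝ)
    (hR : 0 < R) :
    Integrable (fun x : Cfg d => if ‖x‖ ≤ R then (‖x‖ / R) ^ 2 * ‖f x‖ ^ 2 else 0) := by
  have hint := memLp_norm_sq_int hf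
  have h0 : (fun x : Cfg d => if ‖x‖ ≤ R then (‖x‖ / R) ^ 2 * ‖f x‖ ^ 2 else 0) =
      Set.indicator {x | ‖x‖ ≤ R} (fun x => (‖x‖ / R) ^ 2 * ‖f x‖ ^ 2) := by
    funext x
    simp [Set.indicator]
  have hm : AEStronglyMeasurable (fun x : Cfg d => if ‖x‖ ≤ R then (‖x‖ / R) ^ 2 * ‖f x‖ ^ 2
      else 0) volume := by
    rw [h0]
    refine AEStronglyMeasurable.indicator ?_ (measurableSet_le measurable_norm measurable_const)
    exact (by fun_prop : Continuous fun x : Cfg d => (‖x‖ / R) ^ 2).aestronglyMeasurable.mul hint.1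
  refine hint.mono' hm (Filter.Eventually.of_forall fun x => ?_)
  by_cases hx : ‖x‖ ≤ R
  · rw [if_pos hx, Real.norm_of_nonneg (by positivity)]
    have h1 : ‖x‖ / R ≤ 1 := (div_le_one hR).mpr hx
    have h2 : 0 ≤ ‖x‖ / R := by positivity
    have h3 : (‖x‖ / R) ^ 2 ≤ 1 := by nlinarith
    nlinarith [sq_nonneg ‖f x‖]
  · rw [if_neg hx, norm_zero]
    positivity

omit [InnerProductSpace ℂ F] in
lemma small_mom {f : Cfg d → F} (hf : MemLp f 2 (volume : Measure (Cfg d))) :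
    Tendsto (fun R : ℝ => ∫ x, (if ‖x‖ ≤ R then (‖x‖ / R) ^ 2 * ‖f x‖ ^ 2 else 0)) atTop
      (𝓝 0) := by
  have hint := memLp_norm_sq_int hf
  have h := tendsto_integral_filter_of_dominated_convergence (μ := (volume : Measure (Cfg d)))
    (l := (atTop : Filter ℝ))
    (F := fun (R : ℝ) (x : Cfg d) => if ‖x‖ ≤ R then (‖x‖ / R) ^ 2 * ‖f x‖ ^ 2 else 0)
    (f := fun _ => (0 : ℝ)) (fun x => ‖f x‖ ^ 2) ?_ ?_ hint ?_
  · simpa using h
  · filter_upwards [eventually_gt_atTop (0 : ℝ)] with R hR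
    exact (small_mom_int hf R hR).1
  · filter_upwards [eventually_gt_atTop (0 : ℝ)] with R hR
    refine Filter.Eventually.of_forall fun x => ?_
    by_cases hx : ‖x‖ ≤ R
    · rw [if_pos hx, Real.norm_of_nonneg (by positivity)]
      have h1 : ‖x‖ / R ≤ 1 := (div_le_one hR).mpr hx
      have h2 : 0 ≤ ‖x‖ / R := by positivity
      have h3 : (‖x‖ / R) ^ 2 ≤ 1 := by nlinarith
      nlinarith [sq_nonneg ‖f x‖]
    · rw [if_neg hx, norm_zero]
      positivity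
  · refine Filter.Eventually.of_forall fun x => ?_
    have h1 : Tendsto (fun R : ℝ => (‖x‖ / R) ^ 2 * ‖f x‖ ^ 2) atTop (𝓝 0) := by
      have h2 : Tendsto (fun R : ℝ => ‖x‖ / R) atTop (𝓝 0) := tendsto_const_nhds.div_atTop tendsto_id
      have h3 := (h2.pow 2).mul_const (‖f x‖ ^ 2)
      simpa using h3
    refine squeeze_zero (fun R => ?_) (fun R => ?_) h1
    · split_ifs <;> positivity
    · split_ifs
      · exact le_rfl
      · positivity

/-- the second moment of the cut off function -/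
lemma small_MM_nsq (S : Setup d F) {K : ℝ} (hMM : ∀ β x, ‖S.MM β x‖ ≤ K * ‖x‖)
    {Ψ : Cfg d → F} (hΨ : MemLp Ψ 2 (volume : Measure (Cfg d))) {u : Cfg d → F}
    (hu : Setup.Tst u) {R : ℝ} (hR : 0 < R) (h0 : ∀ x, R ≤ ‖x‖ → u x = 0) (β : Fin 16) :
    nsq (fun x => S.MM β x (u x)) ≤ K ^ 2 * (2 * R ^ 2 * nsq (fun x => u x - Ψ x) +
      2 * R ^ 2 * ∫ x, (if ‖x‖ ≤ R then (‖x‖ / R) ^ 2 * ‖Ψ x‖ ^ 2 else 0)) := by
  have i1 : Integrable (fun x => ‖u x - Ψ x‖ ^ 2) := memLp_norm_sq_int (hu.memLp.sub hΨ)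
  have i2 := small_mom_int hΨ R hR
  rw [nsq, nsq, ← integral_const_mul, ← integral_const_mul, ← integral_add
    (i1.const_mul _) (i2.const_mul _), ← integral_const_mul]
  refine integral_mono_of_nonneg (Filter.Eventually.of_forall fun x => by positivity)
    (((i1.const_mul _).add (i2.const_mul _)).const_mul _) (Filter.Eventually.of_forall fun x => ?_)
  have h1 : ‖S.MM β x (u x)‖ ≤ K * ‖x‖ * ‖u x‖ :=
    ((S.MM β x).le_opNorm _).trans (mul_le_mul_of_nonneg_right (hMM β x) (norm_nonneg _))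
  have h2 : ‖S.MM β x (u x)‖ ^ 2 ≤ K ^ 2 * (‖x‖ ^ 2 * ‖u x‖ ^ 2) := by
    have := pow_le_pow_left₀ (norm_nonneg _) h1 2
    calc _ ≤ (K * ‖x‖ * ‖u x‖) ^ 2 := this
      _ = _ := by ring
  refine h2.trans (mul_le_mul_of_nonneg_left ?_ (by positivity))
  by_cases hx : ‖x‖ ≤ R
  · simp only [if_pos hx]
    have h3 : ‖u x‖ ≤ ‖u x - Ψ x‖ + ‖Ψ x‖ := by
      have := norm_add_le (u x - Ψ x) (Ψ x)
      simpa using this
    have h4 : ‖u x‖ ^ 2 ≤ 2 * ‖u x - Ψ x‖ ^ 2 + 2 * ‖Ψ x‖ ^ 2 := by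
      have h5 := norm_nonneg (u x)
      nlinarith [sq_nonneg (‖u x - Ψ x‖ - ‖Ψ x‖)]
    have h6 : ‖x‖ ^ 2 ≤ R ^ 2 := pow_le_pow_left₀ (norm_nonneg _) hx 2
    have h7 : 2 * R ^ 2 * ((‖x‖ / R) ^ 2 * ‖Ψ x‖ ^ 2) = 2 * ‖x‖ ^ 2 * ‖Ψ x‖ ^ 2 := by
      field_simp
    rw [h7]
    have h8 := mul_le_mul_of_nonneg_left h4 (sq_nonneg ‖x‖)
    nlinarith [mul_le_mul_of_nonneg_right h6 (sq_nonneg ‖u x - Ψ x‖)]
  · have hx' : R ≤ ‖x‖ := le_of_lt (not_le.mp hx)
    rw [h0 x hx', if_neg hx]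
    simp only [norm_zero]
    have : 0 ≤ ‖0 - Ψ x‖ ^ 2 := by positivity
    nlinarith [sq_nonneg R, mul_nonneg (sq_nonneg R) this]

theorem small (S : Setup d F) (k : ℕ) (hJ : ZJStmt S) (hA : AppStmt S) : SmallStmt S k := by
  intro Ψ hZ hli
  obtain ⟨K, hK, hMM⟩ := small_MM_bound S
  obtain ⟨c, hc, hgram⟩ := small_gram Ψ hli
  have hw := fun j => small_weak S hJ (Ψ j) (hZ j)
  have hmem : ∀ j, MemLp (Ψ j) 2 (volume : Measure (Cfg d)) := fun j => Lp.memLp (Ψ j)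
  choose C hC happ using fun j => hA (Ψ j) (hmem j) (hw j).1 (hw j).2.1 (hw j).2.2
  -- tails
  set T : Fin k → ℝ → ℝ := fun j R => ∫ x, (if R / 4 ≤ ‖x‖ then ‖Ψ j x‖ ^ 2 else 0) with hTdef
  set M : Fin k → ℝ → ℝ := fun j R =>
    ∫ x, (if ‖x‖ ≤ R then (‖x‖ / R) ^ 2 * ‖Ψ j x‖ ^ 2 else 0) with hMdef
  have hT0 : ∀ j, Tendsto (T j) atTop (𝓝 0) := fun j => small_tail (hmem j)
  have hM0 : ∀ j, Tendsto (M j) atTop (𝓝 0) := fun j => small_mom (hmem j)
  have hr0 : Tendsto (fun R : ℝ => 1 / R ^ 2) atTop (𝓝 0) := by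
    have h2 : Tendsto (fun R : ℝ => R ^ 2) atTop atTop := tendsto_pow_atTop (by norm_num)
    exact tendsto_const_nhds.div_atTop h2
  set E : Fin k → ℝ → ℝ := fun j R => (1 / R ^ 2) ^ 2 + C j * T j R with hEdef
  have hE0 : ∀ j, Tendsto (E j) atTop (𝓝 0) := by
    intro j
    have h := (hr0.pow 2).add ((hT0 j).const_mul (C j))
    rw [mul_zero, add_zero, zero_pow (by norm_num)] at h
    exact h
  set H : Fin k → ℝ → ℝ := fun j R => 16 * (2 * (1 / R ^ 2) + 2 * C j * T j R +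
    2 * K ^ 2 * (2 * E j R + 2 * M j R)) with hHdef
  have hH0 : ∀ j, Tendsto (H j) atTop (𝓝 0) := by
    intro j
    have := (((hr0.const_mul 2).add ((hT0 j).const_mul (2 * C j))).add
      ((((hE0 j).const_mul 2).add ((hM0 j).const_mul 2)).const_mul (2 * K ^ 2))).const_mul 16
    simp only [mul_zero, add_zero] at this
    exact this
  have hsE : Tendsto (fun R => ∑ j, E j R) atTop (𝓝 0) := by
    have := tendsto_finsetSum (Finset.univ : Finset (Fin k)) fun j _ => hE0 j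
    simpa using this
  have hsH : Tendsto (fun R => ∑ j, H j R) atTop (𝓝 0) := by
    have := tendsto_finsetSum (Finset.univ : Finset (Fin k)) fun j _ => hH0 j
    simpa using this
  obtain ⟨R, hR1, hRE, hRH⟩ := ((eventually_ge_atTop (1 : ℝ)).and
    ((hsE.eventually (gt_mem_nhds (by positivity : (0 : ℝ) < c / 4))).and
      (hsH.eventually (gt_mem_nhds hc)))).exists
  have hR0 : 0 < R := by linarith
  set m : ℝ := 1 / R ^ 2 with hm
  have hm0 : 0 < m := by positivity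
  have hmR : m * R ^ 2 = 1 := by rw [hm]; field_simp
  choose u hInv hsupp hn hq using fun j => happ j R hR1 (m ^ 2) (by positivity)
  refine ⟨m, hm0, u, hInv, fun a ha => ?_⟩
  have hTst : ∀ j, Setup.Tst (u j) := fun j => (hInv j).1
  have hsum_pos : 0 < ∑ j, ‖a j‖ ^ 2 := by
    obtain ⟨j, hj⟩ : ∃ j, a j ≠ 0 := by
      by_contra h
      push Not at h
      exact ha (funext h)
    have hj' : 0 < ‖a j‖ ^ 2 := by
      have := norm_pos_iff.mpr hj
      positivity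
    exact lt_of_lt_of_le hj' (Finset.single_le_sum (f := fun j => ‖a j‖ ^ 2)
      (fun j _ => by positivity) (Finset.mem_univ j))
  -- upper bound
  have hE' : ∀ j, nsq (fun x => u j x - Ψ j x) ≤ E j R := fun j => hn j
  have hup : ∀ j, ∑ β, nsq (S.Qm m β (u j)) ≤ m * H j R := by
    intro j
    have h1 : ∀ β ∈ (Finset.univ : Finset (Fin 16)), nsq (S.Qm m β (u j)) ≤
        m * (2 * m + 2 * C j * T j R + 2 * K ^ 2 * (2 * E j R + 2 * M j R)) := by
      intro β _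
      have h2 : nsq (S.Qm m β (u j)) ≤ 2 * nsq (S.Q β (u j)) +
          2 * nsq (fun x => (m : ℂ) • S.MM β x (u j x)) :=
        nsq_add_le ((hTst j).Q S β).memLp ((Setup.Tst.MM S (hTst j) β).cst _).memLp
      have h3 : nsq (fun x => (m : ℂ) • S.MM β x (u j x)) =
          m ^ 2 * nsq (fun x => S.MM β x (u j x)) := by
        unfold nsq
        rw [← integral_const_mul]
        refine integral_congr_ae (Filter.Eventually.of_forall fun x => ?_)
        simp only [norm_smul, Complex.norm_real, Real.norm_eq_abs, mul_pow, sq_abs]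
      have h4 := small_MM_nsq S hMM (hmem j) (hTst j) hR0 (hsupp j) β
      have h5 := hq j β
      have h6 : C j / R ^ 2 * T j R = m * (C j * T j R) := by
        rw [hm]; ring
      have h7 : nsq (fun x => S.MM β x (u j x)) ≤
          K ^ 2 * (2 * R ^ 2 * E j R + 2 * R ^ 2 * M j R) := by
        refine h4.trans (mul_le_mul_of_nonneg_left ?_ (by positivity))
        have := mul_le_mul_of_nonneg_left (hE' j) (by positivity : (0 : ℝ) ≤ 2 * R ^ 2)
        linarith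
      have h8 : m ^ 2 * nsq (fun x => S.MM β x (u j x)) ≤
          m * (K ^ 2 * (2 * E j R + 2 * M j R)) := by
        have h9 := mul_le_mul_of_nonneg_left h7 (sq_nonneg m)
        refine h9.trans (le_of_eq ?_)
        have : m ^ 2 * (K ^ 2 * (2 * R ^ 2 * E j R + 2 * R ^ 2 * M j R)) =
          m * (m * R ^ 2) * (K ^ 2 * (2 * E j R + 2 * M j R)) := by ring
        rw [this, hmR, mul_one]
      have h5' : nsq (S.Q β (u j)) ≤ m ^ 2 + m * (C j * T j R) := by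
        rw [← h6]; exact h5
      rw [h3] at h2
      nlinarith
    have h10 := Finset.sum_le_card_nsmul _ _ _ h1
    refine h10.trans (le_of_eq ?_)
    simp only [Finset.card_univ, Fintype.card_fin, nsmul_eq_mul, hHdef]
    push_cast
    ring
  have hcomb : ∑ β, nsq (S.Qm m β (fun x => ∑ j, a j • u j x)) ≤
      (∑ j, ‖a j‖ ^ 2) * (m * ∑ j, H j R) := by
    have h1 : ∀ β, nsq (S.Qm m β (fun x => ∑ j, a j • u j x)) ≤
        (∑ j, ‖a j‖ ^ 2) * ∑ j, nsq (S.Qm m β (u j)) := by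
      intro β
      have h2 : S.Qm m β (fun x => ∑ j, a j • u j x) =
          fun x => ∑ j, a j • S.Qm m β (u j) x := by
        funext x
        rw [S.Qm_sum Finset.univ (fun j => (hTst j).cst (a j)) x]
        refine Finset.sum_congr rfl fun j _ => ?_
        rw [S.Qm_cst (a j) ((hTst j).diff x)]
      rw [h2]
      exact small_nsq_sum_le a _ fun j => ((hTst j).Qm S m β).memLp
    calc ∑ β, nsq (S.Qm m β (fun x => ∑ j, a j • u j x))
        ≤ ∑ β, (∑ j, ‖a j‖ ^ 2) * ∑ j, nsq (S.Qm m β (u j)) :=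
          Finset.sum_le_sum fun β _ => h1 β
      _ = (∑ j, ‖a j‖ ^ 2) * ∑ j, ∑ β, nsq (S.Qm m β (u j)) := by
          rw [← Finset.mul_sum, Finset.sum_comm]
      _ ≤ (∑ j, ‖a j‖ ^ 2) * ∑ j, m * H j R :=
          mul_le_mul_of_nonneg_left (Finset.sum_le_sum fun j _ => hup j) hsum_pos.le
      _ = _ := by rw [← Finset.mul_sum]
  -- lower bound
  have hlow : (c - 2 * ∑ j, E j R) * ∑ j, ‖a j‖ ^ 2 ≤ 2 * nsq (fun x => ∑ j, a j • u j x) := by
    have m1 : MemLp (fun x => ∑ j, a j • u j x) 2 (volume : Measure (Cfg d)) :=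
      (Setup.Tst.sum Finset.univ fun j => (hTst j).cst (a j)).memLp
    have m2 : MemLp (fun x => ∑ j, a j • (Ψ j x - u j x)) 2 (volume : Measure (Cfg d)) := by
      refine memLp_finsetSum _ fun j _ => ?_
      exact ((hmem j).sub (hTst j).memLp).const_smul (a j)
    have h1 := nsq_add_le m1 m2
    have h2 : (fun x => (∑ j, a j • u j x) + ∑ j, a j • (Ψ j x - u j x)) =
        fun x => ∑ j, a j • Ψ j x := by
      funext x
      rw [← Finset.sum_add_distrib]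
      refine Finset.sum_congr rfl fun j _ => ?_
      rw [← smul_add, add_sub_cancel]
    rw [h2] at h1
    have h3 := small_nsq_sum_le a (fun j x => Ψ j x - u j x)
      fun j => (hmem j).sub (hTst j).memLp
    have h4 : ∑ j, nsq (fun x => Ψ j x - u j x) ≤ ∑ j, E j R := by
      refine Finset.sum_le_sum fun j _ => ?_
      refine le_trans (le_of_eq ?_) (hE' j)
      unfold nsq
      simp only [norm_sub_rev]
    have h5 := mul_le_mul_of_nonneg_left h4 hsum_pos.le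
    have h6 := hgram a
    nlinarith
  have h8 : (∑ j, ‖a j‖ ^ 2) * (m * ∑ j, H j R) < (∑ j, ‖a j‖ ^ 2) * (m * c) :=
    mul_lt_mul_of_pos_left (mul_lt_mul_of_pos_left hRH hm0) hsum_pos
  have h9 : (c / 2) * ∑ j, ‖a j‖ ^ 2 ≤ 2 * nsq (fun x => ∑ j, a j • u j x) := by
    refine le_trans ?_ hlow
    refine mul_le_mul_of_nonneg_right ?_ hsum_pos.le
    linarith
  have h10 : (∑ j, ‖a j‖ ^ 2) * (m * c) ≤ 8 * m * nsq (fun x => ∑ j, a j • u j x) := by
    have h11 := mul_le_mul_of_nonneg_left h9 (by positivity : (0 : ℝ) ≤ 4 * m)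
    have h12 : 0 ≤ m * (c * ∑ j, ‖a j‖ ^ 2) := by positivity
    nlinarith
  linarith

end Vale.Agent.P353.Z.U
end
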