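import Mathlib
import Vale.Agent.P353.BdZ.B2
import Vale.Agent.P353.BdZ.B3
import Vale.Agent.P353.BdZ.B4
attribute [-instance] ProperSMul.toContinuousSMul IsTopologicalTorsor.toContinuousSMul IdemSemiring.toCanonicallyOrderedAdd IdemSemiring.toMulLeftMono IdemSemiring.toMulRightMono AddQuantale.instAddLeftMono AddQuantale.instAddRightMono Quantale.instMulLeftMono Quantale.instMulRightMono FiniteDimensional.rclike_to_real IsScalarTower.complexToReal FiniteDimensional.complexToReal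

set_option linter.all false

section

/-! # P353, uniqueness for `N = 2`: the spinors `ζ`, `η` of the gap argument (A5) -/

open Matrix

namespace Vale.Agent.P353.Z.U

variable {dc : ℕ}

variable {F : Type*} [NormedAddCommGroup F] [InnerProductSpace ℂ F]

section gen

variable {n : Type*} [Fintype n]

/-- splitting off an eigenvector of an involution -/
lemma a5_step [DecidableEq n] (B : Matrix n n ℂ) (hB : B * B = 1) (v : n → ℂ) (hv : v ≠ 0) :
    ∃ w : n → ℂ, w ≠ 0 ∧ (∃ s : ℂ, s * s = 1 ∧ (starRingEnd ℂ) s = s ∧ B *ᵥ w = s • w) ∧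
      ∀ C : Matrix n n ℂ, C * B = B * C → ∀ c : ℂ, C *ᵥ v = c • v → C *ᵥ w = c • w := by
  by_cases h : v + B *ᵥ v = 0
  · refine ⟨v, hv, ⟨-1, by norm_num, by simp, ?_⟩, fun C _ c hc => hc⟩
    rw [neg_smul, one_smul]
    exact eq_neg_of_add_eq_zero_right h
  · refine ⟨v + B *ᵥ v, h, ⟨1, by norm_num, by simp, ?_⟩, ?_⟩
    · rw [Matrix.mulVec_add, Matrix.mulVec_mulVec, hB, Matrix.one_mulVec, one_smul, add_comm]
    · intro C hC c hc
      rw [Matrix.mulVec_add, hc, Matrix.mulVec_mulVec, hC, ← Matrix.mulVec_mulVec, hc,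
        Matrix.mulVec_smul, smul_add]

/-- an expectation value vanishes -/
lemma a5_zero (A C : Matrix n n ℂ) (hA : Aᴴ = -A) (hAC : C * A = -(A * C)) (v : n → ℂ) (s : ℂ)
    (hs : s * s = 1) (hs' : (starRingEnd ℂ) s = s) (hv : A *ᵥ v = (-Complex.I * s) • v) :
    star v ⬝ᵥ (C *ᵥ v) = 0 := by
  have h1 : star v ⬝ᵥ ((C * A) *ᵥ v) = (-Complex.I * s) * (star v ⬝ᵥ (C *ᵥ v)) := by
    rw [← Matrix.mulVec_mulVec, hv, Matrix.mulVec_smul, dotProduct_smul, smul_eq_mul]
  have h2 : star v ⬝ᵥ ((A * C) *ᵥ v) = -((Complex.I * s) * (star v ⬝ᵥ (C *ᵥ v))) := by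
    rw [← Matrix.mulVec_mulVec, Matrix.dotProduct_mulVec]
    have h3 : star v ᵥ* A = star (Aᴴ *ᵥ v) := by
      rw [Matrix.star_mulVec, Matrix.conjTranspose_conjTranspose]
    rw [h3, hA, Matrix.neg_mulVec, hv, star_neg, star_smul, neg_dotProduct, smul_dotProduct]
    simp only [star_mul', star_neg, smul_eq_mul, Complex.star_def, Complex.conj_I, hs']
    ring
  rw [hAC, Matrix.neg_mulVec, dotProduct_neg, h2] at h1
  have h4 : (Complex.I * s) * (star v ⬝ᵥ (C *ᵥ v)) = 0 := by linear_combination (1/2) * h1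
  have h5 : Complex.I * s ≠ 0 := by
    refine mul_ne_zero Complex.I_ne_zero ?_
    rintro rfl
    simp at hs
  exact (mul_eq_zero.mp h4).resolve_left h5

end gen

section gam

variable (S : Setup dc F)

lemma a5_g_conj (i : Fin 9) : (S.g i)ᴴ = S.g i := by
  ext a b
  rw [Matrix.conjTranspose_apply]
  have h1 : S.g i b a = S.g i a b := congrFun (congrFun (S.g_symm i) a) b
  rw [h1, Complex.star_def, Complex.conj_eq_iff_im.mpr (S.g_real i a b)]

lemma a5_g2_conj (i j : Fin 9) : (S.g2 i j)ᴴ = -S.g2 i j := by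
  unfold CS.g2
  rw [Matrix.conjTranspose_smul, Matrix.conjTranspose_sub, Matrix.conjTranspose_mul,
    Matrix.conjTranspose_mul, a5_g_conj, a5_g_conj, ← smul_neg, neg_sub]
  congr 1
  simp

lemma a5_Gam_conj : (S.Gam)ᴴ = -S.Gam := by
  rw [← S.Gam_transpose]
  ext a b
  rw [Matrix.conjTranspose_apply, Matrix.transpose_apply, Complex.star_def,
    Complex.conj_eq_iff_im.mpr (S.Gam_real b a)]

lemma a5_g2_ne {i j : Fin 9} (h : i ≠ j) : S.g2 i j = S.g i * S.g j := by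
  unfold CS.g2
  rw [S.g_ac h.symm, sub_neg_eq_add, ← two_smul ℂ, smul_smul]
  norm_num

lemma a5_g2_sq {i j : Fin 9} (h : i ≠ j) : S.g2 i j * S.g2 i j = -1 := by
  rw [a5_g2_ne S h]
  calc S.g i * S.g j * (S.g i * S.g j) = S.g i * (S.g j * S.g i) * S.g j := by
        simp only [mul_assoc]
    _ = S.g i * -(S.g i * S.g j) * S.g j := by rw [S.g_ac h.symm]
    _ = -(S.g i * S.g i * (S.g j * S.g j)) := by
        simp only [mul_assoc, mul_neg, neg_mul]
    _ = -1 := by rw [S.g_sq', S.g_sq', one_mul]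

lemma a5_anti {k l p : Fin 9} (h1 : k ≠ l) (h2 : k ≠ p) (h3 : l ≠ p) :
    S.g2 k l * S.g2 k p = -(S.g2 k p * S.g2 k l) := by
  rw [a5_g2_ne S h1, a5_g2_ne S h2]
  have e1 : S.g k * S.g l * (S.g k * S.g p) = -(S.g l * S.g p) := by
    calc S.g k * S.g l * (S.g k * S.g p) = S.g k * (S.g l * S.g k) * S.g p := by
          simp only [mul_assoc]
      _ = S.g k * -(S.g k * S.g l) * S.g p := by rw [S.g_ac h1.symm]
      _ = -(S.g k * S.g k * (S.g l * S.g p)) := by simp only [mul_assoc, mul_neg, neg_mul]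
      _ = -(S.g l * S.g p) := by rw [S.g_sq', one_mul]
  have e2 : S.g k * S.g p * (S.g k * S.g l) = -(S.g p * S.g l) := by
    calc S.g k * S.g p * (S.g k * S.g l) = S.g k * (S.g p * S.g k) * S.g l := by
          simp only [mul_assoc]
      _ = S.g k * -(S.g k * S.g p) * S.g l := by rw [S.g_ac h2.symm]
      _ = -(S.g k * S.g k * (S.g p * S.g l)) := by simp only [mul_assoc, mul_neg, neg_mul]
      _ = -(S.g p * S.g l) := by rw [S.g_sq', one_mul]
  rw [e1, e2, S.g_ac h3]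

lemma a5_comm {i j k l : Fin 9} (h1 : i ≠ j) (h2 : k ≠ l) (h3 : i ≠ k) (h4 : i ≠ l)
    (h5 : j ≠ k) (h6 : j ≠ l) : S.g2 i j * S.g2 k l = S.g2 k l * S.g2 i j := by
  rw [a5_g2_ne S h1, a5_g2_ne S h2]
  calc S.g i * S.g j * (S.g k * S.g l) = S.g i * (S.g j * S.g k) * S.g l := by
        simp only [mul_assoc]
    _ = -(S.g i * S.g k * (S.g j * S.g l)) := by
        rw [S.g_ac h5]; simp only [mul_assoc, mul_neg, neg_mul]
    _ = -(S.g k * (S.g i * S.g l) * S.g j) := by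
        rw [S.g_ac h3, S.g_ac h6]; simp only [mul_assoc, mul_neg, neg_mul, neg_neg]
    _ = S.g k * S.g l * (S.g i * S.g j) := by
        rw [S.g_ac h4]; simp only [mul_assoc, mul_neg, neg_mul, neg_neg]

lemma a5_g2_self (k : Fin 9) : S.g2 k k = 0 := by
  unfold CS.g2
  rw [sub_self, smul_zero]

/-- the partner of an index in its plane -/
def pt : Fin 9 → Fin 9 := ![0, 2, 1, 4, 3, 6, 5, 8, 7]

/-- a joint eigenvector -/
lemma a5_vec : ∃ (ζ : Fin 16 → ℂ) (σ : Fin 9 → ℂ), ζ ≠ 0 ∧ S.Gam *ᵥ ζ = (-Complex.I) • ζ ∧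
    ∀ k, k ≠ 0 → σ k * σ k = 1 ∧ (starRingEnd ℂ) (σ k) = σ k ∧
      S.g2 k (pt k) *ᵥ ζ = (-Complex.I * σ k) • ζ := by
  have hinv : ∀ A : Matrix (Fin 16) (Fin 16) ℂ, A * A = -1 →
      (Complex.I • A) * (Complex.I • A) = 1 := by
    intro A hA
    rw [smul_mul_smul_comm, hA, Complex.I_mul_I]
    simp
  -- the start
  have h00 : S.Gam 0 0 = 0 := by
    have h := congrFun (congrFun S.Gam_transpose 0) 0
    rw [Matrix.transpose_apply, Matrix.neg_apply] at h
    linear_combination (1/2) * h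
  set B0 : Matrix (Fin 16) (Fin 16) ℂ := Complex.I • S.Gam with hB0
  have hB0s : B0 * B0 = 1 := hinv _ S.Gam_sq
  set x : Fin 16 → ℂ := Pi.single 0 1 with hx
  set v0 : Fin 16 → ℂ := x + B0 *ᵥ x with hv0
  have hv0n : v0 ≠ 0 := by
    intro h
    have h1 := congrFun h 0
    rw [hv0, Pi.add_apply, hx, Matrix.mulVec_single_one, hB0] at h1
    simp [h00] at h1
  have hB0v : B0 *ᵥ v0 = v0 := by
    rw [hv0, Matrix.mulVec_add, Matrix.mulVec_mulVec, hB0s, Matrix.one_mulVec, add_comm]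
  have conv : ∀ (A : Matrix (Fin 16) (Fin 16) ℂ) (v : Fin 16 → ℂ) (s : ℂ),
      (Complex.I • A) *ᵥ v = s • v → A *ᵥ v = (-Complex.I * s) • v := by
    intro A v s h
    rw [Matrix.smul_mulVec] at h
    have h2 := congrArg (fun w => (-Complex.I) • w) h
    simp only [smul_smul] at h2
    rw [neg_mul, Complex.I_mul_I, neg_neg, one_smul] at h2
    exact h2
  have hG0 : S.Gam *ᵥ v0 = (-Complex.I) • v0 := by
    have := conv S.Gam v0 1 (by rw [one_smul]; exact hB0v)
    rwa [mul_one] at this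
  obtain ⟨v1, hv1n, ⟨s1, hs1, hs1', hv1⟩, hk1⟩ := a5_step (Complex.I • S.g2 1 2)
    (hinv _ (a5_g2_sq S (by decide))) v0 hv0n
  obtain ⟨v2, hv2n, ⟨s2, hs2, hs2', hv2⟩, hk2⟩ := a5_step (Complex.I • S.g2 3 4)
    (hinv _ (a5_g2_sq S (by decide))) v1 hv1n
  obtain ⟨v3, hv3n, ⟨s3, hs3, hs3', hv3⟩, hk3⟩ := a5_step (Complex.I • S.g2 5 6)
    (hinv _ (a5_g2_sq S (by decide))) v2 hv2n
  obtain ⟨v4, hv4n, ⟨s4, hs4, hs4', hv4⟩, hk4⟩ := a5_step (Complex.I • S.g2 7 8)
    (hinv _ (a5_g2_sq S (by decide))) v3 hv3n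
  have cm : ∀ A B : Matrix (Fin 16) (Fin 16) ℂ, A * B = B * A →
      A * (Complex.I • B) = (Complex.I • B) * A := by
    intro A B h
    rw [Matrix.mul_smul, Matrix.smul_mul, h]
  have cG : ∀ {k l : Fin 9}, Same k l → S.Gam * (Complex.I • S.g2 k l) =
      (Complex.I • S.g2 k l) * S.Gam := fun h => cm _ _ (S.Gam_comm_g2 h).symm
  -- propagate
  have G1 := hk1 _ (cG ⟨by decide, by decide⟩) _ hG0
  have G2 := hk2 _ (cG ⟨by decide, by decide⟩) _ G1
  have G3 := hk3 _ (cG ⟨by decide, by decide⟩) _ G2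
  have G4 := hk4 _ (cG ⟨by decide, by decide⟩) _ G3
  have cc : ∀ {i j k l : Fin 9}, i ≠ j → k ≠ l → i ≠ k → i ≠ l → j ≠ k → j ≠ l →
      S.g2 i j * (Complex.I • S.g2 k l) = (Complex.I • S.g2 k l) * S.g2 i j :=
    fun h1 h2 h3 h4 h5 h6 => cm _ _ (a5_comm S h1 h2 h3 h4 h5 h6)
  have P1 := conv _ _ _ hv1
  have P1 := hk2 _ (cc (by decide) (by decide) (by decide) (by decide) (by decide) (by decide)) _ P1
  have P1 := hk3 _ (cc (by decide) (by decide) (by decide) (by decide) (by decide) (by decide)) _ P1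
  have P1 := hk4 _ (cc (by decide) (by decide) (by decide) (by decide) (by decide) (by decide)) _ P1
  have P2 := conv _ _ _ hv2
  have P2 := hk3 _ (cc (by decide) (by decide) (by decide) (by decide) (by decide) (by decide)) _ P2
  have P2 := hk4 _ (cc (by decide) (by decide) (by decide) (by decide) (by decide) (by decide)) _ P2
  have P3 := conv _ _ _ hv3
  have P3 := hk4 _ (cc (by decide) (by decide) (by decide) (by decide) (by decide) (by decide)) _ P3
  have P4 := conv _ _ _ hv4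
  have neg : ∀ (a b : Fin 9) (s : ℂ), S.g2 a b *ᵥ v4 = (-Complex.I * s) • v4 →
      S.g2 b a *ᵥ v4 = (-Complex.I * (-s)) • v4 := by
    intro a b s h
    rw [S.g2_swap b a, Matrix.neg_mulVec, h, ← neg_smul]
    congr 1; ring
  have sq : ∀ s : ℂ, s * s = 1 → -s * -s = 1 := fun s h => by rw [neg_mul_neg, h]
  have cj : ∀ s : ℂ, (starRingEnd ℂ) s = s → (starRingEnd ℂ) (-s) = -s := fun s h => by
    rw [map_neg, h]
  refine ⟨v4, ![0, s1, -s1, s2, -s2, s3, -s3, s4, -s4], hv4n, G4, ?_⟩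
  intro k hk
  fin_cases k
  · exact absurd rfl hk
  · exact ⟨hs1, hs1', P1⟩
  · exact ⟨sq _ hs1, cj _ hs1', neg _ _ _ P1⟩
  · exact ⟨hs2, hs2', P2⟩
  · exact ⟨sq _ hs2, cj _ hs2', neg _ _ _ P2⟩
  · exact ⟨hs3, hs3', P3⟩
  · exact ⟨sq _ hs3, cj _ hs3', neg _ _ _ P3⟩
  · exact ⟨hs4, hs4', P4⟩
  · exact ⟨sq _ hs4, cj _ hs4', neg _ _ _ P4⟩

/-- twice the contribution of the pair `(k, l)` -/
def a5t (k l : Fin 9) : ℤ := if k ≠ 0 ∧ l = pt k then (if k.val < 3 then -2 else -1) else 0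

lemma a5t_sum : ∑ k, ∑ l, a5t k l = -10 := by decide

theorem a5 : A5Stmt S := by
  obtain ⟨ζ, σ, hζ, hΓ, hσ⟩ := a5_vec S
  set η : Fin 16 → ℂ := S.g2 0 1 *ᵥ ζ with hη
  have h01 : (0 : Fin 9) ≠ 1 := by decide
  have hηn : η ≠ 0 := by
    intro h
    apply hζ
    have h1 : S.g2 0 1 *ᵥ η = -ζ := by
      rw [hη, Matrix.mulVec_mulVec, a5_g2_sq S h01, Matrix.neg_mulVec, Matrix.one_mulVec]
    rw [h, Matrix.mulVec_zero] at h1
    exact neg_eq_zero.mp h1.symm
  have hΓη : S.Gam *ᵥ η = (-Complex.I) • η := by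
    rw [hη, Matrix.mulVec_mulVec, ← S.Gam_comm_g2 ⟨by decide, by decide⟩, ← Matrix.mulVec_mulVec, hΓ,
      Matrix.mulVec_smul]
  -- expectation values
  have hE0 : ∀ k l : Fin 9, k ≠ 0 → k ≠ l → l ≠ pt k → star ζ ⬝ᵥ (S.g2 k l *ᵥ ζ) = 0 := by
    intro k l hk hkl hl
    obtain ⟨h1, h2, h3⟩ := hσ k hk
    refine a5_zero (S.g2 k (pt k)) (S.g2 k l) (a5_g2_conj S _ _) (a5_anti S hkl ?_ hl) ζ (σ k)
      h1 h2 h3
    revert hk; fin_cases k <;> decide
  have hE : ∀ k l : Fin 9, ¬ (k ≠ 0 ∧ l = pt k) → star ζ ⬝ᵥ (S.g2 k l *ᵥ ζ) = 0 := by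
    intro k l h
    by_cases hkl : k = l
    · rw [hkl, a5_g2_self, Matrix.zero_mulVec, dotProduct_zero]
    · by_cases hk : k = 0
      · subst hk
        rw [S.g2_swap 0 l, Matrix.neg_mulVec, dotProduct_neg, hE0 l 0 (Ne.symm hkl) (Ne.symm hkl),
          neg_zero]
        have : l ≠ 0 := Ne.symm hkl
        revert this; fin_cases l <;> decide
      · exact hE0 k l hk hkl fun hl => h ⟨hk, hl⟩
  have hEp : ∀ k, k ≠ 0 → star ζ ⬝ᵥ (S.g2 k (pt k) *ᵥ ζ) = (-Complex.I * σ k) * (star ζ ⬝ᵥ ζ) := by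
    intro k hk
    rw [(hσ k hk).2.2, dotProduct_smul, smul_eq_mul]
  -- action on `η`
  have hηp : ∀ k, k ≠ 0 → S.g2 k (pt k) *ᵥ η =
      (if k.val < 3 then Complex.I * σ k else -Complex.I * σ k) • η := by
    intro k hk
    have h3 := (hσ k hk).2.2
    by_cases hk3 : k.val < 3
    · rw [if_pos hk3]
      have ha : S.g2 k (pt k) * S.g2 0 1 = -(S.g2 0 1 * S.g2 k (pt k)) := by
        have hk' : k = 1 ∨ k = 2 := by
          revert hk hk3; fin_cases k <;> decide
        rcases hk' with rfl | rfl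
        · rw [S.g2_swap 0 1]
          have h := a5_anti S (k := 1) (l := 2) (p := 0) (by decide) (by decide) (by decide)
          change S.g2 1 2 * -S.g2 1 0 = -(-S.g2 1 0 * S.g2 1 2)
          rw [mul_neg, neg_mul, h]
        · rw [S.g2_swap 0 1]
          have h := a5_anti S (k := 1) (l := 2) (p := 0) (by decide) (by decide) (by decide)
          change S.g2 2 1 * -S.g2 1 0 = -(-S.g2 1 0 * S.g2 2 1)
          rw [S.g2_swap 2 1, mul_neg, neg_mul, mul_neg, neg_mul, h]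
      rw [hη, Matrix.mulVec_mulVec, ha, Matrix.neg_mulVec, ← Matrix.mulVec_mulVec, h3,
        Matrix.mulVec_smul, ← neg_smul]
      congr 1; ring
    · rw [if_neg hk3]
      have ha : S.g2 k (pt k) * S.g2 0 1 = S.g2 0 1 * S.g2 k (pt k) := by
        have hk' : k ≠ 0 ∧ k ≠ 1 ∧ pt k ≠ 0 ∧ pt k ≠ 1 ∧ k ≠ pt k := by
          revert hk hk3; fin_cases k <;> decide
        obtain ⟨p1, p2, p3, p4, p5⟩ := hk'
        exact a5_comm S p5 (by decide) p1 p2 p3 p4
      rw [hη, Matrix.mulVec_mulVec, ha, ← Matrix.mulVec_mulVec, h3, Matrix.mulVec_smul]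
  -- orthogonality
  have horth : star η ⬝ᵥ ζ = 0 := by
    have h1 : star ζ ⬝ᵥ η = 0 := hE 0 1 (by simp)
    rw [Matrix.star_dotProduct, h1, star_zero]
  refine ⟨ζ, η, hζ, hηn, ?_, ?_, ?_, ?_⟩
  · intro α
    have h := congrFun hΓ α
    have h' : ∑ β, S.Gam α β * ζ β = -Complex.I * ζ α := h
    rw [h']
    linear_combination (-(ζ α)) * Complex.I_mul_I
  · intro α
    have h := congrFun hΓη α
    have h' : ∑ β, S.Gam α β * η β = -Complex.I * η α := h
    rw [h']
    linear_combination (-(η α)) * Complex.I_mul_I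
  · exact horth
  · intro α
    set N : ℂ := star ζ ⬝ᵥ ζ with hN
    have hNs : ∑ β, (starRingEnd ℂ) (ζ β) * ζ β = N := rfl
    have hc : ∀ k l : Fin 9, (∑ β, ∑ γ, (starRingEnd ℂ) (ζ β) * (S.Gam * S.g2 k l) β γ * ζ γ) =
        -Complex.I * (star ζ ⬝ᵥ (S.g2 k l *ᵥ ζ)) := by
      intro k l
      have h1 : (∑ β, ∑ γ, (starRingEnd ℂ) (ζ β) * (S.Gam * S.g2 k l) β γ * ζ γ) =
          star ζ ⬝ᵥ ((S.Gam * S.g2 k l) *ᵥ ζ) := by
        simp only [dotProduct, Matrix.mulVec, Finset.mul_sum, mul_assoc]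
        rfl
      have h3 : star ζ ᵥ* S.Gam = star ((S.Gam)ᴴ *ᵥ ζ) := by
        rw [Matrix.star_mulVec, Matrix.conjTranspose_conjTranspose]
      rw [h1, ← Matrix.mulVec_mulVec, Matrix.dotProduct_mulVec, h3, a5_Gam_conj, Matrix.neg_mulVec,
        hΓ, star_neg, star_smul, neg_dotProduct, smul_dotProduct]
      simp only [star_neg, smul_eq_mul, Complex.star_def, Complex.conj_I]
      ring
    have hterm : ∀ k l : Fin 9, (rc k l : ℂ) *
        (∑ β, ∑ γ, (starRingEnd ℂ) (ζ β) * (S.Gam * S.g2 k l) β γ * ζ γ) *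
        (-Complex.I / 2) * (∑ β, S.g2 k l α β * η β) = (a5t k l : ℂ) * (1 / 2 * N * η α) := by
      intro k l
      rw [hc]
      by_cases h : k ≠ 0 ∧ l = pt k
      · obtain ⟨hk, rfl⟩ := h
        have h4 : ∑ β, S.g2 k (pt k) α β * η β =
            (if k.val < 3 then Complex.I * σ k else -Complex.I * σ k) * η α :=
          congrFun (hηp k hk) α
        rw [hEp k hk, h4]
        have h5 := (hσ k hk).1
        by_cases hk3 : k.val < 3
        · have h6 : (pt k).val < 3 := by revert hk hk3; fin_cases k <;> decide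
          have e1 : rc k (pt k) = 2 := by rw [rc, if_pos ⟨hk3, h6⟩]
          have e2 : a5t k (pt k) = -2 := by rw [a5t, if_pos ⟨hk, rfl⟩, if_pos hk3]
          rw [e1, e2, if_pos hk3]
          push_cast
          linear_combination (-(N * η α)) * h5 +
            (N * η α * σ k ^ 2 * (1 - Complex.I ^ 2)) * Complex.I_mul_I
        · have h6 : ¬ (pt k).val < 3 := by revert hk hk3; fin_cases k <;> decide
          have e1 : rc k (pt k) = -1 := by
            rw [rc, if_neg (fun h => hk3 h.1), if_pos (And.intro (by omega) (by omega))]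
          have e2 : a5t k (pt k) = -1 := by rw [a5t, if_pos ⟨hk, rfl⟩, if_neg hk3]
          rw [e1, e2, if_neg hk3]
          push_cast
          linear_combination (-(1 / 2) * (N * η α)) * h5 +
            (1 / 2 * N * η α * σ k ^ 2 * (1 - Complex.I ^ 2)) * Complex.I_mul_I
      · rw [hE k l h, a5t, if_neg h]
        simp
    calc _ = ∑ k, ∑ l, (a5t k l : ℂ) * (1 / 2 * N * η α) :=
          Finset.sum_congr rfl fun k _ => Finset.sum_congr rfl fun l _ => hterm k l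
      _ = ((∑ k, ∑ l, a5t k l : ℤ) : ℂ) * (1 / 2 * N * η α) := by
          push_cast
          simp only [Finset.sum_mul]
      _ = _ := by
          rw [a5t_sum, hNs]
          push_cast
          ring

end gam

end Vale.Agent.P353.Z.U
end

section

/-! # P353, uniqueness: basic facts on the deformed supercharges (helper349) -/

open MeasureTheory Filter Topology
open scoped ContDiff

namespace Vale.Agent.P353.Z.U

variable {dc : ℕ}

variable {F : Type*} [NormedAddCommGroup F] [InnerProductSpace ℂ F]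

namespace HB

variable (S : Setup dc F)

lemma MM_symm (β : Fin 16) (x : (Cfg dc)) (v w : F) :
    inner ℂ (S.MM β x v) w = inner ℂ v (S.MM β x w) := by
  have h : ∀ i α γ, ((S.g i * S.Gam) α γ).im = 0 := fun i =>
    Setup.mul_im_zero (S.g_im i) S.Gam_real
  simp only [Setup.MM, _root_.sum_apply, _root_.smul_apply, sum_inner,
    inner_sum, inner_smul_left, inner_smul_right, S.vec_symm _ (h _), Complex.conj_ofReal]

lemma contDiff_MM (β : Fin 16) : ContDiff ℝ ∞ (S.MM β) := by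
  unfold Setup.MM
  refine ContDiff.sum fun i _ => ContDiff.sum fun A _ => ?_
  exact (Setup.contDiff_ofReal (contDiff_const.mul (Setup.contDiff_coord _))).smul contDiff_const

lemma Tst_csmul (c : ℂ) {u : (Cfg dc) → F} (hu : Setup.Tst u) : Setup.Tst (fun x => c • u x) := by
  refine ⟨contDiff_const.smul hu.1, hu.2.mono ?_⟩
  intro x hx
  simp only [Function.mem_support] at hx ⊢
  intro h0
  exact hx (by rw [h0, smul_zero])

lemma Tst_zero : Setup.Tst (fun _ : (Cfg dc) => (0 : F)) :=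
  ⟨contDiff_const, HasCompactSupport.zero⟩

lemma Tst_sum {ι : Type*} (s : Finset ι) {u : ι → (Cfg dc) → F} (hu : ∀ k ∈ s, Setup.Tst (u k)) :
    Setup.Tst (fun x => ∑ k ∈ s, u k x) := by
  classical
  induction s using Finset.induction_on with
  | empty => simpa using (Tst_zero (F := F))
  | insert a s ha ih =>
    have h1 := (hu a (Finset.mem_insert_self _ _)).add
      (ih fun k hk => hu k (Finset.mem_insert_of_mem hk))
    simpa [Finset.sum_insert ha] using h1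

lemma Tst_Qm (m : ℝ) (β : Fin 16) {u : (Cfg dc) → F} (hu : Setup.Tst u) :
    Setup.Tst (S.Qm m β u) :=
  (hu.Q S β).add (Tst_csmul _ (Setup.Tst.clm (contDiff_MM S β) hu))

lemma contDiff_Qm (m : ℝ) (β : Fin 16) {u : (Cfg dc) → F} (hu : ContDiff ℝ ∞ u) :
    ContDiff ℝ ∞ (S.Qm m β u) :=
  (S.contDiff_Q β hu).add (contDiff_const.smul (Setup.contDiff_clm_apply' (contDiff_MM S β) hu))

lemma Qm_symm (m : ℝ) (β : Fin 16) {u v : (Cfg dc) → F} (hu : Setup.Tst u) (hv : ContDiff ℝ ∞ v) :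
    ∫ x, inner ℂ (S.Qm m β u x) (v x) = ∫ x, inner ℂ (u x) (S.Qm m β v x) := by
  have h := Q_symm S β u v hu hv
  have hM : Setup.Tst (fun x => (m : ℂ) • S.MM β x (u x)) :=
    Tst_csmul _ (Setup.Tst.clm (contDiff_MM S β) hu)
  simp only [Setup.Qm, inner_add_left, inner_add_right]
  have hM2 : ContDiff ℝ ∞ (fun x => (m : ℂ) • S.MM β x (v x)) :=
    contDiff_const.smul (Setup.contDiff_clm_apply' (contDiff_MM S β) hv)
  rw [integral_add ((hu.Q S β).inner_int hv.continuous) (hM.inner_int hv.continuous),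
    integral_add (hu.inner_int (S.contDiff_Q β hv).continuous) (hu.inner_int hM2.continuous), h]
  congr 1
  refine integral_congr_ae (Eventually.of_forall fun x => ?_)
  simp only [inner_smul_left, inner_smul_right, MM_symm, Complex.conj_ofReal]

lemma Qm_add (m : ℝ) (β : Fin 16) {u v : (Cfg dc) → F} (hu : ContDiff ℝ ∞ u) (hv : ContDiff ℝ ∞ v)
    (x : (Cfg dc)) : S.Qm m β (fun y => u y + v y) x = S.Qm m β u x + S.Qm m β v x := by
  have h1 : ∀ i A, pd i A (fun y => u y + v y) x = pd i A u x + pd i A v x := fun i A =>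
    pd_add ((hu.differentiable (by simp)) x) ((hv.differentiable (by simp)) x)
  simp only [Setup.Qm, Setup.Q, h1, map_add, smul_add, Finset.sum_add_distrib]
  abel

lemma Qm_csmul (m : ℝ) (β : Fin 16) (c : ℂ) {u : (Cfg dc) → F} (hu : ContDiff ℝ ∞ u)
    (x : (Cfg dc)) : S.Qm m β (fun y => c • u y) x = c • S.Qm m β u x := by
  have h1 : ∀ i A, pd i A (fun y => c • u y) x = c • pd i A u x := by
    intro i A
    rw [pd_csmul (differentiableAt_const _) ((hu.differentiable (by simp)) x)]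
    simp
  simp only [Setup.Qm, Setup.Q, h1, map_smul, smul_add, Finset.smul_sum, smul_smul,
    mul_comm c]

lemma Qm_zero (m : ℝ) (β : Fin 16) (x : (Cfg dc)) : S.Qm m β (fun _ => (0 : F)) x = 0 := by
  have h := Qm_csmul S m β 0 (u := fun _ => (0 : F)) contDiff_const x
  simpa using h

lemma Qm_sum (m : ℝ) (β : Fin 16) {ι : Type*} (s : Finset ι) (a : ι → ℂ) {u : ι → (Cfg dc) → F}
    (hu : ∀ k, ContDiff ℝ ∞ (u k)) (x : (Cfg dc)) :
    S.Qm m β (fun y => ∑ k ∈ s, a k • u k y) x = ∑ k ∈ s, a k • S.Qm m β (u k) x := by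
  classical
  induction s using Finset.induction_on with
  | empty => simpa using Qm_zero S m β x
  | insert b s hb ih =>
    simp only [Finset.sum_insert hb]
    have h1 : ContDiff ℝ ∞ (fun y => a b • u b y) := contDiff_const.smul (hu b)
    have h2 : ContDiff ℝ ∞ (fun y => ∑ k ∈ s, a k • u k y) :=
      ContDiff.sum fun k _ => contDiff_const.smul (hu k)
    rw [← ih, ← Qm_csmul S m β _ (hu b), ← Qm_add S m β h1 h2]

lemma Qm_sub (m : ℝ) (β : Fin 16) {u v : (Cfg dc) → F} (hu : ContDiff ℝ ∞ u) (hv : ContDiff ℝ ∞ v)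
    (x : (Cfg dc)) : S.Qm m β (fun y => u y - v y) x = S.Qm m β u x - S.Qm m β v x := by
  have hv' : ContDiff ℝ ∞ (fun y => (-1 : ℂ) • v y) := contDiff_const.smul hv
  have h := Qm_add S m β hu hv' x
  rw [Qm_csmul S m β (-1) hv x] at h
  simp only [neg_smul, one_smul, ← sub_eq_add_neg] at h
  exact h

lemma G_add (C : Fin dc) {u v : (Cfg dc) → F} (hu : ContDiff ℝ ∞ u) (hv : ContDiff ℝ ∞ v)
    (x : (Cfg dc)) : S.G C (fun y => u y + v y) x = S.G C u x + S.G C v x := by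
  have h1 : ∀ i A, pd i A (fun y => u y + v y) x = pd i A u x + pd i A v x := fun i A =>
    pd_add ((hu.differentiable (by simp)) x) ((hv.differentiable (by simp)) x)
  simp only [Setup.G, h1, map_add, smul_add, Finset.sum_add_distrib]
  abel

lemma G_csmul (C : Fin dc) (c : ℂ) {u : (Cfg dc) → F} (hu : ContDiff ℝ ∞ u)
    (x : (Cfg dc)) : S.G C (fun y => c • u y) x = c • S.G C u x := by
  have h1 : ∀ i A, pd i A (fun y => c • u y) x = c • pd i A u x := by
    intro i A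
    rw [pd_csmul (differentiableAt_const _) ((hu.differentiable (by simp)) x)]
    simp
  simp only [Setup.G, h1, map_smul, smul_add, Finset.smul_sum, smul_smul]
  congr 1
  refine Finset.sum_congr rfl fun i _ => Finset.sum_congr rfl fun A _ =>
    Finset.sum_congr rfl fun B _ => ?_
  congr 1
  ring

lemma J_add (k l : Fin 9) {u v : (Cfg dc) → F} (hu : ContDiff ℝ ∞ u) (hv : ContDiff ℝ ∞ v)
    (x : (Cfg dc)) : S.J k l (fun y => u y + v y) x = S.J k l u x + S.J k l v x := by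
  have h1 : ∀ i A, pd i A (fun y => u y + v y) x = pd i A u x + pd i A v x := fun i A =>
    pd_add ((hu.differentiable (by simp)) x) ((hv.differentiable (by simp)) x)
  simp only [Setup.J, h1, map_add, smul_add, Finset.sum_add_distrib, Finset.sum_sub_distrib,
    smul_sub]
  abel

lemma J_csmul (k l : Fin 9) (c : ℂ) {u : (Cfg dc) → F} (hu : ContDiff ℝ ∞ u)
    (x : (Cfg dc)) : S.J k l (fun y => c • u y) x = c • S.J k l u x := by
  have h1 : ∀ i A, pd i A (fun y => c • u y) x = c • pd i A u x := by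
    intro i A
    rw [pd_csmul (differentiableAt_const _) ((hu.differentiable (by simp)) x)]
    simp
  simp only [Setup.J, h1, map_smul, smul_add, smul_sub, Finset.smul_sum, smul_smul]
  congr 1
  refine Finset.sum_congr rfl fun A _ => ?_
  congr 2 <;> ring

lemma Inv_add {u v : (Cfg dc) → F} (hu : S.Inv u) (hv : S.Inv v) : S.Inv (fun y => u y + v y) := by
  refine ⟨hu.1.add hv.1, fun C x => ?_, fun k l h x => ?_⟩
  · rw [G_add S C hu.1.1 hv.1.1, hu.2.1, hv.2.1, add_zero]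
  · rw [J_add S k l hu.1.1 hv.1.1, hu.2.2 k l h, hv.2.2 k l h, add_zero]

lemma Inv_csmul (c : ℂ) {u : (Cfg dc) → F} (hu : S.Inv u) : S.Inv (fun y => c • u y) := by
  refine ⟨Tst_csmul c hu.1, fun C x => ?_, fun k l h x => ?_⟩
  · rw [G_csmul S C c hu.1.1, hu.2.1, smul_zero]
  · rw [J_csmul S k l c hu.1.1, hu.2.2 k l h, smul_zero]

lemma Inv_zero : S.Inv (fun _ : (Cfg dc) => (0 : F)) := by
  refine ⟨Tst_zero, fun C x => ?_, fun k l h x => ?_⟩
  · have h := G_csmul S C 0 (u := fun _ => (0 : F)) contDiff_const x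
    simpa using h
  · have h := J_csmul S k l 0 (u := fun _ => (0 : F)) contDiff_const x
    simpa using h

lemma Inv_sum {ι : Type*} (s : Finset ι) (a : ι → ℂ) {u : ι → (Cfg dc) → F} (hu : ∀ k, S.Inv (u k)) :
    S.Inv (fun y => ∑ k ∈ s, a k • u k y) := by
  classical
  induction s using Finset.induction_on with
  | empty => simpa using Inv_zero S
  | insert b s hb ih =>
    simp only [Finset.sum_insert hb]
    exact Inv_add S (Inv_csmul S (a b) (hu b)) ih

/-- `16 H_m = ∑ Q_β²` -/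
noncomputable def HH (m : ℝ) (u : (Cfg dc) → F) (x : (Cfg dc)) : F := ∑ β, S.Qm m β (S.Qm m β u) x

lemma contDiff_HH (m : ℝ) {u : (Cfg dc) → F} (hu : ContDiff ℝ ∞ u) : ContDiff ℝ ∞ (HH S m u) :=
  ContDiff.sum fun β _ => contDiff_Qm S m β (contDiff_Qm S m β hu)

lemma Tst_HH (m : ℝ) {u : (Cfg dc) → F} (hu : Setup.Tst u) : Setup.Tst (HH S m u) :=
  Tst_sum _ fun β _ => Tst_Qm S m β (Tst_Qm S m β hu)

lemma HH_sum (m : ℝ) {ι : Type*} (s : Finset ι) (a : ι → ℂ) {u : ι → (Cfg dc) → F}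
    (hu : ∀ k, ContDiff ℝ ∞ (u k)) (x : (Cfg dc)) :
    HH S m (fun y => ∑ k ∈ s, a k • u k y) x = ∑ k ∈ s, a k • HH S m (u k) x := by
  have h1 : ∀ β, S.Qm m β (fun y => ∑ k ∈ s, a k • u k y) =
      fun y => ∑ k ∈ s, a k • S.Qm m β (u k) y := fun β => funext fun y => Qm_sum S m β s a hu y
  simp only [HH, h1]
  simp only [Qm_sum S m _ s a (fun k => contDiff_Qm S m _ (hu k))]
  rw [Finset.sum_comm]
  simp only [Finset.smul_sum]

lemma inner_HH (m : ℝ) {u v : (Cfg dc) → F} (hu : Setup.Tst u) (hv : Setup.Tst v) :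
    ∫ x, inner ℂ (HH S m u x) (v x) = ∑ β, ∫ x, inner ℂ (S.Qm m β u x) (S.Qm m β v x) := by
  simp only [HH, sum_inner]
  rw [integral_finsetSum _ fun β _ => (Tst_Qm S m β (Tst_Qm S m β hu)).inner_int hv.1.continuous]
  refine Finset.sum_congr rfl fun β _ => ?_
  exact Qm_symm S m β (Tst_Qm S m β hu) hv.1

/-- the Hamiltonian preserves the invariant test functions -/
lemma Inv_HH (hA1 : A2Stmt S) (hA3 : A3Stmt S) (m : ℝ) {u : (Cfg dc) → F} (hu : S.Inv u) :
    S.Inv (HH S m u) := by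
  refine ⟨Tst_HH S m hu.1, fun C x => ?_, fun k l h x => ?_⟩
  · have h0 : S.G C u = fun _ => 0 := funext fun y => hu.2.1 C y
    have h1 : ∀ β, S.G C (S.Qm m β u) = fun _ => 0 := by
      intro β
      funext y
      rw [hA3 m C β u hu.1.1 y, h0, Qm_zero]
    have h2 : ∀ β, S.G C (S.Qm m β (S.Qm m β u)) x = 0 := by
      intro β
      rw [hA3 m C β _ (contDiff_Qm S m β hu.1.1) x, h1, Qm_zero]
    have h3 : ∀ s : Finset (Fin 16), S.G C (fun y => ∑ β ∈ s, S.Qm m β (S.Qm m β u) y) x = 0 := by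
      intro s
      classical
      induction s using Finset.induction_on with
      | empty =>
        have := (Inv_zero S).2.1 C x
        simpa using this
      | insert b s hb ih =>
        simp only [Finset.sum_insert hb]
        rw [G_add S C (contDiff_Qm S m b (contDiff_Qm S m b hu.1.1))
          (ContDiff.sum fun β _ => contDiff_Qm S m β (contDiff_Qm S m β hu.1.1)), h2, ih, add_zero]
    exact h3 Finset.univ
  · have h0 : S.J k l u = fun _ => 0 := funext fun y => hu.2.2 k l h y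
    have h1 : ∀ β, S.J k l (S.Qm m β u) = fun y => ∑ γ, (Complex.I / 2 * S.g2 k l β γ) •
        S.Qm m γ u y := by
      intro β
      funext y
      have h2 := hA1 m k l h β u hu.1.1 y
      rw [h0, Qm_zero, sub_zero, Finset.smul_sum] at h2
      simpa only [smul_smul] using h2
    have h2 : ∀ β, S.J k l (S.Qm m β (S.Qm m β u)) x =
        ∑ γ, (Complex.I / 2 * S.g2 k l β γ) • S.Qm m β (S.Qm m γ u) x +
        ∑ γ, (Complex.I / 2 * S.g2 k l β γ) • S.Qm m γ (S.Qm m β u) x := by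
      intro β
      have h3 := hA1 m k l h β _ (contDiff_Qm S m β hu.1.1) x
      rw [h1, Qm_sum S m β _ _ (fun γ => contDiff_Qm S m γ hu.1.1), sub_eq_iff_eq_add] at h3
      rw [h3, Finset.smul_sum, add_comm]
      simp only [smul_smul]
    have h3 : ∀ s : Finset (Fin 16), S.J k l (fun y => ∑ β ∈ s, S.Qm m β (S.Qm m β u) y) x =
        ∑ β ∈ s, S.J k l (S.Qm m β (S.Qm m β u)) x := by
      intro s
      classical
      induction s using Finset.induction_on with
      | empty =>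
        have := (Inv_zero S).2.2 k l h x
        simpa using this
      | insert b s hb ih =>
        simp only [Finset.sum_insert hb]
        rw [J_add S k l (contDiff_Qm S m b (contDiff_Qm S m b hu.1.1))
          (ContDiff.sum fun β _ => contDiff_Qm S m β (contDiff_Qm S m β hu.1.1)), ih]
    have h4 : ∀ β γ, S.g2 k l β γ = - S.g2 k l γ β := by
      intro β γ
      have := congrFun (congrFun (Setup.g2_transpose S k l) γ) β
      simpa [Matrix.transpose_apply] using this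
    refine (h3 Finset.univ).trans ?_
    simp only [h2, Finset.sum_add_distrib]
    rw [Finset.sum_comm (f := fun β γ => (Complex.I / 2 * S.g2 k l β γ) • S.Qm m γ (S.Qm m β u) x),
      ← Finset.sum_add_distrib]
    refine Finset.sum_eq_zero fun β _ => ?_
    rw [← Finset.sum_add_distrib]
    refine Finset.sum_eq_zero fun γ _ => ?_
    rw [h4 γ β, ← add_smul]
    simp

end HB

end Vale.Agent.P353.Z.U
end

section

/-! # P353, general `N`: the core gap `‖∑Q²φ‖² ≥ 8m ∑‖Qφ‖²` (helper130) -/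

open MeasureTheory Filter Topology Matrix
open scoped ContDiff

namespace Vale.Agent.P353.Z.U

variable {dc : ℕ}

variable {F : Type*} [NormedAddCommGroup F] [InnerProductSpace ℂ F]

namespace CG

/-! ### families of joint eigenvectors -/

section fam

variable {n : Type*} [Fintype n] [DecidableEq n]

omit [DecidableEq n] in
lemma rank_one (A : Matrix n n ℂ) (v : n → ℂ) :
    vecMulVec (A *ᵥ v) (star (A *ᵥ v)) = A * vecMulVec v (star v) * Aᴴ := by
  rw [Matrix.mul_vecMulVec, Matrix.vecMulVec_mul, Matrix.star_mulVec]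

lemma fam_step {ι : Type} [Fintype ι] (B M : Matrix n n ℂ) (hB : B * B = 1) (hBh : Bᴴ = B)
    (hBM : B * M = M * B) (v : ι → n → ℂ) (hv : ∑ a, vecMulVec (v a) (star (v a)) = M) :
    ∃ (w : ι × Bool → n → ℂ) (s : ι × Bool → ℂ), ∑ a, vecMulVec (w a) (star (w a)) = M ∧
      (∀ a, s a * s a = 1 ∧ (starRingEnd ℂ) (s a) = s a ∧ B *ᵥ w a = s a • w a) ∧
      ∀ C : Matrix n n ℂ, C * B = B * C → ∀ a, ∀ c : ℂ, C *ᵥ v a.1 = c • v a.1 →
        C *ᵥ w a = c • w a := by
  let A : Bool → Matrix n n ℂ := fun b => (1 / 2 : ℂ) • (1 + (if b then (1 : ℂ) else -1) • B)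
  have hAh : ∀ b, (A b)ᴴ = A b := by
    intro b
    simp only [A]
    rw [Matrix.conjTranspose_smul, Matrix.conjTranspose_add, Matrix.conjTranspose_one,
      Matrix.conjTranspose_smul, hBh]
    cases b <;> simp
  refine ⟨fun a => A a.2 *ᵥ v a.1, fun a => if a.2 then (1 : ℂ) else -1, ?_, ?_, ?_⟩
  · have h1 : ∀ a : ι × Bool, vecMulVec (A a.2 *ᵥ v a.1) (star (A a.2 *ᵥ v a.1)) =
        A a.2 * vecMulVec (v a.1) (star (v a.1)) * A a.2 := by
      intro a
      rw [rank_one, hAh]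
    simp only [h1]
    rw [Fintype.sum_prod_type_right, Fintype.sum_bool]
    simp only [← Finset.sum_mul, ← Finset.mul_sum, hv]
    have h2 : A true * M * A true + A false * M * A false = (1 / 2 : ℂ) • (M + B * M * B) := by
      simp only [A, if_true, Bool.false_eq_true, if_false, one_smul, neg_smul]
      simp only [Matrix.smul_mul, Matrix.mul_smul, smul_smul]
      rw [← smul_add]
      have : (1 + B) * M * (1 + B) + (1 + -B) * M * (1 + -B) = (2 : ℂ) • (M + B * M * B) := by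
        rw [two_smul]
        noncomm_ring
      rw [this, smul_smul]
      norm_num
    rw [h2, hBM, mul_assoc, hB, mul_one, ← two_smul ℂ, smul_smul]
    norm_num
  · rintro ⟨a, b⟩
    refine ⟨by cases b <;> simp, by cases b <;> simp, ?_⟩
    simp only
    rw [Matrix.mulVec_mulVec, ← Matrix.smul_mulVec]
    congr 1
    simp only [A]
    rw [Matrix.mul_smul, smul_comm]
    congr 1
    rw [mul_add, Matrix.mul_smul, hB, mul_one, smul_add, smul_smul]
    cases b <;> simp [add_comm]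
  · rintro C hC ⟨a, b⟩ c hc
    simp only at hc ⊢
    have h1 : C * A b = A b * C := by
      simp only [A]
      rw [Matrix.mul_smul, Matrix.smul_mul, mul_add, add_mul, mul_one, one_mul, Matrix.mul_smul,
        Matrix.smul_mul, hC]
    rw [Matrix.mulVec_mulVec, h1, ← Matrix.mulVec_mulVec, hc, Matrix.mulVec_smul]

end fam

section gam

variable (S : Setup dc F)

/-- `P_+ = (1 + iΓ)/2` -/
noncomputable def PP : Matrix (Fin 16) (Fin 16) ℂ := (1 / 2 : ℂ) • (1 + Complex.I • S.Gam)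

lemma PP_conj : (PP S)ᴴ = PP S := by
  unfold PP
  rw [Matrix.conjTranspose_smul, Matrix.conjTranspose_add, Matrix.conjTranspose_one,
    Matrix.conjTranspose_smul, a5_Gam_conj]
  simp

lemma Gam_PP : S.Gam * PP S = (-Complex.I) • PP S := by
  have h : S.Gam + Complex.I • (-1 : Matrix (Fin 16) (Fin 16) ℂ) =
      (-Complex.I) • (1 + Complex.I • S.Gam) := by
    rw [smul_add, smul_smul, neg_mul, Complex.I_mul_I, neg_neg, one_smul, neg_smul, smul_neg,
      add_comm]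
  unfold PP
  rw [Matrix.mul_smul, mul_add, mul_one, Matrix.mul_smul, S.Gam_sq, h, smul_comm]

lemma PP_sq : PP S * PP S = PP S := by
  change ((1 / 2 : ℂ) • (1 + Complex.I • S.Gam)) * PP S = PP S
  rw [Matrix.smul_mul, add_mul, one_mul, Matrix.smul_mul, Gam_PP, smul_smul, mul_neg,
    Complex.I_mul_I, neg_neg, one_smul, ← two_smul ℂ, smul_smul]
  norm_num

lemma comm_PP {B : Matrix (Fin 16) (Fin 16) ℂ} (h : B * S.Gam = S.Gam * B) :
    B * PP S = PP S * B := by
  unfold PP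
  rw [Matrix.mul_smul, Matrix.smul_mul, mul_add, add_mul, mul_one, one_mul, Matrix.mul_smul,
    Matrix.smul_mul, h]

/-- a family of joint eigenvectors resolving `P_+` -/
lemma fam : ∃ (ι : Type) (_ : Fintype ι) (v : ι → Fin 16 → ℂ) (σ : ι → Fin 9 → ℂ),
    ∑ a, vecMulVec (v a) (star (v a)) = PP S ∧
    ∀ a, S.Gam *ᵥ v a = (-Complex.I) • v a ∧ ∀ k, k ≠ 0 → σ a k * σ a k = 1 ∧
      (starRingEnd ℂ) (σ a k) = σ a k ∧
      S.g2 k (pt k) *ᵥ v a = (-Complex.I * σ a k) • v a := by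
  have hinv : ∀ A : Matrix (Fin 16) (Fin 16) ℂ, A * A = -1 →
      (Complex.I • A) * (Complex.I • A) = 1 := by
    intro A hA
    rw [smul_mul_smul_comm, hA, Complex.I_mul_I]
    simp
  have hher : ∀ k l : Fin 9, (Complex.I • S.g2 k l)ᴴ = Complex.I • S.g2 k l := by
    intro k l
    rw [Matrix.conjTranspose_smul, a5_g2_conj]
    simp
  have cm : ∀ A B : Matrix (Fin 16) (Fin 16) ℂ, A * B = B * A →
      A * (Complex.I • B) = (Complex.I • B) * A := by
    intro A B h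
    rw [Matrix.mul_smul, Matrix.smul_mul, h]
  have cG : ∀ {k l : Fin 9}, Same k l → S.Gam * (Complex.I • S.g2 k l) =
      (Complex.I • S.g2 k l) * S.Gam := fun h => cm _ _ (S.Gam_comm_g2 h).symm
  have cP : ∀ {k l : Fin 9}, Same k l → (Complex.I • S.g2 k l) * PP S =
      PP S * (Complex.I • S.g2 k l) := fun h => comm_PP S (cG h).symm
  have conv : ∀ (A : Matrix (Fin 16) (Fin 16) ℂ) (v : Fin 16 → ℂ) (s : ℂ),
      (Complex.I • A) *ᵥ v = s • v → A *ᵥ v = (-Complex.I * s) • v := by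
    intro A v s h
    rw [Matrix.smul_mulVec] at h
    have h2 := congrArg (fun w => (-Complex.I) • w) h
    simp only [smul_smul] at h2
    rw [neg_mul, Complex.I_mul_I, neg_neg, one_smul] at h2
    exact h2
  -- the start
  have hv0 : ∑ a : Fin 16, vecMulVec (PP S *ᵥ Pi.single a 1) (star (PP S *ᵥ Pi.single a 1)) =
      PP S := by
    simp only [rank_one]
    rw [← Finset.sum_mul, ← Finset.mul_sum]
    have h1 : ∑ a : Fin 16, vecMulVec (Pi.single a (1 : ℂ)) (star (Pi.single a (1 : ℂ))) =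
        (1 : Matrix (Fin 16) (Fin 16) ℂ) := by
      ext i j
      rw [Matrix.sum_apply]
      simp only [vecMulVec_apply, Pi.star_apply, Matrix.one_apply, Pi.single_apply]
      rw [Finset.sum_eq_single i]
      · by_cases h : i = j
        · subst h; simp
        · simp [h, Ne.symm h]
      · intro b _ hb
        simp [Ne.symm hb]
      · intro h; exact absurd (Finset.mem_univ _) h
    rw [h1, mul_one, PP_conj, PP_sq]
  have G0 : ∀ a : Fin 16, S.Gam *ᵥ (PP S *ᵥ Pi.single a 1) =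
      (-Complex.I) • (PP S *ᵥ Pi.single a 1) := by
    intro a
    rw [Matrix.mulVec_mulVec, Gam_PP, Matrix.smul_mulVec]
  obtain ⟨v1, s1, hv1, hs1, hk1⟩ := fam_step (Complex.I • S.g2 1 2) (PP S)
    (hinv _ (a5_g2_sq S (by decide))) (hher _ _) (cP ⟨by decide, by decide⟩) _ hv0
  obtain ⟨v2, s2, hv2, hs2, hk2⟩ := fam_step (Complex.I • S.g2 3 4) (PP S)
    (hinv _ (a5_g2_sq S (by decide))) (hher _ _) (cP ⟨by decide, by decide⟩) _ hv1
  obtain ⟨v3, s3, hv3, hs3, hk3⟩ := fam_step (Complex.I • S.g2 5 6) (PP S)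
    (hinv _ (a5_g2_sq S (by decide))) (hher _ _) (cP ⟨by decide, by decide⟩) _ hv2
  obtain ⟨v4, s4, hv4, hs4, hk4⟩ := fam_step (Complex.I • S.g2 7 8) (PP S)
    (hinv _ (a5_g2_sq S (by decide))) (hher _ _) (cP ⟨by decide, by decide⟩) _ hv3
  have cc : ∀ {i j k l : Fin 9}, i ≠ j → k ≠ l → i ≠ k → i ≠ l → j ≠ k → j ≠ l →
      S.g2 i j * (Complex.I • S.g2 k l) = (Complex.I • S.g2 k l) * S.g2 i j :=
    fun h1 h2 h3 h4 h5 h6 => cm _ _ (a5_comm S h1 h2 h3 h4 h5 h6)
  have neg : ∀ (a b : Fin 9) (w : Fin 16 → ℂ) (s : ℂ), S.g2 a b *ᵥ w = (-Complex.I * s) • w →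
      S.g2 b a *ᵥ w = (-Complex.I * (-s)) • w := by
    intro a b w s h
    rw [S.g2_swap b a, Matrix.neg_mulVec, h, ← neg_smul, mul_neg]
  have sq : ∀ s : ℂ, s * s = 1 → -s * -s = 1 := fun s h => by rw [neg_mul_neg, h]
  have cj : ∀ s : ℂ, (starRingEnd ℂ) s = s → (starRingEnd ℂ) (-s) = -s := fun s h => by
    rw [map_neg, h]
  refine ⟨_, inferInstance, v4, fun a => ![0, s1 a.1.1.1, -s1 a.1.1.1, s2 a.1.1, -s2 a.1.1,
    s3 a.1, -s3 a.1, s4 a, -s4 a], hv4, ?_⟩
  intro a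
  -- propagate
  have G1 := hk1 _ (cG ⟨by decide, by decide⟩) a.1.1.1 _ (G0 _)
  have G2 := hk2 _ (cG ⟨by decide, by decide⟩) a.1.1 _ G1
  have G3 := hk3 _ (cG ⟨by decide, by decide⟩) a.1 _ G2
  have G4 := hk4 _ (cG ⟨by decide, by decide⟩) a _ G3
  have P1 := conv _ _ _ (hs1 a.1.1.1).2.2
  have P1 := hk2 _ (cc (by decide) (by decide) (by decide) (by decide) (by decide) (by decide))
    a.1.1 _ P1
  have P1 := hk3 _ (cc (by decide) (by decide) (by decide) (by decide) (by decide) (by decide))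
    a.1 _ P1
  have P1 := hk4 _ (cc (by decide) (by decide) (by decide) (by decide) (by decide) (by decide))
    a _ P1
  have P2 := conv _ _ _ (hs2 a.1.1).2.2
  have P2 := hk3 _ (cc (by decide) (by decide) (by decide) (by decide) (by decide) (by decide))
    a.1 _ P2
  have P2 := hk4 _ (cc (by decide) (by decide) (by decide) (by decide) (by decide) (by decide))
    a _ P2
  have P3 := conv _ _ _ (hs3 a.1).2.2
  have P3 := hk4 _ (cc (by decide) (by decide) (by decide) (by decide) (by decide) (by decide))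
    a _ P3
  have P4 := conv _ _ _ (hs4 a).2.2
  refine ⟨G4, ?_⟩
  intro k hk
  fin_cases k
  · exact absurd rfl hk
  · exact ⟨(hs1 _).1, (hs1 _).2.1, P1⟩
  · exact ⟨sq _ (hs1 _).1, cj _ (hs1 _).2.1, neg _ _ _ _ P1⟩
  · exact ⟨(hs2 _).1, (hs2 _).2.1, P2⟩
  · exact ⟨sq _ (hs2 _).1, cj _ (hs2 _).2.1, neg _ _ _ _ P2⟩
  · exact ⟨(hs3 _).1, (hs3 _).2.1, P3⟩
  · exact ⟨sq _ (hs3 _).1, cj _ (hs3 _).2.1, neg _ _ _ _ P3⟩
  · exact ⟨(hs4 _).1, (hs4 _).2.1, P4⟩
  · exact ⟨sq _ (hs4 _).1, cj _ (hs4 _).2.1, neg _ _ _ _ P4⟩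

/-- the computation of A5 for an arbitrary joint eigenvector -/
lemma a5_gen (ζ : Fin 16 → ℂ) (σ : Fin 9 → ℂ) (hΓ : S.Gam *ᵥ ζ = (-Complex.I) • ζ)
    (hσ : ∀ k, k ≠ 0 → σ k * σ k = 1 ∧ (starRingEnd ℂ) (σ k) = σ k ∧
      S.g2 k (pt k) *ᵥ ζ = (-Complex.I * σ k) • ζ) (α : Fin 16) :
    ∑ k, ∑ l, (rc k l : ℂ) * (∑ β, ∑ γ, (starRingEnd ℂ) (ζ β) * (S.Gam * S.g2 k l) β γ * ζ γ) *
      (-Complex.I / 2) * (∑ β, S.g2 k l α β * (S.g2 0 1 *ᵥ ζ) β) =
        -5 * (∑ β, (starRingEnd ℂ) (ζ β) * ζ β) * (S.g2 0 1 *ᵥ ζ) α := by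
  set η : Fin 16 → ℂ := S.g2 0 1 *ᵥ ζ with hη
  -- expectation values
  have hE0 : ∀ k l : Fin 9, k ≠ 0 → k ≠ l → l ≠ pt k → star ζ ⬝ᵥ (S.g2 k l *ᵥ ζ) = 0 := by
    intro k l hk hkl hl
    obtain ⟨h1, h2, h3⟩ := hσ k hk
    refine a5_zero (S.g2 k (pt k)) (S.g2 k l) (a5_g2_conj S _ _) (a5_anti S hkl ?_ hl) ζ (σ k)
      h1 h2 h3
    revert hk; fin_cases k <;> decide
  have hE : ∀ k l : Fin 9, ¬ (k ≠ 0 ∧ l = pt k) → star ζ ⬝ᵥ (S.g2 k l *ᵥ ζ) = 0 := by
    intro k l h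
    by_cases hkl : k = l
    · rw [hkl, a5_g2_self, Matrix.zero_mulVec, dotProduct_zero]
    · by_cases hk : k = 0
      · subst hk
        rw [S.g2_swap 0 l, Matrix.neg_mulVec, dotProduct_neg, hE0 l 0 (Ne.symm hkl) (Ne.symm hkl),
          neg_zero]
        have : l ≠ 0 := Ne.symm hkl
        revert this; fin_cases l <;> decide
      · exact hE0 k l hk hkl fun hl => h ⟨hk, hl⟩
  have hEp : ∀ k, k ≠ 0 → star ζ ⬝ᵥ (S.g2 k (pt k) *ᵥ ζ) = (-Complex.I * σ k) * (star ζ ⬝ᵥ ζ) := by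
    intro k hk
    rw [(hσ k hk).2.2, dotProduct_smul, smul_eq_mul]
  -- action on `η`
  have hηp : ∀ k, k ≠ 0 → S.g2 k (pt k) *ᵥ η =
      (if k.val < 3 then Complex.I * σ k else -Complex.I * σ k) • η := by
    intro k hk
    have h3 := (hσ k hk).2.2
    by_cases hk3 : k.val < 3
    · rw [if_pos hk3]
      have ha : S.g2 k (pt k) * S.g2 0 1 = -(S.g2 0 1 * S.g2 k (pt k)) := by
        have hk' : k = 1 ∨ k = 2 := by
          revert hk hk3; fin_cases k <;> decide
        rcases hk' with rfl | rfl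
        · rw [S.g2_swap 0 1]
          have h := a5_anti S (k := 1) (l := 2) (p := 0) (by decide) (by decide) (by decide)
          change S.g2 1 2 * -S.g2 1 0 = -(-S.g2 1 0 * S.g2 1 2)
          rw [mul_neg, neg_mul, h]
        · rw [S.g2_swap 0 1]
          have h := a5_anti S (k := 1) (l := 2) (p := 0) (by decide) (by decide) (by decide)
          change S.g2 2 1 * -S.g2 1 0 = -(-S.g2 1 0 * S.g2 2 1)
          rw [S.g2_swap 2 1, mul_neg, neg_mul, mul_neg, neg_mul, h]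
      rw [hη, Matrix.mulVec_mulVec, ha, Matrix.neg_mulVec, ← Matrix.mulVec_mulVec, h3,
        Matrix.mulVec_smul, ← neg_smul]
      congr 1; ring
    · rw [if_neg hk3]
      have ha : S.g2 k (pt k) * S.g2 0 1 = S.g2 0 1 * S.g2 k (pt k) := by
        have hk' : k ≠ 0 ∧ k ≠ 1 ∧ pt k ≠ 0 ∧ pt k ≠ 1 ∧ k ≠ pt k := by
          revert hk hk3; fin_cases k <;> decide
        obtain ⟨p1, p2, p3, p4, p5⟩ := hk'
        exact a5_comm S p5 (by decide) p1 p2 p3 p4
      rw [hη, Matrix.mulVec_mulVec, ha, ← Matrix.mulVec_mulVec, h3, Matrix.mulVec_smul]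
  set N : ℂ := star ζ ⬝ᵥ ζ with hN
  have hNs : ∑ β, (starRingEnd ℂ) (ζ β) * ζ β = N := rfl
  have hc : ∀ k l : Fin 9, (∑ β, ∑ γ, (starRingEnd ℂ) (ζ β) * (S.Gam * S.g2 k l) β γ * ζ γ) =
      -Complex.I * (star ζ ⬝ᵥ (S.g2 k l *ᵥ ζ)) := by
    intro k l
    have h1 : (∑ β, ∑ γ, (starRingEnd ℂ) (ζ β) * (S.Gam * S.g2 k l) β γ * ζ γ) =
        star ζ ⬝ᵥ ((S.Gam * S.g2 k l) *ᵥ ζ) := by
      simp only [dotProduct, Matrix.mulVec, Finset.mul_sum, mul_assoc]
      rfl
    have h3 : star ζ ᵥ* S.Gam = star ((S.Gam)ᴴ *ᵥ ζ) := by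
      rw [Matrix.star_mulVec, Matrix.conjTranspose_conjTranspose]
    rw [h1, ← Matrix.mulVec_mulVec, Matrix.dotProduct_mulVec, h3, a5_Gam_conj, Matrix.neg_mulVec,
      hΓ, star_neg, star_smul, neg_dotProduct, smul_dotProduct]
    simp only [star_neg, smul_eq_mul, Complex.star_def, Complex.conj_I]
    ring
  have hterm : ∀ k l : Fin 9, (rc k l : ℂ) *
      (∑ β, ∑ γ, (starRingEnd ℂ) (ζ β) * (S.Gam * S.g2 k l) β γ * ζ γ) *
      (-Complex.I / 2) * (∑ β, S.g2 k l α β * η β) = (a5t k l : ℂ) * (1 / 2 * N * η α) := by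
    intro k l
    rw [hc]
    by_cases h : k ≠ 0 ∧ l = pt k
    · obtain ⟨hk, rfl⟩ := h
      have h4 : ∑ β, S.g2 k (pt k) α β * η β =
          (if k.val < 3 then Complex.I * σ k else -Complex.I * σ k) * η α :=
        congrFun (hηp k hk) α
      rw [hEp k hk, h4]
      have h5 := (hσ k hk).1
      by_cases hk3 : k.val < 3
      · have h6 : (pt k).val < 3 := by revert hk hk3; fin_cases k <;> decide
        have e1 : rc k (pt k) = 2 := by rw [rc, if_pos ⟨hk3, h6⟩]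
        have e2 : a5t k (pt k) = -2 := by rw [a5t, if_pos ⟨hk, rfl⟩, if_pos hk3]
        rw [e1, e2, if_pos hk3]
        push_cast
        linear_combination (-(N * η α)) * h5 +
          (N * η α * σ k ^ 2 * (1 - Complex.I ^ 2)) * Complex.I_mul_I
      · have h6 : ¬ (pt k).val < 3 := by revert hk hk3; fin_cases k <;> decide
        have e1 : rc k (pt k) = -1 := by
          rw [rc, if_neg (fun h => hk3 h.1), if_pos (And.intro (by omega) (by omega))]
        have e2 : a5t k (pt k) = -1 := by rw [a5t, if_pos ⟨hk, rfl⟩, if_neg hk3]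
        rw [e1, e2, if_neg hk3]
        push_cast
        linear_combination (-(1 / 2) * (N * η α)) * h5 +
          (1 / 2 * N * η α * σ k ^ 2 * (1 - Complex.I ^ 2)) * Complex.I_mul_I
    · rw [hE k l h, a5t, if_neg h]
      simp
  calc _ = ∑ k, ∑ l, (a5t k l : ℂ) * (1 / 2 * N * η α) :=
        Finset.sum_congr rfl fun k _ => Finset.sum_congr rfl fun l _ => hterm k l
    _ = ((∑ k, ∑ l, a5t k l : ℤ) : ℂ) * (1 / 2 * N * η α) := by
        push_cast
        simp only [Finset.sum_mul]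
    _ = _ := by
        rw [a5t_sum, hNs]
        push_cast
        ring

/-- the rotated family still resolves `P_+` -/
lemma fam_rot {ι : Type} [Fintype ι] (v : ι → Fin 16 → ℂ)
    (hv : ∑ a, vecMulVec (v a) (star (v a)) = PP S) :
    ∑ a, vecMulVec (S.g2 0 1 *ᵥ v a) (star (S.g2 0 1 *ᵥ v a)) = PP S := by
  simp only [rank_one]
  rw [← Finset.sum_mul, ← Finset.mul_sum, hv, comm_PP S (S.Gam_comm_g2 ⟨by decide, by decide⟩),
    mul_assoc, a5_g2_conj, mul_neg, a5_g2_sq S (by decide), neg_neg, mul_one]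

lemma PP_add (β γ : Fin 16) : PP S β γ + PP S γ β = if β = γ then 1 else 0 := by
  have h : S.Gam γ β = -S.Gam β γ := congrFun (congrFun S.Gam_transpose β) γ
  unfold PP
  simp only [Matrix.smul_apply, Matrix.add_apply, smul_eq_mul, h]
  by_cases hbg : β = γ
  · subst hbg
    simp only [Matrix.one_apply_eq, if_true]
    ring
  · rw [Matrix.one_apply_ne hbg, Matrix.one_apply_ne (Ne.symm hbg), if_neg hbg]
    ring

end gam

/-! ### the supercharges `Q^ξ` -/

section ana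

variable (S : Setup dc F)

/-- the pairing -/
noncomputable def E (f g : Cfg dc → F) : ℂ := ∫ x, inner ℂ (f x) (g x)

/-- `Q^ξ` -/
noncomputable def QX (m : ℝ) (ξ : Fin 16 → ℂ) (u : Cfg dc → F) (x : Cfg dc) : F :=
  ∑ β, ξ β • S.Qm m β u x

lemma Tst_QX (m : ℝ) (ξ : Fin 16 → ℂ) {u : Cfg dc → F} (hu : Setup.Tst u) :
    Setup.Tst (QX S m ξ u) :=
  HB.Tst_sum _ fun β _ => HB.Tst_csmul _ (HB.Tst_Qm S m β hu)

lemma E_self (f : Cfg dc → F) : E f f = ((nsq f : ℝ) : ℂ) := by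
  unfold E
  rw [nsq, ← integral_complex_ofReal]
  refine integral_congr_ae (Filter.Eventually.of_forall fun x => ?_)
  simp only [inner_self_eq_norm_sq_to_K]
  norm_cast

lemma E_QX_left (m : ℝ) (ξ : Fin 16 → ℂ) {u g : Cfg dc → F} (hu : Setup.Tst u)
    (hg : ContDiff ℝ ∞ g) :
    E (QX S m ξ u) g = ∑ β, (starRingEnd ℂ) (ξ β) * E (S.Qm m β u) g := by
  unfold E QX
  simp only [sum_inner]
  rw [integral_finsetSum _ fun β _ =>
    (HB.Tst_csmul (ξ β) (HB.Tst_Qm S m β hu)).inner_int hg.continuous]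
  refine Finset.sum_congr rfl fun β _ => ?_
  simp only [inner_smul_left]
  exact integral_const_mul _ _

lemma E_QX_right (m : ℝ) (ξ : Fin 16 → ℂ) {u g : Cfg dc → F} (hg : Setup.Tst g)
    (hu : ContDiff ℝ ∞ u) :
    E g (QX S m ξ u) = ∑ β, ξ β * E g (S.Qm m β u) := by
  unfold E QX
  simp only [inner_sum]
  have h : ∀ β, ContDiff ℝ ∞ (fun x => ξ β • S.Qm m β u x) := fun β =>
    contDiff_const.smul (HB.contDiff_Qm S m β hu)
  rw [integral_finsetSum _ fun β _ => hg.inner_int (h β).continuous]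
  refine Finset.sum_congr rfl fun β _ => ?_
  simp only [inner_smul_right]
  exact integral_const_mul _ _

lemma E_symm (m : ℝ) (ξ : Fin 16 → ℂ) {u v : Cfg dc → F} (hu : Setup.Tst u) (hv : ContDiff ℝ ∞ v) :
    E (QX S m ξ u) v = E u (QX S m (star ξ) v) := by
  rw [E_QX_left S m ξ hu hv, E_QX_right S m (star ξ) hu hv]
  refine Finset.sum_congr rfl fun β _ => ?_
  have h : E (S.Qm m β u) v = E u (S.Qm m β v) := HB.Qm_symm S m β hu hv
  rw [h]
  rfl

lemma E_QX (m : ℝ) (ξ η : Fin 16 → ℂ) {u v : Cfg dc → F} (hu : Setup.Tst u) (hv : Setup.Tst v) :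
    E (QX S m ξ u) (QX S m η v) =
      ∑ β, ∑ γ, (starRingEnd ℂ) (ξ β) * η γ * E (S.Qm m β u) (S.Qm m γ v) := by
  rw [E_QX_left S m ξ hu (Tst_QX S m η hv).1]
  refine Finset.sum_congr rfl fun β _ => ?_
  rw [E_QX_right S m η (HB.Tst_Qm S m β hu) hv.1, Finset.mul_sum]
  refine Finset.sum_congr rfl fun γ _ => ?_
  ring

/-- the resolution of the identity -/
lemma E_fam (m : ℝ) {ι : Type} [Fintype ι] (η : ι → Fin 16 → ℂ)
    (hη : ∑ a, vecMulVec (η a) (star (η a)) = PP S) {u v : Cfg dc → F} (hu : Setup.Tst u)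
    (hv : Setup.Tst v) :
    ∑ β, E (S.Qm m β u) (S.Qm m β v) = ∑ a, (E (QX S m (η a) u) (QX S m (η a) v) +
      E (QX S m (star (η a)) u) (QX S m (star (η a)) v)) := by
  have h1 : ∀ a, E (QX S m (η a) u) (QX S m (η a) v) +
      E (QX S m (star (η a)) u) (QX S m (star (η a)) v) =
      ∑ β, ∑ γ, (η a γ * (starRingEnd ℂ) (η a β) + η a β * (starRingEnd ℂ) (η a γ)) *
        E (S.Qm m β u) (S.Qm m γ v) := by
    intro a
    rw [E_QX S m _ _ hu hv, E_QX S m _ _ hu hv, ← Finset.sum_add_distrib]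
    refine Finset.sum_congr rfl fun β _ => ?_
    rw [← Finset.sum_add_distrib]
    refine Finset.sum_congr rfl fun γ _ => ?_
    simp only [Pi.star_apply, Complex.star_def, Complex.conj_conj]
    ring
  have h2 : ∀ β γ, ∑ a, (η a γ * (starRingEnd ℂ) (η a β) + η a β * (starRingEnd ℂ) (η a γ)) =
      if β = γ then 1 else 0 := by
    intro β γ
    have h3 : ∀ β γ, ∑ a, η a β * (starRingEnd ℂ) (η a γ) = PP S β γ := by
      intro β γ
      rw [← hη, Matrix.sum_apply]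
      rfl
    rw [Finset.sum_add_distrib, h3, h3, add_comm, PP_add]
  simp only [h1]
  rw [Finset.sum_comm]
  refine Finset.sum_congr rfl fun β _ => ?_
  rw [Finset.sum_comm]
  simp only [← Finset.sum_mul, h2]
  rw [Finset.sum_eq_single β]
  · rw [if_pos rfl, one_mul]
  · intro γ _ hγ
    rw [if_neg (Ne.symm hγ), zero_mul]
  · intro h; exact absurd (Finset.mem_univ _) h

/-! ### linearity of the generators -/

lemma G_sum (C : Fin dc) {ι : Type*} (s : Finset ι) (a : ι → ℂ) {u : ι → Cfg dc → F}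
    (hu : ∀ k, ContDiff ℝ ∞ (u k)) (x : Cfg dc) :
    S.G C (fun y => ∑ k ∈ s, a k • u k y) x = ∑ k ∈ s, a k • S.G C (u k) x := by
  classical
  induction s using Finset.induction_on with
  | empty =>
    have := (HB.Inv_zero S).2.1 C x
    simpa using this
  | insert b s hb ih =>
    simp only [Finset.sum_insert hb]
    have h1 : ContDiff ℝ ∞ (fun y => a b • u b y) := contDiff_const.smul (hu b)
    have h2 : ContDiff ℝ ∞ (fun y => ∑ k ∈ s, a k • u k y) :=
      ContDiff.sum fun k _ => contDiff_const.smul (hu k)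
    rw [← ih, ← HB.G_csmul S C _ (hu b), ← HB.G_add S C h1 h2]

lemma J_sum (k l : Fin 9) {ι : Type*} (s : Finset ι) (a : ι → ℂ) {u : ι → Cfg dc → F}
    (hu : ∀ k, ContDiff ℝ ∞ (u k)) (x : Cfg dc) (hkl : Same k l) :
    S.J k l (fun y => ∑ b ∈ s, a b • u b y) x = ∑ b ∈ s, a b • S.J k l (u b) x := by
  classical
  induction s using Finset.induction_on with
  | empty =>
    have := (HB.Inv_zero S).2.2 k l hkl x
    simpa using this
  | insert b s hb ih =>
    simp only [Finset.sum_insert hb]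
    have h1 : ContDiff ℝ ∞ (fun y => a b • u b y) := contDiff_const.smul (hu b)
    have h2 : ContDiff ℝ ∞ (fun y => ∑ k ∈ s, a k • u k y) :=
      ContDiff.sum fun k _ => contDiff_const.smul (hu k)
    rw [← ih, ← HB.J_csmul S k l _ (hu b), ← HB.J_add S k l h1 h2]

lemma G_QX (hA3 : A3Stmt S) (m : ℝ) (ξ : Fin 16 → ℂ) {φ : Cfg dc → F} (hφ : S.Inv φ) (C : Fin dc)
    (x : Cfg dc) : S.G C (QX S m ξ φ) x = 0 := by
  have h0 : S.G C φ = fun _ => 0 := funext fun y => hφ.2.1 C y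
  have h1 := G_sum S C Finset.univ ξ (u := fun β => S.Qm m β φ)
    (fun β => HB.contDiff_Qm S m β hφ.1.1) x
  have h2 : ∀ β, S.G C (S.Qm m β φ) x = 0 := by
    intro β
    rw [hA3 m C β φ hφ.1.1 x, h0, HB.Qm_zero]
  simp only [h2, smul_zero, Finset.sum_const_zero] at h1
  exact h1

lemma J_QX (hA2 : A2Stmt S) (m : ℝ) (ξ : Fin 16 → ℂ) {φ : Cfg dc → F} (hφ : S.Inv φ) {k l : Fin 9}
    (hkl : Same k l) (x : Cfg dc) : S.J k l (QX S m ξ φ) x =
      (-Complex.I / 2) • ∑ β, (S.g2 k l *ᵥ ξ) β • S.Qm m β φ x := by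
  have h0 : S.J k l φ = fun _ => 0 := funext fun y => hφ.2.2 k l hkl y
  have h1 : S.J k l (QX S m ξ φ) x = ∑ β, ξ β • S.J k l (S.Qm m β φ) x :=
    J_sum S k l Finset.univ ξ (u := fun β => S.Qm m β φ)
      (fun β => HB.contDiff_Qm S m β hφ.1.1) x hkl
  have h2 : ∀ α, S.J k l (S.Qm m α φ) x =
      (Complex.I / 2) • ∑ β, S.g2 k l α β • S.Qm m β φ x := by
    intro α
    have h3 := hA2 m k l hkl α φ hφ.1.1 x
    rwa [h0, HB.Qm_zero, sub_zero] at h3
  rw [h1]
  simp only [h2, Finset.smul_sum, smul_smul]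
  rw [Finset.sum_comm]
  refine Finset.sum_congr rfl fun β _ => ?_
  rw [← Finset.sum_smul]
  congr 1
  have h4 : ∀ α β, S.g2 k l α β = - S.g2 k l β α := by
    intro α β
    have := congrFun (congrFun (Setup.g2_transpose S k l) β) α
    simpa [Matrix.transpose_apply] using this
  simp only [Matrix.mulVec, dotProduct, Finset.mul_sum]
  refine Finset.sum_congr rfl fun α _ => ?_
  rw [h4 α β]
  ring

/-- `[16 H, Q^ξ] = 8 m s Q^ξ` for `iΓξ = sξ` -/
lemma HH_QX (hA4 : A4Stmt S) (hA7 : A7Stmt S) (m : ℝ) {φ : Cfg dc → F} (hφ : S.Inv φ)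
    (ξ : Fin 16 → ℂ) (s : ℂ) (hξ : S.Gam *ᵥ ξ = (-Complex.I * s) • ξ) (x : Cfg dc) :
    QX S m ξ (HB.HH S m φ) x = HB.HH S m (QX S m ξ φ) x - (8 * m * s) • QX S m ξ φ x := by
  have e1 : HB.HH S m φ = fun y => (16 : ℂ) • S.Hm m φ y := funext fun y => hA7 m φ hφ.1.1 y
  have e2 : S.Hm m φ = fun y => (1 / 16 : ℂ) • HB.HH S m φ y := by
    funext y
    rw [e1]
    simp only [smul_smul]
    norm_num
  have hH : ContDiff ℝ ∞ (S.Hm m φ) := by
    rw [e2]
    exact contDiff_const.smul (HB.contDiff_HH S m hφ.1.1)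
  have key : ∀ α, S.Qm m α (HB.HH S m φ) x = HB.HH S m (S.Qm m α φ) x +
      (8 * Complex.I * m) • ∑ β, S.Gam α β • S.Qm m β φ x := by
    intro α
    have h1 := hA4 m α φ hφ.1.1 x
    simp only [hφ.2.1, map_zero, Finset.sum_const_zero, smul_zero, sub_zero] at h1
    have h2 : HB.HH S m (S.Qm m α φ) x = (16 : ℂ) • S.Hm m (S.Qm m α φ) x :=
      hA7 m _ (HB.contDiff_Qm S m α hφ.1.1) x
    rw [e1, HB.Qm_csmul S m α 16 hH, h2, sub_eq_iff_eq_add.mp h1, smul_add, smul_smul,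
      add_comm ((16 * -(Complex.I * m / 2)) • _), add_assoc, ← add_smul]
    have : 16 * -(Complex.I * (m : ℂ) / 2) + 8 * Complex.I * m = 0 := by ring
    rw [this, zero_smul, add_zero]
  have h3 : HB.HH S m (QX S m ξ φ) x = ∑ α, ξ α • HB.HH S m (S.Qm m α φ) x :=
    HB.HH_sum S m Finset.univ ξ (u := fun β => S.Qm m β φ)
      (fun β => HB.contDiff_Qm S m β hφ.1.1) x
  rw [h3]
  unfold QX
  simp only [key, smul_add, Finset.sum_add_distrib]
  rw [sub_eq_add_neg, ← neg_smul]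
  congr 1
  simp only [Finset.smul_sum, smul_smul]
  rw [Finset.sum_comm]
  refine Finset.sum_congr rfl fun β _ => ?_
  rw [← Finset.sum_smul]
  congr 1
  have h4 : ∀ α, S.Gam α β = -S.Gam β α := fun α => congrFun (congrFun S.Gam_transpose β) α
  have h5 : ∑ α, S.Gam β α * ξ α = -Complex.I * s * ξ β := congrFun hξ β
  have h6 : ∑ α, ξ α * (8 * Complex.I * m * S.Gam α β) =
      -(8 * Complex.I * m) * ∑ α, S.Gam β α * ξ α := by
    rw [Finset.mul_sum]
    refine Finset.sum_congr rfl fun α _ => ?_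
    rw [h4]
    ring
  rw [h6, h5]
  linear_combination (8 * m * s * ξ β) * Complex.I_mul_I

lemma E_HH (m : ℝ) {u : Cfg dc → F} (hu : Setup.Tst u) :
    E u (HB.HH S m u) = ((∑ β, nsq (S.Qm m β u) : ℝ) : ℂ) := by
  have h1 : E (HB.HH S m u) u = ((∑ β, nsq (S.Qm m β u) : ℝ) : ℂ) := by
    unfold E
    rw [HB.inner_HH S m hu hu]
    push_cast
    exact Finset.sum_congr rfl fun β _ => E_self _
  have h2 : E u (HB.HH S m u) = (starRingEnd ℂ) (E (HB.HH S m u) u) := by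
    unfold E
    rw [← integral_conj]
    simp only [inner_conj_symm]
  rw [h2, h1, Complex.conj_ofReal]

lemma alg (m c : ℂ) (ζ : Fin 16 → ℂ) (R : Fin 9 → Fin 9 → ℂ)
    (M : Fin 9 → Fin 9 → Fin 16 → Fin 16 → ℂ) (N : Fin 9 → Fin 9 → Fin 16 → ℂ)
    (P : Fin 16 → F) :
    ∑ α, ∑ β, ((starRingEnd ℂ) (ζ α) * ζ β) •
      (m • ∑ i, ∑ j, (R i j * M i j α β) • (c • ∑ δ, N i j δ • P δ)) =
    m • ∑ δ, (∑ k, ∑ l, R k l * (∑ β, ∑ γ, (starRingEnd ℂ) (ζ β) * M k l β γ * ζ γ) *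
      c * N k l δ) • P δ := by
  have h1 : ∀ α β, ((starRingEnd ℂ) (ζ α) * ζ β) •
      (m • ∑ i, ∑ j, (R i j * M i j α β) • (c • ∑ δ, N i j δ • P δ)) =
      ∑ i, ∑ j, ((starRingEnd ℂ) (ζ α) * M i j α β * ζ β) •
        ((m * R i j * c) • ∑ δ, N i j δ • P δ) := by
    intro α β
    rw [Finset.smul_sum, Finset.smul_sum]
    refine Finset.sum_congr rfl fun i _ => ?_
    rw [Finset.smul_sum, Finset.smul_sum]
    refine Finset.sum_congr rfl fun j _ => ?_
    simp only [smul_smul]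
    congr 1
    ring
  simp only [h1]
  have h2 : ∀ (w : Fin 16 → Fin 16 → Fin 9 → Fin 9 → F),
      ∑ α, ∑ β, ∑ i, ∑ j, w α β i j = ∑ i, ∑ j, ∑ α, ∑ β, w α β i j := by
    intro w
    calc ∑ α, ∑ β, ∑ i, ∑ j, w α β i j = ∑ α, ∑ i, ∑ β, ∑ j, w α β i j :=
          Finset.sum_congr rfl fun α _ => Finset.sum_comm
      _ = ∑ i, ∑ α, ∑ β, ∑ j, w α β i j := Finset.sum_comm
      _ = ∑ i, ∑ α, ∑ j, ∑ β, w α β i j :=
          Finset.sum_congr rfl fun i _ => Finset.sum_congr rfl fun α _ => Finset.sum_comm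
      _ = ∑ i, ∑ j, ∑ α, ∑ β, w α β i j :=
          Finset.sum_congr rfl fun i _ => Finset.sum_comm
  rw [h2]
  have h3 : ∀ i j, ∑ α, ∑ β, ((starRingEnd ℂ) (ζ α) * M i j α β * ζ β) •
        ((m * R i j * c) • ∑ δ, N i j δ • P δ) =
      ∑ δ, (m * (R i j * (∑ β, ∑ γ, (starRingEnd ℂ) (ζ β) * M i j β γ * ζ γ) *
        c * N i j δ)) • P δ := by
    intro i j
    simp only [← Finset.sum_smul]
    generalize (∑ β, ∑ γ, (starRingEnd ℂ) (ζ β) * M i j β γ * ζ γ) = K
    rw [Finset.smul_sum, Finset.smul_sum]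
    refine Finset.sum_congr rfl fun δ _ => ?_
    simp only [smul_smul]
    congr 1
    ring
  simp only [h3]
  rw [Finset.smul_sum]
  calc ∑ i, ∑ j, ∑ δ, (m * (R i j * (∑ β, ∑ γ, (starRingEnd ℂ) (ζ β) * M i j β γ * ζ γ) *
        c * N i j δ)) • P δ = ∑ i, ∑ δ, ∑ j, (m * (R i j *
          (∑ β, ∑ γ, (starRingEnd ℂ) (ζ β) * M i j β γ * ζ γ) * c * N i j δ)) • P δ :=
        Finset.sum_congr rfl fun i _ => Finset.sum_comm
    _ = ∑ δ, ∑ i, ∑ j, (m * (R i j *
          (∑ β, ∑ γ, (starRingEnd ℂ) (ζ β) * M i j β γ * ζ γ) * c * N i j δ)) • P δ :=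
        Finset.sum_comm
    _ = _ := by
        refine Finset.sum_congr rfl fun δ _ => ?_
        rw [Finset.sum_smul, Finset.smul_sum]
        refine Finset.sum_congr rfl fun i _ => ?_
        rw [Finset.sum_smul, Finset.smul_sum]
        refine Finset.sum_congr rfl fun j _ => ?_
        rw [smul_smul]

lemma rc_J_QX (hA2 : A2Stmt S) (m : ℝ) (ξ : Fin 16 → ℂ) {φ : Cfg dc → F} (hφ : S.Inv φ)
    (i j : Fin 9) (c : ℂ) (x : Cfg dc) : ((rc i j : ℂ) * c) • S.J i j (QX S m ξ φ) x =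
      ((rc i j : ℂ) * c) • ((-Complex.I / 2) • ∑ β, (S.g2 i j *ᵥ ξ) β • S.Qm m β φ x) ∨
      i = j := by
  by_cases hij : i = j
  · exact Or.inr hij
  left
  by_cases hs : Same i j
  · rw [J_QX S hA2 m ξ hφ hs]
  · have h2 : rc i j = 0 := by
      unfold rc
      unfold Same at hs
      rw [if_neg, if_neg]
      · rintro ⟨h3, h4⟩
        exact hs ⟨hij, ⟨fun h => by omega, fun h => by omega⟩⟩
      · rintro ⟨h3, h4⟩
        exact hs ⟨hij, ⟨fun h => h4, fun h => h3⟩⟩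
    rw [h2]; simp

/-- the key pointwise identity -/
lemma key_D (hA1 : A1Stmt S) (hA2 : A2Stmt S) (hA3 : A3Stmt S) (hA7 : A7Stmt S) (m : ℝ)
    {φ : Cfg dc → F} (hφ : S.Inv φ) (ζ : Fin 16 → ℂ) (σ : Fin 9 → ℂ)
    (hΓ : S.Gam *ᵥ ζ = (-Complex.I) • ζ)
    (hσ : ∀ k, k ≠ 0 → σ k * σ k = 1 ∧ (starRingEnd ℂ) (σ k) = σ k ∧
      S.g2 k (pt k) *ᵥ ζ = (-Complex.I * σ k) • ζ) (x : Cfg dc) :
    QX S m (star ζ) (QX S m ζ (QX S m (S.g2 0 1 *ᵥ ζ) φ)) x +
      QX S m ζ (QX S m (star ζ) (QX S m (S.g2 0 1 *ᵥ ζ) φ)) x =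
    (∑ β, (starRingEnd ℂ) (ζ β) * ζ β) •
      ((1 / 8 : ℂ) • HB.HH S m (QX S m (S.g2 0 1 *ᵥ ζ) φ) x -
        (5 * m : ℂ) • QX S m (S.g2 0 1 *ᵥ ζ) φ x) := by
  set η : Fin 16 → ℂ := S.g2 0 1 *ᵥ ζ with hη
  set X : Cfg dc → F := QX S m η φ with hX
  have hXt : Setup.Tst X := Tst_QX S m η hφ.1
  have hXc : ∀ β, ContDiff ℝ ∞ (S.Qm m β X) := fun β => HB.contDiff_Qm S m β hXt.1
  have e1 : QX S m (star ζ) (QX S m ζ X) x =
      ∑ α, ∑ β, ((starRingEnd ℂ) (ζ α) * ζ β) • S.Qm m α (S.Qm m β X) x := by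
    have h1 : ∀ α, S.Qm m α (QX S m ζ X) x = ∑ β, ζ β • S.Qm m α (S.Qm m β X) x := fun α =>
      HB.Qm_sum S m α Finset.univ ζ (u := fun β => S.Qm m β X) hXc x
    change ∑ α, (star ζ) α • S.Qm m α (QX S m ζ X) x = _
    simp only [h1, Finset.smul_sum, smul_smul]
    rfl
  have e2 : QX S m ζ (QX S m (star ζ) X) x =
      ∑ α, ∑ β, ((starRingEnd ℂ) (ζ α) * ζ β) • S.Qm m β (S.Qm m α X) x := by
    have h1 : ∀ α, S.Qm m α (QX S m (star ζ) X) x =
        ∑ β, (star ζ) β • S.Qm m α (S.Qm m β X) x := fun α =>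
      HB.Qm_sum S m α Finset.univ (star ζ) (u := fun β => S.Qm m β X) hXc x
    change ∑ α, ζ α • S.Qm m α (QX S m (star ζ) X) x = _
    simp only [h1, Finset.smul_sum, smul_smul]
    rw [Finset.sum_comm]
    refine Finset.sum_congr rfl fun α _ => Finset.sum_congr rfl fun β _ => ?_
    rw [mul_comm]
    rfl
  have e3 : ∀ α β, S.Qm m α (S.Qm m β X) x + S.Qm m β (S.Qm m α X) x =
      (if α = β then (2 : ℂ) • S.Hm m X x else 0) +
      (m : ℂ) • (∑ i, ∑ j, ((rc i j : ℂ) * (S.Gam * S.g2 i j) α β) •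
        ((-Complex.I / 2) • ∑ δ, (S.g2 i j *ᵥ η) δ • S.Qm m δ φ x)) := by
    intro α β
    rw [hA1 m α β X hXt.1 x]
    have h1 : ∀ C, S.G C X x = 0 := fun C => G_QX S hA3 m η hφ C x
    simp only [h1, smul_zero, Finset.sum_const_zero, add_zero]
    congr 2
    refine Finset.sum_congr rfl fun i _ => Finset.sum_congr rfl fun j _ => ?_
    rcases rc_J_QX S hA2 m η hφ i j ((S.Gam * S.g2 i j) α β) x with h | h
    · exact h
    · subst h
      simp [a5_g2_self]
  rw [e1, e2, ← Finset.sum_add_distrib]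
  have e4 : ∀ α, (∑ β, ((starRingEnd ℂ) (ζ α) * ζ β) • S.Qm m α (S.Qm m β X) x) +
      (∑ β, ((starRingEnd ℂ) (ζ α) * ζ β) • S.Qm m β (S.Qm m α X) x) =
      ((starRingEnd ℂ) (ζ α) * ζ α) • ((2 : ℂ) • S.Hm m X x) +
      ∑ β, ((starRingEnd ℂ) (ζ α) * ζ β) •
        ((m : ℂ) • (∑ i, ∑ j, ((rc i j : ℂ) * (S.Gam * S.g2 i j) α β) •
          ((-Complex.I / 2) • ∑ δ, (S.g2 i j *ᵥ η) δ • S.Qm m δ φ x))) := by
    intro α
    rw [← Finset.sum_add_distrib]
    simp only [← smul_add, e3]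
    simp only [smul_add, Finset.sum_add_distrib]
    congr 1
    rw [Finset.sum_eq_single α]
    · rw [if_pos rfl]
    · intro β _ hβ
      rw [if_neg (Ne.symm hβ), smul_zero]
    · intro h; exact absurd (Finset.mem_univ _) h
  simp only [e4]
  rw [Finset.sum_add_distrib, ← Finset.sum_smul,
    alg (m : ℂ) (-Complex.I / 2) ζ (fun i j => (rc i j : ℂ))
      (fun i j α β => (S.Gam * S.g2 i j) α β) (fun i j δ => (S.g2 i j *ᵥ η) δ)
      (fun δ => S.Qm m δ φ x)]
  have e5 : ∀ δ, ∑ k, ∑ l, (rc k l : ℂ) *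
      (∑ β, ∑ γ, (starRingEnd ℂ) (ζ β) * (S.Gam * S.g2 k l) β γ * ζ γ) *
      (-Complex.I / 2) * (S.g2 k l *ᵥ η) δ = -5 * (∑ β, (starRingEnd ℂ) (ζ β) * ζ β) * η δ :=
    fun δ => a5_gen S ζ σ hΓ hσ δ
  simp only [e5]
  have e6 : HB.HH S m X x = (16 : ℂ) • S.Hm m X x := hA7 m X hXt.1 x
  rw [e6, smul_sub, smul_smul, smul_smul, smul_smul, sub_eq_add_neg]
  congr 1
  · congr 1
    ring
  · rw [hX]
    unfold QX
    rw [smul_smul, Finset.smul_sum, Finset.smul_sum, ← Finset.sum_neg_distrib]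
    refine Finset.sum_congr rfl fun δ _ => ?_
    rw [smul_smul, smul_smul, ← neg_smul]
    congr 1
    ring

/-- coercivity on `X = Q^η φ` -/
lemma coerX (hA1 : A1Stmt S) (hA2 : A2Stmt S) (hA3 : A3Stmt S) (hA7 : A7Stmt S) (m : ℝ)
    {φ : Cfg dc → F} (hφ : S.Inv φ) (ζ : Fin 16 → ℂ) (σ : Fin 9 → ℂ)
    (hΓ : S.Gam *ᵥ ζ = (-Complex.I) • ζ)
    (hσ : ∀ k, k ≠ 0 → σ k * σ k = 1 ∧ (starRingEnd ℂ) (σ k) = σ k ∧
      S.g2 k (pt k) *ᵥ ζ = (-Complex.I * σ k) • ζ) :
    40 * m * nsq (QX S m (S.g2 0 1 *ᵥ ζ) φ) ≤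
      ∑ β, nsq (S.Qm m β (QX S m (S.g2 0 1 *ᵥ ζ) φ)) := by
  have hD := key_D S hA1 hA2 hA3 hA7 m hφ ζ σ hΓ hσ
  set η : Fin 16 → ℂ := S.g2 0 1 *ᵥ ζ with hη
  set X : Cfg dc → F := QX S m η φ with hX
  have hXt : Setup.Tst X := Tst_QX S m η hφ.1
  have hN : ∑ β, (starRingEnd ℂ) (ζ β) * ζ β = ((∑ β, ‖ζ β‖ ^ 2 : ℝ) : ℂ) := by
    push_cast
    refine Finset.sum_congr rfl fun β _ => ?_
    rw [mul_comm, Complex.mul_conj, Complex.normSq_eq_norm_sq]
    push_cast
    ring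
  rw [hN] at hD
  set N : ℝ := ∑ β, ‖ζ β‖ ^ 2 with hNd
  have hN0 : 0 ≤ N := Finset.sum_nonneg fun _ _ => by positivity
  have t1 := Tst_QX S m ζ hXt
  have t2 := Tst_QX S m (star ζ) hXt
  have h1 : ((nsq (QX S m ζ X) + nsq (QX S m (star ζ) X) : ℝ) : ℂ) =
      ((N * (1 / 8 * ∑ β, nsq (S.Qm m β X) - 5 * m * nsq X) : ℝ) : ℂ) := by
    have a1 : ((nsq (QX S m ζ X) : ℝ) : ℂ) = E X (QX S m (star ζ) (QX S m ζ X)) := by
      rw [← E_self, E_symm S m ζ hXt t1.1]
    have a2 : ((nsq (QX S m (star ζ) X) : ℝ) : ℂ) = E X (QX S m ζ (QX S m (star ζ) X)) := by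
      rw [← E_self, E_symm S m (star ζ) hXt t2.1, star_star]
    have a3 : E X (QX S m (star ζ) (QX S m ζ X)) + E X (QX S m ζ (QX S m (star ζ) X)) =
        N * ((1 / 8 : ℂ) * E X (HB.HH S m X) - 5 * m * E X X) := by
      have c1 := (Tst_QX S m (star ζ) t1).1.continuous
      have c2 := (Tst_QX S m ζ t2).1.continuous
      have c3 := (HB.Tst_HH S m hXt).1.continuous
      unfold E
      rw [← integral_add (hXt.inner_int c1) (hXt.inner_int c2)]
      simp only [← inner_add_right, hD]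
      simp only [inner_smul_right, inner_sub_right]
      rw [integral_const_mul, integral_sub ((hXt.inner_int c3).const_mul _)
        ((hXt.inner_int hXt.1.continuous).const_mul _), integral_const_mul, integral_const_mul]
    push_cast
    rw [a1, a2, a3, E_HH S m hXt, E_self]
    push_cast
    ring
  have h2 : nsq (QX S m ζ X) + nsq (QX S m (star ζ) X) =
      N * (1 / 8 * ∑ β, nsq (S.Qm m β X) - 5 * m * nsq X) := by exact_mod_cast h1
  have h3 := nsq_nonneg (QX S m ζ X)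
  have h4 := nsq_nonneg (QX S m (star ζ) X)
  rcases hN0.lt_or_eq with hN1 | hN1
  · have h5 : 0 ≤ 1 / 8 * ∑ β, nsq (S.Qm m β X) - 5 * m * nsq X := by
      by_contra hcon
      push Not at hcon
      nlinarith
    linarith
  · have hζ : ζ = 0 := by
      funext β
      have h6 : ‖ζ β‖ ^ 2 = 0 := (Finset.sum_eq_zero_iff_of_nonneg fun _ _ => by positivity).mp
        hN1.symm β (Finset.mem_univ _)
      simpa using h6
    have hX0 : X = fun _ => 0 := by
      funext x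
      rw [hX, hη, hζ]
      simp [QX]
    have h7 : nsq X = 0 := by rw [hX0]; simp [nsq]
    rw [h7, mul_zero]
    exact Finset.sum_nonneg fun _ _ => nsq_nonneg _

end ana

end CG

/-- **core gap** -/
theorem cgap (S : Setup dc F) (hA1 : A1Stmt S) (hA2 : A2Stmt S) (hA3 : A3Stmt S)
    (hA4 : A4Stmt S) (hA7 : A7Stmt S) : CGapStmt S := by
  intro m hm φ hφ
  obtain ⟨ι, _, v, σ, hv, hσ⟩ := CG.fam S
  have hη := CG.fam_rot S v hv
  have hGη : ∀ a, S.Gam *ᵥ (S.g2 0 1 *ᵥ v a) = (-Complex.I * 1) • (S.g2 0 1 *ᵥ v a) := by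
    intro a
    rw [Matrix.mulVec_mulVec, ← S.Gam_comm_g2 ⟨by decide, by decide⟩, ← Matrix.mulVec_mulVec,
      (hσ a).1, Matrix.mulVec_smul, mul_one]
  have hGs : ∀ a, S.Gam *ᵥ star (S.g2 0 1 *ᵥ v a) =
      (-Complex.I * (-1)) • star (S.g2 0 1 *ᵥ v a) := by
    intro a
    have h1 := congrArg star (hGη a)
    have h2 : star (S.Gam *ᵥ (S.g2 0 1 *ᵥ v a)) = S.Gam *ᵥ star (S.g2 0 1 *ᵥ v a) := by
      rw [Matrix.star_mulVec, a5_Gam_conj, Matrix.vecMul_neg, ← Matrix.mulVec_transpose,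
        S.Gam_transpose, Matrix.neg_mulVec, neg_neg]
    rw [← h2, h1, star_smul]
    simp
  set η : ι → Fin 16 → ℂ := fun a => S.g2 0 1 *ᵥ v a with hηd
  have hHt : Setup.Tst (HB.HH S m φ) := HB.Tst_HH S m hφ.1
  have hXt : ∀ a, Setup.Tst (CG.QX S m (η a) φ) := fun a => CG.Tst_QX S m _ hφ.1
  have hYt : ∀ a, Setup.Tst (CG.QX S m (star (η a)) φ) := fun a => CG.Tst_QX S m _ hφ.1
  -- the sum of squares
  have h1 : ∑ β, nsq (S.Qm m β φ) =
      ∑ a, (nsq (CG.QX S m (η a) φ) + nsq (CG.QX S m (star (η a)) φ)) := by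
    have h := CG.E_fam S m η hη hφ.1 hφ.1
    simp only [CG.E_self] at h
    exact_mod_cast h
  -- the norm of `HH φ`
  have hsplit : ∀ (ξ : Fin 16 → ℂ) (s : ℝ), S.Gam *ᵥ ξ = (-Complex.I * (s : ℂ)) • ξ →
      CG.E (CG.QX S m ξ φ) (CG.QX S m ξ (HB.HH S m φ)) =
      ((∑ β, nsq (S.Qm m β (CG.QX S m ξ φ)) - 8 * m * s * nsq (CG.QX S m ξ φ) : ℝ) : ℂ) := by
    intro ξ s hξ
    have ht := CG.Tst_QX S m ξ hφ.1
    have e1 : CG.E (CG.QX S m ξ φ) (CG.QX S m ξ (HB.HH S m φ)) =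
        CG.E (CG.QX S m ξ φ) (HB.HH S m (CG.QX S m ξ φ)) -
          (8 * m * s) * CG.E (CG.QX S m ξ φ) (CG.QX S m ξ φ) := by
      unfold CG.E
      simp only [CG.HH_QX S hA4 hA7 m hφ ξ s hξ, inner_sub_right, inner_smul_right]
      rw [integral_sub (ht.inner_int (HB.Tst_HH S m ht).1.continuous)
        ((ht.inner_int ht.1.continuous).const_mul _), integral_const_mul]
    rw [e1, CG.E_HH S m ht, CG.E_self]
    push_cast
    ring
  have h2 : nsq (HB.HH S m φ) = ∑ a,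
      ((∑ β, nsq (S.Qm m β (CG.QX S m (η a) φ)) - 8 * m * 1 * nsq (CG.QX S m (η a) φ)) +
      (∑ β, nsq (S.Qm m β (CG.QX S m (star (η a)) φ)) -
        8 * m * (-1) * nsq (CG.QX S m (star (η a)) φ))) := by
    have h := CG.E_fam S m η hη hφ.1 hHt
    have h3 : CG.E (HB.HH S m φ) (HB.HH S m φ) =
        ∑ β, CG.E (S.Qm m β φ) (S.Qm m β (HB.HH S m φ)) := HB.inner_HH S m hφ.1 hHt
    rw [← h3, CG.E_self] at h
    have h4 : ∀ a, CG.E (CG.QX S m (η a) φ) (CG.QX S m (η a) (HB.HH S m φ)) +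
        CG.E (CG.QX S m (star (η a)) φ) (CG.QX S m (star (η a)) (HB.HH S m φ)) =
        (((∑ β, nsq (S.Qm m β (CG.QX S m (η a) φ)) - 8 * m * 1 * nsq (CG.QX S m (η a) φ)) +
        (∑ β, nsq (S.Qm m β (CG.QX S m (star (η a)) φ)) -
          8 * m * (-1) * nsq (CG.QX S m (star (η a)) φ)) : ℝ) : ℂ) := by
      intro a
      rw [hsplit (η a) 1 (by rw [Complex.ofReal_one]; exact hGη a),
        hsplit (star (η a)) (-1) (by rw [Complex.ofReal_neg, Complex.ofReal_one]; exact hGs a)]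
      push_cast
      ring
    simp only [h4] at h
    exact_mod_cast h
  change 8 * m * ∑ β, nsq (S.Qm m β φ) ≤ nsq (HB.HH S m φ)
  rw [h1, h2, Finset.mul_sum]
  refine Finset.sum_le_sum fun a _ => ?_
  have h5 := CG.coerX S hA1 hA2 hA3 hA7 m hφ (v a) (σ a) (hσ a).1 (hσ a).2
  have h6 : 0 ≤ ∑ β, nsq (S.Qm m β (CG.QX S m (star (η a)) φ)) :=
    Finset.sum_nonneg fun _ _ => nsq_nonneg _
  have h7 := nsq_nonneg (CG.QX S m (η a) φ)
  have h8 : 0 ≤ m * nsq (CG.QX S m (η a) φ) := mul_nonneg hm.le h7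
  have h9 : 40 * m * nsq (CG.QX S m (η a) φ) ≤ ∑ β, nsq (S.Qm m β (CG.QX S m (η a) φ)) := h5
  nlinarith

end Vale.Agent.P353.Z.U
end

section

/-! # P353, general `N`: the operator `1 + ∑ Q_β²`, basic lemmas (from `Vale/Agent/P353/U/ESA.lean`) -/

open MeasureTheory Filter Topology
open scoped ContDiff

namespace Vale.Agent.P353.Z

variable {dc : ℕ}

variable {F : Type*} [NormedAddCommGroup F] [InnerProductSpace ℂ F]

lemma esa_pdr_smooth {φ : (Cfg dc) → ℝ} (hφ : ContDiff ℝ ∞ φ) (j : Fin 9) (B : Fin dc) :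
    ContDiff ℝ ∞ (pdr j B φ) := by
  unfold pdr
  exact (hφ.fderiv_right (m := ∞) (by simp)).clm_apply contDiff_const

lemma esa_pdr_cs {φ : (Cfg dc) → ℝ} (hφ : HasCompactSupport φ) (j : Fin 9) (B : Fin dc) :
    HasCompactSupport (pdr j B φ) := hφ.fderiv_apply (𝕜 := ℝ) _

namespace Setup

variable (S : Setup dc F)

lemma esa_gGam_real (i : Fin 9) (α β : Fin 16) : ((S.g i * S.Gam) α β).im = 0 :=
  mul_im_zero (S.g_im i) S.Gam_real α β

lemma esa_MM_symm (β : Fin 16) (x : (Cfg dc)) (v w : F) :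
    inner ℂ (S.MM β x v) w = inner ℂ v (S.MM β x w) := by
  simp only [MM, _root_.sum_apply, _root_.smul_apply, sum_inner,
    inner_sum, inner_smul_left, inner_smul_right, S.vec_symm _ (S.esa_gGam_real _),
    Complex.conj_ofReal]

lemma esa_contDiff_MM (β : Fin 16) : ContDiff ℝ ∞ (S.MM β) := by
  unfold MM
  refine ContDiff.sum fun i _ => ContDiff.sum fun A _ => ?_
  exact (contDiff_ofReal (contDiff_const.mul (contDiff_coord _))).smul contDiff_const

lemma esa_contDiff_Qm (m : ℝ) (β : Fin 16) {u : (Cfg dc) → F} (hu : ContDiff ℝ ∞ u) :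
    ContDiff ℝ ∞ (S.Qm m β u) := by
  unfold Qm
  exact (S.contDiff_Q β hu).add (contDiff_const.smul (contDiff_clm_apply' (S.esa_contDiff_MM β) hu))

lemma esa_Tst_Qm {u : (Cfg dc) → F} (hu : Tst u) (m : ℝ) (β : Fin 16) : Tst (S.Qm m β u) := by
  have h1 : Tst (fun x => ((m : ℂ) • S.MM β x) (u x)) :=
    Tst.clm (T := fun x => (m : ℂ) • S.MM β x) ((S.esa_contDiff_MM β).const_smul (m : ℂ)) hu
  exact (hu.Q S β).add h1

theorem esa_Qm_symm (m : ℝ) (β : Fin 16) (u v : (Cfg dc) → F) (hu : Tst u) (hv : ContDiff ℝ ∞ v) :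
    ∫ x, inner ℂ (S.Qm m β u x) (v x) = ∫ x, inner ℂ (u x) (S.Qm m β v x) := by
  have h1 : Tst (fun x => ((m : ℂ) • S.MM β x) (u x)) :=
    Tst.clm (T := fun x => (m : ℂ) • S.MM β x) ((S.esa_contDiff_MM β).const_smul (m : ℂ)) hu
  have h2 : ContDiff ℝ ∞ (fun x => ((m : ℂ) • S.MM β x) (v x)) :=
    contDiff_clm_apply' (T := fun x => (m : ℂ) • S.MM β x)
      ((S.esa_contDiff_MM β).const_smul (m : ℂ)) hv
  have e1 : ∀ x, inner ℂ (S.Qm m β u x) (v x) = inner ℂ (S.Q β u x) (v x) +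
      inner ℂ (((m : ℂ) • S.MM β x) (u x)) (v x) := fun x => by
    rw [Qm, inner_add_left]; rfl
  have e2 : ∀ x, inner ℂ (u x) (S.Qm m β v x) = inner ℂ (u x) (S.Q β v x) +
      inner ℂ (u x) (((m : ℂ) • S.MM β x) (v x)) := fun x => by
    rw [Qm, inner_add_right]; rfl
  simp only [e1, e2]
  rw [integral_add ((hu.Q S β).inner_int hv.continuous) (h1.inner_int hv.continuous),
    integral_add (hu.inner_int (S.contDiff_Q β hv).continuous) (hu.inner_int h2.continuous),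
    Q_symm S β u v hu hv]
  congr 1
  refine integral_congr_ae (Filter.Eventually.of_forall fun x => ?_)
  simp only [_root_.smul_apply, inner_smul_left, inner_smul_right, S.esa_MM_symm,
    Complex.conj_ofReal]

/-- the symbol `i (γθ∇χ)_β` -/
noncomputable def esaD (χ : (Cfg dc) → ℝ) (β : Fin 16) (x : (Cfg dc)) : F →L[ℂ] F :=
  Complex.I • ∑ i, ∑ A, ((pdr i A χ x : ℝ) : ℂ) • S.vec (S.g i) A β

lemma esa_Qm_smul (m : ℝ) (β : Fin 16) (φ : (Cfg dc) → ℝ) (u : (Cfg dc) → F) (x : (Cfg dc))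
    (hφ : DifferentiableAt ℝ φ x) (hu : DifferentiableAt ℝ u x) :
    S.Qm m β (fun y => ((φ y : ℝ) : ℂ) • u y) x = ((φ x : ℝ) : ℂ) • S.Qm m β u x -
      S.esaD φ β x (u x) := by
  rw [Qm, Q_smul S β φ u x hφ hu, Qm, esaD, map_smul, smul_add, smul_comm (m : ℂ)]
  simp only [_root_.smul_apply, _root_.sum_apply]
  abel

lemma esa_contDiff_D {χ : (Cfg dc) → ℝ} (hχ : ContDiff ℝ ∞ χ) (β : Fin 16) :
    ContDiff ℝ ∞ (S.esaD χ β) := by
  unfold esaD
  refine ContDiff.const_smul Complex.I (ContDiff.sum fun i _ => ContDiff.sum fun A _ => ?_)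
  exact (contDiff_ofReal (esa_pdr_smooth hχ i A)).smul contDiff_const

/-- the constants `∑ ‖(γ^iθ^A)_β‖` -/
noncomputable def esaC (β : Fin 16) : ℝ := ∑ i, ∑ A, ‖S.vec (S.g i) A β‖

lemma esa_FG_symm (v w : F) : inner ℂ (S.FG v) w = inner ℂ v (S.FG w) := by
  simp only [FG, _root_.smul_apply, inner_smul_left, inner_smul_right,
    S.tot_adj _ S.Gam_real, S.Gam_transpose, S.tot_neg, _root_.neg_apply, inner_neg_right,
    Complex.conj_I]
  ring

lemma esa_Fx_symm (x : (Cfg dc)) (v w : F) : inner ℂ (S.Fx x v) w = inner ℂ v (S.Fx x w) := by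
  have he : ∀ A B C : Fin dc, S.f B A C = - S.f A B C := fun A B C => S.f_swap B A C
  have hc : ∀ A B C : Fin dc, (starRingEnd ℂ) ((S.f A B C : ℝ) : ℂ) = ((S.f A B C : ℝ) : ℂ) :=
    fun A B C => Complex.conj_ofReal _
  simp only [Fx, _root_.smul_apply, _root_.sum_apply, inner_smul_left, inner_smul_right,
    sum_inner, inner_sum, S.bil_adj _ (S.g_im _), S.g_symm, map_mul, hc, Complex.conj_ofReal]
  have : (starRingEnd ℂ) (Complex.I / 2) = -(Complex.I / 2) := by
    have h2 : (starRingEnd ℂ) 2 = 2 := by norm_num [Complex.ext_iff]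
    rw [map_div₀, h2, Complex.conj_I]; ring
  rw [this, neg_mul, neg_mul, ← mul_neg]
  congr 1
  rw [← Finset.sum_neg_distrib]
  refine Finset.sum_congr rfl fun q _ => ?_
  rw [Finset.sum_comm, ← Finset.sum_neg_distrib]
  refine Finset.sum_congr rfl fun A _ => ?_
  rw [← Finset.sum_neg_distrib]
  refine Finset.sum_congr rfl fun B _ => ?_
  rw [← Finset.sum_neg_distrib]
  refine Finset.sum_congr rfl fun C _ => ?_
  rw [he A B C]; push_cast; ring

/-- total potential of `1 + ∑ Q_β²` -/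
noncomputable def esaW (m : ℝ) (x : (Cfg dc)) : F →L[ℂ] F :=
  ((1 + 16 * S.Vm m x : ℝ) : ℂ) • (1 : F →L[ℂ] F) + (16 : ℂ) • S.Fx x - ((12 * m : ℝ) : ℂ) • S.FG

lemma esa_W_symm (m : ℝ) (x : (Cfg dc)) (v w : F) :
    inner ℂ (S.esaW m x v) w = inner ℂ v (S.esaW m x w) := by
  have h16 : (starRingEnd ℂ) 16 = 16 := by norm_num [Complex.ext_iff]
  simp only [esaW, _root_.smul_apply, _root_.add_apply, _root_.sub_apply, inner_add_left,
    inner_add_right, inner_sub_left, inner_sub_right, inner_smul_left, inner_smul_right,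
    S.esa_Fx_symm, S.esa_FG_symm, Complex.conj_ofReal, h16, one_apply_eq_self]

lemma esa_contDiff_Vm (m : ℝ) : ContDiff ℝ ∞ (S.Vm m) := by
  have h1 : ContDiff ℝ ∞ S.det3 := by
    unfold det3
    refine ContDiff.sum fun A _ => ContDiff.sum fun B _ => ContDiff.sum fun C _ => ?_
    exact ((contDiff_const.mul (contDiff_coord _)).mul (contDiff_coord _)).mul (contDiff_coord _)
  have h2 : ContDiff ℝ ∞ (fun x : (Cfg dc) => ∑ i, ∑ A, (aw i * x (i, A)) ^ 2) :=
    ContDiff.sum fun i _ => ContDiff.sum fun A _ => (contDiff_const.mul (contDiff_coord _)).pow 2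
  unfold Vm
  exact ((contDiff_V S).add (contDiff_const.mul h1)).add (contDiff_const.mul h2)

lemma esa_W_continuous (m : ℝ) : Continuous (S.esaW m) := by
  unfold esaW
  have h1 : Continuous (fun x => ((1 + 16 * S.Vm m x : ℝ) : ℂ)) :=
    Complex.continuous_ofReal.comp (continuous_const.add
      (continuous_const.mul (S.esa_contDiff_Vm m).continuous))
  exact ((h1.smul continuous_const).add ((contDiff_Fx S).continuous.const_smul (16 : ℂ))).sub
    continuous_const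

lemma esa_L_eq (h7 : U.A7Stmt S) (m : ℝ) {u : (Cfg dc) → F} (hu : ContDiff ℝ ∞ u) (x : (Cfg dc)) :
    u x + ∑ β, S.Qm m β (S.Qm m β u) x =
      S.esaW m x (u x) - (8 : ℂ) • ∑ i, ∑ A, pd i A (pd i A u) x := by
  rw [h7 m u hu x, Hm, esaW]
  simp only [_root_.smul_apply, _root_.add_apply, _root_.sub_apply, one_apply_eq_self,
    smul_sub, smul_add, smul_smul]
  push_cast
  module

end Setup

end Vale.Agent.P353.Z
end

section

/-! # Invariance of radial mollifications -/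

open MeasureTheory Filter Topology
open scoped ContDiff

namespace Vale.Agent.P353.Z.Moll

variable {dc : ℕ}

variable {F : Type*} [NormedAddCommGroup F] [InnerProductSpace ℂ F] {ε : ℝ} {g : ℝ → ℝ}

lemma pd_mo {ρ : (Cfg dc) → ℝ} (hρ : ContDiff ℝ ∞ ρ) (hc : HasCompactSupport ρ) {f : (Cfg dc) → F}
    (hf : LocallyIntegrable f volume) (i : Fin 9) (A : Fin dc) (x : (Cfg dc)) :
    pd i A (mo ρ f) x = mo (pdr i A ρ) f x := by
  rw [pd, fderiv_mo hρ hc hf]
  rfl

lemma inner_mo {ρ : (Cfg dc) → ℝ} (hρ : Continuous ρ) (hc : HasCompactSupport ρ) [CompleteSpace F]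
    {f : (Cfg dc) → F} (hf : LocallyIntegrable f volume) (v : F) (x : (Cfg dc)) :
    inner ℂ v (mo ρ f x) = ∫ y, ((ρ (x - y) : ℝ) : ℂ) * inner ℂ v (f y) := by
  unfold mo
  rw [← integral_inner (integrable_mo hρ hc hf x)]
  refine integral_congr_ae (Eventually.of_forall fun y => ?_)
  simp only
  rw [← Complex.coe_smul, inner_smul_right]

/-- the test function `y ↦ ρ(x - y) v` -/
noncomputable def tz (ρ : (Cfg dc) → ℝ) (x : (Cfg dc)) (v : F) (y : (Cfg dc)) : F := ((ρ (x - y) : ℝ) : ℂ) • v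

lemma Tst_tz {ρ : (Cfg dc) → ℝ} (hρ : ContDiff ℝ ∞ ρ) (hc : HasCompactSupport ρ) (x : (Cfg dc)) (v : F) :
    Setup.Tst (tz ρ x v) := by
  have h1 : ContDiff ℝ ∞ (fun y : (Cfg dc) => ρ (x - y)) := hρ.comp (contDiff_const.sub contDiff_id)
  have h2 : HasCompactSupport (fun y : (Cfg dc) => ρ (x - y)) :=
    hc.comp_homeomorph (Homeomorph.subLeft x)
  refine ⟨(Setup.contDiff_ofReal h1).smul contDiff_const, h2.mono ?_⟩
  intro y hy
  simp only [Function.mem_support, tz] at hy ⊢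
  intro h0
  exact hy (by rw [h0]; simp)

lemma pd_tz {ρ : (Cfg dc) → ℝ} (hρ : ContDiff ℝ ∞ ρ) (x : (Cfg dc)) (v : F) (i : Fin 9) (A : Fin dc)
    (y : (Cfg dc)) : pd i A (tz ρ x v) y = -((((pdr i A ρ (x - y)) : ℝ) : ℂ) • v) := by
  have h1 : ContDiff ℝ ∞ (fun y : (Cfg dc) => ρ (x - y)) := hρ.comp (contDiff_const.sub contDiff_id)
  have h2 : fderiv ℝ (fun y : (Cfg dc) => ρ (x - y)) y (EuclideanSpace.single (i, A) (1 : ℝ)) =
      - pdr i A ρ (x - y) := by
    have h3 : HasFDerivAt (fun y : (Cfg dc) => x - y) (-(ContinuousLinearMap.id ℝ (Cfg dc))) y :=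
      (hasFDerivAt_id y).const_sub x
    have h4 := ((hρ.differentiable (by simp)) (x - y)).hasFDerivAt.comp y h3
    have h5 : fderiv ℝ (fun y : (Cfg dc) => ρ (x - y)) y = _ := h4.fderiv
    rw [h5]
    simp [pdr]
  have h6 := pd_rsmul (i := i) (A := A) (φ := fun y : (Cfg dc) => ρ (x - y)) (u := fun _ => v) (x := y)
    ((h1.differentiable (by simp)) y) (differentiableAt_const v)
  have h7 : pd i A (fun _ : (Cfg dc) => v) y = 0 := by simp [pd]
  rw [h7, smul_zero, add_zero] at h6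
  have h8 : pd i A (tz ρ x v) y = _ := h6
  rw [h8, h2]
  push_cast
  rw [neg_smul]

/-- first order operator with real linear coefficients -/
noncomputable def Dop (c : (Cfg dc) → Fin 9 → Fin dc → ℝ) (T : F →L[ℂ] F) (u : (Cfg dc) → F) (x : (Cfg dc)) : F :=
  (-Complex.I) • ∑ i, ∑ B, ((c x i B : ℝ) : ℂ) • pd i B u x + T (u x)

lemma Dop_mo [CompleteSpace F] {ρ : (Cfg dc) → ℝ} (hρ : ContDiff ℝ ∞ ρ) (hc : HasCompactSupport ρ)
    (c : (Cfg dc) → Fin 9 → Fin dc → ℝ) (T : F →L[ℂ] F) {f : (Cfg dc) → F}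
    (hf : LocallyIntegrable f volume) (x : (Cfg dc)) :
    Dop c T (mo ρ f) x = ∫ y, ((-Complex.I) • ∑ i, ∑ B, ((c x i B : ℝ) : ℂ) •
      pdr i B ρ (x - y) • f y + T (ρ (x - y) • f y)) := by
  have i1 : ∀ i B, Integrable (fun y => pdr i B ρ (x - y) • f y) := fun i B =>
    integrable_mo (esa_pdr_smooth hρ i B).continuous
      (hc.fderiv_apply (𝕜 := ℝ) (EuclideanSpace.single (i, B) (1 : ℝ) : (Cfg dc))) hf x
  have i2 : Integrable (fun y => ρ (x - y) • f y) := integrable_mo hρ.continuous hc hf x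
  have j1 : ∀ i B, Integrable (fun y => ((c x i B : ℝ) : ℂ) • pdr i B ρ (x - y) • f y) :=
    fun i B => (i1 i B).smul _
  have j2 : ∀ i, Integrable (fun y => ∑ B, ((c x i B : ℝ) : ℂ) • pdr i B ρ (x - y) • f y) :=
    fun i => integrable_finsetSum _ fun B _ => j1 i B
  have j3 : Integrable (fun y => (-Complex.I) • ∑ i, ∑ B, ((c x i B : ℝ) : ℂ) •
      pdr i B ρ (x - y) • f y) := (integrable_finsetSum _ fun i _ => j2 i).smul (-Complex.I)
  have j4 : Integrable (fun y => T (ρ (x - y) • f y)) := T.integrable_comp i2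
  rw [integral_add j3 j4, integral_smul, integral_finsetSum _ fun i _ => j2 i, Dop]
  have e1 : ∀ i, ∫ y, ∑ B, ((c x i B : ℝ) : ℂ) • pdr i B ρ (x - y) • f y =
      ∑ B, ((c x i B : ℝ) : ℂ) • pd i B (mo ρ f) x := by
    intro i
    rw [integral_finsetSum _ fun B _ => j1 i B]
    refine Finset.sum_congr rfl fun B _ => ?_
    rw [integral_smul, pd_mo hρ hc hf]
    rfl
  have e2 : ∫ y, T (ρ (x - y) • f y) = T (mo ρ f x) := T.integral_comp_comm i2
  simp only [e1, e2]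

/-- invariance of the mollification -/
lemma Dop_mo_eq_zero [CompleteSpace F] {g : ℝ → ℝ} (hg : ContDiff ℝ ∞ g)
    (hc : HasCompactSupport (rad (dc := dc) g)) {c : (Cfg dc) → Fin 9 → Fin dc → ℝ} {T : F →L[ℂ] F}
    (hT : ∀ v w, inner ℂ (T v) w = inner ℂ v (T w))
    (hlin : ∀ x y i B, c x i B - c y i B = c (x - y) i B)
    (hrot : ∀ z : (Cfg dc), ∑ i, ∑ B, c z i B * z (i, B) = 0)
    {Ψ : (Cfg dc) → F} (hΨ : LocallyIntegrable Ψ volume)
    (hw : ∀ ζ, Setup.Tst ζ → ∫ x, inner ℂ (Dop c T ζ x) (Ψ x) = 0) (x : (Cfg dc)) :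
    Dop c T (mo (rad g) Ψ) x = 0 := by
  have hρ : ContDiff ℝ ∞ (rad (dc := dc) g) := contDiff_rad hg
  have i1 : ∀ i B, Integrable (fun y => pdr i B (rad g) (x - y) • Ψ y) := fun i B =>
    integrable_mo (esa_pdr_smooth hρ i B).continuous
      (hc.fderiv_apply (𝕜 := ℝ) (EuclideanSpace.single (i, B) (1 : ℝ) : (Cfg dc))) hΨ x
  have i2 : Integrable (fun y => rad g (x - y) • Ψ y) := integrable_mo hρ.continuous hc hΨ x
  have i3 : Integrable (fun y => (-Complex.I) • ∑ i, ∑ B, ((c x i B : ℝ) : ℂ) •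
      pdr i B (rad g) (x - y) • Ψ y + T (rad g (x - y) • Ψ y)) := by
    refine Integrable.add ?_ (T.integrable_comp i2)
    exact (integrable_finsetSum _ fun i _ => integrable_finsetSum _ fun B _ =>
      (i1 i B).smul _).smul (-Complex.I)
  refine ext_inner_left ℂ fun v => ?_
  rw [inner_zero_right, Dop_mo hρ hc c T hΨ x, ← integral_inner i3,
    ← hw (tz (rad g) x v) (Tst_tz hρ hc x v)]
  refine integral_congr_ae (Eventually.of_forall fun y => ?_)
  have hrad : ∀ i B, pdr i B (rad g) (x - y) = 2 * deriv g (‖x - y‖ ^ 2) * (x - y) (i, B) :=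
    fun i B => pdr_rad hg i B (x - y)
  have hkey : ∑ i, ∑ B, c x i B * pdr i B (rad g) (x - y) =
      ∑ i, ∑ B, c y i B * pdr i B (rad g) (x - y) := by
    rw [← sub_eq_zero, ← Finset.sum_sub_distrib]
    have h1 : ∀ i, (∑ B, c x i B * pdr i B (rad g) (x - y)) -
        ∑ B, c y i B * pdr i B (rad g) (x - y) =
        2 * deriv g (‖x - y‖ ^ 2) * ∑ B, c (x - y) i B * (x - y) (i, B) := by
      intro i
      rw [← Finset.sum_sub_distrib, Finset.mul_sum]
      refine Finset.sum_congr rfl fun B _ => ?_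
      rw [← sub_mul, hlin, hrad]
      ring
    simp only [h1, ← Finset.mul_sum, hrot, mul_zero]
  have hkeyC : ∑ i, ∑ B, ((c x i B : ℝ) : ℂ) * ((pdr i B (rad g) (x - y) : ℝ) : ℂ) =
      ∑ i, ∑ B, ((c y i B : ℝ) : ℂ) * ((pdr i B (rad g) (x - y) : ℝ) : ℂ) := by
    exact_mod_cast congrArg (fun r : ℝ => (r : ℂ)) hkey
  have hL : inner ℂ v ((-Complex.I) • ∑ i, ∑ B, ((c x i B : ℝ) : ℂ) •
      pdr i B (rad g) (x - y) • Ψ y + T (rad g (x - y) • Ψ y)) =
      (-Complex.I) * ((∑ i, ∑ B, ((c x i B : ℝ) : ℂ) * ((pdr i B (rad g) (x - y) : ℝ) : ℂ)) *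
        inner ℂ v (Ψ y)) + ((rad g (x - y) : ℝ) : ℂ) * inner ℂ (T v) (Ψ y) := by
    simp only [← Complex.coe_smul (E := F), map_smul, inner_add_right, inner_smul_right, inner_sum,
      ← hT, Finset.sum_mul]
    congr 2
    refine Finset.sum_congr rfl fun i _ => Finset.sum_congr rfl fun B _ => ?_
    ring
  have hR : inner ℂ (Dop c T (tz (rad g) x v) y) (Ψ y) =
      (-Complex.I) * ((∑ i, ∑ B, ((c y i B : ℝ) : ℂ) * ((pdr i B (rad g) (x - y) : ℝ) : ℂ)) *
        inner ℂ v (Ψ y)) + ((rad g (x - y) : ℝ) : ℂ) * inner ℂ (T v) (Ψ y) := by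
    have e1 : ∀ i B, pd i B (tz (rad g) x v) y = -((((pdr i B (rad g) (x - y)) : ℝ) : ℂ) • v) :=
      fun i B => pd_tz hρ x v i B y
    simp only [Dop, e1, tz, map_smul, inner_add_left, inner_smul_left, sum_inner, inner_neg_left,
      Complex.conj_ofReal, map_neg, Complex.conj_I, smul_neg, Finset.sum_mul]
    rw [add_left_inj]
    simp only [neg_neg, neg_mul, Finset.mul_sum]
    refine Finset.sum_congr rfl fun i _ => Finset.sum_congr rfl fun B _ => ?_
    ring
  simp only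
  rw [hL, hR, hkeyC]

/-- radial multipliers commute -/
lemma Dop_rad {h : ℝ → ℝ} (hh : ContDiff ℝ ∞ h) {c : (Cfg dc) → Fin 9 → Fin dc → ℝ} {T : F →L[ℂ] F}
    (hrot : ∀ z : (Cfg dc), ∑ i, ∑ B, c z i B * z (i, B) = 0) {u : (Cfg dc) → F} {x : (Cfg dc)}
    (hu : DifferentiableAt ℝ u x) :
    Dop c T (fun y => ((rad h y : ℝ) : ℂ) • u y) x = ((rad h x : ℝ) : ℂ) • Dop c T u x := by
  have e : ∀ i B, pd i B (fun y => ((rad h y : ℝ) : ℂ) • u y) x =
      ((2 * deriv h (‖x‖ ^ 2) * x (i, B) : ℝ) : ℂ) • u x + ((rad h x : ℝ) : ℂ) • pd i B u x := by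
    intro i B
    rw [pd_rsmul ((contDiff_rad hh).differentiable (by simp) x) hu]
    have := pdr_rad hh i B x
    rw [pdr] at this
    rw [this]
  have h2 : ∑ i, ∑ B, (((c x i B : ℝ) : ℂ) • ((2 * deriv h (‖x‖ ^ 2) * x (i, B) : ℝ) : ℂ) • u x) =
      0 := by
    have h3 : ∑ i, ∑ B, (((c x i B : ℝ) : ℂ) * ((2 * deriv h (‖x‖ ^ 2) * x (i, B) : ℝ) : ℂ)) =
        0 := by
      have h4 : ∑ i, ∑ B, (c x i B * (2 * deriv h (‖x‖ ^ 2) * x (i, B))) = 0 := by
        have h5 : ∀ i, ∑ B, (c x i B * (2 * deriv h (‖x‖ ^ 2) * x (i, B))) =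
            2 * deriv h (‖x‖ ^ 2) * ∑ B, c x i B * x (i, B) := by
          intro i
          rw [Finset.mul_sum]
          exact Finset.sum_congr rfl fun B _ => by ring
        simp only [h5, ← Finset.mul_sum, hrot, mul_zero]
      exact_mod_cast congrArg (fun r : ℝ => (r : ℂ)) h4
    simp only [smul_smul, ← Finset.sum_smul, h3, zero_smul]
  simp only [Dop, e, smul_add, Finset.sum_add_distrib, h2, zero_add, map_smul]
  congr 1
  simp only [Finset.smul_sum, smul_smul]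
  refine Finset.sum_congr rfl fun i _ => Finset.sum_congr rfl fun B _ => ?_
  congr 1
  ring

/-- coefficients of `G_C` -/
noncomputable def gco (S : Setup dc F) (C : Fin dc) (x : (Cfg dc)) (i : Fin 9) (B : Fin dc) : ℝ :=
  ∑ A, (S.f C A B) * x (i, A)

/-- coefficients of `J_{kl}` -/
noncomputable def jco (k l : Fin 9) (x : (Cfg dc)) (i : Fin 9) (B : Fin dc) : ℝ :=
  (if i = l then x (k, B) else 0) - (if i = k then x (l, B) else 0)

lemma G_eq_Dop (S : Setup dc F) (C : Fin dc) (u : (Cfg dc) → F) (x : (Cfg dc)) :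
    S.G C u x = Dop (gco S C) (S.cS C) u x := by
  rw [Setup.G, Dop]
  congr 2
  refine Finset.sum_congr rfl fun i _ => ?_
  rw [Finset.sum_comm]
  refine Finset.sum_congr rfl fun B _ => ?_
  rw [gco, Complex.ofReal_sum, Finset.sum_smul]
  refine Finset.sum_congr rfl fun A _ => ?_
  push_cast
  rfl

lemma J_eq_Dop (S : Setup dc F) (k l : Fin 9) (u : (Cfg dc) → F) (x : (Cfg dc)) :
    S.J k l u x = Dop (jco k l) (S.Skl k l) u x := by
  rw [Setup.J, Dop]
  congr 2
  rw [Finset.sum_comm]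
  refine Finset.sum_congr rfl fun B _ => ?_
  simp only [jco, Complex.ofReal_sub, sub_smul, Finset.sum_sub_distrib]
  congr 1
  · rw [Finset.sum_eq_single l]
    · simp
    · intro i _ hi; simp [hi]
    · intro h; exact absurd (Finset.mem_univ _) h
  · rw [Finset.sum_eq_single k]
    · simp
    · intro i _ hi; simp [hi]
    · intro h; exact absurd (Finset.mem_univ _) h

lemma gco_lin (S : Setup dc F) (C : Fin dc) (x y : (Cfg dc)) (i : Fin 9) (B : Fin dc) :
    gco S C x i B - gco S C y i B = gco S C (x - y) i B := by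
  simp only [gco, ← Finset.sum_sub_distrib, PiLp.sub_apply]
  exact Finset.sum_congr rfl fun A _ => by ring

lemma gco_rot (S : Setup dc F) (C : Fin dc) (z : (Cfg dc)) :
    ∑ i, ∑ B, gco S C z i B * z (i, B) = 0 := by
  refine Finset.sum_eq_zero fun i _ => ?_
  have h : ∑ B, gco S C z i B * z (i, B) = - ∑ B, gco S C z i B * z (i, B) := by
    simp only [gco, Finset.sum_mul]
    conv_lhs => rw [Finset.sum_comm]
    rw [← Finset.sum_neg_distrib]
    refine Finset.sum_congr rfl fun A _ => ?_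
    rw [← Finset.sum_neg_distrib]
    refine Finset.sum_congr rfl fun B _ => ?_
    rw [S.f_swap' C A B]
    ring
  linarith

lemma jco_lin (k l : Fin 9) (x y : (Cfg dc)) (i : Fin 9) (B : Fin dc) :
    jco k l x i B - jco k l y i B = jco k l (x - y) i B := by
  simp only [jco, PiLp.sub_apply]
  split_ifs <;> ring

lemma jco_rot (k l : Fin 9) (z : (Cfg dc)) : ∑ i, ∑ B, jco k l z i B * z (i, B) = 0 := by
  rw [Finset.sum_comm]
  refine Finset.sum_eq_zero fun B _ => ?_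
  simp only [jco, sub_mul, ite_mul, zero_mul, Finset.sum_sub_distrib, Finset.sum_ite_eq',
    Finset.mem_univ, if_true]
  ring

variable {ε : ℝ} (S : Setup dc F)

/-- gauge invariance of the cut off mollification -/
lemma G_mo [CompleteSpace F] {g h : ℝ → ℝ} (hg : ContDiff ℝ ∞ g) (hh : ContDiff ℝ ∞ h)
    (hc : HasCompactSupport (rad (dc := dc) g)) {Ψ : (Cfg dc) → F} (hΨ : LocallyIntegrable Ψ volume)
    (hw : S.wG Ψ) (C : Fin dc) (x : (Cfg dc)) :
    S.G C (fun y => ((rad h y : ℝ) : ℂ) • mo (rad g) Ψ y) x = 0 := by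
  rw [G_eq_Dop, Dop_rad hh (gco_rot S C)
    (((contDiff_mo (contDiff_rad hg) hc hΨ).differentiable (by simp)) x),
    Dop_mo_eq_zero hg hc (S.cS_symm C) (gco_lin S C) (gco_rot S C) hΨ ?_ x, smul_zero]
  intro ζ hζ
  have := hw C ζ hζ
  simpa only [G_eq_Dop] using this

/-- rotation invariance of the cut off mollification -/
lemma J_mo [CompleteSpace F] {g h : ℝ → ℝ} (hg : ContDiff ℝ ∞ g) (hh : ContDiff ℝ ∞ h)
    (hc : HasCompactSupport (rad (dc := dc) g)) {Ψ : (Cfg dc) → F} (hΨ : LocallyIntegrable Ψ volume)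
    {k l : Fin 9} (hw : ∀ ζ, Setup.Tst ζ → ∫ x, inner ℂ (S.J k l ζ x) (Ψ x) = 0) (x : (Cfg dc)) :
    S.J k l (fun y => ((rad h y : ℝ) : ℂ) • mo (rad g) Ψ y) x = 0 := by
  rw [J_eq_Dop, Dop_rad hh (jco_rot k l)
    (((contDiff_mo (contDiff_rad hg) hc hΨ).differentiable (by simp)) x),
    Dop_mo_eq_zero hg hc (S.Skl_symm k l) (jco_lin k l) (jco_rot k l) hΨ ?_ x, smul_zero]
  intro ζ hζ
  have := hw ζ hζ
  simpa only [J_eq_Dop] using this

end Vale.Agent.P353.Z.Moll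
end

section

/-! # P353, uniqueness: weak = strong for invariant zero modes (helper349) -/

open MeasureTheory Filter Topology
open scoped ContDiff

namespace Vale.Agent.P353.Z.U

variable {dc : ℕ}

variable {F : Type*} [NormedAddCommGroup F] [InnerProductSpace ℂ F]

namespace WS

open Vale.Agent.P353.Z.Moll Vale.Agent.P353.Z.U.HB

lemma integral_inner_left [CompleteSpace F] {f : (Cfg dc) → F} (hf : Integrable f volume) (c : F) :
    ∫ x, inner ℂ (f x) c = inner ℂ (∫ x, f x) c := by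
  rw [← inner_conj_symm, ← integral_inner hf c, ← integral_conj]
  simp only [inner_conj_symm]

/-- mollification is symmetric (on test functions) -/
lemma mo_symm_tst [CompleteSpace F] {ρ : (Cfg dc) → ℝ} (hρ : Continuous ρ) (hc : HasCompactSupport ρ)
    (he : ∀ x, ρ (-x) = ρ x) {a b : (Cfg dc) → F} (ha : Setup.Tst a) (hb : Setup.Tst b) :
    ∫ x, inner ℂ (a x) (mo ρ b x) = ∫ x, inner ℂ (mo ρ a x) (b x) := by
  have hLa : LocallyIntegrable a volume := ha.1.continuous.locallyIntegrable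
  have hLb : LocallyIntegrable b volume := hb.1.continuous.locallyIntegrable
  have h1 : ∀ x, inner ℂ (a x) (mo ρ b x) = ∫ t, inner ℂ (a x) (ρ (x - t) • b t) := by
    intro x
    rw [mo, ← integral_inner (integrable_mo hρ hc hLb x)]
  have h2 : ∀ t, inner ℂ (mo ρ a t) (b t) = ∫ x, inner ℂ (a x) (ρ (x - t) • b t) := by
    intro t
    rw [mo, ← integral_inner_left (integrable_mo hρ hc hLa t)]
    refine integral_congr_ae (Eventually.of_forall fun x => ?_)
    have h3 : ρ (t - x) = ρ (x - t) := by rw [← he (x - t), neg_sub]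
    simp only [h3]
    rw [← Complex.coe_smul, ← Complex.coe_smul, inner_smul_left, inner_smul_right,
      Complex.conj_ofReal]
  simp only [h1, h2]
  refine integral_integral_swap_of_hasCompactSupport
    (f := fun x t => (inner ℂ (a x) (ρ (x - t) • b t) : ℂ)) ?_ ?_
  · have h4 : Continuous fun p : (Cfg dc) × (Cfg dc) => (inner ℂ (a p.1) (ρ (p.1 - p.2) • b p.2) : ℂ) := by
      refine Continuous.inner (ha.1.continuous.comp continuous_fst) ?_
      exact (hρ.comp (continuous_fst.sub continuous_snd)).smul (hb.1.continuous.comp continuous_snd)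
    exact h4
  · refine HasCompactSupport.intro (K := tsupport a ×ˢ tsupport b)
      (ha.2.isCompact.prod hb.2.isCompact) ?_
    rintro ⟨x, t⟩ hx
    simp only [Function.uncurry_apply_pair]
    rw [Set.mem_prod, not_and_or] at hx
    rcases hx with h | h
    · rw [image_eq_zero_of_notMem_tsupport h, inner_zero_left]
    · rw [image_eq_zero_of_notMem_tsupport (f := b) h, smul_zero, inner_zero_right]

lemma mo_Tst {ρ : (Cfg dc) → ℝ} (hρ : ContDiff ℝ ∞ ρ) (hc : HasCompactSupport ρ) {u : (Cfg dc) → F}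
    (hu : Setup.Tst u) : Setup.Tst (mo ρ u) := by
  refine ⟨contDiff_mo hρ hc hu.1.continuous.locallyIntegrable, ?_⟩
  rw [mo_eq_conv']
  exact hc.convolution _ hu.2

/-- limits of mollified test functions -/
lemma L2t_mo {ε : ℝ} {ρ : (Cfg dc) → ℝ} (h : IsMol ε ρ) {w : ℕ → (Cfg dc) → F} {Ψ : (Cfg dc) → F}
    (hw : L2t w Ψ) : L2t (fun n => mo ρ (w n)) (mo ρ Ψ) := by
  refine ⟨fun n => (nsq_mo_le h (hw.mem n)).1, (nsq_mo_le h hw.mem').1, ?_⟩
  have h1 : ∀ n, nsq (fun x => mo ρ (w n) x - mo ρ Ψ x) ≤ nsq (fun x => w n x - Ψ x) := by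
    intro n
    have h2 : (fun x => mo ρ (w n) x - mo ρ Ψ x) = mo ρ (fun x => w n x - Ψ x) := by
      funext x
      rw [mo_sub h.contDiff.continuous h.hcs (locInt (hw.mem n)) (locInt hw.mem')]
    rw [h2]
    exact (nsq_mo_le h ((hw.mem n).sub hw.mem')).2
  exact squeeze_zero (fun n => nsq_nonneg _) h1 hw.lim

omit [InnerProductSpace ℂ F] in
lemma L2t_const {a : (Cfg dc) → F} (ha : MemLp a 2 (volume : Measure (Cfg dc))) : L2t (fun _ => a) a :=
  ⟨fun _ => ha, ha, by simp [nsq]⟩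

/-- mollification is symmetric -/
lemma mo_symm [CompleteSpace F] {ε : ℝ} {ρ : (Cfg dc) → ℝ} (h : IsMol ε ρ)
    (he : ∀ x, ρ (-x) = ρ x) {a Ψ : (Cfg dc) → F} (ha : Setup.Tst a) {w : ℕ → (Cfg dc) → F}
    (hw : ∀ n, Setup.Tst (w n)) (hl : L2t w Ψ) :
    ∫ x, inner ℂ (a x) (mo ρ Ψ x) = ∫ x, inner ℂ (mo ρ a x) (Ψ x) := by
  have h1 := (L2t_const ha.memLp).lim_inner (L2t_mo h hl)
  have h2 := (L2t_const (nsq_mo_le h ha.memLp).1).lim_inner hl
  refine tendsto_nhds_unique h1 (h2.congr fun n => ?_)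
  exact (mo_symm_tst h.contDiff.continuous h.hcs he ha (hw n)).symm

lemma pd_mo {ρ : (Cfg dc) → ℝ} (hρ : ContDiff ℝ ∞ ρ) {u : (Cfg dc) → F} (hu : Setup.Tst u)
    (i : Fin 9) (A : Fin dc) (x : (Cfg dc)) : pd i A (mo ρ u) x = mo ρ (pd i A u) x := by
  have h1 := hu.2.hasFDerivAt_convolution_right
    (ContinuousLinearMap.lsmul ℝ ℝ : ℝ →L[ℝ] F →L[ℝ] F)
    (hρ.continuous.locallyIntegrable (μ := volume)) (hu.1.of_le (by simp)) x
  rw [← mo_eq_conv'] at h1
  have h2 := h1.fderiv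
  unfold pd
  rw [h2, convolution_precompR_apply _ hρ.continuous.locallyIntegrable (hu.2.fderiv ℝ)
    (hu.1.continuous_fderiv (by simp)), mo_eq_conv']

variable (S : Setup dc F)

lemma G_rad {h : ℝ → ℝ} (hh : ContDiff ℝ ∞ h) (C : Fin dc) (u : (Cfg dc) → F) (x : (Cfg dc))
    (hu : DifferentiableAt ℝ u x) :
    S.G C (fun y => ((rad h y : ℝ) : ℂ) • u y) x = ((rad h x : ℝ) : ℂ) • S.G C u x := by
  rw [G_eq_Dop, Dop_rad hh (gco_rot S C) hu, ← G_eq_Dop]

lemma J_rad {h : ℝ → ℝ} (hh : ContDiff ℝ ∞ h) (k l : Fin 9) (u : (Cfg dc) → F) (x : (Cfg dc))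
    (hu : DifferentiableAt ℝ u x) :
    S.J k l (fun y => ((rad h y : ℝ) : ℂ) • u y) x = ((rad h x : ℝ) : ℂ) • S.J k l u x := by
  rw [J_eq_Dop, Dop_rad hh (jco_rot k l) hu, ← J_eq_Dop]

lemma G_mo_zero [CompleteSpace F] {g : ℝ → ℝ} {Ψ : (Cfg dc) → F}
    (hΨ : MemLp Ψ 2 (volume : Measure (Cfg dc))) (hw : S.wG Ψ) (hg : ContDiff ℝ ∞ g)
    (hc : HasCompactSupport (rad (dc := dc) g)) (C : Fin dc) (x : (Cfg dc)) :
    S.G C (mo (rad g) Ψ) x = 0 := by
  rw [G_eq_Dop, Dop_mo_eq_zero hg hc (S.cS_symm C) (gco_lin S C) (gco_rot S C) (locInt hΨ) ?_ x]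
  intro ζ hζ
  have := hw C ζ hζ
  simpa only [G_eq_Dop] using this

lemma J_mo_zero [CompleteSpace F] {g : ℝ → ℝ} {Ψ : (Cfg dc) → F}
    (hΨ : MemLp Ψ 2 (volume : Measure (Cfg dc))) (hw : S.wJ Ψ) (hg : ContDiff ℝ ∞ g)
    (hc : HasCompactSupport (rad (dc := dc) g)) {k l : Fin 9} (hkl : Same k l) (x : (Cfg dc)) :
    S.J k l (mo (rad g) Ψ) x = 0 := by
  rw [J_eq_Dop, Dop_mo_eq_zero hg hc (S.Skl_symm k l) (jco_lin k l) (jco_rot k l) (locInt hΨ) ?_ x]
  intro ζ hζ
  have := hw k l hkl ζ hζ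
  simpa only [J_eq_Dop] using this

lemma contDiff_Fx : ContDiff ℝ ∞ S.Fx := by
  unfold Setup.Fx
  refine ContDiff.const_smul _ (ContDiff.sum fun q _ => ContDiff.sum fun A _ =>
    ContDiff.sum fun B _ => ContDiff.sum fun C _ => ?_)
  exact (contDiff_const.mul (Setup.contDiff_ofReal (Setup.contDiff_coord _))).smul contDiff_const

lemma contDiff_esaW (m : ℝ) : ContDiff ℝ ∞ (S.esaW m) := by
  unfold Setup.esaW
  refine ContDiff.sub (ContDiff.add ?_ ((contDiff_Fx S).const_smul (16 : ℂ))) contDiff_const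
  exact (Setup.contDiff_ofReal (contDiff_const.add
    (contDiff_const.mul (S.esa_contDiff_Vm m)))).smul contDiff_const

/-- Laplacian -/
noncomputable def lap (u : (Cfg dc) → F) (x : (Cfg dc)) : F := ∑ i, ∑ A, pd i A (pd i A u) x

lemma Tst_lap {u : (Cfg dc) → F} (hu : Setup.Tst u) : Setup.Tst (lap u) :=
  Tst_sum _ fun i _ => Tst_sum _ fun A _ => (hu.pd i A).pd i A

lemma mo_add {ρ : (Cfg dc) → ℝ} (hρ : Continuous ρ) (hc : HasCompactSupport ρ) {f g : (Cfg dc) → F}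
    (hf : LocallyIntegrable f volume) (hg : LocallyIntegrable g volume) (x : (Cfg dc)) :
    mo ρ (fun y => f y + g y) x = mo ρ f x + mo ρ g x := by
  unfold mo
  rw [← integral_add (integrable_mo hρ hc hf x) (integrable_mo hρ hc hg x)]
  simp only [smul_add]

lemma mo_csmul {ρ : (Cfg dc) → ℝ} (c : ℂ) {f : (Cfg dc) → F} (x : (Cfg dc)) :
    mo ρ (fun y => c • f y) x = c • mo ρ f x := by
  unfold mo
  rw [← integral_smul]
  refine integral_congr_ae (Eventually.of_forall fun y => ?_)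
  simp only [smul_comm c]

lemma mo_sum {ι : Type*} (s : Finset ι) {ρ : (Cfg dc) → ℝ} (hρ : Continuous ρ)
    (hc : HasCompactSupport ρ) {f : ι → (Cfg dc) → F} (hf : ∀ i, Setup.Tst (f i)) (x : (Cfg dc)) :
    mo ρ (fun y => ∑ i ∈ s, f i y) x = ∑ i ∈ s, mo ρ (f i) x := by
  unfold mo
  simp only [Finset.smul_sum]
  exact integral_finsetSum _ fun i _ => integrable_mo hρ hc (hf i).1.continuous.locallyIntegrable x

lemma lap_mo {ρ : (Cfg dc) → ℝ} (hρ : ContDiff ℝ ∞ ρ) (hc : HasCompactSupport ρ) {u : (Cfg dc) → F}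
    (hu : Setup.Tst u) (x : (Cfg dc)) : lap (mo ρ u) x = mo ρ (lap u) x := by
  unfold lap
  rw [mo_sum _ hρ.continuous hc fun i => Tst_sum _ fun A _ => (hu.pd i A).pd i A]
  refine Finset.sum_congr rfl fun i _ => ?_
  rw [mo_sum _ hρ.continuous hc fun A => (hu.pd i A).pd i A]
  refine Finset.sum_congr rfl fun A _ => ?_
  rw [← pd_mo hρ (hu.pd i A)]
  congr 1
  funext y
  exact pd_mo hρ hu i A y

lemma HH_eq (h7 : A7Stmt S) (m : ℝ) {u : (Cfg dc) → F} (hu : ContDiff ℝ ∞ u) (x : (Cfg dc)) :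
    HH S m u x = S.esaW m x (u x) - (8 : ℂ) • lap u x - u x := by
  rw [lap, ← S.esa_L_eq h7 m hu x]
  unfold HH
  abel

/-- the commutator of the Hamiltonian with a mollifier -/
lemma HH_mo [CompleteSpace F] (h7 : A7Stmt S) (m : ℝ) {ρ : (Cfg dc) → ℝ} (hρ : ContDiff ℝ ∞ ρ)
    (hc : HasCompactSupport ρ) {u : (Cfg dc) → F} (hu : Setup.Tst u) (x : (Cfg dc)) :
    HH S m (mo ρ u) x = mo ρ (HH S m u) x +
      ∫ t, ρ (x - t) • (S.esaW m x - S.esaW m t) (u t) := by
  have hLu : LocallyIntegrable u volume := hu.1.continuous.locallyIntegrable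
  have hW : Setup.Tst (fun t => S.esaW m t (u t)) := Setup.Tst.clm (contDiff_esaW S m) hu
  have hLW := hW.1.continuous.locallyIntegrable (μ := (volume : Measure (Cfg dc)))
  have hLl := (Tst_lap hu).1.continuous.locallyIntegrable (μ := (volume : Measure (Cfg dc)))
  have hl8 : LocallyIntegrable (fun t => (8 : ℂ) • lap u t) volume :=
    (Tst_csmul (8 : ℂ) (Tst_lap hu)).1.continuous.locallyIntegrable
  have h1 : mo ρ (HH S m u) x =
      mo ρ (fun t => S.esaW m t (u t)) x - (8 : ℂ) • mo ρ (lap u) x - mo ρ u x := by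
    have e : HH S m u = fun t => (S.esaW m t (u t) - (8 : ℂ) • lap u t) - u t :=
      funext fun t => HH_eq S h7 m hu.1 t
    have hd : LocallyIntegrable (fun t => S.esaW m t (u t) - (8 : ℂ) • lap u t) volume :=
      hLW.sub hl8
    rw [e, mo_sub hρ.continuous hc hd hLu, mo_sub hρ.continuous hc hLW hl8, mo_csmul]
  have h2 : ∫ t, ρ (x - t) • (S.esaW m x - S.esaW m t) (u t) =
      S.esaW m x (mo ρ u x) - mo ρ (fun t => S.esaW m t (u t)) x := by
    have h3 : S.esaW m x (mo ρ u x) = ∫ t, ρ (x - t) • S.esaW m x (u t) := by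
      unfold mo
      have h4 : ∫ t, (S.esaW m x) (ρ (x - t) • u t) = S.esaW m x (∫ t, ρ (x - t) • u t) :=
        (S.esaW m x).integral_comp_comm (integrable_mo hρ.continuous hc hLu x)
      rw [← h4]
      refine integral_congr_ae (Eventually.of_forall fun t => ?_)
      simp only
      rw [← Complex.coe_smul, ← Complex.coe_smul, (S.esaW m x).map_smul]
    rw [h3]
    unfold mo
    have hi : Integrable (fun t => ρ (x - t) • S.esaW m x (u t)) := by
      have hT : Setup.Tst (fun t => S.esaW m x (u t)) := Setup.Tst.clm contDiff_const hu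
      exact integrable_mo hρ.continuous hc hT.1.continuous.locallyIntegrable x
    rw [← integral_sub hi (integrable_mo hρ.continuous hc hLW x)]
    refine integral_congr_ae (Eventually.of_forall fun t => ?_)
    simp only [_root_.sub_apply, smul_sub]
  rw [h1, h2, HH_eq S h7 m (contDiff_mo hρ hc hLu), lap_mo hρ hc hu]
  abel

lemma D_norm {χ : (Cfg dc) → ℝ} {κ : ℝ} (hκ : ∀ j B x, |pdr j B χ x| ≤ κ) (β : Fin 16)
    (x : (Cfg dc)) : ‖S.esaD χ β x‖ ≤ κ * S.esaC β := by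
  unfold Setup.esaD Setup.esaC
  rw [norm_smul, Complex.norm_I, one_mul]
  refine (norm_sum_le _ _).trans ?_
  rw [Finset.mul_sum]
  refine Finset.sum_le_sum fun i _ => ?_
  refine (norm_sum_le _ _).trans ?_
  rw [Finset.mul_sum]
  refine Finset.sum_le_sum fun A _ => ?_
  rw [norm_smul, Complex.norm_real, Real.norm_eq_abs]
  exact mul_le_mul_of_nonneg_right (hκ i A x) (norm_nonneg _)

lemma HH_symm (m : ℝ) {u v : (Cfg dc) → F} (hu : Setup.Tst u) (hv : ContDiff ℝ ∞ v) :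
    ∫ x, inner ℂ (HH S m u x) (v x) = ∫ x, inner ℂ (u x) (HH S m v x) := by
  simp only [HH, sum_inner, inner_sum]
  rw [integral_finsetSum _ fun β _ => (Tst_Qm S m β (Tst_Qm S m β hu)).inner_int hv.continuous,
    integral_finsetSum _ fun β _ =>
      hu.inner_int (contDiff_Qm S m β (contDiff_Qm S m β hv)).continuous]
  refine Finset.sum_congr rfl fun β _ => ?_
  rw [HB.Qm_symm S m β (Tst_Qm S m β hu) hv, HB.Qm_symm S m β hu (contDiff_Qm S m β hv)]

/-- localisation identity -/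
lemma loc_energy (m : ℝ) {χ : (Cfg dc) → ℝ} (hχ : ContDiff ℝ ∞ χ) (hχc : HasCompactSupport χ)
    {v : (Cfg dc) → F} (hv : ContDiff ℝ ∞ v) :
    ∑ β, nsq (S.Qm m β (fun x => ((χ x : ℝ) : ℂ) • v x)) =
      (∫ x, inner ℂ (((χ x : ℝ) : ℂ) • ((χ x : ℝ) : ℂ) • v x) (HH S m v x)).re +
        ∑ β, ∫ x, ‖S.esaD χ β x (v x)‖ ^ 2 := by
  set u1 : (Cfg dc) → F := fun x => ((χ x : ℝ) : ℂ) • v x with hu1
  set u2 : (Cfg dc) → F := fun x => ((χ x : ℝ) : ℂ) • u1 x with hu2
  have hT1 : Setup.Tst u1 := by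
    refine ⟨(Setup.contDiff_ofReal hχ).smul hv, hχc.mono ?_⟩
    intro x hx
    simp only [Function.mem_support] at hx ⊢
    intro h0
    exact hx (by simp [hu1, h0])
  have hT2 : Setup.Tst u2 := hT1.rsmul hχ
  have hχd : ∀ x, DifferentiableAt ℝ χ x := fun x => hχ.differentiable (by simp) x
  have hvd : ∀ x, DifferentiableAt ℝ v x := fun x => hv.differentiable (by simp) x
  have q1 : ∀ β x, S.Qm m β u1 x = ((χ x : ℝ) : ℂ) • S.Qm m β v x - S.esaD χ β x (v x) :=
    fun β x => S.esa_Qm_smul m β χ v x (hχd x) (hvd x)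
  have q2 : ∀ β x, S.Qm m β u2 x = ((χ x : ℝ) : ℂ) • S.Qm m β u1 x -
      ((χ x : ℝ) : ℂ) • S.esaD χ β x (v x) := fun β x => by
    rw [hu2, S.esa_Qm_smul m β χ u1 x (hχd x) (hT1.diff x), hu1]
    simp only [map_smul]
  have hpt : ∀ β x, ‖S.Qm m β u1 x‖ ^ 2 =
      (inner ℂ (S.Qm m β u2 x) (S.Qm m β v x)).re + ‖S.esaD χ β x (v x)‖ ^ 2 := by
    intro β x
    rw [q2, q1]
    set a := S.Qm m β v x
    set b := S.esaD χ β x (v x)
    have e1 : ‖((χ x : ℝ) : ℂ) • a - b‖ ^ 2 = (χ x) ^ 2 * ‖a‖ ^ 2 -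
        2 * (χ x * (inner ℂ b a : ℂ).re) + ‖b‖ ^ 2 := by
      rw [← re_inner_self, inner_sub_left, inner_sub_right, inner_sub_right, inner_smul_left,
        inner_smul_right, inner_smul_left, inner_smul_right, Complex.conj_ofReal]
      have h1 : (inner ℂ a b : ℂ).re = (inner ℂ b a : ℂ).re := by
        rw [← inner_conj_symm, Complex.conj_re]
      simp only [Complex.sub_re, Complex.re_ofReal_mul, re_inner_self, h1]
      ring
    rw [e1, inner_sub_left, inner_smul_left, inner_smul_left, inner_sub_left, inner_smul_left,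
      Complex.conj_ofReal]
    simp only [Complex.sub_re, Complex.re_ofReal_mul, re_inner_self]
    ring
  have hDc : ∀ β, Continuous (fun x => S.esaD χ β x (v x)) := fun β =>
    (Setup.contDiff_clm_apply' (S.esa_contDiff_D hχ β) hv).continuous
  have hDs : ∀ β, HasCompactSupport (fun x => S.esaD χ β x (v x)) := by
    intro β
    refine HasCompactSupport.intro' (K := tsupport χ) hχc (isClosed_tsupport χ) ?_
    intro x hx
    have h0 : ∀ i A, pdr i A χ x = 0 := by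
      intro i A
      have : fderiv ℝ χ x = 0 := by
        by_contra hne
        exact hx ((tsupport_fderiv_subset ℝ (f := χ)) (subset_tsupport _ hne))
      simp [pdr, this]
    simp [Setup.esaD, h0]
  have hDi : ∀ β, Integrable (fun x => ‖S.esaD χ β x (v x)‖ ^ 2) := fun β =>
    memLp_norm_sq_int ((hDc β).memLp_of_hasCompactSupport (hDs β))
  have hQi : ∀ β, Integrable (fun x => inner ℂ (S.Qm m β u2 x) (S.Qm m β v x)) := fun β =>
    (Tst_Qm S m β hT2).inner_int (contDiff_Qm S m β hv).continuous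
  have hmain : ∀ β, nsq (S.Qm m β u1) = (∫ x, inner ℂ (u2 x) (S.Qm m β (S.Qm m β v) x)).re +
      ∫ x, ‖S.esaD χ β x (v x)‖ ^ 2 := by
    intro β
    rw [← HB.Qm_symm S m β hT2 (contDiff_Qm S m β hv), nsq]
    simp only [hpt β]
    have hre : Integrable (fun x => (inner ℂ (S.Qm m β u2 x) (S.Qm m β v x)).re) := (hQi β).re
    rw [integral_add hre (hDi β)]
    congr 1
    exact integral_re (hQi β)
  have hQQ : ∀ β, Integrable (fun x => inner ℂ (u2 x) (S.Qm m β (S.Qm m β v) x)) := fun β =>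
    hT2.inner_int (contDiff_Qm S m β (contDiff_Qm S m β hv)).continuous
  have hsum : ∫ x, inner ℂ (u2 x) (HH S m v x) =
      ∑ β, ∫ x, inner ℂ (u2 x) (S.Qm m β (S.Qm m β v) x) := by
    rw [← integral_finsetSum _ fun β _ => hQQ β]
    refine integral_congr_ae (Filter.Eventually.of_forall fun x => ?_)
    simp only [HH, inner_sum]
  change ∑ β, nsq (S.Qm m β u1) = (∫ x, inner ℂ (u2 x) (HH S m v x)).re + _
  rw [hsum, Complex.re_sum, ← Finset.sum_add_distrib]
  exact Finset.sum_congr rfl fun β _ => hmain β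

/-- the error term of the mollified equation -/
lemma err_bound [CompleteSpace F] (h7 : A7Stmt S) (m : ℝ) {Ψ : (Cfg dc) → F} {w : ℕ → (Cfg dc) → F}
    (hw : ∀ n, Setup.Tst (w n)) (hl : L2t w Ψ)
    (h0 : ∀ φ, S.Inv φ → ∫ x, inner ℂ (HH S m φ x) (Ψ x) = 0)
    {ε η : ℝ} (hη : 0 ≤ η) {ρ : (Cfg dc) → ℝ} (h : IsMol ε ρ) (he : ∀ x, ρ (-x) = ρ x)
    {u : (Cfg dc) → F} (hu : Setup.Tst u) (hui : S.Inv (mo ρ u))
    (hb : ∀ x t, ρ (x - t) ≠ 0 → u t ≠ 0 → ‖S.esaW m x - S.esaW m t‖ ≤ η) :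
    ‖∫ x, inner ℂ (u x) (HH S m (mo ρ Ψ) x)‖ ≤ η * (Real.sqrt (nsq u) * Real.sqrt (nsq Ψ)) := by
  set E : (Cfg dc) → F := fun x => ∫ t, ρ (x - t) • (S.esaW m x - S.esaW m t) (u t) with hE
  have hmoT : Setup.Tst (mo ρ u) := mo_Tst h.contDiff h.hcs hu
  have hHT : Setup.Tst (HH S m u) := Tst_HH S m hu
  have hEe : E = fun x => HH S m (mo ρ u) x - mo ρ (HH S m u) x := by
    funext x
    rw [HH_mo S h7 m h.contDiff h.hcs hu x]
    simp only [hE]
    abel
  have hET : Setup.Tst E := by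
    rw [hEe]
    exact (Tst_HH S m hmoT).sub (mo_Tst h.contDiff h.hcs hHT)
  have hEb : ∀ x, ‖E x‖ ≤ η * mo ρ (fun t => ‖u t‖) x := by
    intro x
    have hi : Integrable (fun t => ρ (x - t) • ‖u t‖) :=
      integrable_mo h.contDiff.continuous h.hcs (hu.1.continuous.norm.locallyIntegrable) x
    have e : η * mo ρ (fun t => ‖u t‖) x = ∫ t, η * (ρ (x - t) • ‖u t‖) := by
      rw [integral_const_mul]; rfl
    rw [e]
    refine norm_integral_le_of_norm_le (hi.const_mul _) (Eventually.of_forall fun t => ?_)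
    rw [norm_smul, Real.norm_of_nonneg (h.nonneg _), smul_eq_mul]
    by_cases h1 : ρ (x - t) = 0
    · rw [h1]; simp
    · by_cases h2 : u t = 0
      · rw [h2]; simp
      · calc ρ (x - t) * ‖(S.esaW m x - S.esaW m t) (u t)‖ ≤ ρ (x - t) * (η * ‖u t‖) := by
              refine mul_le_mul_of_nonneg_left ?_ (h.nonneg _)
              exact ((S.esaW m x - S.esaW m t).le_opNorm _).trans
                (mul_le_mul_of_nonneg_right (hb x t h1 h2) (norm_nonneg _))
          _ = _ := by ring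
  have hEn := (nsq_le_mo h hu.memLp hET.1.continuous.aestronglyMeasurable hEb).2
  have h1 : ∫ x, inner ℂ (u x) (HH S m (mo ρ Ψ) x) = - ∫ x, inner ℂ (E x) (Ψ x) := by
    have hsm : ContDiff ℝ ∞ (mo ρ Ψ) := contDiff_mo h.contDiff h.hcs (locInt hl.mem')
    rw [← HH_symm S m hu hsm, mo_symm h he hHT hw hl]
    have h2 : ∫ x, inner ℂ (E x) (Ψ x) = (∫ x, inner ℂ (HH S m (mo ρ u) x) (Ψ x)) -
        ∫ x, inner ℂ (mo ρ (HH S m u) x) (Ψ x) := by
      rw [← integral_sub (integrable_inner_memLp (Tst_HH S m hmoT).memLp hl.mem')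
        (integrable_inner_memLp (mo_Tst h.contDiff h.hcs hHT).memLp hl.mem')]
      refine integral_congr_ae (Eventually.of_forall fun x => ?_)
      simp only [hEe, inner_sub_left]
    rw [h2, h0 _ hui]
    ring
  rw [h1, norm_neg]
  refine (cs_inner hET.memLp hl.mem').trans ?_
  rw [← mul_assoc]
  refine mul_le_mul_of_nonneg_right ?_ (Real.sqrt_nonneg _)
  calc Real.sqrt (∫ x, ‖E x‖ ^ 2) ≤ Real.sqrt (η ^ 2 * nsq u) := Real.sqrt_le_sqrt hEn
    _ = η * Real.sqrt (nsq u) := by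
        rw [Real.sqrt_mul (sq_nonneg _), Real.sqrt_sq hη]

omit [InnerProductSpace ℂ F] in
/-- cutoffs converge -/
lemma cut_tendsto {Ψ : (Cfg dc) → F} (hΨ : MemLp Ψ 2 (volume : Measure (Cfg dc))) {K : ℝ}
    {h : ℕ → ℝ → ℝ} (hh : ∀ n : ℕ, IsRC K ((n : ℝ) + 1) (h n)) [NormedSpace ℂ F] :
    Tendsto (fun n => nsq (fun x => ((rad (h n) x : ℝ) : ℂ) • Ψ x - Ψ x)) atTop (𝓝 0) := by
  have h1 : ∀ n x, ‖((rad (h n) x : ℝ) : ℂ) • Ψ x - Ψ x‖ ^ 2 ≤ ‖Ψ x‖ ^ 2 := by
    intro n x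
    have e : ((rad (h n) x : ℝ) : ℂ) • Ψ x - Ψ x = ((rad (h n) x - 1 : ℝ) : ℂ) • Ψ x := by
      push_cast
      rw [sub_smul, one_smul]
    rw [e, norm_smul, Complex.norm_real, mul_pow, Real.norm_eq_abs, sq_abs]
    have h2 : (rad (h n) x - 1) ^ 2 ≤ 1 := by
      have h3 := (hh n).nonneg x
      have h4 := (hh n).le_one x
      nlinarith
    calc (rad (h n) x - 1) ^ 2 * ‖Ψ x‖ ^ 2 ≤ 1 * ‖Ψ x‖ ^ 2 := by gcongr
      _ = _ := one_mul _
  have h2 : ∀ x, Tendsto (fun n => ‖((rad (h n) x : ℝ) : ℂ) • Ψ x - Ψ x‖ ^ 2) atTop (𝓝 0) := by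
    intro x
    refine tendsto_const_nhds.congr' ?_
    filter_upwards [Filter.eventually_ge_atTop ⌈2 * ‖x‖⌉₊] with n hn
    have hx : ‖x‖ ≤ ((n : ℝ) + 1) / 2 := by
      have := Nat.ceil_le.mp hn
      linarith
    rw [(hh n).one x hx]
    simp
  have h3 := tendsto_integral_of_dominated_convergence (μ := (volume : Measure (Cfg dc)))
    (F := fun n x => ‖((rad (h n) x : ℝ) : ℂ) • Ψ x - Ψ x‖ ^ 2) (f := fun _ => (0 : ℝ))
    (fun x => ‖Ψ x‖ ^ 2) ?_ (memLp_norm_sq_int hΨ) ?_ (Eventually.of_forall h2)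
  · simpa [nsq] using h3
  · intro n
    refine ((AEStronglyMeasurable.sub ?_ hΨ.1).norm).pow 2
    exact (Complex.continuous_ofReal.comp (contDiff_rad (hh n).contDiff).continuous
      ).aestronglyMeasurable.smul hΨ.1
  · intro n
    refine Eventually.of_forall fun x => ?_
    rw [Real.norm_of_nonneg (by positivity)]
    exact h1 n x

lemma wG_of_lim {Ψ : (Cfg dc) → F} {w : ℕ → (Cfg dc) → F} (hw : ∀ n, S.Inv (w n)) (hl : L2t w Ψ) :
    S.wG Ψ := by
  intro C ζ hζ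
  have h1 := (L2t_const (hζ.G S C).memLp).lim_inner hl
  refine tendsto_nhds_unique h1 (tendsto_const_nhds.congr fun n => ?_)
  rw [G_symm S C ζ (w n) hζ (hw n).1.1]
  simp [(hw n).2.1]

lemma wJ_of_lim {Ψ : (Cfg dc) → F} {w : ℕ → (Cfg dc) → F} (hw : ∀ n, S.Inv (w n)) (hl : L2t w Ψ) :
    S.wJ Ψ := by
  intro k l hkl ζ hζ
  have h1 := (L2t_const (hζ.J S k l).memLp).lim_inner hl
  refine tendsto_nhds_unique h1 (tendsto_const_nhds.congr fun n => ?_)
  rw [J_symm S k l ζ (w n) hζ (hw n).1.1]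
  simp [(hw n).2.2 k l hkl]

lemma Inv_rad {f : ℝ → ℝ} (hf : ContDiff ℝ ∞ f) (hc : HasCompactSupport (rad (dc := dc) f)) {u : (Cfg dc) → F}
    (hu : ContDiff ℝ ∞ u) (hG : ∀ C x, S.G C u x = 0)
    (hJ : ∀ k l, Same k l → ∀ x, S.J k l u x = 0) :
    S.Inv (fun y => ((rad f y : ℝ) : ℂ) • u y) := by
  have hd : ∀ x, DifferentiableAt ℝ u x := fun x => (hu.differentiable (by simp)) x
  refine ⟨⟨(Setup.contDiff_ofReal (contDiff_rad hf)).smul hu, hc.mono ?_⟩, fun C x => ?_,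
    fun k l h x => ?_⟩
  · intro x hx
    simp only [Function.mem_support] at hx ⊢
    intro h0
    exact hx (by simp [h0])
  · rw [G_rad S hf C u x (hd x), hG, smul_zero]
  · rw [J_rad S hf k l u x (hd x), hJ k l h, smul_zero]

lemma Inv_mo [CompleteSpace F] {g : ℝ → ℝ} (hg : ContDiff ℝ ∞ g) (hc : HasCompactSupport (rad (dc := dc) g))
    {u : (Cfg dc) → F} (hu : S.Inv u) : S.Inv (mo (rad g) u) := by
  have hl : L2t (fun _ : ℕ => u) u := L2t_const hu.1.memLp
  exact ⟨mo_Tst (contDiff_rad hg) hc hu.1,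
    fun C x => G_mo_zero S hu.1.memLp (wG_of_lim S (fun _ => hu) hl) hg hc C x,
    fun k l h x => J_mo_zero S hu.1.memLp (wJ_of_lim S (fun _ => hu) hl) hg hc h x⟩

end WS

open WS Vale.Agent.P353.Z.Moll Vale.Agent.P353.Z.U.HB in
/-- **weak = strong** -/
theorem ws [CompleteSpace F] (S : Setup dc F) (h7 : A7Stmt S) : WSStmt S := by
  rintro m Ψ ⟨w, hw, hl⟩ h0
  have hΨ : MemLp Ψ 2 (volume : Measure (Cfg dc)) := hl.mem'
  have hwT : ∀ n, Setup.Tst (w n) := fun n => (hw n).1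
  have hwG := wG_of_lim S hw hl
  have hwJ := wJ_of_lim S hw hl
  set N : ℝ := nsq Ψ with hN
  have hN0 : 0 ≤ N := nsq_nonneg _
  set C1 : ℝ := ∑ β, S.esaC β ^ 2 with hC1
  have hC10 : 0 ≤ C1 := Finset.sum_nonneg fun β _ => sq_nonneg _
  obtain ⟨K, hK, hcut⟩ := exists_rc
  have hcut' : ∀ n : ℕ, ∃ h : ℝ → ℝ, IsRC K ((n : ℝ) + 1) h := fun n => hcut _ (by positivity)
  choose h hh using hcut'
  have key : ∀ η : ℝ, 0 < η → ∃ u, S.Inv u ∧ nsq (fun x => u x - Ψ x) ≤ η ∧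
      ∑ β, nsq (S.Qm m β u) ≤ η := by
    intro η hη
    have h1 : Tendsto (fun n : ℕ => (K / ((n : ℝ) + 1)) ^ 2 * C1 * N) atTop (𝓝 0) := by
      have := (tendsto_one_div_add_atTop_nhds_zero_nat (𝕜 := ℝ)).const_mul K
      rw [mul_zero] at this
      have h2 := ((this.pow 2).mul_const C1).mul_const N
      have h3 : (0 : ℝ) ^ 2 * C1 * N = 0 := by ring
      rw [h3] at h2
      refine h2.congr fun n => ?_
      rw [mul_one_div]
    have hη8 : 0 < η / 8 := by positivity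
    obtain ⟨n, hn1, hn2⟩ := ((h1.eventually (gt_mem_nhds (half_pos hη))).and
      ((cut_tendsto hΨ hh).eventually (gt_mem_nhds hη8))).exists
    set R : ℝ := (n : ℝ) + 1 with hR
    have hR0 : 0 < R := by positivity
    set χ : (Cfg dc) → ℝ := rad (h n) with hχ
    have hc := hh n
    have hχs : ContDiff ℝ ∞ χ := contDiff_rad hc.contDiff
    have hχc : HasCompactSupport χ := by
      refine HasCompactSupport.intro (isCompact_closedBall (0 : (Cfg dc)) R) fun x hx => ?_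
      rw [Metric.mem_closedBall, dist_zero_right, not_le] at hx
      exact hc.zero x hx.le
    set η' : ℝ := η / (2 * (N + 1)) with hη'
    have hη'0 : 0 < η' := by positivity
    have huc := (isCompact_closedBall (0 : (Cfg dc)) (R + 1)).uniformContinuousOn_of_continuous
      (S.esa_W_continuous m).continuousOn
    obtain ⟨δ, hδ, hδ'⟩ := Metric.uniformContinuousOn_iff.mp huc η' hη'0
    obtain ⟨ε₀, hε₀, happ⟩ := mo_approx hΨ hη8
    set ε : ℝ := min (min δ 1) ε₀ with hε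
    have hε0 : 0 < ε := lt_min (lt_min hδ one_pos) hε₀
    obtain ⟨g, hg, hmol⟩ := exists_mol hε0
    set ρ : (Cfg dc) → ℝ := rad g with hρ
    have heven : ∀ x, ρ (-x) = ρ x := fun x => by simp [hρ, rad]
    set v : (Cfg dc) → F := mo ρ Ψ with hv
    have hvs : ContDiff ℝ ∞ v := contDiff_mo hmol.contDiff hmol.hcs (locInt hΨ)
    obtain ⟨hvm, hvN⟩ := nsq_mo_le hmol hΨ
    have hvG : ∀ C x, S.G C v x = 0 := fun C x => G_mo_zero S hΨ hwG hg hmol.hcs C x
    have hvJ : ∀ k l, Same k l → ∀ x, S.J k l v x = 0 := fun k l hkl x =>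
      J_mo_zero S hΨ hwJ hg hmol.hcs hkl x
    set u : (Cfg dc) → F := fun x => ((χ x : ℝ) : ℂ) • v x with hu
    have hui : S.Inv u := Inv_rad S hc.contDiff hχc hvs hvG hvJ
    set u2 : (Cfg dc) → F := fun x => ((χ x : ℝ) : ℂ) • u x with hu2
    have hu2i : S.Inv u2 := Inv_rad S hc.contDiff hχc hui.1.1 hui.2.1 hui.2.2
    have hle : ∀ {a : (Cfg dc) → F}, MemLp a 2 (volume : Measure (Cfg dc)) →
        nsq (fun x => ((χ x : ℝ) : ℂ) • a x) ≤ nsq a := by
      intro a ha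
      refine integral_mono_of_nonneg (Eventually.of_forall fun x => by positivity)
        (memLp_norm_sq_int ha) (Eventually.of_forall fun x => ?_)
      simp only
      rw [norm_smul, Complex.norm_real, Real.norm_of_nonneg (hc.nonneg x), mul_pow]
      have h2 : χ x ^ 2 ≤ 1 := pow_le_one₀ (hc.nonneg x) (hc.le_one x)
      calc χ x ^ 2 * ‖a x‖ ^ 2 ≤ 1 * ‖a x‖ ^ 2 := by gcongr
        _ = _ := one_mul _
    refine ⟨u, hui, ?_, ?_⟩
    · -- `L²` distance
      have m1 : MemLp (fun x => v x - Ψ x) 2 (volume : Measure (Cfg dc)) := hvm.sub hΨ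
      have m3 : MemLp (fun x => ((χ x : ℝ) : ℂ) • Ψ x) 2 (volume : Measure (Cfg dc)) := by
        refine hΨ.of_le ((Complex.continuous_ofReal.comp hχs.continuous
          ).aestronglyMeasurable.smul hΨ.1) (Eventually.of_forall fun x => ?_)
        rw [norm_smul, Complex.norm_real, Real.norm_of_nonneg (hc.nonneg x)]
        exact mul_le_of_le_one_left (norm_nonneg _) (hc.le_one x)
      have m4 : MemLp (fun x => ((χ x : ℝ) : ℂ) • v x) 2 (volume : Measure (Cfg dc)) := hui.1.memLp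
      have m2 : MemLp (fun x => ((χ x : ℝ) : ℂ) • (v x - Ψ x)) 2 (volume : Measure (Cfg dc)) := by
        have := m4.sub m3
        refine this.ae_eq (Eventually.of_forall fun x => ?_)
        simp only [Pi.sub_apply, smul_sub]
      have e : (fun x => u x - Ψ x) = fun x => ((χ x : ℝ) : ℂ) • (v x - Ψ x) +
          (((χ x : ℝ) : ℂ) • Ψ x - Ψ x) := by
        funext x
        rw [smul_sub]
        abel
      have h2 := nsq_add_le m2 (m3.sub hΨ)
      have h3 := hle m1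
      have h4 := happ ε (min_le_right _ _) ρ hmol
      rw [e]
      have h5 : nsq (fun x => ((χ x : ℝ) : ℂ) • (v x - Ψ x) + (((χ x : ℝ) : ℂ) • Ψ x - Ψ x)) ≤
          2 * nsq (fun x => ((χ x : ℝ) : ℂ) • (v x - Ψ x)) +
          2 * nsq (fun x => ((χ x : ℝ) : ℂ) • Ψ x - Ψ x) := h2
      linarith
    · -- energy
      rw [loc_energy S m hχs hχc hvs]
      have h2 : ‖∫ x, inner ℂ (u2 x) (HH S m v x)‖ ≤
          η' * (Real.sqrt (nsq u2) * Real.sqrt (nsq Ψ)) := by
        refine err_bound S h7 m hwT hl h0 hη'0.le hmol heven hu2i.1 (Inv_mo S hg hmol.hcs hu2i)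
          fun x t hxt ht => ?_
        have h3 : ‖x - t‖ < ε := by
          by_contra h4
          exact hxt (hmol.supp _ (not_lt.mp h4))
        have h5 : dist x t < δ := by
          rw [dist_eq_norm]
          exact h3.trans_le ((min_le_left _ _).trans (min_le_left _ _))
        have h6 : ‖t‖ ≤ R := by
          by_contra h4
          apply ht
          have h7 : χ t = 0 := hc.zero t (not_le.mp h4).le
          simp only [hu2]
          rw [h7]
          simp
        have h7 : ‖x‖ ≤ R + 1 := by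
          have h8 : ‖x - t‖ < 1 := h3.trans_le ((min_le_left _ _).trans (min_le_right _ _))
          have h9 : ‖x‖ ≤ ‖x - t‖ + ‖t‖ := by
            have := norm_add_le (x - t) t
            simpa using this
          linarith
        have h9 := hδ' x (by simpa using h7) t (by simpa using h6.trans (by linarith)) h5
        rw [dist_eq_norm] at h9
        exact h9.le
      have h3 : nsq u2 ≤ N := (hle hui.1.memLp).trans ((hle hvm).trans hvN)
      have h4 : Real.sqrt (nsq u2) * Real.sqrt (nsq Ψ) ≤ N := by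
        calc Real.sqrt (nsq u2) * Real.sqrt (nsq Ψ) ≤ Real.sqrt N * Real.sqrt N := by
              gcongr
          _ = N := Real.mul_self_sqrt hN0
      have h5 : η' * (Real.sqrt (nsq u2) * Real.sqrt (nsq Ψ)) ≤ η / 2 := by
        calc η' * (Real.sqrt (nsq u2) * Real.sqrt (nsq Ψ)) ≤ η' * (N + 1) := by
              gcongr
              linarith
          _ = η / 2 := by rw [hη']; field_simp
      have h6 : ∑ β, ∫ x, ‖S.esaD χ β x (v x)‖ ^ 2 ≤ (K / R) ^ 2 * C1 * N := by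
        have h3 : ∀ β, ∫ x, ‖S.esaD χ β x (v x)‖ ^ 2 ≤ (K / R * S.esaC β) ^ 2 * N := by
          intro β
          refine (nsq_op_le (fun x => D_norm S (fun j B x => hc.grad j B x) β x) hvm).trans ?_
          exact mul_le_mul_of_nonneg_left hvN (sq_nonneg _)
        refine (Finset.sum_le_sum fun β _ => h3 β).trans (le_of_eq ?_)
        rw [hC1, Finset.mul_sum, Finset.sum_mul]
        refine Finset.sum_congr rfl fun β _ => ?_
        ring
      have h7 := (Complex.re_le_norm (∫ x, inner ℂ (u2 x) (HH S m v x))).trans (h2.trans h5)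
      change (∫ x, inner ℂ (u2 x) (HH S m v x)).re + _ ≤ η
      linarith
  have hpos : ∀ n : ℕ, (0 : ℝ) < 1 / ((n : ℝ) + 1) := fun n => by positivity
  choose u hu1 hu2 hu3 using fun n : ℕ => key _ (hpos n)
  have ht := tendsto_one_div_add_atTop_nhds_zero_nat (𝕜 := ℝ)
  refine ⟨u, hu1, ⟨fun n => (hu1 n).1.memLp, hΨ, ?_⟩, ?_⟩
  · exact squeeze_zero (fun n => nsq_nonneg _) hu2 ht
  · exact squeeze_zero (fun n => Finset.sum_nonneg fun β _ => nsq_nonneg _) hu3 ht


end Vale.Agent.P353.Z.U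
end
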