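import Mathlib
import Vale.Agent.P353.BdZ.B10
import Vale.Agent.P353.BdZ.B3
import Vale.Agent.P353.BdZ.B1
import Vale.Agent.P353.BFSS
import Vale.Agent.P353.BdZ.B4
import Vale.Agent.P353.BdZ.B5

set_option linter.all false

section

/-! # P353, general `N`: local limits, `L²` estimates -/

open MeasureTheory Filter Topology
open scoped ContDiff

namespace Vale.Agent.P353.Z.U

variable {dc : ℕ}

variable {F : Type*} [NormedAddCommGroup F] [InnerProductSpace ℂ F]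

/-! ### local `L²` tools -/

lemma lm_intOn {f : (Cfg dc) → ℝ} (hf : Continuous f) (s : ℝ) :
    IntegrableOn f (Metric.ball (0 : (Cfg dc)) s) :=
  (hf.continuousOn.integrableOn_compact (isCompact_closedBall 0 s)).mono_set
    Metric.ball_subset_closedBall

lemma lm_cs {ζ f : (Cfg dc) → F} {s : ℝ} (hζ : MemLp ζ 2 (volume : Measure (Cfg dc)))
    (hs : ∀ x, x ∉ Metric.ball (0 : (Cfg dc)) s → ζ x = 0)
    (hf : AEStronglyMeasurable f (volume : Measure (Cfg dc)))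
    (hi : IntegrableOn (fun x => ‖f x‖ ^ 2) (Metric.ball (0 : (Cfg dc)) s)) :
    Integrable (fun x => inner ℂ (ζ x) (f x)) ∧
    ‖∫ x, inner ℂ (ζ x) (f x)‖ ≤ Real.sqrt (nsq ζ) *
      Real.sqrt (∫ x in Metric.ball (0 : (Cfg dc)) s, ‖f x‖ ^ 2) := by
  have hgm : AEStronglyMeasurable ((Metric.ball (0 : (Cfg dc)) s).indicator f)
    (volume : Measure (Cfg dc)) := hf.indicator measurableSet_ball
  have hg2 : (fun x => ‖(Metric.ball (0 : (Cfg dc)) s).indicator f x‖ ^ 2) =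
      (Metric.ball (0 : (Cfg dc)) s).indicator (fun x => ‖f x‖ ^ 2) := by
    funext x
    by_cases hx : x ∈ Metric.ball (0 : (Cfg dc)) s
    · rw [Set.indicator_of_mem hx, Set.indicator_of_mem hx]
    · rw [Set.indicator_of_notMem hx, Set.indicator_of_notMem hx]
      simp
  have hgL : MemLp ((Metric.ball (0 : (Cfg dc)) s).indicator f) 2 (volume : Measure (Cfg dc)) :=
    (memLp_two_iff_integrable_sq_norm hgm).2
      (by rw [hg2]; exact (integrable_indicator_iff measurableSet_ball).2 hi)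
  have he : (fun x => inner ℂ (ζ x) (f x)) =
      fun x => inner ℂ (ζ x) ((Metric.ball (0 : (Cfg dc)) s).indicator f x) := by
    funext x
    by_cases hx : x ∈ Metric.ball (0 : (Cfg dc)) s
    · rw [Set.indicator_of_mem hx]
    · rw [hs x hx, inner_zero_left, inner_zero_left]
  have hn : ∫ x, ‖(Metric.ball (0 : (Cfg dc)) s).indicator f x‖ ^ 2 =
      ∫ x in Metric.ball (0 : (Cfg dc)) s, ‖f x‖ ^ 2 := by
    rw [hg2, integral_indicator measurableSet_ball]
  refine ⟨?_, ?_⟩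
  · rw [he]; exact integrable_inner_memLp hζ hgL
  · rw [he, ← hn]; exact cs_inner hζ hgL

lemma lm_supp {ζ : (Cfg dc) → F} (hζ : Setup.Tst ζ) :
    ∃ s : ℝ, 0 < s ∧ ∀ x, x ∉ Metric.ball (0 : (Cfg dc)) s → ζ x = 0 := by
  obtain ⟨C, r, -, hr, -, h⟩ := hζ.exists_bound
  refine ⟨r + 1, by linarith, fun x hx => h x ?_⟩
  rw [Metric.mem_ball, dist_zero_right, not_lt] at hx
  linarith

lemma lm_sub_sq {a b : F} : ‖a - b‖ ^ 2 ≤ 2 * ‖a‖ ^ 2 + 2 * ‖b‖ ^ 2 := by
  have h1 := norm_sub_le a b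
  have h2 := norm_nonneg (a - b)
  nlinarith [sq_nonneg (‖a‖ - ‖b‖)]

/-- weak limits from local strong limits -/
lemma lm_tend {v : ℕ → (Cfg dc) → F} {u : (Cfg dc) → F} (hv : ∀ k, Continuous (v k))
    (hu : StronglyMeasurable u)
    (hi : ∀ s : ℝ, 0 < s → IntegrableOn (fun x => ‖u x‖ ^ 2) (Metric.ball (0 : (Cfg dc)) s))
    (hl : ∀ s : ℝ, 0 < s → Tendsto (fun k => ∫ x in Metric.ball (0 : (Cfg dc)) s, ‖v k x - u x‖ ^ 2)
      atTop (𝓝 0)) {ζ : (Cfg dc) → F} (hζ : Setup.Tst ζ) :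
    Tendsto (fun k => ∫ x, inner ℂ (ζ x) (v k x)) atTop (𝓝 (∫ x, inner ℂ (ζ x) (u x))) := by
  obtain ⟨s, hs0, hs⟩ := lm_supp hζ
  have hmem := hζ.memLp
  have hvi : ∀ k, IntegrableOn (fun x => ‖v k x‖ ^ 2) (Metric.ball (0 : (Cfg dc)) s) := fun k =>
    lm_intOn ((hv k).norm.pow 2) s
  have hdi : ∀ k, IntegrableOn (fun x => ‖v k x - u x‖ ^ 2) (Metric.ball (0 : (Cfg dc)) s) := by
    intro k
    refine Integrable.mono' (((hvi k).const_mul 2).add ((hi s hs0).const_mul 2)) ?_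
      (Filter.Eventually.of_forall fun x => ?_)
    · exact (((hv k).aestronglyMeasurable.sub hu.aestronglyMeasurable).norm.pow 2)
    · rw [Real.norm_of_nonneg (by positivity)]
      exact lm_sub_sq
  rw [tendsto_iff_norm_sub_tendsto_zero]
  have hb : ∀ k, ‖(∫ x, inner ℂ (ζ x) (v k x)) - ∫ x, inner ℂ (ζ x) (u x)‖ ≤
      Real.sqrt (nsq ζ) * Real.sqrt (∫ x in Metric.ball (0 : (Cfg dc)) s, ‖v k x - u x‖ ^ 2) := by
    intro k
    have i1 := (lm_cs hmem hs (hv k).aestronglyMeasurable (hvi k)).1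
    have i2 := (lm_cs hmem hs hu.aestronglyMeasurable (hi s hs0)).1
    have i3 := (lm_cs hmem hs ((hv k).aestronglyMeasurable.sub hu.aestronglyMeasurable)
      (hdi k)).2
    rw [← integral_sub i1 i2]
    simpa only [inner_sub_right, Pi.sub_apply] using i3
  refine squeeze_zero (fun k => norm_nonneg _) hb ?_
  have := ((Real.continuous_sqrt.tendsto 0).comp (hl s hs0)).const_mul (Real.sqrt (nsq ζ))
  rw [Real.sqrt_zero, mul_zero] at this
  exact this

/-- local norms tending to zero -/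
lemma lm_null {v : ℕ → (Cfg dc) → F} (hv : ∀ k, Continuous (v k))
    (hl : ∀ s : ℝ, 0 < s → Tendsto (fun k => ∫ x in Metric.ball (0 : (Cfg dc)) s, ‖v k x‖ ^ 2)
      atTop (𝓝 0)) {ζ : (Cfg dc) → F} (hζ : Setup.Tst ζ) :
    Tendsto (fun k => ∫ x, inner ℂ (ζ x) (v k x)) atTop (𝓝 0) := by
  have h := lm_tend (u := fun _ => (0 : F)) hv stronglyMeasurable_const
    (fun s _ => by simp) (fun s hs => by simpa using hl s hs) hζ
  simpa using h

/-! ### symmetry -/

section symm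

variable (S : Setup dc F)

lemma lm_Qlin_eq (ξ : (Cfg dc)) (β : Fin 16) (u : (Cfg dc) → F) (x : (Cfg dc)) :
    S.Qlin ξ β u x = S.Q β u x + (S.MM β x + S.DW ξ β x - S.W β x) (u x) := by
  rw [Setup.Qlin, Setup.Q, Setup.Q0, _root_.sub_apply, _root_.add_apply]
  abel

lemma lm_contDiff_op (ξ : (Cfg dc)) (β : Fin 16) :
    ContDiff ℝ ∞ (fun x => S.MM β x + S.DW ξ β x - S.W β x) :=
  ((lm_contDiff_MM S β).add (lm_contDiff_DW S ξ β)).sub (S.contDiff_W β)

lemma lm_contDiff_Qlin (ξ : (Cfg dc)) (β : Fin 16) {u : (Cfg dc) → F} (hu : ContDiff ℝ ∞ u) :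
    ContDiff ℝ ∞ (S.Qlin ξ β u) := by
  have h : S.Qlin ξ β u = fun x => S.Q β u x + (S.MM β x + S.DW ξ β x - S.W β x) (u x) :=
    funext fun x => lm_Qlin_eq S ξ β u x
  rw [h]
  exact (S.contDiff_Q β hu).add (Setup.contDiff_clm_apply' (lm_contDiff_op S ξ β) hu)

lemma lm_Tst_Qlin (ξ : (Cfg dc)) (β : Fin 16) {u : (Cfg dc) → F} (hu : Setup.Tst u) :
    Setup.Tst (S.Qlin ξ β u) := by
  have h : S.Qlin ξ β u = fun x => S.Q β u x + (S.MM β x + S.DW ξ β x - S.W β x) (u x) :=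
    funext fun x => lm_Qlin_eq S ξ β u x
  rw [h]
  exact (hu.Q S β).add (Setup.Tst.clm (lm_contDiff_op S ξ β) hu)

lemma lm_Qlin_symm (ξ : (Cfg dc)) (β : Fin 16) {ζ v : (Cfg dc) → F} (hζ : Setup.Tst ζ)
    (hv : ContDiff ℝ ∞ v) :
    ∫ x, inner ℂ (S.Qlin ξ β ζ x) (v x) = ∫ x, inner ℂ (ζ x) (S.Qlin ξ β v x) := by
  simp only [lm_Qlin_eq, inner_add_left, inner_add_right]
  rw [integral_add ((hζ.Q S β).inner_int hv.continuous)
    ((Setup.Tst.clm (lm_contDiff_op S ξ β) hζ).inner_int hv.continuous),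
    integral_add (hζ.inner_int (S.contDiff_Q β hv).continuous)
    (hζ.inner_int (Setup.contDiff_clm_apply' (lm_contDiff_op S ξ β) hv).continuous),
    Q_symm S β ζ v hζ hv]
  congr 1
  refine integral_congr_ae (Filter.Eventually.of_forall fun x => ?_)
  simp only [_root_.sub_apply, _root_.add_apply, inner_sub_left, inner_add_left, inner_sub_right,
    inner_add_right, lm_MM_symm, lm_DW_symm, S.W_symm]

end symm

end Vale.Agent.P353.Z.U
end

section

/-! # P353, general `N`: local limits, gradient bounds -/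

open MeasureTheory Filter Topology
open scoped ContDiff

namespace Vale.Agent.P353.Z.U

variable {dc : ℕ}

variable {F : Type*} [NormedAddCommGroup F] [InnerProductSpace ℂ F]

section grad

variable (S : Setup dc F)

lemma lm_Q0_eq (β : Fin 16) (u : (Cfg dc) → F) (x : (Cfg dc)) : S.Q0 β u x = S.Q β u x - S.W β x (u x) := by
  rw [Setup.Q, Setup.Q0]; abel

lemma lm_Q0_cut (χ : (Cfg dc) → ℝ) (β : Fin 16) (u : (Cfg dc) → F) (x : (Cfg dc)) (hχ : DifferentiableAt ℝ χ x)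
    (hu : DifferentiableAt ℝ u x) :
    S.Q0 β (fun y => ((χ y : ℝ) : ℂ) • u y) x = ((χ x : ℝ) : ℂ) • S.Q0 β u x +
      lmGradOp S χ β x (u x) := by
  rw [lm_Q0_eq, lm_Q_cut S χ β u x hχ hu, lm_Q0_eq, map_smul, smul_sub]
  abel

lemma lm_Q0_lin (ξ : (Cfg dc)) (β : Fin 16) (u : (Cfg dc) → F) (x : (Cfg dc)) :
    S.Q0 β u x = S.Qlin ξ β u x - (S.MM β x (u x) + S.DW ξ β x (u x)) := by
  rw [Setup.Qlin]; abel

/-- value and derivatives of a cutoff function times `u` outside the support of the cutoff -/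
lemma lm_cut_zero {χ : (Cfg dc) → ℝ} {u : (Cfg dc) → F} {R : ℝ} (h : ∀ x, R ≤ ‖x‖ → χ x = 0) {x : (Cfg dc)}
    (hx : R < ‖x‖) (β : Fin 16) : S.Q0 β (fun y => ((χ y : ℝ) : ℂ) • u y) x = 0 := by
  have h1 : (fun y => ((χ y : ℝ) : ℂ) • u y) =ᶠ[𝓝 x] fun _ => (0 : F) := by
    have h2 : {y : (Cfg dc) | R < ‖y‖} ∈ 𝓝 x := (isOpen_lt continuous_const continuous_norm).mem_nhds hx
    filter_upwards [h2] with y hy
    rw [h y (le_of_lt hy)]; simp
  have h3 : ∀ i A, pd i A (fun y => ((χ y : ℝ) : ℂ) • u y) x = 0 := by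
    intro i A
    rw [pd, h1.fderiv_eq]; simp
  rw [Setup.Q0]
  simp only [h3, map_zero, Finset.sum_const_zero, smul_zero]

lemma lm_pd_cut_one {χ : (Cfg dc) → ℝ} {u : (Cfg dc) → F} {R : ℝ} (h : ∀ x, ‖x‖ ≤ R → χ x = 1) {x : (Cfg dc)}
    (hx : ‖x‖ < R) (i : Fin 9) (A : Fin dc) :
    pd i A (fun y => ((χ y : ℝ) : ℂ) • u y) x = pd i A u x := by
  have h1 : (fun y => ((χ y : ℝ) : ℂ) • u y) =ᶠ[𝓝 x] u := by
    have h2 : {y : (Cfg dc) | ‖y‖ < R} ∈ 𝓝 x := (isOpen_lt continuous_norm continuous_const).mem_nhds hx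
    filter_upwards [h2] with y hy
    rw [h y (le_of_lt hy)]; simp
  rw [pd, pd, h1.fderiv_eq]

/-- local gradient bound -/
lemma lm_grad (h8 : A8Stmt S) (ξ : (Cfg dc)) (hcr : ∀ β, S.W β ξ + S.MM β ξ = 0) {s : ℝ}
    (hs : 0 < s) : ∃ C : ℝ, 0 ≤ C ∧ ∀ m : ℝ, 1 ≤ m → ∀ φ : (Cfg dc) → F, ContDiff ℝ ∞ φ →
      ∑ i, ∑ A, (∫ x in Metric.ball (0 : (Cfg dc)) s, ‖pd i A (scl m ξ φ) x‖ ^ 2) ≤
        C * (∑ β, (∫ x in Metric.ball (0 : (Cfg dc)) (3 * s), m⁻¹ * ‖scl m ξ (S.Qm m β φ) x‖ ^ 2) +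
          ∫ x in Metric.ball (0 : (Cfg dc)) (3 * s), ‖scl m ξ φ x‖ ^ 2) := by
  obtain ⟨K, hK, hcut⟩ := exists_cut
  obtain ⟨χ, hχ, hc, hχ0, hχ1, hone, hzero, -, -⟩ := hcut s hs
  -- operator bounds
  have hop : ∀ β : Fin 16, ∃ C : ℝ, 0 ≤ C ∧ ∀ x ∈ Metric.closedBall (0 : (Cfg dc)) (3 * s),
      ‖S.W β x‖ + ‖S.MM β x‖ + ‖S.DW ξ β x‖ + ‖lmGradOp S χ β x‖ ≤ C := by
    intro β
    obtain ⟨C1, h1, hC1⟩ := lm_gradOp_bound S hχ hc β
    have hcont : Continuous fun x => ‖S.W β x‖ + ‖S.MM β x‖ + ‖S.DW ξ β x‖ :=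
      (((S.contDiff_W β).continuous.norm).add (lm_contDiff_MM S β).continuous.norm).add
        (lm_contDiff_DW S ξ β).continuous.norm
    obtain ⟨C2, hC2⟩ := (isCompact_closedBall (0 : (Cfg dc)) (3 * s)).exists_bound_of_continuousOn
      hcont.continuousOn
    refine ⟨max (C2 + C1) 0, le_max_right _ _, fun x hx => le_trans ?_ (le_max_left _ _)⟩
    have h3 := hC2 x hx
    rw [Real.norm_of_nonneg (by positivity)] at h3
    linarith [hC1 x]
  choose C0 hC0 hC0' using hop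
  set C : ℝ := ∑ β, C0 β with hCdef
  have hCβ : ∀ β, C0 β ≤ C := fun β => Finset.single_le_sum (f := C0)
    (fun β _ => hC0 β) (Finset.mem_univ β)
  have hC : 0 ≤ C := Finset.sum_nonneg fun β _ => hC0 β
  refine ⟨2 + 32 * C ^ 2, by positivity, ?_⟩
  intro m hm φ hφ
  have hm0 : 0 < m := by linarith
  set u : (Cfg dc) → F := scl m ξ φ with hu
  have huc : ContDiff ℝ ∞ u := lm_scl_contDiff hφ m ξ
  set t : ℝ := (Real.sqrt m)⁻¹ with ht
  have hsq1 : 1 ≤ Real.sqrt m := by rw [Real.one_le_sqrt]; exact hm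
  have ht0 : 0 ≤ t := by positivity
  have ht1 : t ≤ 1 := inv_le_one_of_one_le₀ hsq1
  have ht3 : t ^ 3 ≤ 1 := pow_le_one₀ ht0 ht1
  have ht2 : t ^ 2 = m⁻¹ := by rw [ht, inv_pow, Real.sq_sqrt hm0.le]
  -- the cutoff function
  have hv : Setup.Tst (fun y => ((χ y : ℝ) : ℂ) • u y) := by
    refine ⟨(Setup.contDiff_ofReal hχ).smul huc, hc.mono ?_⟩
    intro x hx
    simp only [Function.mem_support] at hx ⊢
    intro h0
    exact hx (by rw [h0]; simp)
  have hA := h8 _ hv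
  -- gradient on the small ball
  have hleft : ∑ i, ∑ A, (∫ x in Metric.ball (0 : (Cfg dc)) s, ‖pd i A u x‖ ^ 2) ≤
      ∑ i, ∑ A, nsq (pd i A (fun y => ((χ y : ℝ) : ℂ) • u y)) := by
    refine Finset.sum_le_sum fun i _ => Finset.sum_le_sum fun A _ => ?_
    have h1 : ∫ x in Metric.ball (0 : (Cfg dc)) s, ‖pd i A u x‖ ^ 2 =
        ∫ x in Metric.ball (0 : (Cfg dc)) s, ‖pd i A (fun y => ((χ y : ℝ) : ℂ) • u y) x‖ ^ 2 := by
      refine setIntegral_congr_fun measurableSet_ball fun x hx => ?_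
      rw [Metric.mem_ball, dist_zero_right] at hx
      rw [lm_pd_cut_one hone hx i A]
    rw [h1, nsq]
    exact setIntegral_le_integral ((hv.pd i A).norm_sq_int)
      (Filter.Eventually.of_forall fun x => by positivity)
  -- supercharges
  have hQ : ∀ β, nsq (S.Q0 β (fun y => ((χ y : ℝ) : ℂ) • u y)) ≤
      2 * (∫ x in Metric.ball (0 : (Cfg dc)) (3 * s), m⁻¹ * ‖scl m ξ (S.Qm m β φ) x‖ ^ 2) +
        2 * C ^ 2 * ∫ x in Metric.ball (0 : (Cfg dc)) (3 * s), ‖u x‖ ^ 2 := by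
    intro β
    have hE : ∀ x, S.Q0 β u x = ((t : ℝ) : ℂ) • scl m ξ (S.Qm m β φ) x -
        (((t ^ 3 : ℝ) : ℂ) • S.W β x (u x) + S.MM β x (u x) + S.DW ξ β x (u x)) := by
      intro x
      rw [lm_Q0_lin S ξ, lm_Qm_scl S hφ hm0 (hcr β) x]
      abel
    have hcE : Continuous fun x => scl m ξ (S.Qm m β φ) x := by
      have h1 : ContDiff ℝ ∞ (S.Qm m β φ) := by
        have : ContDiff ℝ ∞ (fun x => S.Q β φ x + (m : ℂ) • S.MM β x (φ x)) :=
          (S.contDiff_Q β hφ).add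
            ((Setup.contDiff_clm_apply' (lm_contDiff_MM S β) hφ).const_smul (m : ℂ))
        exact this
      exact (lm_scl_contDiff h1 m ξ).continuous
    have hout : ∀ x, x ∉ Metric.ball (0 : (Cfg dc)) (3 * s) →
        ‖S.Q0 β (fun y => ((χ y : ℝ) : ℂ) • u y) x‖ ^ 2 = 0 := by
      intro x hx
      rw [Metric.mem_ball, dist_zero_right, not_lt] at hx
      rw [lm_cut_zero S hzero (by linarith) β]
      simp
    have hin : nsq (S.Q0 β (fun y => ((χ y : ℝ) : ℂ) • u y)) =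
        ∫ x in Metric.ball (0 : (Cfg dc)) (3 * s),
          ‖S.Q0 β (fun y => ((χ y : ℝ) : ℂ) • u y) x‖ ^ 2 := by
      rw [nsq]
      exact (setIntegral_eq_integral_of_forall_compl_eq_zero hout).symm
    rw [hin, ← integral_const_mul, ← integral_const_mul, ← integral_add]
    · refine integral_mono_of_nonneg (Filter.Eventually.of_forall fun x => by positivity) ?_ ?_
      · exact ((lm_intOn ((continuous_const.mul (hcE.norm.pow 2))) _).const_mul 2).add
          ((lm_intOn (huc.continuous.norm.pow 2) _).const_mul _)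
      · refine (ae_restrict_iff' measurableSet_ball).2 (Filter.Eventually.of_forall fun x hx => ?_)
        have hb := hC0' β x (Metric.ball_subset_closedBall hx)
        have hbC := hb.trans (hCβ β)
        simp only
        rw [lm_Q0_cut S χ β u x (hχ.differentiable (by simp) x)
          (huc.differentiable (by simp) x), hE x]
        set e : F := ((t : ℝ) : ℂ) • scl m ξ (S.Qm m β φ) x with he
        have hne : ‖e‖ ^ 2 = m⁻¹ * ‖scl m ξ (S.Qm m β φ) x‖ ^ 2 := by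
          rw [he, norm_smul, Complex.norm_real, Real.norm_of_nonneg ht0, mul_pow, ht2]
        have h1 : ‖((χ x : ℝ) : ℂ) • (e - (((t ^ 3 : ℝ) : ℂ) • S.W β x (u x) + S.MM β x (u x) +
            S.DW ξ β x (u x))) + lmGradOp S χ β x (u x)‖ ≤ ‖e‖ + C * ‖u x‖ := by
          have a1 : ‖((χ x : ℝ) : ℂ)‖ ≤ 1 := by
            rw [Complex.norm_real, Real.norm_of_nonneg (hχ0 x)]; exact hχ1 x
          have a2 : ‖((t ^ 3 : ℝ) : ℂ)‖ ≤ 1 := by
            rw [Complex.norm_real, Real.norm_of_nonneg (by positivity)]; exact ht3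
          have b1 : ‖((t ^ 3 : ℝ) : ℂ) • S.W β x (u x)‖ ≤ ‖S.W β x‖ * ‖u x‖ := by
            rw [norm_smul]
            calc ‖((t ^ 3 : ℝ) : ℂ)‖ * ‖S.W β x (u x)‖ ≤ 1 * (‖S.W β x‖ * ‖u x‖) :=
                  mul_le_mul a2 ((S.W β x).le_opNorm _) (norm_nonneg _) zero_le_one
              _ = _ := one_mul _
          have b2 := (S.MM β x).le_opNorm (u x)
          have b3 := (S.DW ξ β x).le_opNorm (u x)
          have b4 := (lmGradOp S χ β x).le_opNorm (u x)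
          have c1 : ‖e - (((t ^ 3 : ℝ) : ℂ) • S.W β x (u x) + S.MM β x (u x) +
              S.DW ξ β x (u x))‖ ≤ ‖e‖ + (‖S.W β x‖ + ‖S.MM β x‖ + ‖S.DW ξ β x‖) * ‖u x‖ := by
            refine (norm_sub_le _ _).trans ?_
            have := norm_add_le (((t ^ 3 : ℝ) : ℂ) • S.W β x (u x) + S.MM β x (u x))
              (S.DW ξ β x (u x))
            have := norm_add_le (((t ^ 3 : ℝ) : ℂ) • S.W β x (u x)) (S.MM β x (u x))
            linarith
          have c2 : ‖((χ x : ℝ) : ℂ) • (e - (((t ^ 3 : ℝ) : ℂ) • S.W β x (u x) +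
              S.MM β x (u x) + S.DW ξ β x (u x)))‖ ≤
              ‖e‖ + (‖S.W β x‖ + ‖S.MM β x‖ + ‖S.DW ξ β x‖) * ‖u x‖ := by
            rw [norm_smul]
            refine le_trans ?_ c1
            calc ‖((χ x : ℝ) : ℂ)‖ * _ ≤ 1 * _ := mul_le_mul_of_nonneg_right a1 (norm_nonneg _)
              _ = _ := one_mul _
          have c3 := mul_le_mul_of_nonneg_right hbC (norm_nonneg (u x))
          refine (norm_add_le _ _).trans ?_
          linarith
        have h2 := pow_le_pow_left₀ (norm_nonneg _) h1 2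
        refine h2.trans ?_
        rw [← hne]
        nlinarith [sq_nonneg (‖e‖ - C * ‖u x‖)]
    · exact (lm_intOn ((continuous_const.mul (hcE.norm.pow 2))) _).const_mul 2
    · exact (lm_intOn (huc.continuous.norm.pow 2) _).const_mul _
  have hsum := Finset.sum_le_sum fun β (_ : β ∈ Finset.univ) => hQ β
  rw [hA, Finset.sum_add_distrib, ← Finset.mul_sum, Finset.sum_const, Finset.card_univ,
    Fintype.card_fin, nsmul_eq_mul] at hsum
  have n1 : 0 ≤ ∑ β, (∫ x in Metric.ball (0 : (Cfg dc)) (3 * s),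
      m⁻¹ * ‖scl m ξ (S.Qm m β φ) x‖ ^ 2) :=
    Finset.sum_nonneg fun β _ => integral_nonneg fun x => by positivity
  have n2 : 0 ≤ ∫ x in Metric.ball (0 : (Cfg dc)) (3 * s), ‖u x‖ ^ 2 :=
    integral_nonneg fun x => by positivity
  push_cast at hsum
  have n3 : 0 ≤ C ^ 2 * ∑ β, (∫ x in Metric.ball (0 : (Cfg dc)) (3 * s),
      m⁻¹ * ‖scl m ξ (S.Qm m β φ) x‖ ^ 2) := by positivity
  have n4 : 0 ≤ C ^ 2 * ∫ x in Metric.ball (0 : (Cfg dc)) (3 * s), ‖u x‖ ^ 2 := by positivity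
  nlinarith

end grad

/-! ### adjoints -/

section adj

/-- `L` has a formal adjoint on test functions -/
def LmAdj (L : ((Cfg dc) → F) → (Cfg dc) → F) : Prop :=
  (∀ v, ContDiff ℝ ∞ v → Continuous (L v)) ∧ ∀ ζ, Setup.Tst ζ → ∃ Z, Setup.Tst Z ∧
    ∀ v, ContDiff ℝ ∞ v → ∫ x, inner ℂ (ζ x) (L v x) = ∫ x, inner ℂ (Z x) (v x)

lemma LmAdj.zero : LmAdj (fun (_ : (Cfg dc) → F) (_ : (Cfg dc)) => (0 : F)) := by
  refine ⟨fun v _ => continuous_const, fun ζ _ => ⟨fun _ => 0, ⟨contDiff_const, ?_⟩, ?_⟩⟩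
  · exact HasCompactSupport.zero
  · intro v _; simp

lemma LmAdj.add {L L' : ((Cfg dc) → F) → (Cfg dc) → F} (h : LmAdj L) (h' : LmAdj L') :
    LmAdj (fun v x => L v x + L' v x) := by
  refine ⟨fun v hv => (h.1 v hv).add (h'.1 v hv), fun ζ hζ => ?_⟩
  obtain ⟨Z, hZ, hZ'⟩ := h.2 ζ hζ
  obtain ⟨Y, hY, hY'⟩ := h'.2 ζ hζ
  refine ⟨fun x => Z x + Y x, hZ.add hY, fun v hv => ?_⟩
  simp only [inner_add_left, inner_add_right]
  rw [integral_add (hζ.inner_int (h.1 v hv)) (hζ.inner_int (h'.1 v hv)),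
    integral_add (hZ.inner_int hv.continuous) (hY.inner_int hv.continuous), hZ' v hv, hY' v hv]

lemma LmAdj.sum {ι : Type*} (s : Finset ι) {L : ι → ((Cfg dc) → F) → (Cfg dc) → F}
    (h : ∀ i, LmAdj (L i)) : LmAdj (fun v x => ∑ i ∈ s, L i v x) := by
  classical
  induction s using Finset.induction_on with
  | empty => simpa using LmAdj.zero
  | insert a s ha ih =>
    simp only [Finset.sum_insert ha]
    exact (h a).add ih

lemma LmAdj.smul {L : ((Cfg dc) → F) → (Cfg dc) → F} (c : ℂ) (h : LmAdj L) :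
    LmAdj (fun v x => c • L v x) := by
  refine ⟨fun v hv => (h.1 v hv).const_smul c, fun ζ hζ => ?_⟩
  obtain ⟨Z, hZ, hZ'⟩ := h.2 ζ hζ
  refine ⟨fun x => (starRingEnd ℂ) c • Z x, ⟨hZ.1.const_smul _, hZ.2.mono ?_⟩, fun v hv => ?_⟩
  · intro x hx
    simp only [Function.mem_support] at hx ⊢
    intro h0
    exact hx (by rw [h0, smul_zero])
  · simp only [inner_smul_left, inner_smul_right, RingHomCompTriple.comp_apply, RingHom.id_apply]
    rw [integral_const_mul, integral_const_mul, hZ' v hv]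

lemma LmAdj.xpd (p : Fin 9 × Fin dc) (i : Fin 9) (A : Fin dc) :
    LmAdj (fun (v : (Cfg dc) → F) x => ((x p : ℝ) : ℂ) • pd i A v x) := by
  refine ⟨fun v hv => ((Setup.contDiff_ofReal (Setup.contDiff_coord p)).continuous).smul
    (contDiff_pd hv).continuous, fun ζ hζ => ?_⟩
  have h1 : Setup.Tst (fun x => ((x p : ℝ) : ℂ) • ζ x) :=
    Setup.Tst.rsmul (Setup.contDiff_coord p) hζ
  refine ⟨fun x => -pd i A (fun x => ((x p : ℝ) : ℂ) • ζ x) x, (h1.pd i A).neg, fun v hv => ?_⟩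
  have h2 := integral_inner_pd (fun x => ((x p : ℝ) : ℂ) • ζ x) v (h1.1.of_le (by simp))
    (hv.of_le (by simp)) h1.2 i A
  simp only [inner_neg_left]
  rw [integral_neg, h2, neg_neg]
  refine integral_congr_ae (Filter.Eventually.of_forall fun x => ?_)
  simp only [inner_smul_left, inner_smul_right, Complex.conj_ofReal]

lemma LmAdj.clm {T : F →L[ℂ] F} (hT : ∀ v w, inner ℂ (T v) w = inner ℂ v (T w)) :
    LmAdj (fun (v : (Cfg dc) → F) x => T (v x)) := by
  refine ⟨fun v hv => T.continuous.comp hv.continuous, fun ζ hζ => ?_⟩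
  refine ⟨fun x => T (ζ x), Setup.Tst.clm (T := fun _ => T) contDiff_const hζ, fun v hv => ?_⟩
  simp only [hT]

lemma lm_adj_G (S : Setup dc F) (C : Fin dc) : LmAdj (S.G C) := by
  have h : LmAdj (fun (u : (Cfg dc) → F) x => (-Complex.I) • ∑ i, ∑ A, ∑ B,
      ((S.f C A B : ℂ) * (x (i, A) : ℂ)) • pd i B u x + S.cS C (u x)) := by
    refine LmAdj.add (LmAdj.smul _ (LmAdj.sum _ fun i => LmAdj.sum _ fun A =>
      LmAdj.sum _ fun B => ?_)) (LmAdj.clm (S.cS_symm C))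
    have h1 := LmAdj.smul (F := F) (S.f C A B : ℂ) (LmAdj.xpd (i, A) i B)
    simpa only [smul_smul] using h1
  exact h

end adj

end Vale.Agent.P353.Z.U
end

section

open MeasureTheory Filter Topology
open scoped ContDiff

namespace Vale.Agent.P353.BFSS

variable {N d : ℕ} {F : Type*} [NormedAddCommGroup F] [InnerProductSpace ℂ F]

namespace Model

variable (M : Model N d F)

lemma S_one : M.S 1 = 1 := by
  ext v
  rw [one_apply_eq_self]
  have h1 : M.S 1 (M.S 1 v) = M.S 1 v := by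
    rw [← M.S_mul, mul_one]
  have h2 : ‖M.S 1 v - v‖ = 0 := by
    rw [← M.S_isometry 1 (M.S 1 v - v), map_sub, h1, sub_self, norm_zero]
  exact sub_eq_zero.mp (norm_eq_zero.mp h2)

/-- the model in the form used in the proofs -/
noncomputable def toOld : P353.Model N d F where
  dim_eq := M.dim_eq
  T := M.T
  T_hermitian := M.T_hermitian
  T_traceless := M.T_traceless
  T_orthonormal := M.T_orthonormal
  f := M.f
  T_comm := M.T_comm
  γ := M.γ
  γ_symm := M.γ_symm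
  γ_anticomm := M.γ_anticomm
  θ := M.θ
  θ_selfAdjoint := M.θ_selfAdjoint
  θ_anticomm := by
    intro α A β B
    ext v
    have h := M.θ_anticomm α A β B v
    rw [_root_.add_apply, mul_apply_eq_comp, mul_apply_eq_comp, h]
    split_ifs
    · rw [one_apply_eq_self]
    · rfl
  θ_irreducible := M.θ_irreducible
  nontrivial := M.nontrivial
  S :=
    { toFun := M.S
      map_one' := M.S_one
      map_mul' := by
        intro U V
        ext v
        rw [M.S_mul, mul_apply_eq_comp] }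
  S_isometry := M.S_isometry
  S_continuous := M.S_continuous
  S_rotates := by
    intro U α A
    ext v
    have h := M.S_rotates U α A v
    simp only [mul_apply_eq_comp, _root_.sum_apply, _root_.smul_apply]
    exact h

lemma pd_eq {u : Conf d → F} {x : Conf d} (hu : DifferentiableAt ℝ u x) (i : Fin 9) (A : Fin d) :
    pd i A u x = P353.pd i A u x := hu.lineDeriv_eq_fderiv

lemma Q_eq {u : Conf d → F} {x : Conf d} (hu : DifferentiableAt ℝ u x) (α : Fin 16) :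
    M.Q α u x = M.toOld.Q α u x := by
  have e : (1 / 2 : ℂ) = ((1 / 2 : ℝ) : ℂ) := by norm_num
  rw [Q, P353.Model.Q, e]
  simp only [pd_eq hu]
  rfl

lemma isCore_iff (u : Conf d → F) : M.IsCore u ↔ M.toOld.IsCore u := Iff.rfl

lemma form_eq {φ u : Conf d → F} (hφ : Differentiable ℝ φ) (hu : Differentiable ℝ u) :
    M.form φ u = M.toOld.form φ u := by
  rw [form, P353.Model.form, leb]
  congr 1
  refine Finset.sum_congr rfl fun α _ => ?_
  refine integral_congr_ae (Filter.Eventually.of_forall fun x => ?_)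
  simp only [M.Q_eq (hφ x), M.Q_eq (hu x)]

variable {M} in
lemma IsCore.diff {u : Conf d → F} (hu : M.IsCore u) : Differentiable ℝ u :=
  hu.1.differentiable (by simp)

lemma zes_iff (Ψ : Conf d → F) (hΨ : MemLp Ψ 2 (volume : Measure (Conf d))) :
    M.IsZeroEnergyState Ψ ↔ M.toOld.IsZeroEnergyState (hΨ.toLp Ψ) := by
  have h1 : ∀ u : ℕ → Conf d → F, (fun n => ∫ x, ‖u n x - (hΨ.toLp Ψ) x‖ ^ 2) =
      fun n => ∫ x, ‖u n x - Ψ x‖ ^ 2 := by
    intro u
    funext n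
    refine integral_congr_ae ?_
    filter_upwards [hΨ.coeFn_toLp] with x hx
    rw [hx]
  have h2 : ∀ u : ℕ → Conf d → F, (∀ n, M.IsCore (u n)) →
      (fun p : ℕ × ℕ => M.toOld.form (u p.1 - u p.2) (u p.1 - u p.2)) =
      fun p : ℕ × ℕ => M.form (fun x => u p.1 x - u p.2 x) fun x => u p.1 x - u p.2 x := by
    intro u hu
    funext p
    have hd : Differentiable ℝ (fun x => u p.1 x - u p.2 x) := (hu p.1).diff.sub (hu p.2).diff
    rw [M.form_eq hd hd]
    rfl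
  have h3 : ∀ u : ℕ → Conf d → F, (∀ n, M.IsCore (u n)) → ∀ φ, M.IsCore φ →
      (fun n => M.toOld.form φ (u n)) = fun n => M.form φ (u n) := by
    intro u hu φ hφ
    funext n
    rw [M.form_eq hφ.diff (hu n).diff]
  constructor
  · rintro ⟨-, u, hu, ha, hb, hc⟩
    refine ⟨u, hu, ?_, ?_, ?_⟩
    · rw [h1]; exact ha
    · rw [h2 u hu]; exact hb
    · intro φ hφ
      rw [h3 u hu φ hφ]; exact hc φ hφ
  · rintro ⟨u, hu, ha, hb, hc⟩
    refine ⟨hΨ, u, hu, ?_, ?_, ?_⟩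
    · rw [h1] at ha; exact ha
    · rw [h2 u hu] at hb; exact hb
    · intro φ hφ
      have := hc φ hφ
      rw [h3 u hu φ hφ] at this; exact this

end Model

end Vale.Agent.P353.BFSS
end

section

/-! # P353, uniqueness: theorem B from the core gap (helper349) -/

open MeasureTheory Filter Topology
open scoped ContDiff

namespace Vale.Agent.P353.Z.U

variable {dc : ℕ}

variable {F : Type*} [NormedAddCommGroup F] [InnerProductSpace ℂ F]

namespace HB

variable (S : Setup dc F)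

lemma HH_add (m : ℝ) {u v : (Cfg dc) → F} (hu : ContDiff ℝ ∞ u) (hv : ContDiff ℝ ∞ v) (x : (Cfg dc)) :
    HH S m (fun y => u y + v y) x = HH S m u x + HH S m v x := by
  have h1 : ∀ β, S.Qm m β (fun y => u y + v y) = fun y => S.Qm m β u y + S.Qm m β v y :=
    fun β => funext fun y => Qm_add S m β hu hv y
  simp only [HH, h1]
  simp only [Qm_add S m _ (contDiff_Qm S m _ hu) (contDiff_Qm S m _ hv), Finset.sum_add_distrib]

lemma HH_csmul (m : ℝ) (c : ℂ) {u : (Cfg dc) → F} (hu : ContDiff ℝ ∞ u) (x : (Cfg dc)) :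
    HH S m (fun y => c • u y) x = c • HH S m u x := by
  have h1 : ∀ β, S.Qm m β (fun y => c • u y) = fun y => c • S.Qm m β u y :=
    fun β => funext fun y => Qm_csmul S m β c hu y
  simp only [HH, h1]
  simp only [Qm_csmul S m _ c (contDiff_Qm S m _ hu), Finset.smul_sum]

/-- class of a test function -/
noncomputable def toL {u : (Cfg dc) → F} (hu : Setup.Tst u) : Lp F 2 (volume : Measure (Cfg dc)) :=
  hu.memLp.toLp u

lemma coe_toL {u : (Cfg dc) → F} (hu : Setup.Tst u) : toL hu =ᵐ[volume] u := hu.memLp.coeFn_toLp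

lemma inner_Lp {f g : Lp F 2 (volume : Measure (Cfg dc))} {u v : (Cfg dc) → F} (hf : f =ᵐ[volume] u)
    (hg : g =ᵐ[volume] v) : inner ℂ f g = ∫ x, inner ℂ (u x) (v x) := by
  rw [MeasureTheory.L2.inner_def]
  refine integral_congr_ae ?_
  filter_upwards [hf, hg] with x hx hy
  rw [hx, hy]

lemma norm_Lp {f : Lp F 2 (volume : Measure (Cfg dc))} {u : (Cfg dc) → F} (hf : f =ᵐ[volume] u) :
    ‖f‖ ^ 2 = nsq u := by
  have hm : MemLp u 2 (volume : Measure (Cfg dc)) := (memLp_congr_ae hf).mp (Lp.memLp f)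
  have h1 : f = hm.toLp u := by
    refine Lp.ext ?_
    exact hf.trans hm.coeFn_toLp.symm
  rw [h1, norm_toLp, Real.sq_sqrt (nsq_nonneg u)]

/-- invariant test functions in `L²` -/
def InvSub : Submodule ℂ (Lp F 2 (volume : Measure (Cfg dc))) where
  carrier := {f | ∃ φ, S.Inv φ ∧ f =ᵐ[volume] φ}
  zero_mem' := ⟨fun _ => 0, Inv_zero S, Lp.coeFn_zero _ _ _⟩
  add_mem' := by
    rintro f g ⟨φ, hφ, hf⟩ ⟨ψ, hψ, hg⟩
    exact ⟨fun y => φ y + ψ y, Inv_add S hφ hψ, (Lp.coeFn_add f g).trans (hf.add hg)⟩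
  smul_mem' := by
    rintro c f ⟨φ, hφ, hf⟩
    exact ⟨fun y => c • φ y, Inv_csmul S c hφ, (Lp.coeFn_smul c f).trans (hf.const_smul c)⟩

/-- range of the Hamiltonian on invariant test functions -/
def RngSub (m : ℝ) : Submodule ℂ (Lp F 2 (volume : Measure (Cfg dc))) where
  carrier := {f | ∃ φ, S.Inv φ ∧ f =ᵐ[volume] HH S m φ}
  zero_mem' := by
    refine ⟨fun _ => 0, Inv_zero S, ?_⟩
    have h : HH S m (fun _ : (Cfg dc) => (0 : F)) = fun _ => 0 := by
      funext x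
      have := HH_csmul S m 0 (u := fun _ => (0 : F)) contDiff_const x
      simpa using this
    rw [h]
    exact Lp.coeFn_zero _ _ _
  add_mem' := by
    rintro f g ⟨φ, hφ, hf⟩ ⟨ψ, hψ, hg⟩
    refine ⟨fun y => φ y + ψ y, Inv_add S hφ hψ, (Lp.coeFn_add f g).trans ?_⟩
    filter_upwards [hf, hg] with x hx hy
    rw [Pi.add_apply, hx, hy, HH_add S m hφ.1.1 hψ.1.1]
  smul_mem' := by
    rintro c f ⟨φ, hφ, hf⟩
    refine ⟨fun y => c • φ y, Inv_csmul S c hφ, (Lp.coeFn_smul c f).trans ?_⟩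
    filter_upwards [hf] with x hx
    rw [Pi.smul_apply, hx, HH_csmul S m c hφ.1.1]

lemma Rng_le_Inv (hA2 : A2Stmt S) (hA3 : A3Stmt S) (m : ℝ) : RngSub S m ≤ InvSub S := by
  rintro f ⟨φ, hφ, hf⟩
  exact ⟨HH S m φ, Inv_HH S hA2 hA3 m hφ, hf⟩

/-- limits of invariant test functions -/
def ClInv (Ψ : (Cfg dc) → F) : Prop := ∃ w : ℕ → (Cfg dc) → F, (∀ n, S.Inv (w n)) ∧ L2t w Ψ

lemma clInv_of_mem {f : Lp F 2 (volume : Measure (Cfg dc))} (hf : f ∈ closure (InvSub S : Set _)) :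
    ClInv S f := by
  obtain ⟨g, hg, hl⟩ := mem_closure_iff_seq_limit.mp hf
  choose w hw hw2 using hg
  refine ⟨w, hw, fun n => (hw n).1.memLp, Lp.memLp f, ?_⟩
  have h1 : ∀ n, nsq (fun x => w n x - f x) = ‖g n - f‖ ^ 2 := by
    intro n
    rw [norm_Lp (u := fun x => w n x - f x)]
    refine (Lp.coeFn_sub (g n) f).trans ?_
    filter_upwards [hw2 n] with x hx
    rw [Pi.sub_apply, hx]
  simp only [h1]
  have h2 := (tendsto_iff_norm_sub_tendsto_zero.mp hl).pow 2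
  simpa using h2

/-- Cauchy-Schwarz for the form -/
lemma form_cs (m : ℝ) {u v : (Cfg dc) → F} (hu : Setup.Tst u) (hv : Setup.Tst v) :
    ‖∑ β, ∫ x, inner ℂ (S.Qm m β u x) (S.Qm m β v x)‖ ≤
      Real.sqrt (∑ β, nsq (S.Qm m β u)) * Real.sqrt (∑ β, nsq (S.Qm m β v)) := by
  have h1 : ∀ β, ‖∫ x, inner ℂ (S.Qm m β u x) (S.Qm m β v x)‖ ≤
      Real.sqrt (nsq (S.Qm m β u)) * Real.sqrt (nsq (S.Qm m β v)) := fun β =>
    cs_inner (Tst_Qm S m β hu).memLp (Tst_Qm S m β hv).memLp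
  refine (norm_sum_le _ _).trans ((Finset.sum_le_sum fun β _ => h1 β).trans ?_)
  exact Real.sum_sqrt_mul_sqrt_le _ (fun β => nsq_nonneg _) (fun β => nsq_nonneg _)

/-- **the range argument**: an invariant test function in the closure of the range has energy at
least `8m` -/
lemma range_gap (hG : CGapStmt S) {m : ℝ} (hm : 0 < m) {u : (Cfg dc) → F} (hu : S.Inv u)
    (hr : toL hu.1 ∈ closure (RngSub S m : Set (Lp F 2 (volume : Measure (Cfg dc))))) :
    8 * m * nsq u ≤ ∑ β, nsq (S.Qm m β u) := by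
  obtain ⟨g, hg, hl⟩ := mem_closure_iff_seq_limit.mp hr
  choose φ hφ hg2 using hg
  set q : ℝ := ∑ β, nsq (S.Qm m β u) with hq
  have hq0 : 0 ≤ q := Finset.sum_nonneg fun β _ => nsq_nonneg _
  have h1 : ∀ n, ‖inner ℂ (g n) (toL hu.1)‖ ≤ Real.sqrt (‖g n‖ ^ 2 / (8 * m)) * Real.sqrt q := by
    intro n
    rw [inner_Lp (hg2 n) (coe_toL hu.1), inner_HH S m (hφ n).1 hu.1]
    refine (form_cs S m (hφ n).1 hu.1).trans ?_
    refine mul_le_mul_of_nonneg_right (Real.sqrt_le_sqrt ?_) (Real.sqrt_nonneg _)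
    rw [le_div_iff₀ (by positivity), norm_Lp (hg2 n), mul_comm]
    exact hG m hm (φ n) (hφ n)
  have h2 : Tendsto (fun n => ‖inner ℂ (g n) (toL hu.1)‖) atTop (𝓝 (nsq u)) := by
    have h3 : Tendsto (fun n => ‖inner ℂ (g n) (toL hu.1)‖) atTop
        (𝓝 ‖(inner ℂ (toL hu.1) (toL hu.1) : ℂ)‖) :=
      (hl.inner tendsto_const_nhds).norm
    rw [inner_self_eq_norm_sq_to_K] at h3
    have h4 : ‖((‖toL hu.1‖ : ℂ)) ^ 2‖ = nsq u := by
      rw [norm_pow, Complex.norm_real, norm_norm, norm_Lp (coe_toL hu.1)]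
    rw [← h4]
    exact h3
  have h5 : Tendsto (fun n => Real.sqrt (‖g n‖ ^ 2 / (8 * m)) * Real.sqrt q) atTop
      (𝓝 (Real.sqrt (nsq u / (8 * m)) * Real.sqrt q)) := by
    refine Tendsto.mul_const _ ?_
    refine (Real.continuous_sqrt.tendsto _).comp ?_
    refine Tendsto.div_const ?_ _
    have h6 := (hl.norm).pow 2
    rwa [norm_Lp (coe_toL hu.1)] at h6
  have h6 := le_of_tendsto_of_tendsto' h2 h5 h1
  rw [← Real.sqrt_mul' _ hq0] at h6
  have hn := nsq_nonneg u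
  have h7 : nsq u ^ 2 ≤ nsq u / (8 * m) * q := by
    have h8 : 0 ≤ nsq u / (8 * m) * q := by positivity
    calc nsq u ^ 2 ≤ Real.sqrt (nsq u / (8 * m) * q) ^ 2 := by gcongr
      _ = _ := Real.sq_sqrt h8
  rcases hn.eq_or_lt with h0 | h0
  · rw [← h0, mul_zero]; exact hq0
  · have h9 : nsq u * (8 * m * nsq u) ≤ nsq u * q := by
      have h10 : nsq u / (8 * m) * q = nsq u * q / (8 * m) := by ring
      rw [h10, le_div_iff₀ (by positivity)] at h7
      nlinarith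
    exact le_of_mul_le_mul_left h9 h0

/-- `k` independent weak zero modes -/
lemma k_zm [CompleteSpace F] (hA2 : A2Stmt S) (hA3 : A3Stmt S) (hG : CGapStmt S) {k : ℕ} {m : ℝ}
    (hm : 0 < m) (hL : S.Low k m (8 * m)) : ∃ Ψ : Fin k → (Cfg dc) → F, (∀ j, ClInv S (Ψ j)) ∧
      (∀ j φ, S.Inv φ → ∫ x, inner ℂ (HH S m φ x) (Ψ j x) = 0) ∧
      ∀ a : Fin k → ℂ, a ≠ 0 → 0 < nsq (fun x => ∑ j, a j • Ψ j x) := by
  obtain ⟨u, hu, hlow⟩ := hL
  set R := (RngSub S m).topologicalClosure with hR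
  have hRI : R ≤ (InvSub S).topologicalClosure :=
    Submodule.topologicalClosure_mono (Rng_le_Inv S hA2 hA3 m)
  have : CompleteSpace R := (Submodule.isClosed_topologicalClosure _).completeSpace_coe
  have hdec : ∀ j, ∃ w ∈ R, ∃ Ψ ∈ Rᗮ, toL (hu j).1 = w + Ψ := fun j =>
    Submodule.exists_add_mem_mem_orthogonal (K := R) (toL (hu j).1)
  choose w hw Ψ hΨ hsum using hdec
  have hΨe : ∀ j, Ψ j = toL (hu j).1 - w j := fun j => by rw [hsum j]; abel
  refine ⟨fun j => Ψ j, fun j => ?_, fun j φ hφ => ?_, fun a ha => ?_⟩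
  · refine clInv_of_mem S ?_
    have h1 : toL (hu j).1 ∈ (InvSub S).topologicalClosure :=
      Submodule.le_topologicalClosure _ ⟨u j, hu j, coe_toL (hu j).1⟩
    have h2 : Ψ j ∈ (InvSub S).topologicalClosure := by
      rw [hΨe j]
      exact Submodule.sub_mem _ h1 (hRI (hw j))
    exact h2
  · have h1 : toL (Tst_HH S m hφ.1) ∈ R :=
      Submodule.le_topologicalClosure _ ⟨φ, hφ, coe_toL _⟩
    have h2 := (Submodule.mem_orthogonal R (Ψ j)).mp (hΨ j) _ h1
    rw [inner_Lp (coe_toL _) (EventuallyEq.rfl (f := (Ψ j : (Cfg dc) → F)))] at h2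
    exact h2
  · by_contra hneg
    have h0 : nsq (fun x => ∑ j, a j • (Ψ j : (Cfg dc) → F) x) = 0 :=
      le_antisymm (not_lt.mp hneg) (nsq_nonneg _)
    have hae : ((∑ j, a j • Ψ j : Lp F 2 (volume : Measure (Cfg dc))) : (Cfg dc) → F) =ᵐ[volume]
        fun x => ∑ j, a j • (Ψ j : (Cfg dc) → F) x := by
      have h1 := Lp.coeFn_finsetSum (Finset.univ) (fun j => a j • Ψ j)
      refine h1.trans ?_
      have h2 : ∀ j, ((a j • Ψ j : Lp F 2 (volume : Measure (Cfg dc))) : (Cfg dc) → F) =ᵐ[volume]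
          fun x => a j • (Ψ j : (Cfg dc) → F) x := fun j => Lp.coeFn_smul (a j) (Ψ j)
      filter_upwards [ae_all_iff.mpr h2] with x hx
      simp only [Finset.sum_apply, hx]
    have hz : (∑ j, a j • Ψ j : Lp F 2 (volume : Measure (Cfg dc))) = 0 := by
      have h1 := norm_Lp hae
      rw [h0] at h1
      exact norm_eq_zero.mp (by nlinarith [norm_nonneg (∑ j, a j • Ψ j)])
    have hui := Inv_sum S Finset.univ a hu
    have htl : toL hui.1 = ∑ j, a j • toL (hu j).1 := by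
      refine Lp.ext ?_
      refine (coe_toL hui.1).trans (EventuallyEq.symm ?_)
      refine (Lp.coeFn_finsetSum (Finset.univ) (fun j => a j • toL (hu j).1)).trans ?_
      have h2 : ∀ j, ((a j • toL (hu j).1 : Lp F 2 (volume : Measure (Cfg dc))) : (Cfg dc) → F) =ᵐ[volume]
          fun x => a j • u j x := fun j =>
        (Lp.coeFn_smul (a j) (toL (hu j).1)).trans ((coe_toL (hu j).1).const_smul (a j))
      filter_upwards [ae_all_iff.mpr h2] with x hx
      simp only [Finset.sum_apply, hx]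
    have hmem : toL hui.1 ∈ R := by
      have h1 : toL hui.1 = ∑ j, a j • w j := by
        rw [htl]
        have : ∀ j, toL (hu j).1 = w j + Ψ j := hsum
        simp only [this, smul_add, Finset.sum_add_distrib, hz, add_zero]
      rw [h1]
      exact Submodule.sum_mem _ fun j _ => Submodule.smul_mem _ _ (hw j)
    have h1 := range_gap S hG hm hui hmem
    have h2 := hlow a ha
    linarith

/-- the norm on a `k` dimensional space of functions -/
lemma lower_bound [CompleteSpace F] {k : ℕ} {Ψ : Fin k → (Cfg dc) → F}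
    (hΨ : ∀ j, MemLp (Ψ j) 2 (volume : Measure (Cfg dc)))
    (hind : ∀ a : Fin k → ℂ, a ≠ 0 → 0 < nsq (fun x => ∑ j, a j • Ψ j x)) :
    ∃ κ : ℝ, 0 < κ ∧ ∀ a : Fin k → ℂ, κ * ‖a‖ ≤ ‖∑ j, a j • (hΨ j).toLp (Ψ j)‖ := by
  let f : (Fin k → ℂ) →ₗ[ℂ] Lp F 2 (volume : Measure (Cfg dc)) :=
    { toFun := fun a => ∑ j, a j • (hΨ j).toLp (Ψ j)
      map_add' := by intro a b; simp [add_smul, Finset.sum_add_distrib]
      map_smul' := by intro c a; simp [mul_smul, Finset.smul_sum] }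
  have hae : ∀ a, (f a : (Cfg dc) → F) =ᵐ[volume] fun x => ∑ j, a j • Ψ j x := by
    intro a
    refine (Lp.coeFn_finsetSum (Finset.univ) (fun j => a j • (hΨ j).toLp (Ψ j))).trans ?_
    have h2 : ∀ j, ((a j • (hΨ j).toLp (Ψ j) : Lp F 2 (volume : Measure (Cfg dc))) : (Cfg dc) → F) =ᵐ[volume]
        fun x => a j • Ψ j x := fun j =>
      (Lp.coeFn_smul (a j) _).trans ((hΨ j).coeFn_toLp.const_smul (a j))
    filter_upwards [ae_all_iff.mpr h2] with x hx
    simp only [Finset.sum_apply, hx]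
  have hker : LinearMap.ker f = ⊥ := by
    rw [LinearMap.ker_eq_bot']
    intro a ha
    by_contra hne
    have h1 := norm_Lp (hae a)
    rw [ha, norm_zero] at h1
    have h2 := hind a hne
    rw [← h1] at h2
    norm_num at h2
  obtain ⟨K, hK, hanti⟩ := LinearMap.exists_antilipschitzWith f hker
  refine ⟨(K : ℝ)⁻¹, by positivity, fun a => ?_⟩
  have h1 := hanti.le_mul_dist a 0
  rw [map_zero, dist_zero_right, dist_zero_right] at h1
  have hK' : (0 : ℝ) < K := by exact_mod_cast hK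
  rw [inv_mul_le_iff₀ hK']
  exact h1

/-- strong limits give `Low` -/
lemma low_of_lim [CompleteSpace F] {k : ℕ} {m : ℝ} {Ψ : Fin k → (Cfg dc) → F}
    {u : Fin k → ℕ → (Cfg dc) → F}
    (hu : ∀ j n, S.Inv (u j n)) (hl : ∀ j, L2t (u j) (Ψ j))
    (hq : ∀ j, Tendsto (fun n => ∑ β, nsq (S.Qm m β (u j n))) atTop (𝓝 0))
    (hind : ∀ a : Fin k → ℂ, a ≠ 0 → 0 < nsq (fun x => ∑ j, a j • Ψ j x)) {c : ℝ} (hc : 0 < c) :
    S.Low k m c := by
  have hΨ : ∀ j, MemLp (Ψ j) 2 (volume : Measure (Cfg dc)) := fun j => (hl j).mem'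
  obtain ⟨κ, hκ, hlow⟩ := lower_bound hΨ hind
  have hk1 : (0 : ℝ) < (k : ℝ) + 1 := by positivity
  -- choose n
  have h1 : ∀ j, ∀ᶠ n in atTop, ‖toL (hu j n).1 - (hΨ j).toLp (Ψ j)‖ ≤ κ / (2 * ((k : ℝ) + 1)) := by
    intro j
    have h2 := (hl j).lim_toLp
    have h3 := (tendsto_iff_norm_sub_tendsto_zero.mp h2).eventually
      (ge_mem_nhds (show (0 : ℝ) < κ / (2 * ((k : ℝ) + 1)) by positivity))
    filter_upwards [h3] with n hn
    exact hn
  have h2 : ∀ j, ∀ᶠ n in atTop, ∑ β, nsq (S.Qm m β (u j n)) <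
      c * (κ / 2) ^ 2 / ((k : ℝ) + 1) ^ 2 := fun j =>
    (hq j).eventually (gt_mem_nhds (show (0 : ℝ) < c * (κ / 2) ^ 2 / ((k : ℝ) + 1) ^ 2 by
      positivity))
  obtain ⟨n, hn⟩ := ((eventually_all.mpr h1).and (eventually_all.mpr h2)).exists
  obtain ⟨hn1, hn2⟩ := hn
  refine ⟨fun j => u j n, fun j => hu j n, fun a ha => ?_⟩
  have ha0 : 0 < ‖a‖ := norm_pos_iff.mpr ha
  have haj : ∀ j, ‖a j‖ ≤ ‖a‖ := fun j => norm_le_pi_norm a j
  have hui : S.Inv (fun x => ∑ j, a j • u j n x) := Inv_sum S Finset.univ a fun j => hu j n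
  -- lower bound for the norm
  have htl : toL hui.1 = ∑ j, a j • toL (hu j n).1 := by
    refine Lp.ext ?_
    refine (coe_toL hui.1).trans (EventuallyEq.symm ?_)
    refine (Lp.coeFn_finsetSum (Finset.univ) (fun j => a j • toL (hu j n).1)).trans ?_
    have h2 : ∀ j, ((a j • toL (hu j n).1 : Lp F 2 (volume : Measure (Cfg dc))) : (Cfg dc) → F) =ᵐ[volume]
        fun x => a j • u j n x := fun j =>
      (Lp.coeFn_smul (a j) (toL (hu j n).1)).trans ((coe_toL (hu j n).1).const_smul (a j))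
    filter_upwards [ae_all_iff.mpr h2] with x hx
    simp only [Finset.sum_apply, hx]
  have hnorm : κ / 2 * ‖a‖ ≤ ‖toL hui.1‖ := by
    have h3 : ‖∑ j, a j • (hΨ j).toLp (Ψ j)‖ ≤ ‖toL hui.1‖ + κ / 2 * ‖a‖ := by
      have h4 : ∑ j, a j • (hΨ j).toLp (Ψ j) = toL hui.1 -
          ∑ j, a j • (toL (hu j n).1 - (hΨ j).toLp (Ψ j)) := by
        rw [htl]
        simp only [smul_sub, Finset.sum_sub_distrib]
        abel
      rw [h4]
      refine (norm_sub_le _ _).trans (add_le_add_right ?_ _)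
      refine (norm_sum_le _ _).trans ?_
      have h5 : ∀ j, ‖a j • (toL (hu j n).1 - (hΨ j).toLp (Ψ j))‖ ≤
          ‖a‖ * (κ / (2 * ((k : ℝ) + 1))) := by
        intro j
        rw [norm_smul]
        exact mul_le_mul (haj j) (hn1 j) (norm_nonneg _) (norm_nonneg _)
      refine (Finset.sum_le_sum fun j _ => h5 j).trans ?_
      simp only [Finset.sum_const, Finset.card_univ, Fintype.card_fin, nsmul_eq_mul]
      have h6 : (k : ℝ) * (‖a‖ * (κ / (2 * ((k : ℝ) + 1)))) =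
          κ / 2 * ‖a‖ * ((k : ℝ) / ((k : ℝ) + 1)) := by
        field_simp
      rw [h6]
      have h7 : (k : ℝ) / ((k : ℝ) + 1) ≤ 1 := by rw [div_le_one hk1]; linarith
      exact mul_le_of_le_one_right (by positivity) h7
    have h4 := hlow a
    linarith
  have hnsq : (κ / 2 * ‖a‖) ^ 2 ≤ nsq (fun x => ∑ j, a j • u j n x) := by
    rw [← norm_Lp (coe_toL hui.1)]
    gcongr
  -- upper bound for the energy
  have hβ : ∀ β, nsq (S.Qm m β (fun x => ∑ j, a j • u j n x)) ≤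
      (k : ℝ) * ‖a‖ ^ 2 * ∑ j, nsq (S.Qm m β (u j n)) := by
    intro β
    have h3 : ∀ x, ‖S.Qm m β (fun x => ∑ j, a j • u j n x) x‖ ^ 2 ≤
        ∑ j, (k : ℝ) * ‖a‖ ^ 2 * ‖S.Qm m β (u j n) x‖ ^ 2 := by
      intro x
      rw [Qm_sum S m β Finset.univ a (fun j => (hu j n).1.1) x]
      have h4 : ‖∑ j, a j • S.Qm m β (u j n) x‖ ≤ ∑ j, ‖a‖ * ‖S.Qm m β (u j n) x‖ := by
        refine (norm_sum_le _ _).trans (Finset.sum_le_sum fun j _ => ?_)
        rw [norm_smul]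
        exact mul_le_mul_of_nonneg_right (haj j) (norm_nonneg _)
      have h5 : (∑ j, ‖a‖ * ‖S.Qm m β (u j n) x‖) ^ 2 ≤
          (k : ℝ) * ∑ j, (‖a‖ * ‖S.Qm m β (u j n) x‖) ^ 2 := by
        have := sq_sum_le_card_mul_sum_sq (s := Finset.univ)
          (f := fun j => ‖a‖ * ‖S.Qm m β (u j n) x‖)
        simpa using this
      calc ‖∑ j, a j • S.Qm m β (u j n) x‖ ^ 2 ≤ (∑ j, ‖a‖ * ‖S.Qm m β (u j n) x‖) ^ 2 := by
            gcongr
        _ ≤ (k : ℝ) * ∑ j, (‖a‖ * ‖S.Qm m β (u j n) x‖) ^ 2 := h5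
        _ = ∑ j, (k : ℝ) * ‖a‖ ^ 2 * ‖S.Qm m β (u j n) x‖ ^ 2 := by
            rw [Finset.mul_sum]
            refine Finset.sum_congr rfl fun j _ => ?_
            ring
    have hint : ∀ j, Integrable (fun x => (k : ℝ) * ‖a‖ ^ 2 * ‖S.Qm m β (u j n) x‖ ^ 2) := fun j =>
      (Tst_Qm S m β (hu j n).1).norm_sq_int.const_mul _
    unfold nsq
    refine (integral_mono (Tst_Qm S m β hui.1).norm_sq_int
      (integrable_finsetSum _ fun j _ => hint j) h3).trans (le_of_eq ?_)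
    rw [integral_finsetSum _ fun j _ => hint j, Finset.mul_sum]
    refine Finset.sum_congr rfl fun j _ => ?_
    rw [integral_const_mul]
  calc ∑ β, nsq (S.Qm m β (fun x => ∑ j, a j • u j n x))
      ≤ ∑ β, (k : ℝ) * ‖a‖ ^ 2 * ∑ j, nsq (S.Qm m β (u j n)) := Finset.sum_le_sum fun β _ => hβ β
    _ = (k : ℝ) * ‖a‖ ^ 2 * ∑ j, ∑ β, nsq (S.Qm m β (u j n)) := by
        rw [← Finset.mul_sum, Finset.sum_comm]
    _ ≤ (k : ℝ) * ‖a‖ ^ 2 * ((k : ℝ) * (c * (κ / 2) ^ 2 / ((k : ℝ) + 1) ^ 2)) := by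
        refine mul_le_mul_of_nonneg_left ?_ (by positivity)
        refine (Finset.sum_le_sum fun j _ => (hn2 j).le).trans (le_of_eq ?_)
        simp only [Finset.sum_const, Finset.card_univ, Fintype.card_fin, nsmul_eq_mul]
    _ = ((k : ℝ) / ((k : ℝ) + 1)) ^ 2 * (c * (κ / 2 * ‖a‖) ^ 2) := by
        field_simp
    _ < 1 * (c * (κ / 2 * ‖a‖) ^ 2) := by
        refine mul_lt_mul_of_pos_right ?_ (by positivity)
        have h6 : (k : ℝ) / ((k : ℝ) + 1) < 1 := by rw [div_lt_one hk1]; linarith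
        have h7 : 0 ≤ (k : ℝ) / ((k : ℝ) + 1) := by positivity
        nlinarith
    _ = c * (κ / 2 * ‖a‖) ^ 2 := one_mul _
    _ ≤ c * nsq (fun x => ∑ j, a j • u j n x) := by gcongr

lemma MM_bound : ∃ C : ℝ, 0 ≤ C ∧ ∀ β x (v : F), ‖S.MM β x v‖ ≤ C * (‖x‖ * ‖v‖) := by
  refine ⟨∑ β, ∑ i, ∑ A, 2 * ‖S.vec (S.g i * S.Gam) A β‖, by positivity, fun β x v => ?_⟩
  have h0 : ∀ i, |aw i| ≤ 2 := by
    intro i
    unfold aw
    split_ifs <;> norm_num
  have h1 : ∀ i A, ‖((((aw i * x (i, A) : ℝ) : ℂ) • S.vec (S.g i * S.Gam) A β) : F →L[ℂ] F) v‖ ≤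
      2 * ‖S.vec (S.g i * S.Gam) A β‖ * (‖x‖ * ‖v‖) := by
    intro i A
    rw [_root_.smul_apply, norm_smul, Complex.norm_real, Real.norm_eq_abs, abs_mul]
    have h2 : |x (i, A)| ≤ ‖x‖ := by
      have := PiLp.norm_apply_le x (i, A)
      simpa using this
    calc |aw i| * |x (i, A)| * ‖S.vec (S.g i * S.Gam) A β v‖
        ≤ 2 * ‖x‖ * (‖S.vec (S.g i * S.Gam) A β‖ * ‖v‖) := by
          gcongr
          · exact h0 i
          · exact ContinuousLinearMap.le_opNorm _ _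
      _ = _ := by ring
  calc ‖S.MM β x v‖ ≤ ∑ i, ∑ A, 2 * ‖S.vec (S.g i * S.Gam) A β‖ * (‖x‖ * ‖v‖) := by
        unfold Setup.MM
        simp only [_root_.sum_apply]
        refine (norm_sum_le _ _).trans (Finset.sum_le_sum fun i _ => ?_)
        exact (norm_sum_le _ _).trans (Finset.sum_le_sum fun A _ => h1 i A)
    _ = (∑ i, ∑ A, 2 * ‖S.vec (S.g i * S.Gam) A β‖) * (‖x‖ * ‖v‖) := by
        simp only [Finset.sum_mul]
    _ ≤ _ := by
        refine mul_le_mul_of_nonneg_right ?_ (by positivity)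
        exact Finset.single_le_sum (f := fun β => ∑ i, ∑ A, 2 * ‖S.vec (S.g i * S.Gam) A β‖)
          (fun β _ => by positivity) (Finset.mem_univ β)

/-- change of the mass parameter -/
lemma energy_change : ∃ C : ℝ, 0 ≤ C ∧ ∀ (m m' : ℝ) (u : (Cfg dc) → F), Setup.Tst u →
    ∑ β, nsq (S.Qm m' β u) ≤ 2 * ∑ β, nsq (S.Qm m β u) +
      C * (m' - m) ^ 2 * ∫ x, ‖x‖ ^ 2 * ‖u x‖ ^ 2 := by
  obtain ⟨C, hC, hb⟩ := MM_bound S
  refine ⟨16 * (2 * C ^ 2), by positivity, fun m m' u hu => ?_⟩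
  have hI : Integrable (fun x => ‖x‖ ^ 2 * ‖u x‖ ^ 2) :=
    hu.mul_norm_sq_int (continuous_norm.pow 2)
  have h1 : ∀ β, nsq (S.Qm m' β u) ≤ 2 * nsq (S.Qm m β u) +
      2 * C ^ 2 * (m' - m) ^ 2 * ∫ x, ‖x‖ ^ 2 * ‖u x‖ ^ 2 := by
    intro β
    have h2 : ∀ x, ‖S.Qm m' β u x‖ ^ 2 ≤ 2 * ‖S.Qm m β u x‖ ^ 2 +
        2 * C ^ 2 * (m' - m) ^ 2 * (‖x‖ ^ 2 * ‖u x‖ ^ 2) := by
      intro x
      have h3 : S.Qm m' β u x = S.Qm m β u x + ((m' - m : ℝ) : ℂ) • S.MM β x (u x) := by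
        simp only [Setup.Qm]
        push_cast
        rw [sub_smul]
        abel
      have h4 : ‖((m' - m : ℝ) : ℂ) • S.MM β x (u x)‖ ≤ |m' - m| * (C * (‖x‖ * ‖u x‖)) := by
        rw [norm_smul, Complex.norm_real, Real.norm_eq_abs]
        gcongr
        exact hb β x (u x)
      have h5 : ‖S.Qm m' β u x‖ ≤ ‖S.Qm m β u x‖ + |m' - m| * (C * (‖x‖ * ‖u x‖)) := by
        rw [h3]
        exact (norm_add_le _ _).trans (add_le_add_right h4 _)
      calc ‖S.Qm m' β u x‖ ^ 2 ≤ (‖S.Qm m β u x‖ + |m' - m| * (C * (‖x‖ * ‖u x‖))) ^ 2 := by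
            gcongr
        _ ≤ 2 * ‖S.Qm m β u x‖ ^ 2 + 2 * (|m' - m| * (C * (‖x‖ * ‖u x‖))) ^ 2 := by
            nlinarith [sq_nonneg (‖S.Qm m β u x‖ - |m' - m| * (C * (‖x‖ * ‖u x‖)))]
        _ = _ := by rw [mul_pow, sq_abs]; ring
    unfold nsq
    rw [← integral_const_mul, ← integral_const_mul,
      ← integral_add ((Tst_Qm S m β hu).norm_sq_int.const_mul _) (hI.const_mul _)]
    exact integral_mono (Tst_Qm S m' β hu).norm_sq_int
      (((Tst_Qm S m β hu).norm_sq_int.const_mul _).add (hI.const_mul _)) h2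
  refine (Finset.sum_le_sum fun β _ => h1 β).trans (le_of_eq ?_)
  rw [Finset.sum_add_distrib, ← Finset.mul_sum]
  simp only [Finset.sum_const, Finset.card_univ, Fintype.card_fin, nsmul_eq_mul]
  push_cast
  ring

/-- one step in the mass parameter -/
lemma low_step (hC : CoerStmt S) {k : ℕ} {a b : ℝ} (ha : 0 < a) : ∃ δ : ℝ, 0 < δ ∧ ∀ m m' : ℝ,
    a ≤ m → m ≤ b → a ≤ m' → |m' - m| ≤ δ → (∀ c : ℝ, 0 < c → S.Low k m c) →
    S.Low k m' (8 * m') := by
  obtain ⟨c0, C0, hc0, hC0, hcoer⟩ := hC a b ha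
  obtain ⟨C1, hC1, hch⟩ := energy_change S
  -- choose c = min a 1, δ
  set D : ℝ := C1 * ((C0 + 1) / c0) + 1 with hD
  have hD0 : 0 < D := by positivity
  refine ⟨Real.sqrt (a / D), Real.sqrt_pos.mpr (by positivity), fun m m' hm hmb hm' hd hlow => ?_⟩
  have hc : 0 < min a 1 := lt_min ha one_pos
  obtain ⟨u, hu, hlu⟩ := hlow (min a 1) hc
  refine ⟨u, hu, fun α hα => ?_⟩
  set w : (Cfg dc) → F := fun x => ∑ j, α j • u j x with hw
  have hwi : S.Inv w := Inv_sum S Finset.univ α hu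
  have h1 : ∑ β, nsq (S.Qm m β w) < min a 1 * nsq w := hlu α hα
  have h2 := hch m m' w hwi.1
  have h3 := hcoer m hm hmb w hwi.1
  have hn : 0 ≤ nsq w := nsq_nonneg w
  have hg : 0 ≤ ∑ i, ∑ A, nsq (pd i A w) :=
    Finset.sum_nonneg fun i _ => Finset.sum_nonneg fun A _ => nsq_nonneg _
  have hpos : 0 < nsq w := by
    by_contra hneg
    have h0 : nsq w = 0 := le_antisymm (not_lt.mp hneg) hn
    rw [h0, mul_zero] at h1
    exact absurd h1 (not_lt.mpr (Finset.sum_nonneg fun β _ => nsq_nonneg _))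
  have h4 : ∑ β, nsq (S.Qm m β w) ≤ nsq w := by
    have : min a 1 * nsq w ≤ 1 * nsq w := mul_le_mul_of_nonneg_right (min_le_right _ _) hn
    linarith
  have h4' : ∑ β, nsq (S.Qm m β w) < a * nsq w := by
    have : min a 1 * nsq w ≤ a * nsq w := mul_le_mul_of_nonneg_right (min_le_left _ _) hn
    linarith
  have h5 : ∫ x, ‖x‖ ^ 2 * ‖w x‖ ^ 2 ≤ (C0 + 1) / c0 * nsq w := by
    rw [div_mul_eq_mul_div, le_div_iff₀ hc0]
    nlinarith
  have h6 : (m' - m) ^ 2 ≤ a / D := by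
    rw [← sq_abs]
    calc |m' - m| ^ 2 ≤ Real.sqrt (a / D) ^ 2 := by gcongr
      _ = a / D := Real.sq_sqrt (by positivity)
  have h7 : C1 * (m' - m) ^ 2 * ∫ x, ‖x‖ ^ 2 * ‖w x‖ ^ 2 ≤ a * nsq w := by
    have h8 : 0 ≤ ∫ x, ‖x‖ ^ 2 * ‖w x‖ ^ 2 := integral_nonneg fun x => by positivity
    calc C1 * (m' - m) ^ 2 * ∫ x, ‖x‖ ^ 2 * ‖w x‖ ^ 2
        ≤ C1 * (a / D) * ((C0 + 1) / c0 * nsq w) := by gcongr
      _ = (C1 * ((C0 + 1) / c0)) * (a / D) * nsq w := by ring
      _ ≤ D * (a / D) * nsq w := by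
          gcongr
          rw [hD]; linarith
      _ = a * nsq w := by field_simp
  calc ∑ β, nsq (S.Qm m' β w) ≤ 2 * ∑ β, nsq (S.Qm m β w) +
        C1 * (m' - m) ^ 2 * ∫ x, ‖x‖ ^ 2 * ‖w x‖ ^ 2 := h2
    _ < 8 * a * nsq w := by nlinarith
    _ ≤ 8 * m' * nsq w := by gcongr

end HB

/-- **Theorem B** -/
theorem thmB2_of [CompleteSpace F] (S : Setup dc F) (hA2 : A2Stmt S) (hA3 : A3Stmt S)
    (hG : CGapStmt S) (hW : WSStmt S) (hC : CoerStmt S) (N : ℕ) : ThmBStmt S N := by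
  -- `Low N m (8m)` gives `Low N m c` for all `c`
  have key : ∀ m : ℝ, 0 < m → S.Low N m (8 * m) → ∀ c : ℝ, 0 < c → S.Low N m c := by
    intro m hm hL c hc
    obtain ⟨Ψ, h1, h2, h3⟩ := HB.k_zm S hA2 hA3 hG hm hL
    have h4 : ∀ j, ∃ u : ℕ → (Cfg dc) → F, (∀ n, S.Inv (u n)) ∧ L2t u (Ψ j) ∧
        Tendsto (fun n => ∑ β, nsq (S.Qm m β (u n))) atTop (𝓝 0) := fun j =>
      hW m (Ψ j) (h1 j) (h2 j)
    choose u hu hl hq using h4
    exact HB.low_of_lim S hu hl hq h3 hc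
  intro m hm hL m' hm'
  have ha : 0 < min m m' := lt_min hm hm'
  obtain ⟨δ, hδ, hstep⟩ := HB.low_step S hC (k := N) (b := max m m') ha
  have hind : ∀ k : ℕ, ∀ r : ℝ, min m m' ≤ r → r ≤ max m m' → |r - m| ≤ k * δ →
      ∀ c : ℝ, 0 < c → S.Low N r c := by
    intro k
    induction k with
    | zero =>
      intro r _ _ h c hc
      have h0 : r = m := by
        rw [Nat.cast_zero, zero_mul] at h
        exact sub_eq_zero.mp (abs_nonpos_iff.mp h)
      rw [h0]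
      exact key m hm hL c hc
    | succ k ih =>
      intro r hr1 hr2 h c hc
      -- intermediate point
      set t : ℝ := (k : ℝ) / (k + 1) with ht
      have hk : (0 : ℝ) < k + 1 := by positivity
      have ht0 : 0 ≤ t := by positivity
      have ht1 : t ≤ 1 := by rw [ht, div_le_one hk]; linarith
      have hr0 : 0 < r := lt_of_lt_of_le ha hr1
      set s : ℝ := m + t * (r - m) with hs
      have hs1 : min m m' ≤ s := by
        have h1 : min m m' ≤ m := min_le_left _ _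
        have h2 : s = (1 - t) * m + t * r := by rw [hs]; ring
        rw [h2]
        nlinarith [mul_nonneg (sub_nonneg.mpr ht1) (sub_nonneg.mpr h1),
          mul_nonneg ht0 (sub_nonneg.mpr hr1)]
      have hs2 : s ≤ max m m' := by
        have h1 : m ≤ max m m' := le_max_left _ _
        have h2 : s = (1 - t) * m + t * r := by rw [hs]; ring
        rw [h2]
        nlinarith [mul_nonneg (sub_nonneg.mpr ht1) (sub_nonneg.mpr h1),
          mul_nonneg ht0 (sub_nonneg.mpr hr2)]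
      have h1 : |s - m| ≤ k * δ := by
        have : s - m = t * (r - m) := by rw [hs]; ring
        rw [this, abs_mul, abs_of_nonneg ht0]
        calc t * |r - m| ≤ t * (((k + 1 : ℕ) : ℝ) * δ) := by gcongr
          _ = k * δ := by rw [ht]; push_cast; field_simp
      have h2 : |r - s| ≤ δ := by
        have : r - s = (1 - t) * (r - m) := by rw [hs]; ring
        rw [this, abs_mul, abs_of_nonneg (sub_nonneg.mpr ht1)]
        calc (1 - t) * |r - m| ≤ (1 - t) * (((k + 1 : ℕ) : ℝ) * δ) := by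
              gcongr
          _ = δ := by rw [ht]; push_cast; field_simp; ring
      exact key r hr0 (hstep s r hs1 hs2 hr1 h2 (ih s hs1 hs2 h1)) c hc
  obtain ⟨k, hk⟩ := exists_nat_ge (|m' - m| / δ)
  refine hind k m' (min_le_right _ _) (le_max_right _ _) ?_
  rwa [div_le_iff₀ hδ] at hk


end Vale.Agent.P353.Z.U
end
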