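import Mathlib
import Vale.Agent.P353.BdZ.B2
import Vale.Agent.P353.BdZ.B4
import Vale.Agent.P353.BdZ.B6
import Vale.Agent.P353.BdZ.B3

set_option linter.all false

section

/-! # P353, general `N`: C-Sqr and C-Npos -/

open MeasureTheory Filter Topology
open scoped ContDiff

namespace Vale.Agent.P353.Z.U

variable {d : ℕ} {F : Type*} [NormedAddCommGroup F] [InnerProductSpace ℂ F]

/-! ### C-Sqr -/

/-- quadratic forms of symmetric operators -/
def NposIsQ (q : Cfg d → ℝ) : Prop :=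
  ∃ T : Cfg d →ₗ[ℝ] Cfg d, T.IsSymmetric ∧ ∀ x, inner ℝ x (T x) = q x

lemma nposIsQ_zero : NposIsQ (fun _ : Cfg d => (0 : ℝ)) :=
  ⟨0, fun x y => by simp, fun x => by simp⟩

lemma nposIsQ_add {p q : Cfg d → ℝ} (hp : NposIsQ p) (hq : NposIsQ q) :
    NposIsQ (fun x => p x + q x) := by
  obtain ⟨T, hT, hT'⟩ := hp
  obtain ⟨U, hU, hU'⟩ := hq
  refine ⟨T + U, hT.add hU, fun x => ?_⟩
  rw [LinearMap.add_apply, inner_add_right, hT', hU']

lemma nposIsQ_smul {q : Cfg d → ℝ} (c : ℝ) (hq : NposIsQ q) : NposIsQ (fun x => c * q x) := by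
  obtain ⟨U, hU, hU'⟩ := hq
  refine ⟨c • U, fun x y => ?_, fun x => ?_⟩
  · rw [LinearMap.smul_apply, LinearMap.smul_apply, real_inner_smul_left, real_inner_smul_right,
      hU x y]
  · rw [LinearMap.smul_apply, real_inner_smul_right, hU']

lemma nposIsQ_sum {ι : Type*} (s : Finset ι) {q : ι → Cfg d → ℝ} (hq : ∀ i ∈ s, NposIsQ (q i)) :
    NposIsQ (fun x => ∑ i ∈ s, q i x) := by
  classical
  induction s using Finset.induction_on with
  | empty => simpa using nposIsQ_zero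
  | insert a s ha ih =>
    simp only [Finset.sum_insert ha]
    exact nposIsQ_add (hq a (Finset.mem_insert_self a s))
      (ih fun i hi => hq i (Finset.mem_insert_of_mem hi))

lemma nposIsQ_sq (l : Cfg d →ₗ[ℝ] ℝ) : NposIsQ (fun x => l x ^ 2) := by
  set a : Cfg d := (InnerProductSpace.toDual ℝ (Cfg d)).symm (LinearMap.toContinuousLinearMap l)
    with ha
  have hl : ∀ x, l x = inner ℝ a x := fun x => by
    rw [ha, InnerProductSpace.toDual_symm_apply]; rfl
  refine ⟨l.smulRight a, fun x y => ?_, fun x => ?_⟩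
  · rw [LinearMap.smulRight_apply, LinearMap.smulRight_apply, real_inner_smul_left,
      real_inner_smul_right, real_inner_comm a x, ← hl, ← hl]
    ring
  · rw [LinearMap.smulRight_apply, real_inner_smul_right, real_inner_comm a x, ← hl]
    ring

lemma nposIsQ_ite {c : Prop} [Decidable c] (l : Cfg d →ₗ[ℝ] ℝ) :
    NposIsQ (fun x => if c then 0 else l x ^ 2) := by
  by_cases h : c
  · simpa [h] using nposIsQ_zero
  · simpa [h] using nposIsQ_sq l

lemma npos_root {q : Cfg d → ℝ} (hq : NposIsQ q) (h0 : ∀ x, 0 ≤ q x) :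
    ∃ K : Cfg d →L[ℝ] Cfg d, (∀ x y, inner ℝ (K x) y = inner ℝ x (K y)) ∧
      (∀ x, 0 ≤ inner ℝ x (K x)) ∧ ∀ x, ‖K x‖ ^ 2 = q x := by
  obtain ⟨T, hT, hT'⟩ := hq
  set b := hT.eigenvectorBasis (n := Module.finrank ℝ (Cfg d)) rfl with hb
  set lam := hT.eigenvalues (n := Module.finrank ℝ (Cfg d)) rfl with hlam
  have hTb : ∀ i, T (b i) = lam i • b i := fun i => by
    exact hT.apply_eigenvectorBasis (n := Module.finrank ℝ (Cfg d)) rfl i
  have hlam0 : ∀ i, 0 ≤ lam i := by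
    intro i
    have h1 := hT' (b i)
    rw [hTb, real_inner_smul_right, real_inner_self_eq_norm_sq, b.orthonormal.1 i] at h1
    have h2 := h0 (b i)
    linarith
  have hexp : ∀ x y : Cfg d, inner ℝ x y = ∑ i, inner ℝ (b i) x * inner ℝ (b i) y := by
    intro x y
    rw [← b.sum_inner_mul_inner x y]
    refine Finset.sum_congr rfl fun i _ => ?_
    rw [real_inner_comm]
  set K : Cfg d →L[ℝ] Cfg d := ∑ i, Real.sqrt (lam i) • ((innerSL ℝ (b i)).smulRight (b i)) with hK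
  have hKb : ∀ i x, inner ℝ (b i) (K x) = Real.sqrt (lam i) * inner ℝ (b i) x := by
    intro i x
    have h1 : K x = ∑ j, (Real.sqrt (lam j) * inner ℝ (b j) x) • b j := by
      rw [hK]
      simp [_root_.sum_apply, smul_smul]
    rw [h1, inner_sum]
    rw [Finset.sum_eq_single i]
    · rw [real_inner_smul_right, real_inner_self_eq_norm_sq, b.orthonormal.1 i]
      ring
    · intro j _ hj
      rw [real_inner_smul_right, b.orthonormal.2 (Ne.symm hj), mul_zero]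
    · simp
  refine ⟨K, fun x y => ?_, fun x => ?_, fun x => ?_⟩
  · rw [hexp, hexp]
    refine Finset.sum_congr rfl fun i _ => ?_
    rw [hKb, hKb]
    ring
  · rw [hexp]
    refine Finset.sum_nonneg fun i _ => ?_
    rw [hKb]
    have : inner ℝ (b i) x * (Real.sqrt (lam i) * inner ℝ (b i) x) =
      Real.sqrt (lam i) * inner ℝ (b i) x ^ 2 := by ring
    rw [this]
    positivity
  · rw [← real_inner_self_eq_norm_sq, hexp, ← hT', hexp]
    refine Finset.sum_congr rfl fun i _ => ?_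
    rw [hKb, ← hT (b i) x, hTb, real_inner_smul_left]
    have := Real.sq_sqrt (hlam0 i)
    calc Real.sqrt (lam i) * inner ℝ (b i) x * (Real.sqrt (lam i) * inner ℝ (b i) x)
        = Real.sqrt (lam i) ^ 2 * (inner ℝ (b i) x * inner ℝ (b i) x) := by ring
      _ = _ := by rw [this]; ring

/-- `LF` as a linear map -/
noncomputable def nposLF (S : Setup d F) (ξ : Cfg d) (A : Fin d) (i j : Fin 9) :
    Cfg d →ₗ[ℝ] ℝ where
  toFun := S.LF ξ A i j
  map_add' x y := by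
    simp only [Setup.LF, PiLp.add_apply]
    rw [← mul_add, ← Finset.sum_add_distrib]
    congr 1
    refine Finset.sum_congr rfl fun B _ => ?_
    rw [← Finset.sum_add_distrib]
    refine Finset.sum_congr rfl fun C _ => ?_
    ring
  map_smul' c x := by
    simp only [Setup.LF, PiLp.smul_apply, smul_eq_mul, RingHom.id_apply]
    simp only [Finset.mul_sum]
    refine Finset.sum_congr rfl fun B _ => Finset.sum_congr rfl fun C _ => ?_
    ring

/-- `LG` as a linear map -/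
noncomputable def nposLG (S : Setup d F) (ξ : Cfg d) (k : Fin 3) (A : Fin d) :
    Cfg d →ₗ[ℝ] ℝ :=
  nposLF S ξ A (Setup.c3 (k + 1)) (Setup.c3 (k + 2)) +
    (2 : ℝ) • (EuclideanSpace.proj (Setup.c3 k, A) : Cfg d →L[ℝ] ℝ).toLinearMap

lemma nposIsQ_hq (S : Setup d F) (ξ : Cfg d) : NposIsQ (fun x => 2 * S.hq ξ x) := by
  unfold Setup.hq
  refine nposIsQ_smul 2 (nposIsQ_add (nposIsQ_add ?_ ?_) ?_)
  · refine nposIsQ_smul _ (nposIsQ_sum _ fun k _ => nposIsQ_sum _ fun A _ => ?_)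
    exact nposIsQ_sq (nposLG S ξ k A)
  · refine nposIsQ_smul _ (nposIsQ_sum _ fun i _ => nposIsQ_sum _ fun A _ => ?_)
    exact nposIsQ_ite (EuclideanSpace.proj (i, A) : Cfg d →L[ℝ] ℝ).toLinearMap
  · refine nposIsQ_smul _ (nposIsQ_sum _ fun i _ => nposIsQ_sum _ fun j _ =>
      nposIsQ_sum _ fun A _ => ?_)
    exact nposIsQ_ite (nposLF S ξ A i j)

lemma npos_hq_nonneg (S : Setup d F) (ξ x : Cfg d) : 0 ≤ S.hq ξ x := by
  unfold Setup.hq
  have h1 : 0 ≤ ∑ k, ∑ A, S.LG ξ k A x ^ 2 :=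
    Finset.sum_nonneg fun k _ => Finset.sum_nonneg fun A _ => sq_nonneg _
  have h2 : 0 ≤ ∑ i : Fin 9, ∑ A, if i.val < 3 then 0 else x (i, A) ^ 2 :=
    Finset.sum_nonneg fun k _ => Finset.sum_nonneg fun A _ => by split_ifs <;> positivity
  have h3 : 0 ≤ ∑ i : Fin 9, ∑ j : Fin 9, ∑ A,
      if i.val < 3 ∧ j.val < 3 then 0 else S.LF ξ A i j x ^ 2 :=
    Finset.sum_nonneg fun k _ => Finset.sum_nonneg fun A _ => Finset.sum_nonneg fun A _ => by
      split_ifs <;> positivity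
  linarith

/-- **C-Sqr** -/
theorem sqr (S : Setup d F) : SqrStmt S := by
  intro ξ
  obtain ⟨K, h1, h2, h3⟩ := npos_root (nposIsQ_hq S ξ)
    (fun x => by have := npos_hq_nonneg S ξ x; positivity)
  exact ⟨K, h1, h2, h3⟩

/-! ### C-Npos -/

/-- the Gaussian `exp(-½⟨x,Kx⟩)` -/
noncomputable def nposE (K : Cfg d →L[ℝ] Cfg d) (x : Cfg d) : ℝ :=
  Real.exp (-(1 / 2) * inner ℝ x (K x))

lemma nposE_pos (K : Cfg d →L[ℝ] Cfg d) (x : Cfg d) : 0 < nposE K x := Real.exp_pos _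

lemma nposE_contDiff (K : Cfg d →L[ℝ] Cfg d) : ContDiff ℝ ∞ (nposE K) :=
  Real.contDiff_exp.comp (contDiff_const.mul (contDiff_id.inner ℝ K.contDiff))

lemma nposE_le_one {K : Cfg d →L[ℝ] Cfg d} (hK : ∀ x, 0 ≤ inner ℝ x (K x)) (x : Cfg d) :
    nposE K x ≤ 1 := by
  rw [nposE, Real.exp_le_one_iff]
  have := hK x
  linarith

lemma nposE_fderiv {K : Cfg d →L[ℝ] Cfg d} (hK : ∀ x y, inner ℝ (K x) y = inner ℝ x (K y))
    (x : Cfg d) (i : Fin 9) (A : Fin d) :
    fderiv ℝ (nposE K) x (EuclideanSpace.single (i, A) 1) = - nposE K x * K x (i, A) := by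
  have h1 : HasFDerivAt (fun y : Cfg d => inner ℝ y (K y))
      ((fderivInnerCLM ℝ (x, K x)).comp ((ContinuousLinearMap.id ℝ (Cfg d)).prod K)) x :=
    (hasFDerivAt_id x).inner ℝ K.hasFDerivAt
  have h2 := (h1.const_mul (-(1 / 2))).exp
  have h3 : fderiv ℝ (nposE K) x = _ := h2.fderiv
  rw [h3]
  have e1 : inner ℝ x (K (EuclideanSpace.single (i, A) 1)) = K x (i, A) := by
    rw [← hK, EuclideanSpace.inner_single_right]; simp
  have e2 : inner ℝ (EuclideanSpace.single (i, A) (1 : ℝ)) (K x) = K x (i, A) := by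
    rw [EuclideanSpace.inner_single_left]; simp
  simp [fderivInnerCLM_apply, e1, e2, nposE]
  ring

/-- local Gaussian masses -/
noncomputable def nposI (K : Cfg d →L[ℝ] Cfg d) (R : ℝ) : ℝ :=
  ∫ x in Metric.closedBall (0 : Cfg d) R, nposE K x ^ 2

lemma nposE_sq_cont (K : Cfg d →L[ℝ] Cfg d) : Continuous (fun x => nposE K x ^ 2) :=
  (nposE_contDiff K).continuous.pow 2

lemma nposE_sq_intOn (K : Cfg d →L[ℝ] Cfg d) (R : ℝ) :
    IntegrableOn (fun x => nposE K x ^ 2) (Metric.closedBall (0 : Cfg d) R) :=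
  (nposE_sq_cont K).continuousOn.integrableOn_compact (isCompact_closedBall _ _)

lemma nposI_pos (K : Cfg d →L[ℝ] Cfg d) {R : ℝ} (hR : 0 < R) : 0 < nposI K R := by
  rw [nposI, setIntegral_pos_iff_support_of_nonneg_ae
    (Eventually.of_forall fun x => sq_nonneg _) (nposE_sq_intOn K R)]
  have h1 : Function.support (fun x => nposE K x ^ 2) = Set.univ := by
    ext x
    simp [(nposE_pos K x).ne']
  rw [h1, Set.univ_inter]
  exact Metric.measure_closedBall_pos _ _ hR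

lemma nposI_le {K : Cfg d →L[ℝ] Cfg d} (hK : ∀ x, 0 ≤ inner ℝ x (K x)) :
    ∃ c : ℝ, 0 ≤ c ∧ ∀ R : ℝ, 0 < R → nposI K R ≤ c * R ^ (9 * d) := by
  refine ⟨(volume (Metric.ball (0 : Cfg d) 1)).toReal, ENNReal.toReal_nonneg, fun R hR => ?_⟩
  have h1 : nposI K R ≤ ∫ x in Metric.closedBall (0 : Cfg d) R, (1 : ℝ) := by
    refine setIntegral_mono_on (nposE_sq_intOn K R) ?_ measurableSet_closedBall fun x _ => ?_
    · exact continuousOn_const.integrableOn_compact (isCompact_closedBall _ _)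
    · have h2 := nposE_le_one hK x
      have h3 := (nposE_pos K x).le
      nlinarith
  refine h1.trans (le_of_eq ?_)
  rw [setIntegral_const, smul_eq_mul, mul_one, Measure.real,
    Measure.addHaar_closedBall _ _ hR.le, ENNReal.toReal_mul, ENNReal.toReal_ofReal (by positivity)]
  have : Module.finrank ℝ (Cfg d) = 9 * d := by simp
  rw [this]
  ring

lemma npos_growth {I : ℝ → ℝ} {c C ν : ℝ} {n : ℕ} (hν : 0 < ν) (hC : 0 ≤ C)
    (hI : ∀ R, 0 < R → 0 < I R) (hle : ∀ R, 0 < R → I R ≤ c * R ^ n)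
    (h : ∀ R, 0 < R → ν * I R ≤ C / R ^ 2 * I (2 * R)) : False := by
  set R₀ : ℝ := 1 + C / ν * 2 ^ (n + 1) with hR₀
  have hCν : 0 ≤ C / ν * 2 ^ (n + 1) := by positivity
  have hR1 : 1 ≤ R₀ := by linarith
  have hstep : ∀ R, R₀ ≤ R → I R * 2 ^ (n + 1) ≤ I (2 * R) := by
    intro R hR
    have hRpos : 0 < R := by linarith
    have h1 := h R hRpos
    have h2 := hI (2 * R) (by linarith)
    have h3 : C * 2 ^ (n + 1) ≤ ν * R ^ 2 := by
      have h4 : C / ν * 2 ^ (n + 1) ≤ R ^ 2 := by nlinarith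
      calc C * 2 ^ (n + 1) = ν * (C / ν * 2 ^ (n + 1)) := by field_simp
        _ ≤ ν * R ^ 2 := by gcongr
    have h5 : ν * I R * R ^ 2 ≤ C * I (2 * R) := by
      have : C / R ^ 2 * I (2 * R) = C * I (2 * R) / R ^ 2 := by ring
      rw [this, le_div_iff₀ (by positivity)] at h1
      exact h1
    have h6 : ν * R ^ 2 * (I R * 2 ^ (n + 1)) ≤ ν * R ^ 2 * I (2 * R) := by
      calc ν * R ^ 2 * (I R * 2 ^ (n + 1)) = (ν * I R * R ^ 2) * 2 ^ (n + 1) := by ring
        _ ≤ (C * I (2 * R)) * 2 ^ (n + 1) := by gcongr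
        _ = (C * 2 ^ (n + 1)) * I (2 * R) := by ring
        _ ≤ ν * R ^ 2 * I (2 * R) := by gcongr
    exact le_of_mul_le_mul_left h6 (by positivity)
  have hit : ∀ j : ℕ, I R₀ * (2 ^ (n + 1)) ^ j ≤ I (2 ^ j * R₀) := by
    intro j
    induction j with
    | zero => simp
    | succ j ih =>
      have h1 := hstep (2 ^ j * R₀) (by
        have : (1 : ℝ) ≤ 2 ^ j := one_le_pow₀ (by norm_num)
        nlinarith)
      calc I R₀ * (2 ^ (n + 1)) ^ (j + 1) = (I R₀ * (2 ^ (n + 1)) ^ j) * 2 ^ (n + 1) := by ring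
        _ ≤ I (2 ^ j * R₀) * 2 ^ (n + 1) := by gcongr
        _ ≤ I (2 * (2 ^ j * R₀)) := h1
        _ = I (2 ^ (j + 1) * R₀) := by ring_nf
  have hpos := hI R₀ (by linarith)
  obtain ⟨j, hj⟩ := pow_unbounded_of_one_lt (c * R₀ ^ n / I R₀) (one_lt_two (α := ℝ))
  rw [div_lt_iff₀ hpos] at hj
  have h1 := (hit j).trans (hle (2 ^ j * R₀) (by positivity))
  have h2 : I R₀ * (2 ^ (n + 1)) ^ j = (2 ^ j) ^ n * (2 ^ j * I R₀) := by
    have e : ((2 : ℝ) ^ (n + 1)) ^ j = (2 ^ j) ^ n * 2 ^ j := by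
      rw [← pow_mul, ← pow_mul, ← pow_add]
      congr 1
      ring
    rw [e]
    ring
  have h3 : c * (2 ^ j * R₀) ^ n = (2 ^ j) ^ n * (c * R₀ ^ n) := by
    rw [mul_pow, mul_left_comm]
  rw [h2, h3] at h1
  have h4 := le_of_mul_le_mul_left h1 (by positivity)
  linarith

lemma npos_pdr_zero {K R : ℝ} {χ : Cfg d → ℝ} (hχ : IsCut K R χ) (i : Fin 9) (A : Fin d)
    {x : Cfg d} (hx : 2 * R < ‖x‖) : pdr i A χ x = 0 := by
  have h1 : χ =ᶠ[𝓝 x] fun _ => 0 := by
    have : {y : Cfg d | 2 * R < ‖y‖} ∈ 𝓝 x :=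
      (isOpen_lt continuous_const continuous_norm).mem_nhds hx
    filter_upwards [this] with y hy
    exact hχ.2.2.2.2.2.1 y (le_of_lt hy)
  rw [pdr, h1.fderiv_eq]
  simp

lemma npos_pdr_sq {K₀ R : ℝ} (hR : 0 < R) {χ : Cfg d → ℝ} (hχ : IsCut K₀ R χ)
    (i : Fin 9) (A : Fin d) (x : Cfg d) : pdr i A χ x ^ 2 ≤ (K₀ / R) ^ 2 := by
  by_cases h : ‖x‖ < R
  · rw [hχ.2.2.2.2.2.2.2 i A x h]
    simp only [ne_eq, OfNat.ofNat_ne_zero, not_false_eq_true, zero_pow]
    positivity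
  · push Not at h
    rw [← sq_abs]
    have h1 := hχ.2.2.2.2.2.2.1 i A x
    have h2 : |pdr i A χ x| ≤ K₀ / R := by
      rw [le_div_iff₀ hR]
      exact (mul_le_mul_of_nonneg_left h (abs_nonneg _)).trans h1
    gcongr

/-- **C-Npos** -/
theorem npos (S : Setup d F) (hEn : EnStmt S) : NposStmt S := by
  intro ξ K hξ hK η
  by_contra hneg
  push Not at hneg
  obtain ⟨K₀, hK₀, hcut⟩ := exists_cut (d := d)
  obtain ⟨c, hc, hle⟩ := nposI_le hK.pos
  set ν : ℝ := -(inner ℂ η (S.Nx (trK K) ξ η)).re with hν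
  have hν0 : 0 < ν := by linarith
  refine npos_growth (I := nposI K) (c := c) (C := (9 * d) * (K₀ ^ 2 * ‖η‖ ^ 2) / 2) (ν := ν)
    (n := 9 * d) hν0 (by positivity) (fun R hR => nposI_pos K hR) hle fun R hR => ?_
  obtain ⟨χ, hχ⟩ := hcut R hR
  set v : Cfg d → F := fun x => ((χ x * nposE K x : ℝ) : ℂ) • η with hv
  have hprod : ContDiff ℝ ∞ (fun x => χ x * nposE K x) := hχ.1.mul (nposE_contDiff K)
  have hsuppP : HasCompactSupport (fun x => χ x * nposE K x) := hχ.2.1.mul_right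
  have htst : Setup.Tst v := by
    refine ⟨(Setup.contDiff_ofReal hprod).smul contDiff_const, ?_⟩
    refine hsuppP.mono fun x hx => ?_
    rw [Function.mem_support] at hx ⊢
    intro h0
    apply hx
    change ((χ x * nposE K x : ℝ) : ℂ) • η = 0
    rw [h0]; simp
  have hpd : ∀ i A, (fun x => pd i A v x + ((K x (i, A) : ℝ) : ℂ) • v x) =
      fun x => ((pdr i A χ x * nposE K x : ℝ) : ℂ) • η := by
    intro i A
    funext x
    have h1 : pd i A v x =
        ((fderiv ℝ (fun y => χ y * nposE K y) x (EuclideanSpace.single (i, A) 1) : ℝ) : ℂ) • η := by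
      rw [hv, pd_rsmul (hprod.differentiable (by simp) x) (differentiableAt_const η)]
      have : pd i A (fun _ : Cfg d => η) x = 0 := by simp [pd]
      rw [this, smul_zero, add_zero]
    have h2 : fderiv ℝ (fun y => χ y * nposE K y) x (EuclideanSpace.single (i, A) 1) =
        pdr i A χ x * nposE K x - K x (i, A) * (χ x * nposE K x) := by
      rw [fderiv_fun_mul (hχ.1.differentiable (by simp) x)
        ((nposE_contDiff K).differentiable (by simp) x)]
      simp only [_root_.add_apply, _root_.smul_apply, smul_eq_mul,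
        nposE_fderiv hK.symm, pdr]
      ring
    rw [h1, h2, hv, smul_smul, ← add_smul, ← Complex.ofReal_mul, ← Complex.ofReal_add]
    congr 2
    ring
  have hnsq : ∀ i A, nsq (fun x => pd i A v x + ((K x (i, A) : ℝ) : ℂ) • v x) ≤
      (K₀ / R) ^ 2 * ‖η‖ ^ 2 * nposI K (2 * R) := by
    intro i A
    rw [hpd, nsq, nposI, ← integral_const_mul, ← integral_indicator measurableSet_closedBall]
    refine integral_mono_of_nonneg (Eventually.of_forall fun x => by positivity) ?_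
      (Eventually.of_forall fun x => ?_)
    · refine IntegrableOn.integrable_indicator ?_ measurableSet_closedBall
      exact (nposE_sq_intOn K (2 * R)).const_mul _
    · beta_reduce
      rw [norm_smul, Complex.norm_real, Real.norm_eq_abs, mul_pow, sq_abs, mul_pow]
      by_cases hx : x ∈ Metric.closedBall (0 : Cfg d) (2 * R)
      · rw [Set.indicator_of_mem hx]
        have h1 := npos_pdr_sq hR hχ i A x
        calc pdr i A χ x ^ 2 * nposE K x ^ 2 * ‖η‖ ^ 2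
            ≤ (K₀ / R) ^ 2 * nposE K x ^ 2 * ‖η‖ ^ 2 := by gcongr
          _ = _ := by ring
      · rw [Set.indicator_of_notMem hx, npos_pdr_zero hχ i A]
        · simp
        · rw [Metric.mem_closedBall, dist_zero_right] at hx
          exact not_le.1 hx
  have hint : (∫ x, inner ℂ (v x) (S.Nx (trK K) ξ (v x))).re =
      -ν * ∫ x, (χ x * nposE K x) ^ 2 := by
    have h1 : ∀ x, inner ℂ (v x) (S.Nx (trK K) ξ (v x)) =
        (((χ x * nposE K x) ^ 2 : ℝ) : ℂ) * inner ℂ η (S.Nx (trK K) ξ η) := by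
      intro x
      rw [hv]
      simp only [map_smul, inner_smul_left, inner_smul_right, Complex.conj_ofReal]
      push_cast
      ring
    simp only [h1]
    rw [integral_mul_const, integral_complex_ofReal, Complex.re_ofReal_mul, hν]
    ring
  have hlow : nposI K R ≤ ∫ x, (χ x * nposE K x) ^ 2 := by
    rw [nposI, ← integral_indicator measurableSet_closedBall]
    refine integral_mono_of_nonneg (Eventually.of_forall fun x => ?_) ?_
      (Eventually.of_forall fun x => ?_)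
    · exact Set.indicator_nonneg (fun x _ => sq_nonneg _) x
    · refine (hprod.continuous.pow 2).integrable_of_hasCompactSupport ?_
      refine hsuppP.mono fun x hx => ?_
      rw [Function.mem_support] at hx ⊢
      intro h0
      apply hx
      change (χ x * nposE K x) ^ 2 = 0
      rw [show χ x * nposE K x = 0 from h0]
      simp
    · beta_reduce
      by_cases hx : x ∈ Metric.closedBall (0 : Cfg d) R
      · rw [Set.indicator_of_mem hx, hχ.2.2.2.2.1 x (by simpa using hx), one_mul]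
      · rw [Set.indicator_of_notMem hx]
        positivity
  have hE := hEn ξ K hξ hK v htst
  have h0 : 0 ≤ ∑ β, nsq (S.Qlin ξ β v) := Finset.sum_nonneg fun β _ => nsq_nonneg _
  have hsum : ∑ i : Fin 9, ∑ A : Fin d, nsq (fun x => pd i A v x + ((K x (i, A) : ℝ) : ℂ) • v x) ≤
      9 * d * ((K₀ / R) ^ 2 * ‖η‖ ^ 2 * nposI K (2 * R)) := by
    refine (Finset.sum_le_sum fun i _ => Finset.sum_le_sum fun A _ => hnsq i A).trans
      (le_of_eq ?_)
    simp
    ring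
  rw [hint] at hE
  have h5 : ν * nposI K R ≤ ν * ∫ x, (χ x * nposE K x) ^ 2 := by gcongr
  have h6 : (9 * d) * (K₀ ^ 2 * ‖η‖ ^ 2) / 2 / R ^ 2 * nposI K (2 * R) =
      9 * d * ((K₀ / R) ^ 2 * ‖η‖ ^ 2 * nposI K (2 * R)) / 2 := by
    field_simp
  rw [h6]
  linarith

end Vale.Agent.P353.Z.U
end

section

/-! # P353, general `N`: local Rellich theorem (B-LR) -/

open MeasureTheory Filter Topology
open scoped ContDiff

namespace Vale.Agent.P353.Z.U

variable {dc : ℕ}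

variable {F : Type*} [NormedAddCommGroup F] [InnerProductSpace ℂ F]

namespace Rl

open FD

/-- Poincaré inequality on cells. -/
lemma poincare [CompleteSpace F] {ι : Type*} [Fintype ι] {v : EuclideanSpace ℝ ι → F}
    (hv : ContDiff ℝ 1 v) (hvs : HasCompactSupport v) {δ : ℝ} (hδ : 0 < δ) (K : Finset (ι → ℤ))
    (hK : ∀ x, x ∉ (⋃ k ∈ K, (cell δ k : Set (EuclideanSpace ℝ ι))) → v x = 0) :
    ∫ x, ‖v x‖ ^ 2 ≤ 2 * (2 ^ Fintype.card ι * (Fintype.card ι * δ ^ 2)) *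
      (∫ x, ‖fderiv ℝ v x‖ ^ 2) +
      2 * ∑ k ∈ K, (δ ^ Fintype.card ι)⁻¹ * ‖∫ x in cell δ k, v x‖ ^ 2 := by
  have hvL : MemLp v 2 (volume : Measure (EuclideanSpace ℝ ι)) :=
    hv.continuous.memLp_of_hasCompactSupport hvs
  have hvi : Integrable v := hv.continuous.integrable_of_hasCompactSupport hvs
  have hv2 : Integrable (fun x => ‖v x‖ ^ 2) := (memLp_two_iff_integrable_sq_norm hvL.1).mp hvL
  have hDv : Integrable (fun x => ‖fderiv ℝ v x‖ ^ 2) := by
    refine ((hv.continuous_fderiv (by simp)).norm.pow 2).integrable_of_hasCompactSupport ?_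
    have h1 : HasCompactSupport (fderiv ℝ v) := hvs.fderiv (𝕜 := ℝ)
    refine h1.mono ?_
    intro x hx
    simp only [Function.mem_support] at hx ⊢
    intro h2
    exact hx (by simp [h2])
  have hfin : ∀ k : ι → ℤ,
      IsFiniteMeasure (volume.restrict (cell δ k : Set (EuclideanSpace ℝ ι))) := by
    intro k
    refine ⟨?_⟩
    rw [Measure.restrict_apply_univ, volume_cell]
    exact ENNReal.pow_lt_top ENNReal.ofReal_lt_top
  have hvol : ∀ k : ι → ℤ, (volume (cell δ k : Set (EuclideanSpace ℝ ι))).toReal =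
      δ ^ Fintype.card ι := by
    intro k
    rw [volume_cell, ENNReal.toReal_pow, ENNReal.toReal_ofReal hδ.le]
  have hδd : 0 < δ ^ Fintype.card ι := pow_pos hδ _
  let c : (ι → ℤ) → F := fun k => (volume (cell δ k : Set (EuclideanSpace ℝ ι))).toReal⁻¹ •
    ∫ y in cell δ k, v y
  have hcL : ∀ k : ι → ℤ, MemLp (fun x => v x - c k) 2
      (volume.restrict (cell δ k : Set (EuclideanSpace ℝ ι))) := by
    intro k
    have := hfin k
    exact (hvL.restrict _).sub (memLp_const _)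
  have hc2 : ∀ k : ι → ℤ, Integrable (fun x => ‖v x - c k‖ ^ 2)
      (volume.restrict (cell δ k : Set (EuclideanSpace ℝ ι))) := fun k =>
    (memLp_two_iff_integrable_sq_norm (hcL k).1).mp (hcL k)
  have hbound : ∑ k ∈ K, ∫ x in cell δ k, ‖v x - c k‖ ^ 2 ≤
      2 ^ Fintype.card ι * (Fintype.card ι * δ ^ 2) * ∫ x, ‖fderiv ℝ v x‖ ^ 2 := by
    have h1 := cells_bound hv hvi hδ K
    have h2 : ∀ k ∈ K, ∫⁻ x in cell δ k, ‖v x - (volume (cell δ k)).toReal⁻¹ •
        ∫ y in cell δ k, v y‖ₑ ^ 2 = ENNReal.ofReal (∫ x in cell δ k, ‖v x - c k‖ ^ 2) := by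
      intro k _
      exact lint_eq (hc2 k)
    rw [Finset.sum_congr rfl h2, ← ENNReal.ofReal_sum_of_nonneg
      (fun k _ => integral_nonneg fun x => by positivity)] at h1
    have h3 : ∫⁻ x, ‖fderiv ℝ v x‖ₑ ^ 2 = ENNReal.ofReal (∫ x, ‖fderiv ℝ v x‖ ^ 2) := lint_eq hDv
    rw [h3, ← ENNReal.ofReal_mul (by positivity)] at h1
    exact (ENNReal.ofReal_le_ofReal_iff (by positivity)).mp h1
  have h1 : ∫ x, ‖v x‖ ^ 2 = ∑ k ∈ K, ∫ x in cell δ k, ‖v x‖ ^ 2 := by
    rw [← integral_biUnion_finset K (fun k _ => measurableSet_cell δ k)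
      (fun k _ l _ hkl => cell_disjoint hδ hkl) (fun k _ => hv2.integrableOn)]
    symm
    refine setIntegral_eq_integral_of_forall_compl_eq_zero fun x hx => ?_
    rw [hK x hx]; simp
  have h2 : ∀ k ∈ K, ∫ x in cell δ k, ‖v x‖ ^ 2 ≤ 2 * (∫ x in cell δ k, ‖v x - c k‖ ^ 2) +
      2 * ((δ ^ Fintype.card ι)⁻¹ * ‖∫ x in cell δ k, v x‖ ^ 2) := by
    intro k hk
    have := hfin k
    have e1 : (δ ^ Fintype.card ι)⁻¹ * ‖∫ x in cell δ k, v x‖ ^ 2 =
        ∫ _x in cell δ k, ‖c k‖ ^ 2 := by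
      rw [setIntegral_const, Measure.real, hvol k]
      simp only [c, norm_smul, norm_inv, hvol k, Real.norm_of_nonneg hδd.le, smul_eq_mul, mul_pow]
      field_simp
    rw [e1, ← integral_const_mul, ← integral_const_mul, ← integral_add
      ((hc2 k).const_mul 2) ((integrable_const _).const_mul 2)]
    refine integral_mono hv2.integrableOn
      (((hc2 k).const_mul 2).add ((integrable_const _).const_mul 2)) fun x => ?_
    have h3 : ‖v x‖ ≤ ‖v x - c k‖ + ‖c k‖ := by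
      simpa using norm_add_le (v x - c k) (c k)
    have h4 : ‖v x‖ ^ 2 ≤ (‖v x - c k‖ + ‖c k‖) ^ 2 := by gcongr
    simp only
    nlinarith [sq_nonneg (‖v x - c k‖ - ‖c k‖)]
  rw [h1]
  refine (Finset.sum_le_sum h2).trans ?_
  rw [Finset.sum_add_distrib, ← Finset.mul_sum, ← Finset.mul_sum]
  nlinarith [hbound]

lemma opNorm_sq_le (L : (Cfg dc) →L[ℝ] F) :
    ‖L‖ ^ 2 ≤ ∑ i, ∑ A, ‖L (EuclideanSpace.single (i, A) 1)‖ ^ 2 := by
  have h0 : 0 ≤ ∑ i, ∑ A, ‖L (EuclideanSpace.single (i, A) 1)‖ ^ 2 := by positivity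
  have h1 : ‖L‖ ≤ Real.sqrt (∑ i, ∑ A, ‖L (EuclideanSpace.single (i, A) 1)‖ ^ 2) := by
    refine L.opNorm_le_bound (Real.sqrt_nonneg _) fun x => ?_
    have hx : x = ∑ p : Fin 9 × Fin dc, x p • (EuclideanSpace.single p (1 : ℝ) : (Cfg dc)) := by
      ext q
      simp only [WithLp.ofLp_sum, Finset.sum_apply, WithLp.ofLp_smul, Pi.smul_apply,
        PiLp.single_apply, smul_eq_mul, mul_ite, mul_one, mul_zero]
      simp
    have h2 : L x = ∑ p : Fin 9 × Fin dc, x p • L (EuclideanSpace.single p (1 : ℝ) : (Cfg dc)) := by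
      conv_lhs => rw [hx]
      rw [map_sum]
      simp only [map_smul]
    have h3 : ‖L x‖ ≤ ∑ p : Fin 9 × Fin dc, |x p| * ‖L (EuclideanSpace.single p (1 : ℝ) : (Cfg dc))‖ := by
      rw [h2]
      refine (norm_sum_le _ _).trans (Finset.sum_le_sum fun p _ => ?_)
      rw [norm_smul, Real.norm_eq_abs]
    have h4 := Finset.sum_mul_sq_le_sq_mul_sq (Finset.univ : Finset (Fin 9 × Fin dc))
      (fun p => |x p|) (fun p => ‖L (EuclideanSpace.single p (1 : ℝ) : (Cfg dc))‖)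
    have h5 : ∑ p : Fin 9 × Fin dc, |x p| ^ 2 = ‖x‖ ^ 2 := by
      rw [EuclideanSpace.norm_sq_eq]
      simp
    have h6 : ∑ p : Fin 9 × Fin dc, ‖L (EuclideanSpace.single p (1 : ℝ) : (Cfg dc))‖ ^ 2 =
        ∑ i, ∑ A, ‖L (EuclideanSpace.single (i, A) 1)‖ ^ 2 := by
      rw [Fintype.sum_prod_type]
    rw [h5, h6] at h4
    have h7 : 0 ≤ ∑ p : Fin 9 × Fin dc, |x p| * ‖L (EuclideanSpace.single p (1 : ℝ) : (Cfg dc))‖ := by
      positivity
    refine h3.trans ?_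
    rw [← Real.sqrt_sq h7, ← Real.sqrt_sq (norm_nonneg x), ← Real.sqrt_mul h0]
    refine Real.sqrt_le_sqrt ?_
    linarith
  calc ‖L‖ ^ 2 ≤ (Real.sqrt (∑ i, ∑ A, ‖L (EuclideanSpace.single (i, A) 1)‖ ^ 2)) ^ 2 := by
        gcongr
    _ = _ := Real.sq_sqrt h0

lemma sq_add_le (a b : ℝ) : (a + b) ^ 2 ≤ 2 * a ^ 2 + 2 * b ^ 2 := by
  nlinarith [sq_nonneg (a - b)]

omit [InnerProductSpace ℂ F] in
lemma sq_sub_le (a b : F) : ‖a - b‖ ^ 2 ≤ 2 * ‖a‖ ^ 2 + 2 * ‖b‖ ^ 2 := by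
  have h1 : ‖a - b‖ ^ 2 ≤ (‖a‖ + ‖b‖) ^ 2 := by
    gcongr; exact norm_sub_le _ _
  exact h1.trans (sq_add_le _ _)

lemma int_ball {f : (Cfg dc) → ℝ} (hf : Continuous f) (r : ℝ) :
    IntegrableOn f (Metric.ball (0 : (Cfg dc)) r) :=
  (hf.continuousOn.integrableOn_compact (isCompact_closedBall (0 : (Cfg dc)) r)).mono_set
    Metric.ball_subset_closedBall

/-- the localized functions -/
lemma loc_bound {χ : (Cfg dc) → ℝ} (hχ : ContDiff ℝ ∞ χ) (hχs : HasCompactSupport χ)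
    (hχ0 : ∀ x, 0 ≤ χ x) (hχ1 : ∀ x, χ x ≤ 1) {r : ℝ} (hr : ∀ x, r ≤ ‖x‖ → χ x = 0) :
    ∃ C : ℝ, 0 ≤ C ∧ ∀ u : (Cfg dc) → F, ContDiff ℝ ∞ u →
      ((∫ x, ‖χ x • u x‖ ^ 2) ≤ ∫ x in Metric.ball (0 : (Cfg dc)) r, ‖u x‖ ^ 2) ∧
      (∫ x, ‖fderiv ℝ (fun y => χ y • u y) x‖ ^ 2) ≤
        C * (∫ x in Metric.ball (0 : (Cfg dc)) r, ‖u x‖ ^ 2) +
        2 * ∑ i, ∑ A, ∫ x in Metric.ball (0 : (Cfg dc)) r, ‖pd i A u x‖ ^ 2 := by
  have hχd : Continuous (fderiv ℝ χ) := hχ.continuous_fderiv (by simp)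
  obtain ⟨M, hM⟩ := (hχs.fderiv (𝕜 := ℝ)).exists_bound_of_continuous hχd
  have hM0 : 0 ≤ M := (norm_nonneg _).trans (hM 0)
  have hnot : ∀ x : (Cfg dc), x ∉ Metric.ball (0 : (Cfg dc)) r → r ≤ ‖x‖ := by
    intro x hx
    rw [Metric.mem_ball, dist_zero_right, not_lt] at hx
    exact hx
  refine ⟨2 * M ^ 2, by positivity, fun u hu => ⟨?_, ?_⟩⟩
  · rw [← setIntegral_eq_integral_of_forall_compl_eq_zero (s := Metric.ball (0 : (Cfg dc)) r)
      (fun x hx => by rw [hr x (hnot x hx)]; simp)]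
    refine setIntegral_mono (int_ball ((hχ.continuous.smul hu.continuous).norm.pow 2) r)
      (int_ball (hu.continuous.norm.pow 2) r) fun x => ?_
    simp only
    rw [norm_smul, mul_pow, Real.norm_of_nonneg (hχ0 x)]
    have h1 : χ x ^ 2 ≤ 1 := by
      have := hχ0 x; have := hχ1 x; nlinarith
    nlinarith [sq_nonneg ‖u x‖]
  · have hud : Continuous (fderiv ℝ u) := hu.continuous_fderiv (by simp)
    have hprod : ContDiff ℝ ∞ (fun y => χ y • u y) := hχ.smul hu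
    have hpc : Continuous (fderiv ℝ (fun y => χ y • u y)) := hprod.continuous_fderiv (by simp)
    have hder : ∀ x, fderiv ℝ (fun y => χ y • u y) x =
        χ x • fderiv ℝ u x + (fderiv ℝ χ x).smulRight (u x) := by
      intro x
      exact fderiv_smul ((hχ.differentiable (by simp)) x) ((hu.differentiable (by simp)) x)
    have hz : ∀ x, x ∉ Metric.ball (0 : (Cfg dc)) r →
        ‖fderiv ℝ (fun y => χ y • u y) x‖ ^ 2 = 0 := by
      intro x hx
      have h1 := hr x (hnot x hx)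
      have h2 : fderiv ℝ χ x = 0 := by
        apply IsLocalMin.fderiv_eq_zero
        refine Filter.Eventually.of_forall fun y => ?_
        rw [h1]; exact hχ0 y
      rw [hder, h1, h2]
      simp
    rw [← setIntegral_eq_integral_of_forall_compl_eq_zero (s := Metric.ball (0 : (Cfg dc)) r) hz]
    have hpd : ∀ i A, Continuous (fun x => ‖pd i A u x‖ ^ 2) := fun i A =>
      (hud.clm_apply continuous_const).norm.pow 2
    have hsum : ∑ i, ∑ A, ∫ x in Metric.ball (0 : (Cfg dc)) r, ‖pd i A u x‖ ^ 2 =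
        ∫ x in Metric.ball (0 : (Cfg dc)) r, ∑ i, ∑ A, ‖pd i A u x‖ ^ 2 := by
      rw [integral_finsetSum _ fun i _ => integrable_finsetSum _ fun A _ => int_ball (hpd i A) r]
      refine Finset.sum_congr rfl fun i _ => ?_
      rw [integral_finsetSum _ fun A _ => int_ball (hpd i A) r]
    have hi1 : IntegrableOn (fun x => ‖u x‖ ^ 2) (Metric.ball (0 : (Cfg dc)) r) :=
      int_ball (hu.continuous.norm.pow 2) r
    have hi2 : IntegrableOn (fun x => ∑ i, ∑ A, ‖pd i A u x‖ ^ 2) (Metric.ball (0 : (Cfg dc)) r) :=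
      int_ball (continuous_finsetSum _ fun i _ => continuous_finsetSum _ fun A _ => hpd i A) r
    rw [hsum, ← integral_const_mul, ← integral_const_mul, ← integral_add (hi1.const_mul _)
      (hi2.const_mul _)]
    refine setIntegral_mono (int_ball (hpc.norm.pow 2) r) ((hi1.const_mul _).add (hi2.const_mul _))
      fun x => ?_
    have h1 : ‖fderiv ℝ (fun y => χ y • u y) x‖ ≤ ‖fderiv ℝ u x‖ + M * ‖u x‖ := by
      rw [hder]
      refine (norm_add_le _ _).trans (add_le_add ?_ ?_)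
      · rw [norm_smul, Real.norm_of_nonneg (hχ0 x)]
        exact mul_le_of_le_one_left (norm_nonneg _) (hχ1 x)
      · rw [ContinuousLinearMap.norm_smulRight_apply]
        exact mul_le_mul_of_nonneg_right (hM x) (norm_nonneg _)
    have h2 := opNorm_sq_le (fderiv ℝ u x)
    have h3 : ‖fderiv ℝ (fun y => χ y • u y) x‖ ^ 2 ≤ (‖fderiv ℝ u x‖ + M * ‖u x‖) ^ 2 := by
      gcongr
    have h4 := sq_add_le ‖fderiv ℝ u x‖ (M * ‖u x‖)
    have h5 : ∑ i, ∑ A, ‖fderiv ℝ u x (EuclideanSpace.single (i, A) 1)‖ ^ 2 =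
        ∑ i, ∑ A, ‖pd i A u x‖ ^ 2 := rfl
    rw [h5] at h2
    simp only
    calc _ ≤ _ := h3
      _ ≤ _ := h4
      _ ≤ 2 * ∑ i, ∑ A, ‖pd i A u x‖ ^ 2 + 2 * (M * ‖u x‖) ^ 2 := by gcongr
      _ = _ := by ring

omit [InnerProductSpace ℂ F] in
lemma int_sq {v : (Cfg dc) → F} (hv : Continuous v) (hvs : HasCompactSupport v) :
    Integrable (fun x => ‖v x‖ ^ 2) := by
  refine (hv.norm.pow 2).integrable_of_hasCompactSupport ?_
  refine hvs.mono ?_
  intro x hx
  simp only [Function.mem_support] at hx ⊢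
  intro h2
  exact hx (by simp [h2])

lemma cauchy_of_avg [CompleteSpace F] {w : ℕ → (Cfg dc) → F} (hw : ∀ n, ContDiff ℝ ∞ (w n))
    (hws : ∀ n, HasCompactSupport (w n)) {D : ℝ}
    (hD : ∀ n, ∫ x, ‖fderiv ℝ (w n) x‖ ^ 2 ≤ D) {r : ℝ} (hr : ∀ n x, r ≤ ‖x‖ → w n x = 0)
    (havg : ∀ (j : ℕ) (k : Fin 9 × Fin dc → ℤ), ∃ l : F,
      Tendsto (fun n => ∫ x in (cell (1 / ((j : ℝ) + 1)) k : Set (Cfg dc)), w n x) atTop (𝓝 l)) :
    Tendsto (fun p : ℕ × ℕ => nsq (fun x => w p.1 x - w p.2 x)) atTop (𝓝 0) := by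
  have hlim : Tendsto (fun j : ℕ => 2 * (2 ^ Fintype.card (Fin 9 × Fin dc) *
      (Fintype.card (Fin 9 × Fin dc) * (1 / ((j : ℝ) + 1)) ^ 2)) * (4 * D)) atTop (𝓝 0) := by
    have h1 : Tendsto (fun j : ℕ => (1 / ((j : ℝ) + 1))) atTop (𝓝 0) :=
      tendsto_one_div_add_atTop_nhds_zero_nat
    have h2 := ((((h1.pow 2).const_mul (Fintype.card (Fin 9 × Fin dc) : ℝ)).const_mul
      ((2 : ℝ) ^ Fintype.card (Fin 9 × Fin dc))).const_mul 2).mul_const (4 * D)
    simpa using h2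
  rw [tendsto_order]
  refine ⟨fun a ha => Filter.Eventually.of_forall fun p => lt_of_lt_of_le ha (nsq_nonneg _),
    fun ε hε => ?_⟩
  obtain ⟨j, hj⟩ := (hlim.eventually_lt_const (half_pos hε)).exists
  have hδ : (0 : ℝ) < 1 / ((j : ℝ) + 1) := by positivity
  obtain ⟨K, hK⟩ := exists_cells (ι := Fin 9 × Fin dc) hδ r
  choose l hl using havg
  have hav : Tendsto (fun p : ℕ × ℕ => 2 * ∑ k ∈ K,
      ((1 / ((j : ℝ) + 1)) ^ Fintype.card (Fin 9 × Fin dc))⁻¹ *
        ‖(∫ x in (cell (1 / ((j : ℝ) + 1)) k : Set (Cfg dc)), w p.1 x) -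
          ∫ x in (cell (1 / ((j : ℝ) + 1)) k : Set (Cfg dc)), w p.2 x‖ ^ 2) atTop (𝓝 0) := by
    have h1 : ∀ k ∈ K, Tendsto (fun p : ℕ × ℕ =>
      ((1 / ((j : ℝ) + 1)) ^ Fintype.card (Fin 9 × Fin dc))⁻¹ *
        ‖(∫ x in (cell (1 / ((j : ℝ) + 1)) k : Set (Cfg dc)), w p.1 x) -
          ∫ x in (cell (1 / ((j : ℝ) + 1)) k : Set (Cfg dc)), w p.2 x‖ ^ 2) atTop (𝓝 0) := by
      intro k _
      rw [← prod_atTop_atTop_eq]
      have e1 := (hl j k).comp (tendsto_fst (f := (atTop : Filter ℕ)) (g := (atTop : Filter ℕ)))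
      have e2 := (hl j k).comp (tendsto_snd (f := (atTop : Filter ℕ)) (g := (atTop : Filter ℕ)))
      have h2 := ((e1.sub e2).norm.pow 2).const_mul
          ((1 / ((j : ℝ) + 1)) ^ Fintype.card (Fin 9 × Fin dc))⁻¹
      simpa using h2
    have h3 := (tendsto_finsetSum K h1).const_mul 2
    simpa using h3
  filter_upwards [hav.eventually_lt_const (half_pos hε)] with p hp
  have hv : ContDiff ℝ ∞ (fun x => w p.1 x - w p.2 x) := (hw p.1).sub (hw p.2)
  have hvs : HasCompactSupport (fun x => w p.1 x - w p.2 x) := (hws p.1).sub (hws p.2)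
  have h1 := poincare (hv.of_le (by simp)) hvs hδ K (fun x hx => by
    have : r ≤ ‖x‖ := by
      by_contra hcon
      push Not at hcon
      exact hx (hK x hcon)
    rw [hr _ x this, hr _ x this, sub_zero])
  have h2 : ∫ x, ‖fderiv ℝ (fun x => w p.1 x - w p.2 x) x‖ ^ 2 ≤ 4 * D := by
    have hi : ∀ n, Integrable (fun x => ‖fderiv ℝ (w n) x‖ ^ 2) := fun n =>
      int_sq ((hw n).continuous_fderiv (by simp)) ((hws n).fderiv (𝕜 := ℝ))
    have h3 : ∫ x, ‖fderiv ℝ (fun x => w p.1 x - w p.2 x) x‖ ^ 2 ≤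
        ∫ x, (2 * ‖fderiv ℝ (w p.1) x‖ ^ 2 + 2 * ‖fderiv ℝ (w p.2) x‖ ^ 2) := by
      refine integral_mono_of_nonneg (Filter.Eventually.of_forall fun x => by
        simp only [Pi.zero_apply]; positivity) (((hi p.1).const_mul 2).add ((hi p.2).const_mul 2))
        (Filter.Eventually.of_forall fun x => ?_)
      have h4 : fderiv ℝ (fun x => w p.1 x - w p.2 x) x =
          fderiv ℝ (w p.1) x - fderiv ℝ (w p.2) x :=
        fderiv_fun_sub (((hw p.1).differentiable (by simp)) x)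
          (((hw p.2).differentiable (by simp)) x)
      simp only
      rw [h4]
      exact sq_sub_le _ _
    rw [integral_add ((hi p.1).const_mul 2) ((hi p.2).const_mul 2), integral_const_mul,
      integral_const_mul] at h3
    have := hD p.1
    have := hD p.2
    linarith
  have h5 : ∀ k, ∫ x in (cell (1 / ((j : ℝ) + 1)) k : Set (Cfg dc)), (w p.1 x - w p.2 x) =
      (∫ x in (cell (1 / ((j : ℝ) + 1)) k : Set (Cfg dc)), w p.1 x) -
          ∫ x in (cell (1 / ((j : ℝ) + 1)) k : Set (Cfg dc)), w p.2 x := by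
    intro k
    have hi : ∀ n, Integrable (w n) := fun n =>
      (hw n).continuous.integrable_of_hasCompactSupport (hws n)
    exact integral_sub (hi p.1).integrableOn (hi p.2).integrableOn
  simp only [h5] at h1
  have h6 : 0 ≤ 2 * (2 ^ Fintype.card (Fin 9 × Fin dc) *
      (Fintype.card (Fin 9 × Fin dc) * (1 / ((j : ℝ) + 1)) ^ 2)) := by positivity
  have h7 := mul_le_mul_of_nonneg_left h2 h6
  rw [nsq]
  linarith

lemma extraction [FiniteDimensional ℂ F] {w : ℕ → ℕ → (Cfg dc) → F}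
    (hwc : ∀ s n, Continuous (w s n)) (hws : ∀ s n, HasCompactSupport (w s n)) {K : ℕ → ℝ}
    (hK : ∀ s n, ∫ x, ‖w s n x‖ ^ 2 ≤ K s) :
    ∃ φ : ℕ → ℕ, StrictMono φ ∧ ∀ (s j : ℕ) (k : Fin 9 × Fin dc → ℤ), ∃ l : F,
      Tendsto (fun n => ∫ x in (cell (1 / ((j : ℝ) + 1)) k : Set (Cfg dc)), w s (φ n) x)
        atTop (𝓝 l) := by
  have hprop : ProperSpace F := FiniteDimensional.proper ℂ F
  let a : ℕ → (ℕ × ℕ × (Fin 9 × Fin dc → ℤ)) → F := fun n p =>
    ∫ x in (cell (1 / ((p.2.1 : ℝ) + 1)) p.2.2 : Set (Cfg dc)), w p.1 n x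
  let B : (ℕ × ℕ × (Fin 9 × Fin dc → ℤ)) → ℝ := fun p =>
    (1 / ((p.2.1 : ℝ) + 1)) ^ Fintype.card (Fin 9 × Fin dc) + K p.1
  have ha : ∀ n, a n ∈ Set.univ.pi fun p => Metric.closedBall (0 : F) (B p) := by
    intro n p _
    rw [mem_closedBall_zero_iff]
    have hδ : (0 : ℝ) < 1 / ((p.2.1 : ℝ) + 1) := by positivity
    have hsq := int_sq (hwc p.1 n) (hws p.1 n)
    have hint : Integrable (w p.1 n) :=
      (hwc p.1 n).integrable_of_hasCompactSupport (hws p.1 n)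
    have hfin : IsFiniteMeasure (volume.restrict
        (cell (1 / ((p.2.1 : ℝ) + 1)) p.2.2 : Set (Cfg dc))) := by
      refine ⟨?_⟩
      rw [Measure.restrict_apply_univ, volume_cell]
      exact ENNReal.pow_lt_top ENNReal.ofReal_lt_top
    calc ‖a n p‖ ≤ ∫ x in (cell (1 / ((p.2.1 : ℝ) + 1)) p.2.2 : Set (Cfg dc)), ‖w p.1 n x‖ :=
          norm_integral_le_integral_norm _
      _ ≤ ∫ x in (cell (1 / ((p.2.1 : ℝ) + 1)) p.2.2 : Set (Cfg dc)), (1 + ‖w p.1 n x‖ ^ 2) := by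
          refine integral_mono hint.norm.integrableOn
            ((integrable_const _).add hsq.integrableOn) fun x => ?_
          simp only
          nlinarith [sq_nonneg (‖w p.1 n x‖ - 1), norm_nonneg (w p.1 n x)]
      _ = (1 / ((p.2.1 : ℝ) + 1)) ^ Fintype.card (Fin 9 × Fin dc) +
          ∫ x in (cell (1 / ((p.2.1 : ℝ) + 1)) p.2.2 : Set (Cfg dc)), ‖w p.1 n x‖ ^ 2 := by
          rw [integral_add (integrable_const _) hsq.integrableOn, setIntegral_const, Measure.real,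
            volume_cell, ENNReal.toReal_pow, ENNReal.toReal_ofReal hδ.le, smul_eq_mul, mul_one]
      _ ≤ B p := by
          refine add_le_add le_rfl (le_trans ?_ (hK p.1 n))
          exact setIntegral_le_integral hsq (Filter.Eventually.of_forall fun x => by positivity)
  have hc : IsCompact (Set.univ.pi fun p : ℕ × ℕ × (Fin 9 × Fin dc → ℤ) =>
      Metric.closedBall (0 : F) (B p)) :=
    isCompact_univ_pi fun p => isCompact_closedBall _ _
  obtain ⟨l, -, φ, hφ, hl⟩ := hc.tendsto_subseq ha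
  exact ⟨φ, hφ, fun s j k => ⟨l (s, j, k), (tendsto_pi_nhds.1 hl) (s, j, k)⟩⟩

lemma lim_of_cauchy [CompleteSpace F] {f : ℕ → (Cfg dc) → F}
    (hf : ∀ n, MemLp (f n) 2 (volume : Measure (Cfg dc)))
    (hc : Tendsto (fun p : ℕ × ℕ => nsq (fun x => f p.1 x - f p.2 x)) atTop (𝓝 0)) :
    ∃ g : (Cfg dc) → F, StronglyMeasurable g ∧ L2t f g := by
  have h1 : CauchySeq fun n => (hf n).toLp (f n) := by
    rw [cauchySeq_iff_tendsto_dist_atTop_0]
    have h2 : ∀ p : ℕ × ℕ, dist ((hf p.1).toLp (f p.1)) ((hf p.2).toLp (f p.2)) =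
        Real.sqrt (nsq (fun x => f p.1 x - f p.2 x)) := by
      intro p
      rw [dist_eq_norm, ← MemLp.toLp_sub, norm_toLp]
      rfl
    simp only [h2]
    have := (Real.continuous_sqrt.tendsto 0).comp hc
    rw [Real.sqrt_zero] at this
    exact this
  obtain ⟨g, hg⟩ := cauchySeq_tendsto_of_complete h1
  refine ⟨g, Lp.stronglyMeasurable g, ⟨hf, Lp.memLp g, ?_⟩⟩
  have h3 : ∀ n, nsq (fun x => f n x - g x) = ‖(hf n).toLp (f n) - g‖ ^ 2 := by
    intro n
    have h4 : (hf n).toLp (f n) - g =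
        ((hf n).sub (Lp.memLp g)).toLp (f n - (g : (Cfg dc) → F)) := by
      rw [MemLp.toLp_sub (hf n) (Lp.memLp g), Lp.toLp_coeFn]
    rw [h4, norm_toLp, Real.sq_sqrt (nsq_nonneg _)]
    rfl
  simp only [h3]
  have h5 := (tendsto_iff_norm_sub_tendsto_zero.1 hg).pow 2
  simpa using h5

end Rl

open Rl

theorem lr [FiniteDimensional ℂ F] : LRStmt dc F := by
  intro u hu hK
  have hcomp : CompleteSpace F := FiniteDimensional.complete ℂ F
  obtain ⟨K0, -, hcut⟩ := exists_cut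
  choose χ hχ using fun s : ℕ => hcut ((s : ℝ) + 1) (by positivity)
  choose C hC0 hC using fun s : ℕ => loc_bound (F := F) (hχ s).1 (hχ s).2.1 (hχ s).2.2.1
    (hχ s).2.2.2.1 (hχ s).2.2.2.2.2.1
  choose KK hKK using fun s : ℕ => hK (2 * ((s : ℝ) + 1)) (by positivity)
  have hA : ∀ s n : ℕ, ∫ x in Metric.ball (0 : (Cfg dc)) (2 * ((s : ℝ) + 1)), ‖u n x‖ ^ 2 ≤ KK s := by
    intro s n
    have h1 := hKK s n
    have h2 : 0 ≤ ∑ i, ∑ A, (∫ x in Metric.ball (0 : (Cfg dc)) (2 * ((s : ℝ) + 1)),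
        ‖pd i A (u n) x‖ ^ 2) := Finset.sum_nonneg fun i _ => Finset.sum_nonneg fun A _ =>
      integral_nonneg fun x => by positivity
    linarith
  have hw1 : ∀ s n, ∫ x, ‖χ s x • u n x‖ ^ 2 ≤ KK s := fun s n =>
    ((hC s (u n) (hu n)).1).trans (hA s n)
  have hw2 : ∀ s n, ∫ x, ‖fderiv ℝ (fun y => χ s y • u n y) x‖ ^ 2 ≤ (C s + 2) * KK s := by
    intro s n
    refine ((hC s (u n) (hu n)).2).trans ?_
    have h1 := hKK s n
    have h2 : 0 ≤ ∫ x in Metric.ball (0 : (Cfg dc)) (2 * ((s : ℝ) + 1)), ‖u n x‖ ^ 2 :=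
      integral_nonneg fun x => by positivity
    have h3 := mul_le_mul_of_nonneg_left (hA s n) (hC0 s)
    have h4 : (C s + 2) * KK s = C s * KK s + 2 * KK s := by ring
    rw [h4]
    linarith
  have hws : ∀ s n, ContDiff ℝ ∞ (fun x => χ s x • u n x) := fun s n => (hχ s).1.smul (hu n)
  have hwc : ∀ s n, HasCompactSupport (fun x => χ s x • u n x) := fun s n =>
    (hχ s).2.1.smul_right
  have hwm : ∀ s n, MemLp (fun x => χ s x • u n x) 2 (volume : Measure (Cfg dc)) := fun s n =>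
    (hws s n).continuous.memLp_of_hasCompactSupport (hwc s n)
  obtain ⟨φ, hφ, hex⟩ := extraction (w := fun s n x => χ s x • u n x)
    (fun s n => (hws s n).continuous) hwc hw1
  have hlim : ∀ s : ℕ, ∃ g : (Cfg dc) → F, StronglyMeasurable g ∧
      L2t (fun n x => χ s x • u (φ n) x) g := by
    intro s
    refine lim_of_cauchy (fun n => hwm s (φ n)) ?_
    exact cauchy_of_avg (w := fun n x => χ s x • u (φ n) x) (fun n => hws s (φ n))
      (fun n => hwc s (φ n)) (fun n => hw2 s (φ n)) (r := 2 * ((s : ℝ) + 1))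
      (fun n x hx => by rw [(hχ s).2.2.2.2.2.1 x hx, zero_smul]) (fun j k => hex s j k)
  choose g hgm hg using hlim
  let Ψ : (Cfg dc) → F := fun x => g ⌊‖x‖⌋₊ x
  have hΨm : StronglyMeasurable Ψ := by
    have hprop : ProperSpace F := FiniteDimensional.proper ℂ F
    borelize F
    have h1 : Measurable (fun p : ℕ × (Cfg dc) => g p.1 p.2) :=
      measurable_from_prod_countable_right fun s => (hgm s).measurable
    have h2 : Measurable (fun x : (Cfg dc) => (⌊‖x‖⌋₊, x)) :=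
      (Nat.measurable_floor.comp measurable_norm).prodMk measurable_id
    exact (h1.comp h2).stronglyMeasurable
  have hg2 : ∀ s, Integrable (fun x => ‖g s x‖ ^ 2) := fun s => memLp_norm_sq_int (hg s).mem'
  have hfl : ∀ r : ℝ, ∀ x ∈ Metric.ball (0 : (Cfg dc)) r, ⌊‖x‖⌋₊ ∈ Finset.range (⌊r⌋₊ + 1) := by
    intro r x hx
    rw [Metric.mem_ball, dist_zero_right] at hx
    rw [Finset.mem_range]
    exact Nat.lt_succ_of_le (Nat.floor_le_floor hx.le)
  refine ⟨φ, hφ, Ψ, hΨm, fun r hr => ?_, fun r hr => ?_⟩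
  · refine Integrable.mono' (g := fun x => ∑ s ∈ Finset.range (⌊r⌋₊ + 1), ‖g s x‖ ^ 2)
      (integrable_finsetSum _ fun s _ => (hg2 s).integrableOn)
      ((hΨm.norm.pow 2).aestronglyMeasurable) ?_
    refine (ae_restrict_mem Metric.isOpen_ball.measurableSet).mono fun x hx => ?_
    rw [Real.norm_of_nonneg (by positivity)]
    exact Finset.single_le_sum (f := fun s => ‖g s x‖ ^ 2) (fun s _ => by positivity) (hfl r x hx)
  · have hd2 : ∀ s n, Integrable (fun x => ‖χ s x • u (φ n) x - g s x‖ ^ 2) := fun s n =>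
      memLp_norm_sq_int ((hwm s (φ n)).sub (hg s).mem')
    have h1 : ∀ n, ∫ x in Metric.ball (0 : (Cfg dc)) r, ‖u (φ n) x - Ψ x‖ ^ 2 ≤
        ∑ s ∈ Finset.range (⌊r⌋₊ + 1), nsq (fun x => χ s x • u (φ n) x - g s x) := by
      intro n
      have h2 : ∑ s ∈ Finset.range (⌊r⌋₊ + 1), nsq (fun x => χ s x • u (φ n) x - g s x) =
          ∫ x, ∑ s ∈ Finset.range (⌊r⌋₊ + 1), ‖χ s x • u (φ n) x - g s x‖ ^ 2 := by
        rw [integral_finsetSum _ fun s _ => hd2 s n]
        rfl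
      rw [h2]
      refine le_trans ?_ (setIntegral_le_integral (s := Metric.ball (0 : (Cfg dc)) r)
        (integrable_finsetSum _ fun s _ => hd2 s n)
        (Filter.Eventually.of_forall fun x => Finset.sum_nonneg fun s _ => by positivity))
      refine integral_mono_of_nonneg (Filter.Eventually.of_forall fun x => by
        simp only [Pi.zero_apply]; positivity)
        (integrable_finsetSum _ fun s _ => (hd2 s n).integrableOn) ?_
      refine (ae_restrict_mem Metric.isOpen_ball.measurableSet).mono fun x hx => ?_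
      have h3 : ‖u (φ n) x - Ψ x‖ ^ 2 = ‖χ ⌊‖x‖⌋₊ x • u (φ n) x - g ⌊‖x‖⌋₊ x‖ ^ 2 := by
        have h4 : χ ⌊‖x‖⌋₊ x = 1 :=
          (hχ ⌊‖x‖⌋₊).2.2.2.2.1 x (Nat.lt_floor_add_one ‖x‖).le
        rw [h4, one_smul]
      simp only
      rw [h3]
      exact Finset.single_le_sum (f := fun s => ‖χ s x • u (φ n) x - g s x‖ ^ 2)
        (fun s _ => by positivity) (hfl r x hx)
    have h5 : Tendsto (fun n => ∑ s ∈ Finset.range (⌊r⌋₊ + 1),
        nsq (fun x => χ s x • u (φ n) x - g s x)) atTop (𝓝 0) := by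
      have := tendsto_finsetSum (Finset.range (⌊r⌋₊ + 1)) fun s _ => (hg s).lim
      simpa using this
    exact squeeze_zero (fun n => integral_nonneg fun x => by positivity) h1 h5

end Vale.Agent.P353.Z.U
end

section

/-! # P353, general `N`: Theorem C (at most `n` invariant zero modes for large `m`) -/

open MeasureTheory Filter Topology
open scoped ContDiff

set_option linter.unusedSectionVars false

namespace Vale.Agent.P353.Z.U

variable {dc : ℕ}

variable {F : Type*} [NormedAddCommGroup F] [InnerProductSpace ℂ F]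

/-! ### change of variables -/

lemma ZThmC_translate (f : (Cfg dc) → ℝ) (z : (Cfg dc)) (t : ℝ) :
    ∫ y in Metric.ball (0 : (Cfg dc)) t, f (z + y) = ∫ x in Metric.ball z t, f x := by
  have h1 := (measurePreserving_add_left (volume : Measure (Cfg dc)) z).setIntegral_preimage_emb
    (MeasurableEquiv.addLeft z).measurableEmbedding f (Metric.ball z t)
  rw [← h1]
  have h2 : (fun x => z + x) ⁻¹' Metric.ball z t = Metric.ball (0 : (Cfg dc)) t := by
    ext y
    simp [dist_eq_norm]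
  rw [h2]

lemma ZThmC_cov (f : (Cfg dc) → ℝ) {m : ℝ} (hm : 0 < m) (ξ : (Cfg dc)) (s : ℝ) :
    ∫ w in Metric.ball (0 : (Cfg dc)) s, f (m • ξ + (Real.sqrt m)⁻¹ • w) =
      Real.sqrt m ^ (9 * dc) * ∫ x in Metric.ball (m • ξ) (s / Real.sqrt m), f x := by
  have hs : 0 < Real.sqrt m := Real.sqrt_pos.mpr hm
  have hr : 0 < (Real.sqrt m)⁻¹ := inv_pos.mpr hs
  have h1 := Measure.setIntegral_comp_smul_of_pos (volume : Measure (Cfg dc))
    (fun y => f (m • ξ + y)) (Metric.ball (0 : (Cfg dc)) s) hr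
  rw [h1, smul_ball hr.ne', smul_zero, Real.norm_of_nonneg hr.le, ZThmC_translate]
  have h2 : Module.finrank ℝ (Cfg dc) = 9 * dc := by
    rw [finrank_euclideanSpace]
    simp
  rw [h2, smul_eq_mul, inv_pow, inv_inv]
  congr 3
  rw [div_eq_inv_mul]

/-! ### linearity -/

lemma ZThmC_pd_smul (c : ℂ) {u : (Cfg dc) → F} (hu : ContDiff ℝ ∞ u) (i : Fin 9) (A : Fin dc) (x : (Cfg dc)) :
    pd i A (fun x => c • u x) x = c • pd i A u x := by
  unfold pd
  rw [fderiv_fun_const_smul ((hu.differentiable (by simp)) x)]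
  rfl

lemma ZThmC_tst_smul (c : ℂ) {u : (Cfg dc) → F} (hu : Setup.Tst u) : Setup.Tst (fun x => c • u x) :=
  ⟨hu.1.const_smul c, hu.2.comp_left (g := fun v : F => c • v) (smul_zero c)⟩

lemma ZThmC_G_smul (S : Setup dc F) (c : ℂ) {u : (Cfg dc) → F} (hu : Setup.Tst u) (C : Fin dc) (x : (Cfg dc)) :
    S.G C (fun x => c • u x) x = c • S.G C u x := by
  unfold Setup.G
  simp only [ZThmC_pd_smul c hu.1, map_smul, smul_add, Finset.smul_sum, smul_comm c]

lemma ZThmC_G_add (S : Setup dc F) {u v : (Cfg dc) → F} (hu : Setup.Tst u) (hv : Setup.Tst v) (C : Fin dc)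
    (x : (Cfg dc)) : S.G C (fun x => u x + v x) x = S.G C u x + S.G C v x := by
  unfold Setup.G
  have h : ∀ i A, pd i A (fun x => u x + v x) x = pd i A u x + pd i A v x := fun i A =>
    pd_add (hu.diff x) (hv.diff x)
  simp only [h, map_add, smul_add, Finset.sum_add_distrib]
  abel

lemma ZThmC_Qm_smul (S : Setup dc F) (m : ℝ) (c : ℂ) {u : (Cfg dc) → F} (hu : Setup.Tst u) (β : Fin 16)
    (x : (Cfg dc)) : S.Qm m β (fun x => c • u x) x = c • S.Qm m β u x := by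
  unfold Setup.Qm Setup.Q
  simp only [ZThmC_pd_smul c hu.1, map_smul, smul_add, Finset.smul_sum, smul_comm c]


lemma ZThmC_cont_scl {m : ℝ} (ξ : (Cfg dc)) {u : (Cfg dc) → F} (hu : Continuous u) :
    Continuous (scl m ξ u) := by
  unfold scl
  fun_prop

/-- local masses of rescaled functions -/
lemma ZThmC_mass {m : ℝ} (hm : 0 < m) (ξ : (Cfg dc)) (u : (Cfg dc) → F) (c : ℝ) (s : ℝ) :
    ∫ w in Metric.ball (0 : (Cfg dc)) s, ‖scl m ξ (fun x => (c : ℂ) • u x) w‖ ^ 2 =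
      c ^ 2 * (Real.sqrt m ^ (9 * dc) * ∫ x in Metric.ball (m • ξ) (s / Real.sqrt m), ‖u x‖ ^ 2) := by
  rw [← ZThmC_cov (fun x => ‖u x‖ ^ 2) hm ξ s, ← integral_const_mul]
  refine integral_congr_ae (Filter.Eventually.of_forall fun w => ?_)
  simp only [scl, norm_smul, mul_pow, Complex.norm_real, Real.norm_eq_abs, sq_abs]

lemma ZThmC_ind_mem {f : (Cfg dc) → F} {s : ℝ} (hf : StronglyMeasurable f)
    (hi : IntegrableOn (fun x => ‖f x‖ ^ 2) (Metric.ball (0 : (Cfg dc)) s)) :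
    MemLp ((Metric.ball (0 : (Cfg dc)) s).indicator f) 2 (volume : Measure (Cfg dc)) := by
  rw [memLp_two_iff_integrable_sq_norm
    (hf.indicator Metric.isOpen_ball.measurableSet).aestronglyMeasurable]
  have h : (fun x => ‖(Metric.ball (0 : (Cfg dc)) s).indicator f x‖ ^ 2) =
      (Metric.ball (0 : (Cfg dc)) s).indicator (fun x => ‖f x‖ ^ 2) := by
    funext x
    by_cases hx : x ∈ Metric.ball (0 : (Cfg dc)) s
    · rw [Set.indicator_of_mem hx, Set.indicator_of_mem hx]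
    · rw [Set.indicator_of_notMem hx, Set.indicator_of_notMem hx]; simp
  rw [h]
  exact hi.integrable_indicator Metric.isOpen_ball.measurableSet

lemma ZThmC_ind_nsq (f : (Cfg dc) → F) (s : ℝ) :
    nsq ((Metric.ball (0 : (Cfg dc)) s).indicator f) = ∫ x in Metric.ball (0 : (Cfg dc)) s, ‖f x‖ ^ 2 := by
  rw [nsq, ← integral_indicator Metric.isOpen_ball.measurableSet]
  refine integral_congr_ae (Filter.Eventually.of_forall fun x => ?_)
  by_cases hx : x ∈ Metric.ball (0 : (Cfg dc)) s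
  · simp only [Set.indicator_of_mem hx]
  · simp only [Set.indicator_of_notMem hx]; simp

/-- the local limit lemma -/
lemma ZThmC_lim (S : Setup dc F) (hL : LimStmt S) (ξ : (Cfg dc)) (hξ : ∀ β, S.W β ξ + S.MM β ξ = 0)
    (m : ℕ → ℝ) (hm1 : ∀ k, 1 ≤ m k) (hm : Tendsto m atTop atTop)
    (φ : ℕ → (Cfg dc) → F) (hφ : ∀ k, Setup.Tst (φ k)) (hG : ∀ k C x, S.G C (φ k) x = 0)
    (a : ℕ → ℝ) (ha : ∀ k, 0 < a k) (P : ℝ → ℝ)
    (hP : ∀ k, ∀ s : ℝ, 0 < s →
      a k * ∫ x in Metric.ball (m k • ξ) (s / Real.sqrt (m k)), ‖φ k x‖ ^ 2 ≤ P s)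
    (hE : Tendsto (fun k => a k * ∑ β, nsq (S.Qm (m k) β (φ k))) atTop (𝓝 0))
    (hQi : ∀ k β, Integrable (fun x => ‖S.Qm (m k) β (φ k) x‖ ^ 2))
    (Ω : F) (hΩ : ‖Ω‖ = 1)
    (hb : ∀ k, ∫ w in Metric.ball (0 : (Cfg dc)) 1, inner ℂ Ω (scl (m k) ξ (φ k) w) = 0)
    (g : (Cfg dc) → ℝ) (hg : Continuous g) (hg0 : ∀ x, 0 < g x)
    (hLv : ∀ u : (Cfg dc) → F, StronglyMeasurable u →
      (∀ s : ℝ, 0 < s → IntegrableOn (fun x => ‖u x‖ ^ 2) (Metric.ball (0 : (Cfg dc)) s)) →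
      (∀ s : ℝ, 0 < s → ∫ x in Metric.ball (0 : (Cfg dc)) s, ‖u x‖ ^ 2 ≤ P s) →
      (∀ β ζ, Setup.Tst ζ → ∫ x, inner ℂ (S.Qlin ξ β ζ x) (u x) = 0) →
      (∀ (C : Fin dc) ζ, Setup.Tst ζ → ∫ x, inner ℂ
        (∑ i, ∑ A, ∑ B, ((S.f C A B : ℂ) * (ξ (i, A) : ℂ)) • pd i B ζ x) (u x) = 0) →
      ∃ c : ℂ, ∀ᵐ x ∂(volume : Measure (Cfg dc)), u x = (c * (g x : ℂ)) • Ω) :
    ∃ ψ : ℕ → ℕ, StrictMono ψ ∧ ∀ s : ℝ, 0 < s →
      Tendsto (fun k => a (ψ k) * ∫ x in Metric.ball (m (ψ k) • ξ) (s / Real.sqrt (m (ψ k))),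
        ‖φ (ψ k) x‖ ^ 2) atTop (𝓝 0) := by
  have hm0 : ∀ k, 0 < m k := fun k => lt_of_lt_of_le one_pos (hm1 k)
  have hsm : ∀ k, 0 < Real.sqrt (m k) := fun k => Real.sqrt_pos.mpr (hm0 k)
  -- normalisation
  set c : ℕ → ℝ := fun k => Real.sqrt (a k / Real.sqrt (m k) ^ (9 * dc)) with hc
  have hc2 : ∀ k, c k ^ 2 * Real.sqrt (m k) ^ (9 * dc) = a k := by
    intro k
    have h1 : 0 < Real.sqrt (m k) ^ (9 * dc) := pow_pos (hsm k) (9 * dc)
    simp only [hc]
    rw [Real.sq_sqrt (div_nonneg (ha k).le h1.le), div_mul_cancel₀ _ h1.ne']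
  set Φ : ℕ → (Cfg dc) → F := fun k x => (c k : ℂ) • φ k x with hΦ
  have hΦt : ∀ k, Setup.Tst (Φ k) := fun k => ZThmC_tst_smul _ (hφ k)
  have hmass : ∀ k s, ∫ w in Metric.ball (0 : (Cfg dc)) s, ‖scl (m k) ξ (Φ k) w‖ ^ 2 =
      a k * ∫ x in Metric.ball (m k • ξ) (s / Real.sqrt (m k)), ‖φ k x‖ ^ 2 := by
    intro k s
    rw [ZThmC_mass (hm0 k) ξ (φ k) (c k) s, ← mul_assoc, hc2]
  have hen : ∀ k s β, ∫ w in Metric.ball (0 : (Cfg dc)) s,
      (m k)⁻¹ * ‖scl (m k) ξ (S.Qm (m k) β (Φ k)) w‖ ^ 2 ≤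
      a k * nsq (S.Qm (m k) β (φ k)) := by
    intro k s β
    have h1 : S.Qm (m k) β (Φ k) = fun x => (c k : ℂ) • S.Qm (m k) β (φ k) x := by
      funext x
      exact ZThmC_Qm_smul S (m k) (c k) (hφ k) β x
    rw [h1, integral_const_mul, ZThmC_mass (hm0 k) ξ _ (c k) s, ← mul_assoc (c k ^ 2), hc2]
    have h2 : ∫ x in Metric.ball (m k • ξ) (s / Real.sqrt (m k)), ‖S.Qm (m k) β (φ k) x‖ ^ 2 ≤
        nsq (S.Qm (m k) β (φ k)) :=
      setIntegral_le_integral (hQi k β) (Filter.Eventually.of_forall fun x => by positivity)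
    have h3 : (m k)⁻¹ ≤ 1 := inv_le_one_of_one_le₀ (hm1 k)
    have h4 : 0 ≤ a k * ∫ x in Metric.ball (m k • ξ) (s / Real.sqrt (m k)),
        ‖S.Qm (m k) β (φ k) x‖ ^ 2 :=
      mul_nonneg (ha k).le (integral_nonneg fun x => by positivity)
    calc (m k)⁻¹ * (a k * ∫ x in Metric.ball (m k • ξ) (s / Real.sqrt (m k)),
          ‖S.Qm (m k) β (φ k) x‖ ^ 2)
        ≤ 1 * (a k * ∫ x in Metric.ball (m k • ξ) (s / Real.sqrt (m k)),
          ‖S.Qm (m k) β (φ k) x‖ ^ 2) := mul_le_mul_of_nonneg_right h3 h4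
      _ ≤ a k * nsq (S.Qm (m k) β (φ k)) := by
          rw [one_mul]
          exact mul_le_mul_of_nonneg_left h2 (ha k).le
  obtain ⟨ψ, hψ, u, hum, hui, hul, huQ, huG⟩ := hL ξ hξ m hm1 hm Φ hΦt P
    (fun k s hs => by rw [hmass]; exact hP k s hs)
    (fun s hs => by
      refine squeeze_zero (fun k => Finset.sum_nonneg fun β _ => integral_nonneg fun x => ?_)
        (fun k => ?_) hE
      · have := hm0 k
        positivity
      · rw [Finset.mul_sum]
        exact Finset.sum_le_sum fun β _ => hen k s β)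
  have huG' := huG (fun k C x => by
    rw [hΦ]
    simp only
    rw [ZThmC_G_smul S (c k) (hφ k) C x, hG, smul_zero])
  -- convergence of the indicators
  have hsc : ∀ k, Continuous (scl (m k) ξ (Φ k)) := fun k => ZThmC_cont_scl ξ (hΦt k).1.continuous
  have hiΦ : ∀ k s, IntegrableOn (fun x => ‖scl (m k) ξ (Φ k) x‖ ^ 2) (Metric.ball (0 : (Cfg dc)) s) := by
    intro k s
    refine (((hsc k).norm.pow 2).continuousOn.integrableOn_compact
      (isCompact_closedBall (0 : (Cfg dc)) s)).mono_set Metric.ball_subset_closedBall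
  have hlim : ∀ s : ℝ, 0 < s → L2t (fun k => (Metric.ball (0 : (Cfg dc)) s).indicator
      (scl (m (ψ k)) ξ (Φ (ψ k)))) ((Metric.ball (0 : (Cfg dc)) s).indicator u) := by
    intro s hs
    refine ⟨fun k => ZThmC_ind_mem (hsc _).stronglyMeasurable (hiΦ _ s), ZThmC_ind_mem hum (hui s hs),
      ?_⟩
    refine (hul s hs).congr fun k => ?_
    rw [← ZThmC_ind_nsq]
    congr 1
    funext x
    by_cases hx : x ∈ Metric.ball (0 : (Cfg dc)) s
    · simp only [Set.indicator_of_mem hx]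
    · simp only [Set.indicator_of_notMem hx]; simp
  have huP : ∀ s : ℝ, 0 < s → ∫ x in Metric.ball (0 : (Cfg dc)) s, ‖u x‖ ^ 2 ≤ P s := by
    intro s hs
    have h1 := (hlim s hs).lim_nsq
    rw [ZThmC_ind_nsq] at h1
    refine le_of_tendsto h1 (Filter.Eventually.of_forall fun k => ?_)
    simp only [ZThmC_ind_nsq, hmass]
    exact hP _ s hs
  obtain ⟨d, hd⟩ := hLv u hum hui huP huQ huG'
  -- the constant vanishes
  have hgi : 0 < ∫ x in Metric.ball (0 : (Cfg dc)) 1, g x := by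
    have hgo : IntegrableOn g (Metric.ball (0 : (Cfg dc)) 1) :=
      (hg.continuousOn.integrableOn_compact (isCompact_closedBall (0 : (Cfg dc)) 1)).mono_set
        Metric.ball_subset_closedBall
    rw [setIntegral_pos_iff_support_of_nonneg_ae
      (Filter.Eventually.of_forall fun x => (hg0 x).le) hgo]
    have hsup : Function.support g = Set.univ := by
      ext x
      simp [(hg0 x).ne']
    rw [hsup, Set.univ_inter]
    exact Metric.measure_ball_pos _ _ one_pos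
  have hd0 : d = 0 := by
    have hΩL : L2t (fun _ : ℕ => (Metric.ball (0 : (Cfg dc)) 1).indicator (fun _ : (Cfg dc) => Ω))
        ((Metric.ball (0 : (Cfg dc)) 1).indicator (fun _ : (Cfg dc) => Ω)) := by
      have hmem : MemLp ((Metric.ball (0 : (Cfg dc)) 1).indicator (fun _ : (Cfg dc) => Ω)) 2
          (volume : Measure (Cfg dc)) :=
        ZThmC_ind_mem stronglyMeasurable_const (integrableOn_const
          (hs := (Metric.isBounded_ball.measure_lt_top).ne))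
      refine ⟨fun _ => hmem, hmem, ?_⟩
      simp [nsq]
    have h1 := hΩL.lim_inner (hlim 1 one_pos)
    have h2 : ∀ f : (Cfg dc) → F, ∫ x, inner ℂ ((Metric.ball (0 : (Cfg dc)) 1).indicator (fun _ : (Cfg dc) => Ω) x)
        ((Metric.ball (0 : (Cfg dc)) 1).indicator f x) =
        ∫ x in Metric.ball (0 : (Cfg dc)) 1, inner ℂ Ω (f x) := by
      intro f
      rw [← integral_indicator Metric.isOpen_ball.measurableSet]
      refine integral_congr_ae (Filter.Eventually.of_forall fun x => ?_)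
      by_cases hx : x ∈ Metric.ball (0 : (Cfg dc)) 1
      · simp only [Set.indicator_of_mem hx]
      · simp only [Set.indicator_of_notMem hx]; simp
    simp only [h2] at h1
    have h3 : ∀ k, ∫ x in Metric.ball (0 : (Cfg dc)) 1, inner ℂ Ω (scl (m (ψ k)) ξ (Φ (ψ k)) x) = 0 := by
      intro k
      have h4 : ∀ x, inner ℂ Ω (scl (m (ψ k)) ξ (Φ (ψ k)) x) =
          (c (ψ k) : ℂ) * inner ℂ Ω (scl (m (ψ k)) ξ (φ (ψ k)) x) := by
        intro x
        simp only [scl, hΦ, inner_smul_right]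
      simp only [h4]
      rw [integral_const_mul, hb, mul_zero]
    simp only [h3] at h1
    have h5 : ∫ x in Metric.ball (0 : (Cfg dc)) 1, inner ℂ Ω (u x) = 0 :=
      tendsto_nhds_unique h1 tendsto_const_nhds
    have h6 : ∫ x in Metric.ball (0 : (Cfg dc)) 1, inner ℂ Ω (u x) =
        d * ((∫ x in Metric.ball (0 : (Cfg dc)) 1, g x : ℝ) : ℂ) := by
      rw [← integral_complex_ofReal, ← integral_const_mul]
      refine integral_congr_ae (ae_restrict_of_ae ?_)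
      filter_upwards [hd] with x hx
      rw [hx, inner_smul_right, inner_self_eq_norm_sq_to_K, hΩ]
      simp
    rw [h6] at h5
    rcases mul_eq_zero.mp h5 with h7 | h7
    · exact h7
    · exact absurd (Complex.ofReal_eq_zero.mp h7) hgi.ne'
  refine ⟨ψ, hψ, fun s hs => ?_⟩
  have h1 := (hlim s hs).lim_nsq
  have h2 : nsq ((Metric.ball (0 : (Cfg dc)) s).indicator u) = 0 := by
    rw [ZThmC_ind_nsq]
    have : ∫ x in Metric.ball (0 : (Cfg dc)) s, ‖u x‖ ^ 2 = ∫ x in Metric.ball (0 : (Cfg dc)) s, (0 : ℝ) := by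
      refine integral_congr_ae (ae_restrict_of_ae ?_)
      filter_upwards [hd] with x hx
      rw [hx, hd0]
      simp
    rw [this, integral_zero]
  rw [h2] at h1
  refine h1.congr fun k => ?_
  rw [ZThmC_ind_nsq, hmass]

/-! ### smoothness -/

lemma ZThmC_contDiff_MM (S : Setup dc F) (β : Fin 16) : ContDiff ℝ ∞ (S.MM β) := by
  unfold Setup.MM
  refine ContDiff.sum fun i _ => ContDiff.sum fun A _ => ?_
  exact (Setup.contDiff_ofReal (contDiff_const.mul (Setup.contDiff_coord _))).smul contDiff_const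

lemma ZThmC_tst_Qm (S : Setup dc F) (m : ℝ) (β : Fin 16) {u : (Cfg dc) → F} (hu : Setup.Tst u) :
    Setup.Tst (S.Qm m β u) := by
  have h1 : Setup.Tst (fun x => (m : ℂ) • S.MM β x (u x)) :=
    ZThmC_tst_smul _ (hu.clm (ZThmC_contDiff_MM S β))
  exact (hu.Q S β).add h1

lemma ZThmC_cont_dm (S : Setup dc F) (m : ℝ) : Continuous (S.dm m) := by
  unfold Setup.dm
  exact Metric.continuous_infDist_pt _

lemma ZThmC_G_zero (S : Setup dc F) (C : Fin dc) (x : (Cfg dc)) :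
    S.G C (fun _ => (0 : F)) x = 0 := by
  have h := ZThmC_G_smul S 0 (u := fun _ => (0 : F)) ⟨contDiff_const, HasCompactSupport.zero⟩ C x
  simpa using h

lemma ZThmC_comb (S : Setup dc F) {ι : Type*} (s : Finset ι) (b : ι → ℂ) {u : ι → (Cfg dc) → F}
    (hu : ∀ j, Setup.Tst (u j)) (hG : ∀ j C x, S.G C (u j) x = 0) :
    Setup.Tst (fun x => ∑ j ∈ s, b j • u j x) ∧
      ∀ C x, S.G C (fun x => ∑ j ∈ s, b j • u j x) x = 0 := by
  classical
  induction s using Finset.induction_on with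
  | empty =>
    refine ⟨?_, fun C x => ?_⟩
    · simp only [Finset.sum_empty]
      exact ⟨contDiff_const, HasCompactSupport.zero⟩
    · simp only [Finset.sum_empty]
      exact ZThmC_G_zero S C x
  | insert i s hi ih =>
    have e : (fun x => ∑ j ∈ insert i s, b j • u j x) =
        fun x => b i • u i x + ∑ j ∈ s, b j • u j x := by
      funext x
      rw [Finset.sum_insert hi]
    rw [e]
    refine ⟨(ZThmC_tst_smul _ (hu i)).add ih.1, fun C x => ?_⟩
    rw [ZThmC_G_add S (ZThmC_tst_smul _ (hu i)) ih.1, ZThmC_G_smul S _ (hu i), hG, ih.2]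
    simp

/-! ### the choice of a good vector -/

lemma ZThmC_pick (S : Setup dc F) {n : ℕ} {m ε : ℝ} (hε : 0 < ε) (hlow : S.Low (n + 1) m ε)
    (ξ : Fin n → (Cfg dc)) (Ω : Fin n → F) :
    ∃ φ : (Cfg dc) → F, Setup.Tst φ ∧ (∀ C x, S.G C φ x = 0) ∧ nsq φ = 1 ∧
      ∑ β, nsq (S.Qm m β φ) < ε ∧
      ∀ i, ∫ w in Metric.ball (0 : (Cfg dc)) 1, inner ℂ (Ω i) (scl m (ξ i) φ w) = 0 := by
  obtain ⟨u, hu, hQ⟩ := hlow
  set I : (Cfg dc) → F → Fin (n + 1) → ℂ := fun ξ Ω j =>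
    ∫ w in Metric.ball (0 : (Cfg dc)) 1, inner ℂ Ω (scl m ξ (u j) w) with hI
  -- linear dependence
  obtain ⟨a, ha, ha0⟩ : ∃ a : Fin (n + 1) → ℂ, a ≠ 0 ∧ ∀ i, ∑ j, a j * I (ξ i) (Ω i) j = 0 := by
    let T : (Fin (n + 1) → ℂ) →ₗ[ℂ] (Fin n → ℂ) :=
      (Matrix.of (fun i j => I (ξ i) (Ω i) j) : Matrix (Fin n) (Fin (n + 1)) ℂ).mulVecLin
    have hT : LinearMap.ker T ≠ ⊥ := LinearMap.ker_ne_bot_of_finrank_lt (by simp)
    obtain ⟨a, ha, hne⟩ := (Submodule.ne_bot_iff _).mp hT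
    refine ⟨a, hne, fun i => ?_⟩
    have h := congrFun (LinearMap.mem_ker.mp ha) i
    simp only [T, Matrix.mulVecLin_apply, Matrix.mulVec, dotProduct, Pi.zero_apply] at h
    rw [← h]
    refine Finset.sum_congr rfl fun j _ => ?_
    rw [mul_comm]
    rfl
  set N : ℝ := nsq (fun x => ∑ j, a j • u j x) with hN
  have hNpos : 0 < N := by
    have h1 := hQ a ha
    have h2 : 0 ≤ ∑ β, nsq (S.Qm m β (fun x => ∑ j, a j • u j x)) :=
      Finset.sum_nonneg fun β _ => nsq_nonneg _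
    have h3 : 0 < ε * N := lt_of_le_of_lt h2 h1
    exact (mul_pos_iff_of_pos_left hε).mp h3
  have hsN : 0 < Real.sqrt N := Real.sqrt_pos.mpr hNpos
  set b : Fin (n + 1) → ℂ := fun j => (((Real.sqrt N)⁻¹ : ℝ) : ℂ) * a j with hbdef
  have hb0 : b ≠ 0 := by
    intro h
    apply ha
    funext j
    have h1 := congrFun h j
    simp only [hbdef, Pi.zero_apply] at h1
    rcases mul_eq_zero.mp h1 with h2 | h2
    · exact absurd (Complex.ofReal_eq_zero.mp h2) (inv_pos.mpr hsN).ne'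
    · exact h2
  have hT : ∀ j, Setup.Tst (u j) := fun j => (hu j).1
  obtain ⟨ht, htG⟩ := ZThmC_comb S Finset.univ b hT fun j => (hu j).2.1
  have hnorm : nsq (fun x => ∑ j, b j • u j x) = 1 := by
    have h1 : (fun x => ∑ j, b j • u j x) =
        fun x => (((Real.sqrt N)⁻¹ : ℝ) : ℂ) • ∑ j, a j • u j x := by
      funext x
      rw [Finset.smul_sum]
      refine Finset.sum_congr rfl fun j _ => ?_
      rw [hbdef, smul_smul]
    rw [h1, nsq]
    have h2 : ∀ x, ‖(((Real.sqrt N)⁻¹ : ℝ) : ℂ) • ∑ j, a j • u j x‖ ^ 2 =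
        N⁻¹ * ‖∑ j, a j • u j x‖ ^ 2 := by
      intro x
      rw [norm_smul, mul_pow, Complex.norm_real, Real.norm_eq_abs, sq_abs, inv_pow,
        Real.sq_sqrt hNpos.le]
    simp only [h2]
    rw [integral_const_mul]
    exact inv_mul_cancel₀ hNpos.ne'
  have hint : ∀ (ξ : (Cfg dc)) (Ω : F), (∑ j, a j * I ξ Ω j = 0) →
      ∫ w in Metric.ball (0 : (Cfg dc)) 1,
        inner ℂ Ω (scl m ξ (fun x => ∑ j, b j • u j x) w) = 0 := by
    intro ξ Ω h0
    have h1 : ∀ w, inner ℂ Ω (scl m ξ (fun x => ∑ j, b j • u j x) w) =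
        ∑ j, b j * inner ℂ Ω (scl m ξ (u j) w) := by
      intro w
      simp only [scl, inner_sum, inner_smul_right]
    simp only [h1]
    rw [integral_finsetSum]
    · have h2 : ∀ j, ∫ w in Metric.ball (0 : (Cfg dc)) 1, b j * inner ℂ Ω (scl m ξ (u j) w) =
          (((Real.sqrt N)⁻¹ : ℝ) : ℂ) * (a j * I ξ Ω j) := by
        intro j
        rw [integral_const_mul, hbdef, hI, mul_assoc]
      rw [Finset.sum_congr rfl fun j _ => h2 j, ← Finset.mul_sum, h0, mul_zero]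
    · intro j _
      refine Integrable.const_mul ?_ _
      have hc : Continuous fun w => inner ℂ Ω (scl m ξ (u j) w) :=
        continuous_const.inner (ZThmC_cont_scl ξ (hT j).1.continuous)
      exact (hc.continuousOn.integrableOn_compact (isCompact_closedBall (0 : (Cfg dc)) 1)).mono_set
        Metric.ball_subset_closedBall
  refine ⟨fun x => ∑ j, b j • u j x, ht, htG, hnorm, ?_, fun i => hint _ _ (ha0 i)⟩
  have h1 := hQ b hb0
  rw [hnorm, mul_one] at h1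
  exact h1

/-! ### the wells are the orbits of `m ξ_j` -/

lemma ZThmC_ro_smul (O : Matrix (Fin dc) (Fin dc) ℝ) (c : ℝ) (x : (Cfg dc)) :
    ro O (c • x) = c • ro O x := by
  ext p
  simp only [ro, PiLp.smul_apply, smul_eq_mul, Finset.mul_sum]
  refine Finset.sum_congr rfl fun B _ => ?_
  ring

lemma ZThmC_Vm_scale (S : Setup dc F) (m c : ℝ) (x : (Cfg dc)) :
    S.Vm (c * m) (c • x) = c ^ 4 * S.Vm m x := by
  have hF : ∀ A i j, S.FF A i j (c • x) = c ^ 2 * S.FF A i j x := by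
    intro A i j
    simp only [Setup.FF, PiLp.smul_apply, smul_eq_mul, Finset.mul_sum]
    refine Finset.sum_congr rfl fun B _ => Finset.sum_congr rfl fun C _ => ?_
    ring
  have hV : S.V (c • x) = c ^ 4 * S.V x := by
    simp only [Setup.V, hF, Finset.mul_sum]
    refine Finset.sum_congr rfl fun A _ => Finset.sum_congr rfl fun i _ =>
      Finset.sum_congr rfl fun j _ => ?_
    ring
  have hD : S.det3 (c • x) = c ^ 3 * S.det3 x := by
    simp only [Setup.det3, PiLp.smul_apply, smul_eq_mul, Finset.mul_sum]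
    refine Finset.sum_congr rfl fun A _ => Finset.sum_congr rfl fun i _ =>
      Finset.sum_congr rfl fun j _ => ?_
    ring
  have hM : ∑ i, ∑ A, (aw i * (c • x) (i, A)) ^ 2 = c ^ 2 * ∑ i, ∑ A, (aw i * x (i, A)) ^ 2 := by
    simp only [PiLp.smul_apply, smul_eq_mul, Finset.mul_sum]
    refine Finset.sum_congr rfl fun A _ => Finset.sum_congr rfl fun i _ => ?_
    ring
  unfold Setup.Vm
  rw [hV, hD, hM]
  ring

lemma ZThmC_wells (S : Setup dc F) {n : ℕ} {ξ : Fin n → (Cfg dc)}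
    (hcov : ∀ x, S.Vm 1 x = 0 → ∃ j, x ∈ S.Orb (ξ j)) {m : ℝ} (hm : 0 < m) {x : (Cfg dc)}
    (hx : S.Vm m x = 0) : ∃ j, x ∈ S.Orb (m • ξ j) := by
  have h1 : S.Vm 1 (m⁻¹ • x) = 0 := by
    have h := ZThmC_Vm_scale S m m⁻¹ x
    rw [inv_mul_cancel₀ hm.ne', hx, mul_zero] at h
    exact h
  obtain ⟨j, O, hO, hj⟩ := hcov _ h1
  refine ⟨j, O, hO, ?_⟩
  rw [ZThmC_ro_smul, ← hj, smul_smul, mul_inv_cancel₀ hm.ne', one_smul]

lemma ZThmC_Vm_zero (S : Setup dc F) (m : ℝ) : S.Vm m 0 = 0 := by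
  simp [Setup.Vm, Setup.V, Setup.FF, Setup.det3]

lemma ZThmC_cont_Vm (S : Setup dc F) (m : ℝ) : Continuous (S.Vm m) := by
  unfold Setup.Vm
  have h1 : Continuous S.V := (contDiff_V S).continuous
  have h2 : Continuous S.det3 := by
    unfold Setup.det3
    fun_prop
  fun_prop

lemma ZThmC_near (S : Setup dc F) {n : ℕ} {ξ : Fin n → (Cfg dc)}
    (hcov : ∀ x, S.Vm 1 x = 0 → ∃ j, x ∈ S.Orb (ξ j)) {m : ℝ} (hm : 0 < m) (x : (Cfg dc)) :
    ∃ j, Metric.infDist x (S.Orb (m • ξ j)) ≤ S.dm m x := by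
  have hcl : IsClosed (S.wells m) := isClosed_singleton.preimage (ZThmC_cont_Vm S m)
  have hne : (S.wells m).Nonempty := ⟨0, ZThmC_Vm_zero S m⟩
  obtain ⟨y, hy, hxy⟩ := hcl.exists_infDist_eq_dist hne x
  obtain ⟨j, hj⟩ := ZThmC_wells S hcov hm hy
  refine ⟨j, ?_⟩
  unfold Setup.dm
  rw [hxy]
  exact Metric.infDist_le_dist_of_mem hj

/-! ### splitting of the mass -/

lemma ZThmC_split (S : Setup dc F) {n : ℕ} {ξ : Fin n → (Cfg dc)}
    (hcov : ∀ x, S.Vm 1 x = 0 → ∃ j, x ∈ S.Orb (ξ j)) {m K : ℝ} (hm : 0 < m) (hK : 0 < K)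
    {φ : (Cfg dc) → F} (hφ : Setup.Tst φ) :
    nsq φ ≤ m / K ^ 2 * (∫ x, S.dm m x ^ 2 * ‖φ x‖ ^ 2) +
      ∑ j, ∫ x, (if Metric.infDist x (S.Orb (m • ξ j)) ≤ K / Real.sqrt m then ‖φ x‖ ^ 2
        else 0) := by
  have hs : 0 < Real.sqrt m := Real.sqrt_pos.mpr hm
  have hR : 0 < K / Real.sqrt m := div_pos hK hs
  have i0 : Integrable (fun x => ‖φ x‖ ^ 2) := hφ.norm_sq_int
  have i1 : Integrable (fun x => m / K ^ 2 * (S.dm m x ^ 2 * ‖φ x‖ ^ 2)) :=
    (Setup.Tst.mul_norm_sq_int ((ZThmC_cont_dm S m).pow 2) hφ).const_mul _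
  have hcl : ∀ j, MeasurableSet {x : (Cfg dc) |
      Metric.infDist x (S.Orb (m • ξ j)) ≤ K / Real.sqrt m} := fun j =>
    (isClosed_le (Metric.continuous_infDist_pt _) continuous_const).measurableSet
  have e3 : ∀ j, (fun x => if Metric.infDist x (S.Orb (m • ξ j)) ≤ K / Real.sqrt m
      then ‖φ x‖ ^ 2 else 0) =
      {x : (Cfg dc) | Metric.infDist x (S.Orb (m • ξ j)) ≤ K / Real.sqrt m}.indicator
      (fun x => ‖φ x‖ ^ 2) := by
    intro j
    funext x
    rw [Set.indicator_apply]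
    rfl
  have i3 : ∀ j, Integrable (fun x => if Metric.infDist x (S.Orb (m • ξ j)) ≤ K / Real.sqrt m
      then ‖φ x‖ ^ 2 else 0) := by
    intro j
    rw [e3 j]
    exact i0.indicator (hcl j)
  have i4 : Integrable (fun x => ∑ j, (if Metric.infDist x (S.Orb (m • ξ j)) ≤ K / Real.sqrt m
      then ‖φ x‖ ^ 2 else 0)) := integrable_finsetSum _ fun j _ => i3 j
  have hs2 := integral_add i1 i4
  rw [integral_finsetSum _ fun j _ => i3 j] at hs2
  rw [← integral_const_mul]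
  refine le_trans ?_ (le_of_eq hs2)
  refine integral_mono i0 (i1.add i4) fun x => ?_
  have n0 : 0 ≤ ‖φ x‖ ^ 2 := by positivity
  have n1 : 0 ≤ m / K ^ 2 * (S.dm m x ^ 2 * ‖φ x‖ ^ 2) := by positivity
  have n3 : ∀ j, 0 ≤ (if Metric.infDist x (S.Orb (m • ξ j)) ≤ K / Real.sqrt m
      then ‖φ x‖ ^ 2 else 0) := by
    intro j
    split_ifs
    · exact n0
    · exact le_rfl
  change ‖φ x‖ ^ 2 ≤ m / K ^ 2 * (S.dm m x ^ 2 * ‖φ x‖ ^ 2) +
    ∑ j, (if Metric.infDist x (S.Orb (m • ξ j)) ≤ K / Real.sqrt m then ‖φ x‖ ^ 2 else 0)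
  by_cases h3 : S.dm m x ≤ K / Real.sqrt m
  · obtain ⟨j, hj⟩ := ZThmC_near S hcov hm x
    have h4 := Finset.single_le_sum (f := fun j =>
      (if Metric.infDist x (S.Orb (m • ξ j)) ≤ K / Real.sqrt m then ‖φ x‖ ^ 2 else 0))
      (fun i _ => n3 i) (Finset.mem_univ j)
    rw [if_pos (hj.trans h3)] at h4
    linarith
  · have hd : K / Real.sqrt m ≤ S.dm m x := (not_le.mp h3).le
    have hd2 : K ^ 2 / m ≤ S.dm m x ^ 2 := by
      have := pow_le_pow_left₀ hR.le hd 2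
      rwa [div_pow, Real.sq_sqrt hm.le] at this
    have hd3 : 1 ≤ m / K ^ 2 * S.dm m x ^ 2 := by
      calc (1 : ℝ) = m / K ^ 2 * (K ^ 2 / m) := by field_simp
        _ ≤ m / K ^ 2 * S.dm m x ^ 2 := mul_le_mul_of_nonneg_left hd2 (by positivity)
    have hd4 : ‖φ x‖ ^ 2 ≤ m / K ^ 2 * (S.dm m x ^ 2 * ‖φ x‖ ^ 2) := by
      rw [← mul_assoc]
      exact le_mul_of_one_le_left n0 hd3
    have h5 := Finset.sum_nonneg fun j (_ : j ∈ Finset.univ) => n3 j
    linarith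

/-! ### Theorem C -/

theorem thmC (S : Setup dc F) (n : ℕ) (hAP : APStmt S) (hP : PackStmt S) (hL : LimStmt S)
    (hcr : CritStmt S) (h1 : L1Stmt S) : ThmCStmt S n := by
  intro hI hne hOC
  by_contra hcon
  push Not at hcon
  obtain ⟨ξ, hξ0, hcov⟩ := hOC
  have h1' := fun j => h1 hI hne (ξ j) (hξ0 j)
  choose g hgc hgp Ω hΩ hLv using h1'
  obtain ⟨C, hC, hAPC⟩ := hAP
  -- the sequences
  have hm' : ∀ k : ℕ, ∃ m : ℝ, (k : ℝ) + 1 ≤ m ∧ ∀ ε : ℝ, 0 < ε → S.Low (n + 1) m ε := by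
    intro k
    exact hcon ((k : ℝ) + 1) (by positivity)
  choose m hmk hlow using hm'
  have hm1 : ∀ k, 1 ≤ m k := fun k => by
    have := hmk k
    have h2 : (0 : ℝ) ≤ k := Nat.cast_nonneg k
    linarith
  have hm0 : ∀ k, 0 < m k := fun k => lt_of_lt_of_le one_pos (hm1 k)
  have hs0 : ∀ k, 0 < Real.sqrt (m k) := fun k => Real.sqrt_pos.mpr (hm0 k)
  have hmt : Tendsto m atTop atTop := by
    refine tendsto_atTop_mono (fun k => ?_) tendsto_natCast_atTop_atTop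
    have := hmk k
    linarith
  set K : ℝ := 8 * C + 1 with hKdef
  have hK : 0 < K := by positivity
  have hK2 : 2 * C / K ^ 2 ≤ 1 / 4 := by
    rw [div_le_div_iff₀ (by positivity) (by norm_num)]
    rw [hKdef]
    nlinarith
  have hR : ∀ k, 0 < K / Real.sqrt (m k) := fun k => div_pos hK (hs0 k)
  have hn' : ∀ k j, ∃ c : ℝ, 0 < c ∧ ∀ u : (Cfg dc) → F, Setup.Tst u →
      (∀ O ∈ S.grp, ∀ x, ‖u (ro O x)‖ = ‖u x‖) →
      (∫ x, (if Metric.infDist x (S.Orb (m k • ξ j)) ≤ K / Real.sqrt (m k) then ‖u x‖ ^ 2 else 0) ≤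
        c * ∫ x in Metric.ball (m k • ξ j) (2 * (K / Real.sqrt (m k))), ‖u x‖ ^ 2) ∧
      ∀ s : ℝ, K / Real.sqrt (m k) ≤ s → c * (∫ x in Metric.ball (m k • ξ j) s, ‖u x‖ ^ 2) ≤
        (3 * s / (K / Real.sqrt (m k))) ^ (9 * dc) * nsq u :=
    fun k j => hP (m k • ξ j) (K / Real.sqrt (m k)) (hR k)
  choose c hc hpack using hn'
  have hcs : ∀ k, 0 ≤ ∑ j, c k j := fun k => Finset.sum_nonneg fun j _ => (hc k j).le
  have hε : ∀ k : ℕ, 0 < (((k : ℝ) + 1) * (1 + ∑ j, c k j))⁻¹ := fun k => by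
    have := hcs k
    positivity
  have hφ' : ∀ k : ℕ, ∃ φ : (Cfg dc) → F, Setup.Tst φ ∧ (∀ C x, S.G C φ x = 0) ∧ nsq φ = 1 ∧
      ∑ β, nsq (S.Qm (m k) β φ) < (((k : ℝ) + 1) * (1 + ∑ j, c k j))⁻¹ ∧
      ∀ i, ∫ w in Metric.ball (0 : (Cfg dc)) 1, inner ℂ (Ω i) (scl (m k) (ξ i) φ w) = 0 :=
    fun k => ZThmC_pick S (hε k) (hlow k _ (hε k)) ξ Ω
  choose φ hφt hφG hφ1 hφE hφx using hφ'
  have hQint : ∀ k β, Integrable (fun x => ‖S.Qm (m k) β (φ k) x‖ ^ 2) := fun k β =>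
    (ZThmC_tst_Qm S (m k) β (hφt k)).norm_sq_int
  have hE0 : ∀ k, 0 ≤ ∑ β, nsq (S.Qm (m k) β (φ k)) := fun k =>
    Finset.sum_nonneg fun β _ => nsq_nonneg _
  have hεt : Tendsto (fun k : ℕ => ((k : ℝ) + 1)⁻¹) atTop (𝓝 0) :=
    (tendsto_natCast_atTop_atTop.atTop_add (tendsto_const_nhds (x := (1 : ℝ)))).inv_tendsto_atTop
  have hεle : ∀ k : ℕ, (((k : ℝ) + 1) * (1 + ∑ j, c k j))⁻¹ ≤ ((k : ℝ) + 1)⁻¹ := by
    intro k
    have h2 := hcs k
    refine inv_anti₀ (by positivity) ?_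
    nlinarith [Nat.cast_nonneg (α := ℝ) k]
  have hrot : ∀ k, ∀ O ∈ S.grp, ∀ x, ‖φ k (ro O x)‖ = ‖φ k x‖ := fun k O hO x =>
    hO.2.2 (φ k) (hφt k) (hφG k) x
  -- some tube carries a definite part of the mass
  set δ : ℝ := 1 / (2 * ((n : ℝ) + 1)) with hδdef
  have hδ : 0 < δ := by positivity
  have hJ' : ∀ k, ∃ j, δ ≤ c k j * ∫ x in Metric.ball (m k • ξ j) (2 * K / Real.sqrt (m k)),
      ‖φ k x‖ ^ 2 := by
    intro k
    by_contra hno
    push Not at hno
    have e1 := ZThmC_split S hcov (hm0 k) hK (hφt k)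
    rw [hφ1] at e1
    have e2 : ∑ j, (∫ x, (if Metric.infDist x (S.Orb (m k • ξ j)) ≤ K / Real.sqrt (m k)
        then ‖φ k x‖ ^ 2 else 0)) ≤ ∑ _j : Fin n, δ := by
      refine Finset.sum_le_sum fun j _ => ?_
      have h2 := (hpack k j (φ k) (hφt _) (hrot _)).1
      rw [← mul_div_assoc] at h2
      exact h2.trans (hno j).le
    rw [Finset.sum_const, Finset.card_univ, Fintype.card_fin, nsmul_eq_mul] at e2
    have e3 : (n : ℝ) * δ ≤ 1 / 2 := by
      rw [hδdef, mul_one_div, div_le_div_iff₀ (by positivity) (by norm_num)]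
      linarith
    have e4 := hAPC (m k) (hm1 _) (φ k) (hφt _)
    rw [hφ1, mul_one] at e4
    have e5 : ∑ β, nsq (S.Qm (m k) β (φ k)) ≤ m k := by
      have h2 := (hφE k).le.trans (hεle k)
      have h3 : ((k : ℝ) + 1)⁻¹ ≤ 1 := by
        refine inv_le_one_of_one_le₀ ?_
        have : (0 : ℝ) ≤ (k : ℕ) := Nat.cast_nonneg _
        linarith
      exact h2.trans (h3.trans (hm1 _))
    have hmp := hm0 k
    have e6 : m k * (∫ x, S.dm (m k) x ^ 2 * ‖φ k x‖ ^ 2) ≤ 2 * C := by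
      have h2 : m k * (m k * (∫ x, S.dm (m k) x ^ 2 * ‖φ k x‖ ^ 2)) ≤ m k * (2 * C) := by
        calc m k * (m k * (∫ x, S.dm (m k) x ^ 2 * ‖φ k x‖ ^ 2))
            = m k ^ 2 * (∫ x, S.dm (m k) x ^ 2 * ‖φ k x‖ ^ 2) := by ring
          _ ≤ C * (m k + ∑ β, nsq (S.Qm (m k) β (φ k))) := e4
          _ ≤ C * (m k + m k) := by gcongr
          _ = m k * (2 * C) := by ring
      exact le_of_mul_le_mul_left h2 hmp
    have e7 : m k / K ^ 2 * (∫ x, S.dm (m k) x ^ 2 * ‖φ k x‖ ^ 2) ≤ 1 / 4 := by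
      calc m k / K ^ 2 * (∫ x, S.dm (m k) x ^ 2 * ‖φ k x‖ ^ 2)
          = (m k * (∫ x, S.dm (m k) x ^ 2 * ‖φ k x‖ ^ 2)) / K ^ 2 := by ring
        _ ≤ 2 * C / K ^ 2 := by gcongr
        _ ≤ 1 / 4 := hK2
    linarith
  choose J hJ using hJ'
  obtain ⟨j₀, hj₀⟩ := Finite.exists_infinite_fiber J
  have hinf : Set.Infinite {k | J k = j₀} := Set.infinite_coe_iff.mp hj₀
  obtain ⟨ψ, hψ, hψJ⟩ := Filter.extraction_of_frequently_atTop
    (Nat.frequently_atTop_iff_infinite.mpr hinf)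
  have hψk : ∀ k, k ≤ ψ k := hψ.id_le
  set μ : ℕ → ℝ := fun k => ∫ x in Metric.ball (m (ψ k) • ξ j₀) (2 * K / Real.sqrt (m (ψ k))),
    ‖φ (ψ k) x‖ ^ 2 with hμdef
  have hμn : ∀ k, δ ≤ c (ψ k) j₀ * μ k := by
    intro k
    have h2 := hJ (ψ k)
    rw [hψJ k] at h2
    exact h2
  have hμ0 : ∀ k, 0 < μ k := fun k => by
    have h2 := hμn k
    have h3 := hc (ψ k) j₀
    by_contra h4
    have h5 : c (ψ k) j₀ * μ k ≤ 0 := mul_nonpos_of_nonneg_of_nonpos h3.le (not_lt.mp h4)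
    linarith
  have hinv : ∀ k, (μ k)⁻¹ ≤ δ⁻¹ * c (ψ k) j₀ := by
    intro k
    rw [inv_le_iff_one_le_mul₀ (hμ0 k), mul_assoc]
    calc (1 : ℝ) = δ⁻¹ * δ := (inv_mul_cancel₀ hδ.ne').symm
      _ ≤ δ⁻¹ * (c (ψ k) j₀ * μ k) := mul_le_mul_of_nonneg_left (hμn k) (inv_pos.mpr hδ).le
  have hδi : 0 < δ⁻¹ := inv_pos.mpr hδ
  obtain ⟨ψ₂, hψ₂, hlim2⟩ := ZThmC_lim S hL (ξ j₀) (hcr _ (hξ0 j₀)) (fun k => m (ψ k))
    (fun k => hm1 _)
    (hmt.comp hψ.tendsto_atTop) (fun k => φ (ψ k)) (fun k => hφt _) (fun k => hφG _)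
    (fun k => (μ k)⁻¹) (fun k => inv_pos.mpr (hμ0 k))
    (fun s => δ⁻¹ * (3 * max s K / K) ^ (9 * dc))
    (fun k s _ => by
      have h2 : ∫ x in Metric.ball (m (ψ k) • ξ j₀) (s / Real.sqrt (m (ψ k))),
          ‖φ (ψ k) x‖ ^ 2 ≤
          ∫ x in Metric.ball (m (ψ k) • ξ j₀) (max s K / Real.sqrt (m (ψ k))),
          ‖φ (ψ k) x‖ ^ 2 := by
        refine setIntegral_mono_set (hφt _).norm_sq_int.integrableOn
          (Filter.Eventually.of_forall fun x => by positivity) ?_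
        refine (Metric.ball_subset_ball ?_).eventuallyLE
        exact div_le_div_of_nonneg_right (le_max_left _ _) (hs0 _).le
      have h3 := (hpack (ψ k) j₀ (φ (ψ k)) (hφt _) (hrot _)).2
        (max s K / Real.sqrt (m (ψ k)))
        (div_le_div_of_nonneg_right (le_max_right _ _) (hs0 _).le)
      rw [hφ1, mul_one] at h3
      have h4 : 3 * (max s K / Real.sqrt (m (ψ k))) / (K / Real.sqrt (m (ψ k))) =
          3 * max s K / K := by
        have := (hs0 (ψ k)).ne'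
        field_simp
      rw [h4] at h3
      have hI0 : 0 ≤ ∫ x in Metric.ball (m (ψ k) • ξ j₀) (max s K / Real.sqrt (m (ψ k))),
          ‖φ (ψ k) x‖ ^ 2 := integral_nonneg fun x => by positivity
      calc (μ k)⁻¹ * ∫ x in Metric.ball (m (ψ k) • ξ j₀) (s / Real.sqrt (m (ψ k))),
            ‖φ (ψ k) x‖ ^ 2
          ≤ (μ k)⁻¹ * ∫ x in Metric.ball (m (ψ k) • ξ j₀) (max s K / Real.sqrt (m (ψ k))),
            ‖φ (ψ k) x‖ ^ 2 := mul_le_mul_of_nonneg_left h2 (inv_pos.mpr (hμ0 k)).le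
        _ ≤ (δ⁻¹ * c (ψ k) j₀) * ∫ x in Metric.ball (m (ψ k) • ξ j₀)
            (max s K / Real.sqrt (m (ψ k))), ‖φ (ψ k) x‖ ^ 2 :=
          mul_le_mul_of_nonneg_right (hinv k) hI0
        _ = δ⁻¹ * (c (ψ k) j₀ * ∫ x in Metric.ball (m (ψ k) • ξ j₀)
            (max s K / Real.sqrt (m (ψ k))), ‖φ (ψ k) x‖ ^ 2) := by ring
        _ ≤ δ⁻¹ * (3 * max s K / K) ^ (9 * dc) := mul_le_mul_of_nonneg_left h3 hδi.le)
    (by
      refine squeeze_zero (fun k => mul_nonneg (inv_pos.mpr (hμ0 k)).le (hE0 _)) (fun k => ?_)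
        (g := fun k : ℕ => δ⁻¹ * ((k : ℝ) + 1)⁻¹) (by simpa using hεt.const_mul δ⁻¹)
      have h2 := hc (ψ k) j₀
      have h2s := hcs (ψ k)
      have h3 : (0 : ℝ) ≤ (ψ k : ℕ) := Nat.cast_nonneg _
      have h4 : (k : ℝ) ≤ (ψ k : ℕ) := Nat.cast_le.mpr (hψk k)
      have h6 : (0 : ℝ) ≤ k := Nat.cast_nonneg k
      have h7 : c (ψ k) j₀ ≤ 1 + ∑ j, c (ψ k) j := by
        have h8 := Finset.single_le_sum (f := fun j => c (ψ k) j) (fun j _ => (hc (ψ k) j).le)
          (Finset.mem_univ j₀)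
        linarith
      calc (μ k)⁻¹ * ∑ β, nsq (S.Qm (m (ψ k)) β (φ (ψ k)))
          ≤ (δ⁻¹ * c (ψ k) j₀) * ((((ψ k : ℕ) : ℝ) + 1) * (1 + ∑ j, c (ψ k) j))⁻¹ :=
            mul_le_mul (hinv k) (hφE _).le (hE0 _) (by positivity)
        _ = δ⁻¹ * (c (ψ k) j₀ / (1 + ∑ j, c (ψ k) j)) * (((ψ k : ℕ) : ℝ) + 1)⁻¹ := by
            rw [mul_inv]
            ring
        _ ≤ δ⁻¹ * 1 * (((ψ k : ℕ) : ℝ) + 1)⁻¹ := by
            have h5 : c (ψ k) j₀ / (1 + ∑ j, c (ψ k) j) ≤ 1 := by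
              rw [div_le_one (by positivity)]
              exact h7
            gcongr
        _ ≤ δ⁻¹ * ((k : ℝ) + 1)⁻¹ := by
            rw [mul_one]
            have h5 : (((ψ k : ℕ) : ℝ) + 1)⁻¹ ≤ ((k : ℝ) + 1)⁻¹ :=
              inv_anti₀ (by positivity) (by linarith)
            exact mul_le_mul_of_nonneg_left h5 hδi.le)
    (fun k => hQint _) (Ω j₀) (hΩ j₀) (fun k => hφx _ j₀)
    (g j₀) (hgc j₀) (hgp j₀)
    (fun u hum hui huP huQ huG => by
      refine hLv j₀ u hum hui ⟨δ⁻¹ * (3 * max 1 K / K) ^ (9 * dc), 9 * dc, fun s hs => ?_⟩ huQ huG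
      refine (huP s (by linarith)).trans ?_
      rw [mul_assoc, ← mul_pow]
      have h2 : 3 * max s K / K ≤ 3 * max 1 K / K * s := by
        rw [div_mul_eq_mul_div]
        refine div_le_div_of_nonneg_right ?_ hK.le
        have h3 : max s K ≤ max 1 K * s := by
          refine max_le ?_ ?_
          · have := le_max_left 1 K
            nlinarith
          · have := le_max_right 1 K
            nlinarith
        linarith
      have h4 : 0 ≤ 3 * max s K / K := by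
        have := le_max_right s K
        positivity
      exact mul_le_mul_of_nonneg_left (pow_le_pow_left₀ h4 h2 (9 * dc)) hδi.le)
  have hone : ∀ k, (μ (ψ₂ k))⁻¹ * ∫ x in Metric.ball (m (ψ (ψ₂ k)) • ξ j₀)
      (2 * K / Real.sqrt (m (ψ (ψ₂ k)))), ‖φ (ψ (ψ₂ k)) x‖ ^ 2 = 1 := by
    intro k
    exact inv_mul_cancel₀ (hμ0 (ψ₂ k)).ne'
  have hlast := hlim2 (2 * K) (by positivity)
  simp only [hone] at hlast
  exact one_ne_zero (tendsto_nhds_unique tendsto_const_nhds hlast)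

end Vale.Agent.P353.Z.U
end
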