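import Mathlib
import Vale.Agent.P353.BdZ.B3
import Vale.Agent.P353.BdZ.B2
import Vale.Agent.P353.BdZ.B4
import Vale.Agent.P353.BdZ.B8
import Vale.Agent.P353.BdZ.B10

set_option linter.all false

section

/-! # P353, general `N`: A1, A6, A7, A8 -/

open MeasureTheory Filter Topology
open scoped ContDiff Matrix

namespace Vale.Agent.P353.Z

variable {dc : ℕ}

variable {F : Type*} [NormedAddCommGroup F] [InnerProductSpace ℂ F]

namespace Setup

variable (S : Setup dc F)

lemma contDiff_MM_a1 (β : Fin 16) : ContDiff ℝ ∞ (S.MM β) := by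
  unfold MM
  refine ContDiff.sum fun i _ => ContDiff.sum fun A _ => ?_
  exact (contDiff_ofReal (contDiff_const.mul (contDiff_coord _))).smul contDiff_const

lemma Q_add_a1 (β : Fin 16) {u v : (Cfg dc) → F} {x : (Cfg dc)} (hu : DifferentiableAt ℝ u x)
    (hv : DifferentiableAt ℝ v x) :
    S.Q β (fun y => u y + v y) x = S.Q β u x + S.Q β v x := by
  simp only [Q, pd_add hu hv, map_add, Finset.sum_add_distrib, smul_add]
  abel

lemma Q_csmul_a1 (β : Fin 16) (c : ℂ) {v : (Cfg dc) → F} {x : (Cfg dc)} (hv : DifferentiableAt ℝ v x) :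
    S.Q β (fun y => c • v y) x = c • S.Q β v x := by
  have h : ∀ i A, pd i A (fun y => c • v y) x = c • pd i A v x := by
    intro i A
    unfold pd
    rw [fderiv_fun_const_smul hv]
    rfl
  simp only [Q, h, map_smul, ← Finset.smul_sum, smul_add]
  rw [smul_comm]

/-- the matrix `∑_i a_i x_i^A γ^i` -/
noncomputable def PA_a1 (A : Fin dc) (x : (Cfg dc)) : Matrix (Fin 16) (Fin 16) ℂ :=
  ∑ i, ((aw i * x (i, A) : ℝ) : ℂ) • S.g i

lemma PA_transpose_a1 (A : Fin dc) (x : (Cfg dc)) : (S.PA_a1 A x)ᵀ = S.PA_a1 A x := by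
  simp only [PA_a1, Matrix.transpose_sum, Matrix.transpose_smul, S.g_symm]

lemma PA_sq_a1 (A : Fin dc) (x : (Cfg dc)) :
    S.PA_a1 A x * S.PA_a1 A x = ((∑ i, (aw i * x (i, A)) ^ 2 : ℝ) : ℂ) • 1 := by
  set c : Fin 9 → ℂ := fun i => ((aw i * x (i, A) : ℝ) : ℂ) with hc
  have e1 : S.PA_a1 A x * S.PA_a1 A x = ∑ i, ∑ j, (c i * c j) • (S.g i * S.g j) := by
    simp only [PA_a1, Finset.sum_mul_sum, smul_mul_smul_comm]
    rfl
  have e2 : S.PA_a1 A x * S.PA_a1 A x = ∑ i, ∑ j, (c i * c j) • (S.g j * S.g i) := by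
    rw [e1, Finset.sum_comm]
    refine Finset.sum_congr rfl fun i _ => Finset.sum_congr rfl fun j _ => ?_
    rw [mul_comm (c j)]
  have e3 : (2 : ℂ) • (S.PA_a1 A x * S.PA_a1 A x) =
      (2 : ℂ) • (((∑ i, (aw i * x (i, A)) ^ 2 : ℝ) : ℂ) • (1 : Matrix (Fin 16) (Fin 16) ℂ)) := by
    rw [two_smul]
    nth_rewrite 1 [e1]
    rw [e2, ← Finset.sum_add_distrib]
    simp only [← Finset.sum_add_distrib, ← smul_add, S.g_anti]
    have : ∀ i, ∑ j, (c i * c j) • (if i = j then (2 : Matrix (Fin 16) (Fin 16) ℂ) else 0) =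
        (c i * c i) • (2 : Matrix (Fin 16) (Fin 16) ℂ) := by
      intro i
      rw [Finset.sum_eq_single i]
      · rw [if_pos rfl]
      · intro j _ hj
        rw [if_neg (Ne.symm hj), smul_zero]
      · intro h
        exact absurd (Finset.mem_univ _) h
    simp only [this, ← Finset.sum_smul]
    have h2 : (2 : Matrix (Fin 16) (Fin 16) ℂ) = (2 : ℂ) • 1 := by
      rw [two_smul, one_add_one_eq_two]
    rw [h2, smul_comm]
    congr 2
    rw [Complex.ofReal_sum]
    refine Finset.sum_congr rfl fun i _ => ?_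
    rw [hc, Complex.ofReal_pow, sq]
  have h2 : (2 : ℂ) ≠ 0 := two_ne_zero
  exact smul_right_injective _ h2 e3

lemma MM_eq_a1 (β : Fin 16) (x : (Cfg dc)) : S.MM β x = ∑ A, S.vec (S.PA_a1 A x * S.Gam) A β := by
  simp only [MM, PA_a1, Finset.sum_mul, Matrix.smul_mul, S.vec_sum, S.vec_smul]
  rw [Finset.sum_comm]

lemma PAG_mul_a1 (A : Fin dc) (x : (Cfg dc)) : S.PA_a1 A x * S.Gam * (S.PA_a1 A x * S.Gam)ᵀ =
    ((∑ i, (aw i * x (i, A)) ^ 2 : ℝ) : ℂ) • 1 := by
  rw [Matrix.transpose_mul, S.PA_transpose_a1, S.Gam_transpose]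
  calc S.PA_a1 A x * S.Gam * (-S.Gam * S.PA_a1 A x)
      = -(S.PA_a1 A x * (S.Gam * S.Gam) * S.PA_a1 A x) := by
        simp only [Matrix.neg_mul, Matrix.mul_neg, mul_assoc]
    _ = S.PA_a1 A x * S.PA_a1 A x := by
        rw [S.Gam_sq, Matrix.mul_neg, Matrix.neg_mul, neg_neg, mul_one]
    _ = _ := S.PA_sq_a1 A x

lemma MM_anti_a1 (α β : Fin 16) (x : (Cfg dc)) : S.MM α x * S.MM β x + S.MM β x * S.MM α x =
    if α = β then ((∑ i, ∑ A, (aw i * x (i, A)) ^ 2 : ℝ) : ℂ) • (1 : F →L[ℂ] F) else 0 := by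
  have e1 : S.MM α x * S.MM β x + S.MM β x * S.MM α x =
      ∑ A, ∑ B, (if A = B then ((S.PA_a1 A x * S.Gam * (S.PA_a1 B x * S.Gam)ᵀ) α β) •
        (1 : F →L[ℂ] F) else 0) := by
    rw [S.MM_eq_a1 α, S.MM_eq_a1 β, Finset.sum_mul_sum, Finset.sum_mul_sum]
    rw [Finset.sum_comm (f := fun B A => S.vec (S.PA_a1 B x * S.Gam) B β *
      S.vec (S.PA_a1 A x * S.Gam) A α), ← Finset.sum_add_distrib]
    simp only [← Finset.sum_add_distrib, S.vec_anti]
  have e2 : ∀ A : Fin dc, ∑ B, (if A = B then ((S.PA_a1 A x * S.Gam * (S.PA_a1 B x * S.Gam)ᵀ) α β) •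
        (1 : F →L[ℂ] F) else 0) =
      if α = β then ((∑ i, (aw i * x (i, A)) ^ 2 : ℝ) : ℂ) • (1 : F →L[ℂ] F) else 0 := by
    intro A
    rw [Finset.sum_ite_eq, if_pos (Finset.mem_univ _), S.PAG_mul_a1, Matrix.smul_apply,
      Matrix.one_apply]
    by_cases h : α = β
    · rw [if_pos h, if_pos h, smul_eq_mul, mul_one]
    · rw [if_neg h, if_neg h, smul_zero, zero_smul]
  rw [e1, Finset.sum_congr rfl fun A _ => e2 A]
  by_cases h : α = β
  · simp only [if_pos h, ← Finset.sum_smul]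
    congr 1
    rw [← Complex.ofReal_sum, Finset.sum_comm]
  · simp only [if_neg h, Finset.sum_const_zero]

/-- `tr (Γ γ^{ij}) = 0` -/
lemma trace_Gam_g2_a1 (i j : Fin 9) : (S.Gam * S.g2 i j).trace = 0 := by
  obtain ⟨k, hk, hki, hkj⟩ : ∃ k : Fin 9, 3 ≤ k.val ∧ k ≠ i ∧ k ≠ j := by
    revert i j
    decide
  have h1 : S.g k * S.Gam = -(S.Gam * S.g k) := S.g_Gam_anti hk
  have hi : S.g k * S.g i = -(S.g i * S.g k) := S.g_ac hki
  have hj : S.g k * S.g j = -(S.g j * S.g k) := S.g_ac hkj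
  have hij : ∀ p q : Fin 9, S.g k * S.g p = -(S.g p * S.g k) → S.g k * S.g q = -(S.g q * S.g k) →
      S.g k * (S.g p * S.g q) = S.g p * S.g q * S.g k := by
    intro p q hp hq
    rw [← mul_assoc, hp, neg_mul, mul_assoc, hq, mul_neg, neg_neg, mul_assoc]
  have h2 : S.g k * S.g2 i j = S.g2 i j * S.g k := by
    unfold CS.g2
    rw [Matrix.mul_smul, Matrix.smul_mul, mul_sub, sub_mul, hij i j hi hj, hij j i hj hi]
  have h3 : S.g k * (S.Gam * S.g2 i j) = -(S.Gam * S.g2 i j * S.g k) := by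
    rw [← mul_assoc, h1, neg_mul, mul_assoc, h2, mul_assoc]
  have h4 : (S.Gam * S.g2 i j).trace = -(S.Gam * S.g2 i j).trace := by
    calc (S.Gam * S.g2 i j).trace = (S.g k * S.g k * (S.Gam * S.g2 i j)).trace := by
          rw [S.g_sq', one_mul]
      _ = (S.g k * (S.g k * (S.Gam * S.g2 i j))).trace := by rw [mul_assoc]
      _ = (S.g k * (S.Gam * S.g2 i j) * S.g k).trace := by rw [Matrix.trace_mul_comm]
      _ = -(S.Gam * S.g2 i j * S.g k * S.g k).trace := by
          rw [h3, Matrix.neg_mul, Matrix.trace_neg]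
      _ = -(S.Gam * S.g2 i j).trace := by rw [mul_assoc, S.g_sq', mul_one]
  exact self_eq_neg.1 h4

/-- `tr γ^j = 0` -/
lemma trace_g_a1 (j : Fin 9) : (S.g j).trace = 0 := by
  obtain ⟨k, hkj⟩ : ∃ k : Fin 9, k ≠ j := by
    revert j
    decide
  have h1 : S.g k * S.g j = -(S.g j * S.g k) := S.g_ac hkj
  have h4 : (S.g j).trace = -(S.g j).trace := by
    calc (S.g j).trace = (S.g k * S.g k * S.g j).trace := by rw [S.g_sq', one_mul]
      _ = (S.g k * (S.g k * S.g j)).trace := by rw [mul_assoc]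
      _ = (S.g k * S.g j * S.g k).trace := by rw [Matrix.trace_mul_comm]
      _ = -(S.g j * S.g k * S.g k).trace := by rw [h1, Matrix.neg_mul, Matrix.trace_neg]
      _ = -(S.g j).trace := by rw [mul_assoc, S.g_sq', mul_one]
  exact self_eq_neg.1 h4

lemma gGam_im_a1 (i : Fin 9) (α β : Fin 16) : ((S.g i * S.Gam) α β).im = 0 :=
  mul_im_zero (S.g_im i) S.Gam_real α β

lemma MM_symm_a1 (β : Fin 16) (x : (Cfg dc)) (v w : F) :
    inner ℂ (S.MM β x v) w = inner ℂ v (S.MM β x w) := by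
  simp only [MM, _root_.sum_apply, _root_.smul_apply, sum_inner,
    inner_sum, inner_smul_left, inner_smul_right, S.vec_symm _ (S.gGam_im_a1 _), Complex.conj_ofReal]

lemma Tst.MM_a1 {u : (Cfg dc) → F} (hu : Tst u) (β : Fin 16) : Tst (fun x => S.MM β x (u x)) :=
  hu.clm (S.contDiff_MM_a1 β)

lemma Tst.csmul_a1 {u : (Cfg dc) → F} (hu : Tst u) (c : ℂ) : Tst (fun x => c • u x) := by
  refine ⟨contDiff_const.smul hu.1, hu.2.mono ?_⟩
  intro x hx
  simp only [Function.mem_support] at hx ⊢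
  intro h0
  exact hx (by rw [h0, smul_zero])

lemma Tst.Qm_a1 {u : (Cfg dc) → F} (hu : Tst u) (m : ℝ) (β : Fin 16) : Tst (S.Qm m β u) :=
  (hu.Q S β).add ((Tst.MM_a1 S hu β).csmul_a1 m)

lemma Tst.W_a1 {u : (Cfg dc) → F} (hu : Tst u) (β : Fin 16) : Tst (fun x => S.W β x (u x)) :=
  hu.clm (S.contDiff_W β)

lemma Q0_eq_a1 (β : Fin 16) (u : (Cfg dc) → F) (x : (Cfg dc)) :
    S.Q0 β u x = S.Q β u x - S.W β x (u x) := by
  simp only [Q0, Q, add_sub_cancel_right]

lemma Tst.Q0_a1 {u : (Cfg dc) → F} (hu : Tst u) (β : Fin 16) : Tst (S.Q0 β u) := by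
  have h := (hu.Q S β).sub (Tst.W_a1 S hu β)
  have e : S.Q0 β u = fun x => S.Q β u x - S.W β x (u x) := funext fun x => S.Q0_eq_a1 β u x
  rw [e]
  exact h

lemma Qm_symm_a1 (m : ℝ) (β : Fin 16) {u v : (Cfg dc) → F} (hu : Tst u) (hv : Tst v) :
    ∫ x, inner ℂ (S.Qm m β u x) (v x) = ∫ x, inner ℂ (u x) (S.Qm m β v x) := by
  have h1 : ∀ x, inner ℂ (S.Qm m β u x) (v x) =
      inner ℂ (S.Q β u x) (v x) + (m : ℂ) * inner ℂ (S.MM β x (u x)) (v x) := by
    intro x
    simp only [Qm, inner_add_left, inner_smul_left, Complex.conj_ofReal]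
  have h2 : ∀ x, inner ℂ (u x) (S.Qm m β v x) =
      inner ℂ (u x) (S.Q β v x) + (m : ℂ) * inner ℂ (S.MM β x (u x)) (v x) := by
    intro x
    simp only [Qm, inner_add_right, inner_smul_right, S.MM_symm_a1]
  have i1 : Integrable (fun x => (m : ℂ) * inner ℂ (S.MM β x (u x)) (v x)) :=
    ((Tst.MM_a1 S hu β).inner_int hv.1.continuous).const_mul _
  simp only [h1, h2]
  rw [integral_add ((hu.Q S β).inner_int hv.1.continuous) i1,
    integral_add (hu.inner_int (hv.Q S β).1.continuous) i1, Q_symm S β u v hu hv.1]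

lemma Q0_symm_a1 (β : Fin 16) {u v : (Cfg dc) → F} (hu : Tst u) (hv : Tst v) :
    ∫ x, inner ℂ (S.Q0 β u x) (v x) = ∫ x, inner ℂ (u x) (S.Q0 β v x) := by
  have h1 : ∀ x, inner ℂ (S.Q0 β u x) (v x) =
      inner ℂ (S.Q β u x) (v x) - inner ℂ (S.W β x (u x)) (v x) := by
    intro x
    rw [S.Q0_eq_a1, inner_sub_left]
  have h2 : ∀ x, inner ℂ (u x) (S.Q0 β v x) =
      inner ℂ (u x) (S.Q β v x) - inner ℂ (S.W β x (u x)) (v x) := by
    intro x
    rw [S.Q0_eq_a1, inner_sub_right, S.W_symm]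
  have i1 : Integrable (fun x => inner ℂ (S.W β x (u x)) (v x)) :=
    (Tst.W_a1 S hu β).inner_int hv.1.continuous
  simp only [h1, h2]
  rw [integral_sub ((hu.Q S β).inner_int hv.1.continuous) i1,
    integral_sub (hu.inner_int (hv.Q S β).1.continuous) i1, Q_symm S β u v hu hv.1]

end Setup

lemma ofReal_nsq_a1 (f : (Cfg dc) → F) : ((nsq f : ℝ) : ℂ) = ∫ x, inner ℂ (f x) (f x) := by
  rw [nsq, ← integral_complex_ofReal]
  refine integral_congr_ae (Filter.Eventually.of_forall fun x => ?_)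
  simp only [inner_self_eq_norm_sq_to_K]
  norm_cast

/-- `-∫⟨u, Δu⟩ = ∑ ‖∂_i^A u‖²` -/
lemma lap_parts_a1 {u : (Cfg dc) → F} (hu : Setup.Tst u) :
    ∫ x, inner ℂ (u x) (∑ i, ∑ A, pd i A (pd i A u) x) =
      -((∑ i, ∑ A, nsq (pd i A u) : ℝ) : ℂ) := by
  have i1 : ∀ i A, Integrable (fun x => inner ℂ (u x) (pd i A (pd i A u) x)) := fun i A =>
    hu.inner_int (contDiff_pd (contDiff_pd hu.1)).continuous
  simp only [inner_sum]
  rw [integral_finsetSum _ fun i _ => integrable_finsetSum _ fun A _ => i1 i A,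
    Complex.ofReal_sum, ← Finset.sum_neg_distrib]
  refine Finset.sum_congr rfl fun i _ => ?_
  rw [integral_finsetSum _ fun A _ => i1 i A, Complex.ofReal_sum, ← Finset.sum_neg_distrib]
  refine Finset.sum_congr rfl fun A _ => ?_
  rw [ofReal_nsq_a1, integral_inner_pd u (pd i A u) (hu.1.of_le (by simp))
    ((contDiff_pd hu.1).of_le (by simp)) hu.2 i A, neg_neg]

namespace U

theorem a1 (S : Setup dc F) (h : A1aStmt S) (h'' : A1bStmt S) : A1Stmt S := by
  intro m α β u hu x
  have hQ : ∀ γ, ContDiff ℝ ∞ (S.Q γ u) := fun γ => S.contDiff_Q γ hu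
  have hM : ∀ γ, ContDiff ℝ ∞ (fun y => S.MM γ y (u y)) := fun γ =>
    Setup.contDiff_clm_apply' (S.contDiff_MM_a1 γ) hu
  have e : ∀ γ δ, S.Qm m γ (S.Qm m δ u) x = S.Q γ (S.Q δ u) x +
      (m : ℂ) • (S.Q γ (fun y => S.MM δ y (u y)) x + S.MM γ x (S.Q δ u x)) +
      ((m : ℂ) * m) • S.MM γ x (S.MM δ x (u x)) := by
    intro γ δ
    have d1 : DifferentiableAt ℝ (S.Q δ u) x := (hQ δ).differentiable (by simp) x
    have d2 : DifferentiableAt ℝ (fun y => S.MM δ y (u y)) x :=
      (hM δ).differentiable (by simp) x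
    have e1 : S.Q γ (S.Qm m δ u) x = S.Q γ (S.Q δ u) x +
        (m : ℂ) • S.Q γ (fun y => S.MM δ y (u y)) x := by
      have e2 : S.Qm m δ u = fun y => S.Q δ u y + (m : ℂ) • S.MM δ y (u y) := rfl
      have d3 : DifferentiableAt ℝ (fun y => (m : ℂ) • S.MM δ y (u y)) x := d2.const_smul (m : ℂ)
      rw [e2, S.Q_add_a1 γ d1 d3, S.Q_csmul_a1 γ (m : ℂ) d2]
    have e3 : S.Qm m γ (S.Qm m δ u) x =
        S.Q γ (S.Qm m δ u) x + (m : ℂ) • S.MM γ x (S.Q δ u x + (m : ℂ) • S.MM δ x (u x)) := rfl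
    rw [e3, e1, map_add, map_smul]
    module
  have ha := h α β u hu x
  have hb := h'' α β u hu x
  have hc : S.MM α x (S.MM β x (u x)) + S.MM β x (S.MM α x (u x)) =
      (if α = β then ((∑ i, ∑ A, (aw i * x (i, A)) ^ 2 : ℝ) : ℂ) • (u x) else 0) := by
    have h1 := congrArg (fun T : F →L[ℂ] F => T (u x)) (S.MM_anti_a1 α β x)
    have h2 : (S.MM α x * S.MM β x + S.MM β x * S.MM α x) (u x) =
      S.MM α x (S.MM β x (u x)) + S.MM β x (S.MM α x (u x)) := rfl
    rw [← h2]
    refine h1.trans ?_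
    by_cases hab : α = β
    · simp only [if_pos hab]
      rfl
    · simp only [if_neg hab]
      rfl
  have hs : S.Qm m α (S.Qm m β u) x + S.Qm m β (S.Qm m α u) x =
      (S.Q α (S.Q β u) x + S.Q β (S.Q α u) x) +
      (m : ℂ) • (S.Q α (fun y => S.MM β y (u y)) x + S.MM α x (S.Q β u x) +
        S.Q β (fun y => S.MM α y (u y)) x + S.MM β x (S.Q α u x)) +
      ((m : ℂ) * m) • (S.MM α x (S.MM β x (u x)) + S.MM β x (S.MM α x (u x))) := by
    rw [e α β, e β α]
    module
  rw [hs, ha, hb, hc]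
  by_cases hab : α = β
  · simp only [if_pos hab, Setup.Hm, Setup.Vm]
    push_cast
    module
  · simp only [if_neg hab]
    module

theorem a7 (S : Setup dc F) (h : A1Stmt S) : A7Stmt S := by
  intro m u hu x
  have e : ∀ β, (2 : ℂ) • S.Qm m β (S.Qm m β u) x = (2 : ℂ) • S.Hm m u x +
      (m : ℂ) • (∑ i, ∑ j, ((rc i j : ℂ) * (S.Gam * S.g2 i j) β β) • S.J i j u x) +
      (2 * S.κ : ℂ) • ∑ j, ∑ C, (S.g j β β * (x (j, C) : ℂ)) • S.G C u x := by
    intro β
    have := h m β β u hu x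
    rw [if_pos rfl, ← two_smul ℂ] at this
    exact this
  have t1 : ∑ β, ∑ i, ∑ j, ((rc i j : ℂ) * (S.Gam * S.g2 i j) β β) • S.J i j u x = 0 := by
    rw [Finset.sum_comm]
    refine Finset.sum_eq_zero fun i _ => ?_
    rw [Finset.sum_comm]
    refine Finset.sum_eq_zero fun j _ => ?_
    rw [← Finset.sum_smul, ← Finset.mul_sum]
    have : ∑ β, (S.Gam * S.g2 i j) β β = (S.Gam * S.g2 i j).trace := rfl
    rw [this, S.trace_Gam_g2_a1, mul_zero, zero_smul]
  have t2 : ∑ β, ∑ j, ∑ C, (S.g j β β * (x (j, C) : ℂ)) • S.G C u x = 0 := by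
    rw [Finset.sum_comm]
    refine Finset.sum_eq_zero fun j _ => ?_
    rw [Finset.sum_comm]
    refine Finset.sum_eq_zero fun C _ => ?_
    rw [← Finset.sum_smul, ← Finset.sum_mul]
    have : ∑ β, (S.g j) β β = (S.g j).trace := rfl
    rw [this, S.trace_g_a1, zero_mul, zero_smul]
  have hsum : (2 : ℂ) • ∑ β, S.Qm m β (S.Qm m β u) x = (2 : ℂ) • ((16 : ℂ) • S.Hm m u x) := by
    have t3 : ∑ β : Fin 16, (2 * S.κ : ℂ) • ∑ j, ∑ C,
        (S.g j β β * (x (j, C) : ℂ)) • S.G C u x = 0 := by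
      rw [← Finset.smul_sum, t2, smul_zero]
    rw [Finset.smul_sum, Finset.sum_congr rfl fun β _ => e β, Finset.sum_add_distrib,
      Finset.sum_add_distrib, t3, ← Finset.smul_sum, ← Finset.smul_sum, t1, smul_zero,
      add_zero, add_zero, Finset.sum_const, Finset.card_univ, Fintype.card_fin,
      ← Nat.cast_smul_eq_nsmul ℂ, smul_smul, smul_smul]
    norm_num
  exact smul_right_injective F (two_ne_zero : (2 : ℂ) ≠ 0) hsum

theorem a8 (S : Setup dc F) : A8Stmt S := by
  intro u hu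
  have h0 : ∀ x, ∑ β, S.Q0 β (S.Q0 β u) x = -((8 : ℂ) • ∑ i, ∑ A, pd i A (pd i A u) x) := by
    intro x
    have hpd : ∀ (β : Fin 16) (j : Fin 9) (B : Fin dc), pd j B (S.Q0 β u) x =
        (-Complex.I) • ∑ i, ∑ A, S.vec (S.g i) A β (pd j B (pd i A u) x) := by
      intro β j B
      have hd : ∀ i A, DifferentiableAt ℝ (pd i A u) x := fun i A =>
        (contDiff_pd hu.1).differentiable (by simp) x
      have hdv : ∀ i A, DifferentiableAt ℝ (fun y => S.vec (S.g i) A β (pd i A u y)) x :=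
        fun i A => ((S.vec (S.g i) A β).restrictScalars ℝ).differentiableAt.comp x (hd i A)
      have e : S.Q0 β u = fun y => (-Complex.I) • ∑ i, ∑ A, S.vec (S.g i) A β (pd i A u y) := rfl
      have h3 : pd j B (fun y => (-Complex.I) • ∑ i, ∑ A, S.vec (S.g i) A β (pd i A u y)) x =
          (-Complex.I) • pd j B (fun y => ∑ i, ∑ A, S.vec (S.g i) A β (pd i A u y)) x := by
        unfold pd
        rw [fderiv_fun_const_smul]
        · rfl
        · exact DifferentiableAt.fun_sum fun i _ => DifferentiableAt.fun_sum fun A _ => hdv i A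
      rw [e, h3]
      congr 1
      rw [pd_sum _ (fun i _ => DifferentiableAt.fun_sum fun A _ => hdv i A)]
      refine Finset.sum_congr rfl fun i _ => ?_
      rw [pd_sum _ (fun A _ => hdv i A)]
      refine Finset.sum_congr rfl fun A _ => ?_
      rw [pd_clm _ (hd i A)]
    have h1 : ∀ β, S.Q0 β (S.Q0 β u) x =
        -(∑ j, ∑ B, ∑ i, ∑ A, S.vec (S.g j) B β (S.vec (S.g i) A β (pd j B (pd i A u) x))) := by
      intro β
      conv_lhs => rw [Setup.Q0]
      simp only [hpd, map_smul, map_sum, ← Finset.smul_sum, smul_smul]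
      rw [neg_mul_neg, Complex.I_mul_I, neg_one_smul]
    rw [Finset.sum_congr rfl fun β _ => h1 β, Finset.sum_neg_distrib,
      S.second_order (fun j B i A => pd j B (pd i A u) x) (fun i A j B => pd_comm hu.1 i j A B x)]
  have h1 : ((∑ β, nsq (S.Q0 β u) : ℝ) : ℂ) =
      ∫ x, inner ℂ (u x) (∑ β, S.Q0 β (S.Q0 β u) x) := by
    simp only [inner_sum]
    rw [integral_finsetSum]
    · rw [Complex.ofReal_sum]
      refine Finset.sum_congr rfl fun β _ => ?_
      rw [ofReal_nsq_a1, S.Q0_symm_a1 β hu (Setup.Tst.Q0_a1 S hu β)]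
    · intro β _
      exact hu.inner_int (Setup.Tst.Q0_a1 S (Setup.Tst.Q0_a1 S hu β) β).1.continuous
  have h2 : ((∑ β, nsq (S.Q0 β u) : ℝ) : ℂ) = ((8 * ∑ i, ∑ A, nsq (pd i A u) : ℝ) : ℂ) := by
    rw [h1]
    simp only [h0, inner_neg_right, inner_smul_right]
    rw [integral_neg, integral_const_mul, lap_parts_a1 hu]
    push_cast
    ring
  exact Complex.ofReal_injective h2

theorem a6 (S : Setup dc F) (h : A7Stmt S) : A6Stmt S := by
  intro m u hu
  have h1 : ((∑ β, nsq (S.Qm m β u) : ℝ) : ℂ) =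
      ∫ x, inner ℂ (u x) (∑ β, S.Qm m β (S.Qm m β u) x) := by
    simp only [inner_sum]
    rw [integral_finsetSum]
    · rw [Complex.ofReal_sum]
      refine Finset.sum_congr rfl fun β _ => ?_
      rw [ofReal_nsq_a1, S.Qm_symm_a1 m β hu (Setup.Tst.Qm_a1 S hu m β)]
    · intro β _
      exact hu.inner_int (Setup.Tst.Qm_a1 S (Setup.Tst.Qm_a1 S hu m β) m β).1.continuous
  have hVc : Continuous (fun x => S.Vm m x) := by
    have h1 : ContDiff ℝ ∞ (fun x => S.Vm m x) := by
      unfold Setup.Vm Setup.det3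
      refine (((contDiff_V S).add (contDiff_const.mul ?_)).add (contDiff_const.mul ?_))
      · refine ContDiff.sum fun A _ => ContDiff.sum fun B _ => ContDiff.sum fun C _ => ?_
        exact ((contDiff_const.mul (Setup.contDiff_coord _)).mul (Setup.contDiff_coord _)).mul
          (Setup.contDiff_coord _)
      · refine ContDiff.sum fun i _ => ContDiff.sum fun A _ => ?_
        exact (contDiff_const.mul (Setup.contDiff_coord _)).pow 2
    exact h1.continuous
  have hF : Setup.Tst (fun x => S.Fx x (u x)) := hu.clm (contDiff_Fx S)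
  have hG : Setup.Tst (fun x => S.FG (u x)) := hu.clm (T := fun _ => S.FG) contDiff_const
  have h2 : ∀ x, inner ℂ (u x) (∑ β, S.Qm m β (S.Qm m β u) x) =
      -(8 : ℂ) * inner ℂ (u x) (∑ i, ∑ A, pd i A (pd i A u) x) +
      (16 : ℂ) * ((S.Vm m x * ‖u x‖ ^ 2 : ℝ) : ℂ) + (16 : ℂ) * inner ℂ (u x) (S.Fx x (u x))
        - ((12 * m : ℝ) : ℂ) * inner ℂ (u x) (S.FG (u x)) := by
    intro x
    rw [h m u hu.1 x, Setup.Hm]
    simp only [inner_smul_right, inner_add_right, inner_sub_right, inner_self_eq_norm_sq_to_K]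
    push_cast
    simp only [Complex.coe_algebraMap]
    ring
  have i1 : Integrable (fun x => -(8 : ℂ) * inner ℂ (u x) (∑ i, ∑ A, pd i A (pd i A u) x)) := by
    refine (hu.inner_int ?_).const_mul _
    exact continuous_finsetSum _ fun i _ => continuous_finsetSum _ fun A _ =>
      (contDiff_pd (contDiff_pd hu.1)).continuous
  have i2 : Integrable (fun x => (16 : ℂ) * ((S.Vm m x * ‖u x‖ ^ 2 : ℝ) : ℂ)) :=
    (hu.mul_norm_sq_int hVc).ofReal.const_mul _
  have i3 : Integrable (fun x => (16 : ℂ) * inner ℂ (u x) (S.Fx x (u x))) :=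
    (hu.inner_int hF.1.continuous).const_mul _
  have i4 : Integrable (fun x => ((12 * m : ℝ) : ℂ) * inner ℂ (u x) (S.FG (u x))) :=
    (hu.inner_int hG.1.continuous).const_mul _
  have h3 : ((∑ β, nsq (S.Qm m β u) : ℝ) : ℂ) =
      (8 : ℂ) * ((∑ i, ∑ A, nsq (pd i A u) : ℝ) : ℂ) +
      (16 : ℂ) * ((∫ x, S.Vm m x * ‖u x‖ ^ 2 : ℝ) : ℂ) +
      (16 : ℂ) * (∫ x, inner ℂ (u x) (S.Fx x (u x)))
      - ((12 * m : ℝ) : ℂ) * ∫ x, inner ℂ (u x) (S.FG (u x)) := by
    rw [h1]
    simp only [h2]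
    have i12 : Integrable (fun x => -(8 : ℂ) * inner ℂ (u x) (∑ i, ∑ A, pd i A (pd i A u) x) +
        (16 : ℂ) * ((S.Vm m x * ‖u x‖ ^ 2 : ℝ) : ℂ)) := i1.add i2
    have i123 : Integrable (fun x => -(8 : ℂ) * inner ℂ (u x) (∑ i, ∑ A, pd i A (pd i A u) x) +
        (16 : ℂ) * ((S.Vm m x * ‖u x‖ ^ 2 : ℝ) : ℂ) +
        (16 : ℂ) * inner ℂ (u x) (S.Fx x (u x))) := i12.add i3
    rw [integral_sub i123 i4, integral_add i12 i3, integral_add i1 i2,
      integral_const_mul, integral_const_mul, integral_const_mul, integral_const_mul,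
      integral_complex_ofReal, lap_parts_a1 hu]
    ring
  have h5 := congrArg Complex.re h3
  rw [Complex.ofReal_re] at h5
  rw [h5]
  simp only [Complex.sub_re, Complex.add_re, Complex.mul_re, Complex.ofReal_re,
    Complex.ofReal_im, zero_mul, sub_zero, mul_zero]
  norm_num

end U
end Vale.Agent.P353.Z
end

section

/-! # P353, general `N`: the colour group is a compact group (`GrpCptStmt`) -/

open MeasureTheory Filter Topology
open scoped ContDiff

namespace Vale.Agent.P353.Z.U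

variable {d : ℕ} {F : Type*} [NormedAddCommGroup F] [InnerProductSpace ℂ F]

theorem grp_ro_apply (O : Matrix (Fin d) (Fin d) ℝ) (x : Cfg d) (p : Fin 9 × Fin d) :
    ro O x p = ∑ B, O p.2 B * x (p.1, B) := rfl

theorem grp_ro_mul (O O' : Matrix (Fin d) (Fin d) ℝ) (x : Cfg d) :
    ro (O * O') x = ro O (ro O' x) := by
  ext p
  simp only [grp_ro_apply, Matrix.mul_apply, Finset.sum_mul, Finset.mul_sum]
  rw [Finset.sum_comm]
  exact Finset.sum_congr rfl fun B _ => Finset.sum_congr rfl fun C _ => by ring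

theorem grp_ro_one (x : Cfg d) : ro 1 x = x := by
  ext p
  simp only [grp_ro_apply, Matrix.one_apply, ite_mul, one_mul, zero_mul, Finset.sum_ite_eq,
    Finset.mem_univ, if_true]

theorem grp_ro_cont (x : Cfg d) : Continuous fun O : Matrix (Fin d) (Fin d) ℝ => ro O x := by
  unfold ro
  refine (PiLp.continuous_toLp 2 _).comp (continuous_pi fun p => ?_)
  exact continuous_finsetSum _ fun B _ =>
    (continuous_id.matrix_elem p.2 B).mul continuous_const

theorem grp_orth {O : Matrix (Fin d) (Fin d) ℝ} (h : O.transpose * O = 1) (B D : Fin d) :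
    ∑ A, O A B * O A D = if B = D then 1 else 0 := by
  have := congrFun (congrFun h B) D
  rw [Matrix.mul_apply, Matrix.one_apply] at this
  simpa [Matrix.transpose_apply] using this

theorem grp_orth' {O : Matrix (Fin d) (Fin d) ℝ} (h : O.transpose * O = 1) (B D : Fin d) :
    ∑ A, O B A * O D A = if B = D then 1 else 0 := by
  have h' : O * O.transpose = 1 := mul_eq_one_comm.1 h
  have := congrFun (congrFun h' B) D
  rw [Matrix.mul_apply, Matrix.one_apply] at this
  simpa [Matrix.transpose_apply] using this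

/-- orthogonal matrices preserve sums of squares -/
theorem grp_sq {O : Matrix (Fin d) (Fin d) ℝ} (h : O.transpose * O = 1) (v : Fin d → ℝ) :
    ∑ A, (∑ B, O A B * v B) ^ 2 = ∑ A, v A ^ 2 := by
  have h3 : ∀ A, (∑ B, O A B * v B) ^ 2 = ∑ B, ∑ D, (O A B * O A D) * (v B * v D) := by
    intro A
    rw [sq, Finset.sum_mul_sum]
    refine Finset.sum_congr rfl fun B _ => Finset.sum_congr rfl fun D _ => ?_
    ring
  simp only [h3]
  rw [Finset.sum_comm]
  refine Finset.sum_congr rfl fun B _ => ?_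
  rw [Finset.sum_comm]
  have h4 : ∀ D, ∑ A, O A B * O A D * (v B * v D) =
      (if B = D then 1 else 0) * (v B * v D) := by
    intro D
    rw [← Finset.sum_mul, grp_orth h]
  simp only [h4, ite_mul, one_mul, zero_mul, Finset.sum_ite_eq, Finset.mem_univ, if_true]
  ring

theorem grp_norm {O : Matrix (Fin d) (Fin d) ℝ} (h : O.transpose * O = 1) (x : Cfg d) :
    ‖ro O x‖ = ‖x‖ := by
  have h1 : ‖ro O x‖ ^ 2 = ‖x‖ ^ 2 := by
    rw [EuclideanSpace.norm_sq_eq, EuclideanSpace.norm_sq_eq, Fintype.sum_prod_type,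
      Fintype.sum_prod_type]
    refine Finset.sum_congr rfl fun i _ => ?_
    simp only [Real.norm_eq_abs, sq_abs]
    exact grp_sq h fun B => x (i, B)
  exact (sq_eq_sq₀ (norm_nonneg _) (norm_nonneg _)).1 h1

/-- half of the invariance of the structure constants -/
theorem grp_f (S : Setup d F) {O : Matrix (Fin d) (Fin d) ℝ} (h : O.transpose * O = 1)
    (hf : ∀ A B C, ∑ A', ∑ B', ∑ C', O A' A * O B' B * O C' C * S.f A' B' C' = S.f A B C)
    (A B C : Fin d) :
    ∑ B', ∑ C', O B' B * O C' C * S.f A B' C' = ∑ A', O A A' * S.f A' B C := by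
  have h1 : ∀ A', O A A' * S.f A' B C = ∑ D, O A A' * O D A' *
      ∑ B', ∑ C', O B' B * O C' C * S.f D B' C' := by
    intro A'
    rw [← hf A' B C, Finset.mul_sum]
    refine Finset.sum_congr rfl fun D _ => ?_
    simp only [Finset.mul_sum]
    exact Finset.sum_congr rfl fun B' _ => Finset.sum_congr rfl fun C' _ => by ring
  simp only [h1]
  symm
  rw [Finset.sum_comm]
  simp only [← Finset.sum_mul, grp_orth' h, ite_mul, one_mul, zero_mul, Finset.sum_ite_eq,
    Finset.mem_univ, if_true]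

/-- the transpose also preserves the structure constants -/
theorem grp_f' (S : Setup d F) {O : Matrix (Fin d) (Fin d) ℝ} (h : O.transpose * O = 1)
    (hf : ∀ A B C, ∑ A', ∑ B', ∑ C', O A' A * O B' B * O C' C * S.f A' B' C' = S.f A B C)
    (A B C : Fin d) :
    ∑ A', ∑ B', ∑ C', O A A' * O B B' * O C C' * S.f A' B' C' = S.f A B C := by
  have h1 : ∑ A', ∑ B', ∑ C', O A A' * O B B' * O C C' * S.f A' B' C' =
      ∑ B', ∑ C', O B B' * O C C' * ∑ A', O A A' * S.f A' B' C' := by
    rw [Finset.sum_comm]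
    refine Finset.sum_congr rfl fun B' _ => ?_
    rw [Finset.sum_comm]
    refine Finset.sum_congr rfl fun C' _ => ?_
    rw [Finset.mul_sum]
    exact Finset.sum_congr rfl fun A' _ => by ring
  rw [h1]
  have h2 : ∀ B' C', O B B' * O C C' * ∑ A', O A A' * S.f A' B' C' =
      ∑ D, ∑ E, (O B B' * O D B') * ((O C C' * O E C') * S.f A D E) := by
    intro B' C'
    rw [← grp_f S h hf A B' C', Finset.mul_sum]
    refine Finset.sum_congr rfl fun D _ => ?_
    rw [Finset.mul_sum]
    exact Finset.sum_congr rfl fun E _ => by ring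
  simp only [h2]
  have h3 : ∀ B', ∑ C', ∑ D, ∑ E, (O B B' * O D B') * ((O C C' * O E C') * S.f A D E) =
      ∑ D, (O B B' * O D B') * S.f A D C := by
    intro B'
    rw [Finset.sum_comm]
    refine Finset.sum_congr rfl fun D _ => ?_
    rw [Finset.sum_comm]
    have h4 : ∀ E, ∑ C', (O B B' * O D B') * ((O C C' * O E C') * S.f A D E) =
        (O B B' * O D B') * ((if C = E then 1 else 0) * S.f A D E) := by
      intro E
      rw [← Finset.mul_sum, ← Finset.sum_mul, grp_orth' h]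
    simp only [h4, ite_mul, one_mul, zero_mul, mul_ite, mul_zero, Finset.sum_ite_eq,
      Finset.mem_univ, if_true]
  simp only [h3]
  rw [Finset.sum_comm]
  simp only [← Finset.sum_mul, grp_orth' h, ite_mul, one_mul, zero_mul, Finset.sum_ite_eq,
    Finset.mem_univ, if_true]

theorem grp_FF (S : Setup d F) {O : Matrix (Fin d) (Fin d) ℝ} (h : O.transpose * O = 1)
    (hf : ∀ A B C, ∑ A', ∑ B', ∑ C', O A' A * O B' B * O C' C * S.f A' B' C' = S.f A B C)
    (A : Fin d) (i j : Fin 9) (x : Cfg d) :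
    S.FF A i j (ro O x) = ∑ A', O A A' * S.FF A' i j x := by
  unfold Setup.FF
  simp only [grp_ro_apply]
  have h1 : ∀ B' C', S.f A B' C' * (∑ B, O B' B * x (i, B)) * (∑ C, O C' C * x (j, C)) =
      ∑ B, ∑ C, (O B' B * O C' C * S.f A B' C') * (x (i, B) * x (j, C)) := by
    intro B' C'
    rw [mul_assoc, Finset.sum_mul_sum, Finset.mul_sum]
    refine Finset.sum_congr rfl fun B _ => ?_
    rw [Finset.mul_sum]
    exact Finset.sum_congr rfl fun C _ => by ring
  simp only [h1]
  have h2 : ∑ B', ∑ C', ∑ B, ∑ C, (O B' B * O C' C * S.f A B' C') * (x (i, B) * x (j, C)) =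
      ∑ B, ∑ C, (∑ B', ∑ C', O B' B * O C' C * S.f A B' C') * (x (i, B) * x (j, C)) := by
    have e1 : ∀ B', ∑ C', ∑ B, ∑ C, (O B' B * O C' C * S.f A B' C') * (x (i, B) * x (j, C)) =
        ∑ B, ∑ C, ∑ C', (O B' B * O C' C * S.f A B' C') * (x (i, B) * x (j, C)) := by
      intro B'
      rw [Finset.sum_comm]
      exact Finset.sum_congr rfl fun B _ => Finset.sum_comm
    simp only [e1]
    rw [Finset.sum_comm]
    refine Finset.sum_congr rfl fun B _ => ?_
    rw [Finset.sum_comm]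
    refine Finset.sum_congr rfl fun C _ => ?_
    simp only [Finset.sum_mul]
  rw [h2]
  simp only [grp_f S h hf]
  have h3 : ∀ A', O A A' * (S.κ * ∑ B, ∑ C, S.f A' B C * x (i, B) * x (j, C)) =
      ∑ B, ∑ C, S.κ * (O A A' * S.f A' B C * (x (i, B) * x (j, C))) := by
    intro A'
    simp only [Finset.mul_sum]
    exact Finset.sum_congr rfl fun B _ => Finset.sum_congr rfl fun C _ => by ring
  simp only [h3]
  symm
  rw [Finset.sum_comm, Finset.mul_sum]
  refine Finset.sum_congr rfl fun B _ => ?_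
  rw [Finset.sum_comm, Finset.mul_sum]
  refine Finset.sum_congr rfl fun C _ => ?_
  rw [Finset.sum_mul, Finset.mul_sum]

theorem grp_V (S : Setup d F) {O : Matrix (Fin d) (Fin d) ℝ} (h : O.transpose * O = 1)
    (hf : ∀ A B C, ∑ A', ∑ B', ∑ C', O A' A * O B' B * O C' C * S.f A' B' C' = S.f A B C)
    (x : Cfg d) : S.V (ro O x) = S.V x := by
  unfold Setup.V
  congr 1
  have e : ∀ y, ∑ A, ∑ i, ∑ j, S.FF A i j y ^ 2 = ∑ i, ∑ j, ∑ A, S.FF A i j y ^ 2 := by
    intro y
    rw [Finset.sum_comm]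
    exact Finset.sum_congr rfl fun i _ => Finset.sum_comm
  rw [e, e]
  refine Finset.sum_congr rfl fun i _ => Finset.sum_congr rfl fun j _ => ?_
  simp only [grp_FF S h hf]
  exact grp_sq h fun A => S.FF A i j x

theorem grp_det3 (S : Setup d F) {O : Matrix (Fin d) (Fin d) ℝ} (h : O.transpose * O = 1)
    (hf : ∀ A B C, ∑ A', ∑ B', ∑ C', O A' A * O B' B * O C' C * S.f A' B' C' = S.f A B C)
    (x : Cfg d) : S.det3 (ro O x) = S.det3 x := by
  have e : ∀ y, S.κ * S.det3 y = ∑ A, y (0, A) * S.FF A 1 2 y := by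
    intro y
    unfold Setup.det3 Setup.FF
    simp only [Finset.mul_sum]
    exact Finset.sum_congr rfl fun A _ => Finset.sum_congr rfl fun B _ =>
      Finset.sum_congr rfl fun C _ => by ring
  have h1 : S.κ * S.det3 (ro O x) = S.κ * S.det3 x := by
    rw [e, e]
    simp only [grp_FF S h hf, grp_ro_apply]
    have h3 : ∀ A, (∑ B, O A B * x (0, B)) * (∑ D, O A D * S.FF D 1 2 x) =
        ∑ B, ∑ D, (O A B * O A D) * (x (0, B) * S.FF D 1 2 x) := by
      intro A
      rw [Finset.sum_mul_sum]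
      refine Finset.sum_congr rfl fun B _ => Finset.sum_congr rfl fun D _ => ?_
      ring
    simp only [h3]
    rw [Finset.sum_comm]
    refine Finset.sum_congr rfl fun B _ => ?_
    rw [Finset.sum_comm]
    have h4 : ∀ D, ∑ A, O A B * O A D * (x (0, B) * S.FF D 1 2 x) =
        (if B = D then 1 else 0) * (x (0, B) * S.FF D 1 2 x) := by
      intro D
      rw [← Finset.sum_mul, grp_orth h]
    simp only [h4, ite_mul, one_mul, zero_mul, Finset.sum_ite_eq, Finset.mem_univ, if_true]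
  exact mul_left_cancel₀ S.κ_pos.ne' h1

theorem grp_Vm (S : Setup d F) {O : Matrix (Fin d) (Fin d) ℝ} (hO : O ∈ S.grp) (m : ℝ)
    (x : Cfg d) : S.Vm m (ro O x) = S.Vm m x := by
  unfold Setup.Vm
  rw [grp_V S hO.1 hO.2.1, grp_det3 S hO.1 hO.2.1]
  congr 2
  refine Finset.sum_congr rfl fun i _ => ?_
  simp only [mul_pow, ← Finset.mul_sum]
  congr 1
  exact grp_sq hO.1 fun A => x (i, A)

theorem grp_one (S : Setup d F) : (1 : Matrix (Fin d) (Fin d) ℝ) ∈ S.grp := by
  refine ⟨by simp, fun A B C => ?_, fun u _ _ x => by rw [grp_ro_one]⟩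
  simp [Matrix.one_apply]

theorem grp_mul (S : Setup d F) {O O' : Matrix (Fin d) (Fin d) ℝ} (hO : O ∈ S.grp)
    (hO' : O' ∈ S.grp) : O * O' ∈ S.grp := by
  refine ⟨?_, fun A B C => ?_, fun u hu hG x => ?_⟩
  · rw [Matrix.transpose_mul, Matrix.mul_assoc, ← Matrix.mul_assoc O.transpose, hO.1,
      Matrix.one_mul, hO'.1]
  · -- use the half invariance three times
    have h1 := grp_f S hO.1 hO.2.1
    have h2 := grp_f S hO'.1 hO'.2.1
    have h3 : ∀ A', ∑ B', ∑ C', (O * O') B' B * (O * O') C' C * S.f A' B' C' =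
        ∑ D, (O * O') A' D * S.f D B C := by
      intro A'
      have e1 : ∀ B' C', (O * O') B' B * (O * O') C' C * S.f A' B' C' =
          ∑ D, ∑ E, (O' D B * O' E C) * (O B' D * O C' E * S.f A' B' C') := by
        intro B' C'
        rw [Matrix.mul_apply, Matrix.mul_apply, Finset.sum_mul_sum, Finset.sum_mul]
        refine Finset.sum_congr rfl fun D _ => ?_
        rw [Finset.sum_mul]
        exact Finset.sum_congr rfl fun E _ => by ring
      simp only [e1]
      have e2 : ∑ B', ∑ C', ∑ D, ∑ E, (O' D B * O' E C) * (O B' D * O C' E * S.f A' B' C') =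
          ∑ D, ∑ E, (O' D B * O' E C) * ∑ B', ∑ C', O B' D * O C' E * S.f A' B' C' := by
        have e3 : ∀ B', ∑ C', ∑ D, ∑ E, (O' D B * O' E C) * (O B' D * O C' E * S.f A' B' C') =
            ∑ D, ∑ E, ∑ C', (O' D B * O' E C) * (O B' D * O C' E * S.f A' B' C') := by
          intro B'
          rw [Finset.sum_comm]
          exact Finset.sum_congr rfl fun D _ => Finset.sum_comm
        simp only [e3]
        rw [Finset.sum_comm]
        refine Finset.sum_congr rfl fun D _ => ?_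
        rw [Finset.sum_comm]
        refine Finset.sum_congr rfl fun E _ => ?_
        simp only [Finset.mul_sum]
      rw [e2]
      simp only [h1]
      have e4 : ∀ D E, (O' D B * O' E C) * ∑ A'', O A' A'' * S.f A'' D E =
          ∑ A'', O A' A'' * (O' D B * O' E C * S.f A'' D E) := by
        intro D E
        rw [Finset.mul_sum]
        exact Finset.sum_congr rfl fun _ _ => by ring
      simp only [e4]
      have e5 : ∑ D, ∑ E, ∑ A'', O A' A'' * (O' D B * O' E C * S.f A'' D E) =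
          ∑ A'', O A' A'' * ∑ D, ∑ E, O' D B * O' E C * S.f A'' D E := by
        have e6 : ∀ D, ∑ E, ∑ A'', O A' A'' * (O' D B * O' E C * S.f A'' D E) =
            ∑ A'', ∑ E, O A' A'' * (O' D B * O' E C * S.f A'' D E) := fun D => Finset.sum_comm
        simp only [e6]
        rw [Finset.sum_comm]
        refine Finset.sum_congr rfl fun A'' _ => ?_
        simp only [Finset.mul_sum]
      rw [e5]
      simp only [h2, Matrix.mul_apply, Finset.sum_mul, Finset.mul_sum]
      rw [Finset.sum_comm]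
      exact Finset.sum_congr rfl fun _ _ => Finset.sum_congr rfl fun _ _ => by ring
    have h4 : (O * O').transpose * (O * O') = 1 := by
      rw [Matrix.transpose_mul, Matrix.mul_assoc, ← Matrix.mul_assoc O.transpose, hO.1,
        Matrix.one_mul, hO'.1]
    have e7 : ∀ A', ∑ B', ∑ C', (O * O') A' A * (O * O') B' B * (O * O') C' C * S.f A' B' C' =
        (O * O') A' A * ∑ B', ∑ C', (O * O') B' B * (O * O') C' C * S.f A' B' C' := by
      intro A'
      simp only [Finset.mul_sum]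
      exact Finset.sum_congr rfl fun _ _ => Finset.sum_congr rfl fun _ _ => by ring
    simp only [e7, h3, Finset.mul_sum]
    rw [Finset.sum_comm]
    have e8 : ∀ D, ∑ A', (O * O') A' A * ((O * O') A' D * S.f D B C) =
        (if A = D then 1 else 0) * S.f D B C := by
      intro D
      rw [← grp_orth h4 A D, Finset.sum_mul]
      exact Finset.sum_congr rfl fun _ _ => by ring
    simp only [e8, ite_mul, one_mul, zero_mul, Finset.sum_ite_eq, Finset.mem_univ, if_true]
  · rw [grp_ro_mul, hO.2.2 u hu hG, hO'.2.2 u hu hG]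

theorem grp_transpose (S : Setup d F) {O : Matrix (Fin d) (Fin d) ℝ} (hO : O ∈ S.grp) :
    O.transpose ∈ S.grp := by
  have h' : O * O.transpose = 1 := mul_eq_one_comm.1 hO.1
  refine ⟨by rw [Matrix.transpose_transpose, h'], fun A B C => ?_, fun u hu hG x => ?_⟩
  · simpa only [Matrix.transpose_apply] using grp_f' S hO.1 hO.2.1 A B C
  · rw [← hO.2.2 u hu hG (ro O.transpose x), ← grp_ro_mul, h', grp_ro_one]

theorem grp_compact (S : Setup d F) : IsCompact S.grp := by
  have h1 : IsCompact (Set.pi Set.univ fun _ : Fin d => Set.pi Set.univ fun _ : Fin d =>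
      Set.Icc (-1 : ℝ) 1) :=
    isCompact_univ_pi fun _ => isCompact_univ_pi fun _ => isCompact_Icc
  have ce : ∀ A B, Continuous fun O : Matrix (Fin d) (Fin d) ℝ => O A B :=
    fun A B => continuous_id.matrix_elem A B
  refine h1.of_isClosed_subset ?_ ?_
  · have c1 : IsClosed {O : Matrix (Fin d) (Fin d) ℝ | O.transpose * O = 1} :=
      isClosed_eq (by fun_prop) continuous_const
    have c2 : IsClosed {O : Matrix (Fin d) (Fin d) ℝ | ∀ A B C, ∑ A', ∑ B', ∑ C',
        O A' A * O B' B * O C' C * S.f A' B' C' = S.f A B C} := by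
      simp only [Set.ofPred_forall]
      refine isClosed_iInter fun A => isClosed_iInter fun B => isClosed_iInter fun C => ?_
      refine isClosed_eq ?_ continuous_const
      exact continuous_finsetSum _ fun A' _ => continuous_finsetSum _ fun B' _ =>
        continuous_finsetSum _ fun C' _ =>
          (((ce A' A).mul (ce B' B)).mul (ce C' C)).mul continuous_const
    have c3 : IsClosed {O : Matrix (Fin d) (Fin d) ℝ | ∀ u : Cfg d → F, Setup.Tst u →
        (∀ C x, S.G C u x = 0) → ∀ x, ‖u (ro O x)‖ = ‖u x‖} := by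
      simp only [Set.ofPred_forall]
      refine isClosed_iInter fun u => isClosed_iInter fun hu => isClosed_iInter fun _ =>
        isClosed_iInter fun x => ?_
      exact isClosed_eq ((hu.1.continuous.comp (grp_ro_cont x)).norm) continuous_const
    exact c1.inter (c2.inter c3)
  · intro O hO i _ j _
    have this : ∑ k, O k j * O k j = 1 := by
      rw [grp_orth hO.1 j j, if_pos rfl]
    have h2 : O i j * O i j ≤ 1 := by
      rw [← this]
      exact Finset.single_le_sum (f := fun k => O k j * O k j)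
        (fun k _ => mul_self_nonneg _) (Finset.mem_univ i)
    constructor
    · nlinarith
    · nlinarith

/-- **G-2** -/
theorem grpCpt (S : Setup d F) : GrpCptStmt S :=
  ⟨grp_compact S, grp_one S, fun _ hO _ hO' => grp_mul S hO hO', fun _ hO => grp_transpose S hO,
    fun _ hO m x => grp_Vm S hO m x, fun _ hO x => grp_norm hO.1 x⟩

end Vale.Agent.P353.Z.U
end

section

/-! # P353, general `N`: the one parameter groups `exp (t ad a)` lie in the colour group (G-1) -/

set_option linter.all false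

open MeasureTheory Filter Topology
open scoped ContDiff

namespace Vale.Agent.P353.Z.U

variable {d : ℕ} {F : Type*} [NormedAddCommGroup F] [InnerProductSpace ℂ F]

section ExpDeriv

open scoped Matrix.Norms.Operator

lemma gx983_hasDerivAt_exp (M : Matrix (Fin d) (Fin d) ℝ) (t : ℝ) (A B : Fin d) :
    HasDerivAt (fun t : ℝ => (NormedSpace.exp (t • M)) A B)
      ((M * NormedSpace.exp (t • M)) A B) t := by
  have h := hasDerivAt_exp_smul_const' (𝕂 := ℝ) M t
  exact (LinearMap.toContinuousLinearMap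
    (Matrix.entryLinearMap ℝ ℝ A B)).hasFDerivAt.comp_hasDerivAt t h

end ExpDeriv

lemma gx983_ro_mul (O O' : Matrix (Fin d) (Fin d) ℝ) (x : Cfg d) :
    ro (O * O') x = ro O (ro O' x) := by
  ext ⟨i, A⟩
  simp only [ro, Matrix.mul_apply, Finset.sum_mul, Finset.mul_sum]
  rw [Finset.sum_comm]
  refine Finset.sum_congr rfl fun B _ => Finset.sum_congr rfl fun D _ => ?_
  ring

lemma gx983_ro_one (x : Cfg d) : ro (1 : Matrix (Fin d) (Fin d) ℝ) x = x := by
  ext ⟨i, A⟩
  simp [ro, Matrix.one_apply]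

lemma gx983_hasDerivAt_ro (M : Matrix (Fin d) (Fin d) ℝ) (t : ℝ) (x : Cfg d) :
    HasDerivAt (fun t : ℝ => ro (NormedSpace.exp (t • M)) x)
      (ro M (ro (NormedSpace.exp (t • M)) x)) t := by
  have h1 : HasDerivAt (fun t : ℝ => fun p : Fin 9 × Fin d =>
      ∑ B, (NormedSpace.exp (t • M)) p.2 B * x (p.1, B))
      (fun p : Fin 9 × Fin d => ∑ B, (M * NormedSpace.exp (t • M)) p.2 B * x (p.1, B)) t :=
    hasDerivAt_pi.2 fun p => HasDerivAt.fun_sum fun B _ =>
      (gx983_hasDerivAt_exp M t p.2 B).mul_const _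
  have h2 := (PiLp.continuousLinearEquiv 2 ℝ (fun _ : Fin 9 × Fin d => ℝ)).symm.hasFDerivAt.comp_hasDerivAt
    t h1
  rw [← gx983_ro_mul]
  exact h2

lemma gx983_fderiv_ad (S : Setup d F) (a : Fin d → ℝ) (u : Cfg d → F) (y : Cfg d) :
    fderiv ℝ u y (ro (S.adm a) y) =
      ∑ C, (a C : ℂ) • ∑ i, ∑ A, ∑ B, ((S.f C A B : ℂ) * (y (i, A) : ℂ)) • pd i B u y := by
  have hx : ro (S.adm a) y = ∑ p : Fin 9 × Fin d, (ro (S.adm a) y) p •
      (EuclideanSpace.single p (1 : ℝ) : Cfg d) := by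
    ext q
    simp only [WithLp.ofLp_sum, WithLp.ofLp_smul, Finset.sum_apply, Pi.smul_apply,
        PiLp.single_apply, smul_eq_mul, mul_ite, mul_one, mul_zero]
    rw [Finset.sum_ite_eq]
    simp
  rw [hx, map_sum]
  simp only [map_smul]
  rw [Fintype.sum_prod_type]
  simp only [Finset.smul_sum]
  rw [Finset.sum_comm (s := (Finset.univ : Finset (Fin d))) (t := (Finset.univ : Finset (Fin 9)))]
  refine Finset.sum_congr rfl fun i _ => ?_
  have e1 : ∀ B, (ro (S.adm a) y) (i, B) = ∑ A, ∑ C, S.f C A B * a C * y (i, A) := by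
    intro B
    have : (ro (S.adm a) y) (i, B) = ∑ A, (∑ C, S.f B C A * a C) * y (i, A) := rfl
    rw [this]
    refine Finset.sum_congr rfl fun A _ => ?_
    rw [Finset.sum_mul]
    refine Finset.sum_congr rfl fun C _ => ?_
    rw [S.f_cyc B C A]
  simp only [e1, Finset.sum_smul]
  rw [Finset.sum_comm]
  conv_rhs => rw [Finset.sum_comm]
  refine Finset.sum_congr rfl fun A _ => ?_
  rw [Finset.sum_comm]
  refine Finset.sum_congr rfl fun C _ => Finset.sum_congr rfl fun B _ => ?_
  unfold pd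
  rw [smul_smul, show ((a C : ℂ) * ((S.f C A B : ℂ) * (y (i, A) : ℂ))) =
    ((S.f C A B * a C * y (i, A) : ℝ) : ℂ) by push_cast; ring]
  exact (RCLike.real_smul_eq_coe_smul (K := ℂ) _ _)

lemma gx983_norm (S : Setup d F) {u : Cfg d → F} (hu : Setup.Tst u)
    (hG : ∀ C x, S.G C u x = 0) (a : Fin d → ℝ) (t : ℝ) (x : Cfg d) :
    ‖u (ro (NormedSpace.exp (t • S.adm a)) x)‖ = ‖u x‖ := by
  have hd : ∀ t : ℝ, HasDerivAt (fun t : ℝ => u (ro (NormedSpace.exp (t • S.adm a)) x))
      (∑ C, ((a C : ℂ) * -Complex.I) • S.cS C (u (ro (NormedSpace.exp (t • S.adm a)) x))) t := by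
    intro t
    have h1 : HasDerivAt (fun t : ℝ => u (ro (NormedSpace.exp (t • S.adm a)) x))
        (fderiv ℝ u (ro (NormedSpace.exp (t • S.adm a)) x)
          (ro (S.adm a) (ro (NormedSpace.exp (t • S.adm a)) x))) t :=
      ((hu.1.differentiable (by simp)) _).hasFDerivAt.comp_hasDerivAt t
        (gx983_hasDerivAt_ro (S.adm a) t x)
    refine h1.congr_deriv ?_
    rw [gx983_fderiv_ad]
    refine Finset.sum_congr rfl fun C _ => ?_
    have h2 := hG C (ro (NormedSpace.exp (t • S.adm a)) x)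
    unfold Setup.G at h2
    have h3 := congrArg (fun v => Complex.I • v) h2
    simp only [smul_add, smul_smul, smul_zero] at h3
    rw [show Complex.I * -Complex.I = 1 by rw [mul_neg, Complex.I_mul_I, neg_neg], one_smul] at h3
    rw [mul_smul, neg_smul]
    congr 1
    exact eq_neg_of_add_eq_zero_left h3
  have hn : ∀ t : ℝ, HasDerivAt (fun t : ℝ =>
      inner ℂ (u (ro (NormedSpace.exp (t • S.adm a)) x))
        (u (ro (NormedSpace.exp (t • S.adm a)) x))) 0 t := by
    intro t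
    have h1 := (hd t).inner ℂ (hd t)
    refine h1.congr_deriv ?_
    rw [inner_sum, sum_inner, ← Finset.sum_add_distrib]
    refine Finset.sum_eq_zero fun C _ => ?_
    rw [inner_smul_right, inner_smul_left, S.cS_symm]
    simp
  have hc := is_const_of_deriv_eq_zero
    (f := fun t : ℝ => inner ℂ (u (ro (NormedSpace.exp (t • S.adm a)) x))
        (u (ro (NormedSpace.exp (t • S.adm a)) x)))
    (fun t => (hn t).differentiableAt) (fun t => (hn t).deriv) t 0
  have h0 : ro (NormedSpace.exp ((0 : ℝ) • S.adm a)) x = x := by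
    rw [zero_smul, NormedSpace.exp_zero, gx983_ro_one]
  rw [h0] at hc
  simp only [inner_self_eq_norm_sq_to_K] at hc
  have h4 : ‖u (ro (NormedSpace.exp (t • S.adm a)) x)‖ ^ 2 = ‖u x‖ ^ 2 := by exact_mod_cast hc
  exact (sq_eq_sq₀ (norm_nonneg _) (norm_nonneg _)).1 h4

lemma gx983_adm_transpose (S : Setup d F) (a : Fin d → ℝ) :
    (S.adm a).transpose = - S.adm a := by
  ext A B
  simp only [Matrix.transpose_apply, Matrix.neg_apply, Setup.adm, Matrix.of_apply]
  rw [← Finset.sum_neg_distrib]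
  refine Finset.sum_congr rfl fun C _ => ?_
  rw [S.f_swap B C A, S.f_cyc C B A, S.f_cyc B A C]
  ring

lemma gx983_orth (S : Setup d F) (a : Fin d → ℝ) (t : ℝ) :
    (NormedSpace.exp (t • S.adm a)).transpose * NormedSpace.exp (t • S.adm a) = 1 := by
  rw [← Matrix.exp_transpose, Matrix.transpose_smul, gx983_adm_transpose, smul_neg,
    Matrix.exp_neg]
  exact Matrix.nonsing_inv_mul _ ((Matrix.isUnit_iff_isUnit_det _).1 (Matrix.isUnit_exp _))

lemma gx983_jac (S : Setup d F) (a : Fin d → ℝ) (A B C : Fin d) :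
    ∑ D, (S.adm a D A * S.f D B C + S.adm a D B * S.f A D C + S.adm a D C * S.f A B D) = 0 := by
  simp only [Setup.adm, Matrix.of_apply, Finset.sum_mul, ← Finset.sum_add_distrib]
  rw [Finset.sum_comm]
  refine Finset.sum_eq_zero fun E _ => ?_
  have h := S.f_jac E A B C
  have h2 : ∑ D, (S.f D E A * a E * S.f D B C + S.f D E B * a E * S.f A D C +
      S.f D E C * a E * S.f A B D) = a E * ∑ X, (S.f E A X * S.f X B C + S.f A B X * S.f X E C +
        S.f B E X * S.f X A C) := by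
    rw [Finset.mul_sum]
    refine Finset.sum_congr rfl fun D _ => ?_
    rw [S.f_cyc D E A, S.f_cyc D E B, S.f_swap E B D, S.f_swap A D C]
    ring
  rw [h2, h, mul_zero]

lemma gx983_adj (M O : Matrix (Fin d) (Fin d) ℝ) (A : Fin d) (h : Fin d → ℝ) :
    ∑ X, (M * O) X A * h X = ∑ X, O X A * ∑ D, M D X * h D := by
  simp only [Matrix.mul_apply, Finset.sum_mul, Finset.mul_sum]
  rw [Finset.sum_comm]
  refine Finset.sum_congr rfl fun X _ => Finset.sum_congr rfl fun D _ => ?_
  ring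

lemma gx983_zero (S : Setup d F) (a : Fin d → ℝ) (O : Matrix (Fin d) (Fin d) ℝ)
    (A B C : Fin d) :
    ∑ A', ∑ B', ∑ C', (((S.adm a * O) A' A * O B' B + O A' A * (S.adm a * O) B' B) * O C' C +
      O A' A * O B' B * (S.adm a * O) C' C) * S.f A' B' C' = 0 := by
  have h1 : ∑ A', ∑ B', ∑ C', (S.adm a * O) A' A * O B' B * O C' C * S.f A' B' C' =
      ∑ A', ∑ B', ∑ C', O A' A * O B' B * O C' C * ∑ D, S.adm a D A' * S.f D B' C' := by
    have e := gx983_adj (S.adm a) O A (fun A' => ∑ B', ∑ C', O B' B * O C' C * S.f A' B' C')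
    have e1 : ∑ A', ∑ B', ∑ C', (S.adm a * O) A' A * O B' B * O C' C * S.f A' B' C' =
        ∑ A', (S.adm a * O) A' A * ∑ B', ∑ C', O B' B * O C' C * S.f A' B' C' := by
      simp only [Finset.mul_sum]
      refine Finset.sum_congr rfl fun A' _ => Finset.sum_congr rfl fun B' _ =>
        Finset.sum_congr rfl fun C' _ => ?_
      ring
    rw [e1, e]
    refine Finset.sum_congr rfl fun A' _ => ?_
    simp only [Finset.mul_sum]
    rw [Finset.sum_comm]
    refine Finset.sum_congr rfl fun B' _ => ?_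
    rw [Finset.sum_comm]
    refine Finset.sum_congr rfl fun C' _ => Finset.sum_congr rfl fun D _ => ?_
    ring
  have h2 : ∑ A', ∑ B', ∑ C', O A' A * (S.adm a * O) B' B * O C' C * S.f A' B' C' =
      ∑ A', ∑ B', ∑ C', O A' A * O B' B * O C' C * ∑ D, S.adm a D B' * S.f A' D C' := by
    refine Finset.sum_congr rfl fun A' _ => ?_
    have e := gx983_adj (S.adm a) O B (fun B' => ∑ C', O A' A * O C' C * S.f A' B' C')
    have e1 : ∑ B', ∑ C', O A' A * (S.adm a * O) B' B * O C' C * S.f A' B' C' =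
        ∑ B', (S.adm a * O) B' B * ∑ C', O A' A * O C' C * S.f A' B' C' := by
      simp only [Finset.mul_sum]
      refine Finset.sum_congr rfl fun B' _ => Finset.sum_congr rfl fun C' _ => ?_
      ring
    rw [e1, e]
    refine Finset.sum_congr rfl fun B' _ => ?_
    simp only [Finset.mul_sum]
    rw [Finset.sum_comm]
    refine Finset.sum_congr rfl fun C' _ => Finset.sum_congr rfl fun D _ => ?_
    ring
  have h3 : ∑ A', ∑ B', ∑ C', O A' A * O B' B * (S.adm a * O) C' C * S.f A' B' C' =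
      ∑ A', ∑ B', ∑ C', O A' A * O B' B * O C' C * ∑ D, S.adm a D C' * S.f A' B' D := by
    refine Finset.sum_congr rfl fun A' _ => Finset.sum_congr rfl fun B' _ => ?_
    have e := gx983_adj (S.adm a) O C (fun C' => O A' A * O B' B * S.f A' B' C')
    have e1 : ∑ C', O A' A * O B' B * (S.adm a * O) C' C * S.f A' B' C' =
        ∑ C', (S.adm a * O) C' C * (O A' A * O B' B * S.f A' B' C') := by
      refine Finset.sum_congr rfl fun C' _ => ?_
      ring
    rw [e1, e]
    refine Finset.sum_congr rfl fun C' _ => ?_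
    simp only [Finset.mul_sum]
    refine Finset.sum_congr rfl fun D _ => ?_
    ring
  have h4 : ∑ A', ∑ B', ∑ C', (((S.adm a * O) A' A * O B' B + O A' A * (S.adm a * O) B' B) *
      O C' C + O A' A * O B' B * (S.adm a * O) C' C) * S.f A' B' C' =
      ∑ A', ∑ B', ∑ C', (S.adm a * O) A' A * O B' B * O C' C * S.f A' B' C' +
      ∑ A', ∑ B', ∑ C', O A' A * (S.adm a * O) B' B * O C' C * S.f A' B' C' +
      ∑ A', ∑ B', ∑ C', O A' A * O B' B * (S.adm a * O) C' C * S.f A' B' C' := by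
    simp only [← Finset.sum_add_distrib]
    refine Finset.sum_congr rfl fun A' _ => Finset.sum_congr rfl fun B' _ =>
      Finset.sum_congr rfl fun C' _ => ?_
    ring
  rw [h4, h1, h2, h3]
  simp only [← Finset.sum_add_distrib]
  refine Finset.sum_eq_zero fun A' _ => Finset.sum_eq_zero fun B' _ =>
    Finset.sum_eq_zero fun C' _ => ?_
  rw [← mul_add, ← mul_add, ← Finset.sum_add_distrib, ← Finset.sum_add_distrib, gx983_jac,
    mul_zero]

lemma gx983_inv (S : Setup d F) (a : Fin d → ℝ) (t : ℝ) (A B C : Fin d) :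
    ∑ A', ∑ B', ∑ C', (NormedSpace.exp (t • S.adm a)) A' A * (NormedSpace.exp (t • S.adm a)) B' B *
      (NormedSpace.exp (t • S.adm a)) C' C * S.f A' B' C' = S.f A B C := by
  have hd : ∀ t : ℝ, HasDerivAt (fun t : ℝ => ∑ A', ∑ B', ∑ C',
      (NormedSpace.exp (t • S.adm a)) A' A * (NormedSpace.exp (t • S.adm a)) B' B *
      (NormedSpace.exp (t • S.adm a)) C' C * S.f A' B' C') 0 t := by
    intro t
    refine HasDerivAt.congr_deriv (HasDerivAt.fun_sum fun A' _ => HasDerivAt.fun_sum fun B' _ =>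
      HasDerivAt.fun_sum fun C' _ => (((gx983_hasDerivAt_exp (S.adm a) t A' A).mul
        (gx983_hasDerivAt_exp (S.adm a) t B' B)).mul
        (gx983_hasDerivAt_exp (S.adm a) t C' C)).mul_const _)
      (gx983_zero S a (NormedSpace.exp (t • S.adm a)) A B C)
  have hc := is_const_of_deriv_eq_zero (f := fun t : ℝ => ∑ A', ∑ B', ∑ C',
      (NormedSpace.exp (t • S.adm a)) A' A * (NormedSpace.exp (t • S.adm a)) B' B *
      (NormedSpace.exp (t • S.adm a)) C' C * S.f A' B' C')
    (fun t => (hd t).differentiableAt) (fun t => (hd t).deriv) t 0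
  refine hc.trans ?_
  rw [zero_smul, NormedSpace.exp_zero]
  simp [Matrix.one_apply]

/-- the one parameter groups `exp (t ad a)` lie in the colour group -/
lemma exp_mem (S : Setup d F) (a : Fin d → ℝ) (t : ℝ) :
    NormedSpace.exp (t • S.adm a) ∈ S.grp :=
  ⟨gx983_orth S a t, gx983_inv S a t, fun _ hu hG x => gx983_norm S hu hG a t x⟩

/-- **G-1** -/
theorem grpExp (S : Setup d F) : GrpExpStmt S := by
  intro a
  refine ⟨fun t => NormedSpace.exp (t • S.adm a), fun t => exp_mem S a t, ?_, fun A B => ?_⟩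
  · simp only [zero_smul, NormedSpace.exp_zero]
  · have h := gx983_hasDerivAt_exp (S.adm a) 0 A B
    rwa [zero_smul, NormedSpace.exp_zero, mul_one] at h

end Vale.Agent.P353.Z.U
end

section

/-! # P353, general `N`: assembly of the bound -/

open MeasureTheory Filter Topology
open scoped ContDiff

namespace Vale.Agent.P353.Z.U

variable {d : ℕ} {F : Type*} [NormedAddCommGroup F] [InnerProductSpace ℂ F]

theorem bound_of {S : Setup d F} (hB : ∀ k, ThmBStmt S k) (hC : ∀ n, ThmCStmt S n)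
    (hD : ∀ k, SmallStmt S k) : BoundStmt S := by
  intro hirr hne n hn Ψ hΨ hlin
  obtain ⟨m, hm, hlow⟩ := hD (n + 1) Ψ hΨ hlin
  obtain ⟨m', hm', h3⟩ := hC n hirr hne hn
  obtain ⟨ε, hε, hnl⟩ := h3 m' le_rfl
  exact hnl (hB (n + 1) m hm hlow m' hm' ε hε)

end Vale.Agent.P353.Z.U
end

section

/-! # P353, general `N`: the adjoint matrices of `SU(N)` are in the colour group -/

open scoped ContDiff

namespace Vale.Agent.P353.Z.U

section Log

open scoped Matrix.Norms.L2Operator

/-- a unitary matrix is the exponential of a skew-Hermitian matrix -/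
theorem mad_log {N : ℕ} (U : Matrix (Fin N) (Fin N) ℂ)
    (hU : U ∈ unitary (Matrix (Fin N) (Fin N) ℂ)) :
    ∃ K : Matrix (Fin N) (Fin N) ℂ, K.IsHermitian ∧ NormedSpace.exp (Complex.I • K) = U := by
  have hnorm : IsStarNormal U := by
    refine ⟨?_⟩
    rw [Commute, SemiconjBy, (Unitary.mem_iff.1 hU).1, (Unitary.mem_iff.1 hU).2]
  have hc : ContinuousOn Complex.arg (spectrum ℂ U) :=
    (Matrix.finite_spectrum U).continuousOn _
  refine ⟨cfc (fun z : ℂ => (Complex.arg z : ℂ)) U, ?_, ?_⟩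
  · exact IsSelfAdjoint.cfc_arg U
  · rw [← CFC.exp_eq_normedSpace_exp (𝕜 := ℂ), ← cfc_comp_smul ..,
      ← cfc_comp' ..]
    conv_rhs => rw [← cfc_id' ℂ U]
    refine cfc_congr fun y hy ↦ ?_
    have hy₁ : ‖y‖ = 1 := spectrum.norm_eq_one_of_unitary hU hy
    have hy0 : y ≠ 0 := by
      rintro rfl
      simp at hy₁
    have : Complex.I * y.arg = Complex.log y :=
      Complex.ext (by simp [Complex.log_re, hy₁]) (by simp [Complex.log_im])
    simpa [← Complex.exp_eq_exp_ℂ, this] using Complex.exp_log hy0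

end Log

section Ad

open scoped Matrix.Norms.Operator

/-- `exp X · exp(-X)`-conjugation of a basis, from the commutators -/
theorem mad_conj {N d : ℕ} (T : Fin d → Matrix (Fin N) (Fin N) ℂ)
    (X : Matrix (Fin N) (Fin N) ℂ) (D : Matrix (Fin d) (Fin d) ℝ)
    (hD : ∀ C, X * T C - T C * X = ∑ B, (D B C : ℂ) • T B) (A : Fin d) :
    NormedSpace.exp X * T A * NormedSpace.exp (-X) = ∑ B, ((NormedSpace.exp D B A : ℝ) : ℂ) • T B := by
  let L0 : Matrix (Fin d) (Fin d) ℝ →ₗ[ℝ] Matrix (Fin N) (Fin N) ℂ :=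
    { toFun := fun E => ∑ B, ((E B A : ℝ) : ℂ) • T B
      map_add' := fun E E' => by
        simp only [Matrix.add_apply, Complex.ofReal_add, add_smul, Finset.sum_add_distrib]
      map_smul' := fun c E => by
        simp only [Matrix.smul_apply, smul_eq_mul, Complex.ofReal_mul, mul_smul, Finset.smul_sum,
          RingHom.id_apply]
        rfl }
  let L := LinearMap.toContinuousLinearMap L0
  have hL : ∀ E, L E = ∑ B, ((E B A : ℝ) : ℂ) • T B := fun E => rfl
  have hcomm : ∀ E, L (D * E) = X * L E - L E * X := by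
    intro E
    rw [hL, hL, Finset.mul_sum, Finset.sum_mul, ← Finset.sum_sub_distrib]
    have h1 : ∀ C, X * (((E C A : ℝ) : ℂ) • T C) - (((E C A : ℝ) : ℂ) • T C) * X =
        ∑ B, (((D B C * E C A : ℝ)) : ℂ) • T B := by
      intro C
      rw [Matrix.mul_smul, Matrix.smul_mul, ← smul_sub, hD C, Finset.smul_sum]
      refine Finset.sum_congr rfl fun B _ => ?_
      rw [smul_smul, Complex.ofReal_mul, mul_comm]
    rw [Finset.sum_congr rfl fun C _ => h1 C, Finset.sum_comm]
    refine Finset.sum_congr rfl fun B _ => ?_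
    rw [Matrix.mul_apply, Complex.ofReal_sum, Finset.sum_smul]
  let F : ℝ → Matrix (Fin N) (Fin N) ℂ := fun t =>
    NormedSpace.exp (t • (-X)) * L (NormedSpace.exp (t • D)) * NormedSpace.exp (t • X)
  have hF : ∀ t, HasDerivAt F 0 t := by
    intro t
    have e1 := hasDerivAt_exp_smul_const (𝕂 := ℝ) (-X) t
    have e2 := L.hasFDerivAt.comp_hasDerivAt t (hasDerivAt_exp_smul_const' (𝕂 := ℝ) D t)
    have e3 := hasDerivAt_exp_smul_const' (𝕂 := ℝ) X t
    have e : HasDerivAt F ((NormedSpace.exp (t • (-X)) * (-X) * L (NormedSpace.exp (t • D)) +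
        NormedSpace.exp (t • (-X)) * L (D * NormedSpace.exp (t • D))) * NormedSpace.exp (t • X) +
        (NormedSpace.exp (t • (-X)) * L (NormedSpace.exp (t • D))) * (X * NormedSpace.exp (t • X)))
        t := (e1.mul e2).mul e3
    have e0 : (NormedSpace.exp (t • (-X)) * (-X) * L (NormedSpace.exp (t • D)) +
        NormedSpace.exp (t • (-X)) * L (D * NormedSpace.exp (t • D))) * NormedSpace.exp (t • X) +
        (NormedSpace.exp (t • (-X)) * L (NormedSpace.exp (t • D))) * (X * NormedSpace.exp (t • X)) =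
        0 := by
      rw [hcomm]
      noncomm_ring
    rw [e0] at e
    exact e
  have hconst := is_const_of_deriv_eq_zero (fun t => (hF t).differentiableAt)
    (fun t => (hF t).deriv) 1 0
  simp only [F, one_smul, zero_smul, NormedSpace.exp_zero, one_mul, mul_one] at hconst
  have hL1 : L 1 = T A := by
    rw [hL]
    rw [Finset.sum_eq_single A]
    · simp
    · intro B _ hB
      simp [hB]
    · simp
  rw [hL1] at hconst
  have hinv : NormedSpace.exp X * NormedSpace.exp (-X) = 1 := by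
    rw [← Matrix.exp_add_of_commute _ _ (Commute.neg_right (Commute.refl X)), add_neg_cancel,
      NormedSpace.exp_zero]
  have hinv' : NormedSpace.exp (-X) * NormedSpace.exp X = 1 := by
    rw [← Matrix.exp_add_of_commute _ _ (Commute.neg_left (Commute.refl X)), neg_add_cancel,
      NormedSpace.exp_zero]
  rw [← hconst, ← hL]
  calc _ = (NormedSpace.exp X * NormedSpace.exp (-X)) * L (NormedSpace.exp D) *
        (NormedSpace.exp X * NormedSpace.exp (-X)) := by noncomm_ring
    _ = _ := by rw [hinv, one_mul, mul_one]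

end Ad

section Main

variable {N d : ℕ} {F : Type*} [NormedAddCommGroup F] [InnerProductSpace ℂ F]

/-- completeness of the basis `T_A`, `1` -/
theorem mad_complete (M : BFSS.Model N d F) (hN : 0 < N) (X : Matrix (Fin N) (Fin N) ℂ) :
    X = ∑ A, (M.T A * X).trace • M.T A + (X.trace / N) • (1 : Matrix (Fin N) (Fin N) ℂ) := by
  have hN' : (N : ℂ) ≠ 0 := by exact_mod_cast hN.ne'
  let Λ : Matrix (Fin N) (Fin N) ℂ →ₗ[ℂ] (Fin d → ℂ) × ℂ :=
    { toFun := fun X => (fun A => (M.T A * X).trace, X.trace)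
      map_add' := fun X Y => by
        ext <;> simp [mul_add, Matrix.trace_add]
      map_smul' := fun c X => by
        ext <;> simp [Matrix.trace_smul] }
  have hval : ∀ (c : Fin d → ℂ) (s : ℂ), Λ (∑ A, c A • M.T A +
      (s / N) • (1 : Matrix (Fin N) (Fin N) ℂ)) = (c, s) := by
    intro c s
    apply Prod.ext
    · funext B
      show (M.T B * (∑ A, c A • M.T A + (s / N) • (1 : Matrix (Fin N) (Fin N) ℂ))).trace = c B
      rw [mul_add, Matrix.mul_sum, Matrix.trace_add, Matrix.trace_sum, Finset.sum_eq_single B]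
      · rw [Matrix.mul_smul, Matrix.trace_smul, M.T_orthonormal, if_pos rfl, Matrix.mul_smul,
          mul_one, Matrix.trace_smul, M.T_traceless]
        simp
      · intro A _ hA
        rw [Matrix.mul_smul, Matrix.trace_smul, M.T_orthonormal, if_neg (Ne.symm hA), smul_zero]
      · simp
    · show (∑ A, c A • M.T A + (s / N) • (1 : Matrix (Fin N) (Fin N) ℂ)).trace = s
      rw [Matrix.trace_add, Matrix.trace_sum, Finset.sum_eq_zero (fun A _ => by
        rw [Matrix.trace_smul, M.T_traceless, smul_zero]), Matrix.trace_smul, Matrix.trace_one]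
      simp [hN']
  have hsurj : Function.Surjective Λ := fun y => ⟨_, hval y.1 y.2⟩
  have hrank : Module.finrank ℂ (Matrix (Fin N) (Fin N) ℂ) =
      Module.finrank ℂ ((Fin d → ℂ) × ℂ) := by
    rw [Module.finrank_matrix, Module.finrank_prod, Module.finrank_pi, Module.finrank_self,
      Fintype.card_fin, Fintype.card_fin, M.dim_eq, mul_one]
    have : 1 ≤ N ^ 2 := Nat.one_le_pow _ _ hN
    have h2 : N ^ 2 = N * N := sq N
    omega
  have hinj : Function.Injective Λ :=
    (LinearMap.injective_iff_surjective_of_finrank_eq_finrank hrank).2 hsurj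
  apply hinj
  rw [hval]
  rfl

/-- the adjoint matrices are exponentials of `ad` -/
theorem mad_exp (M : BFSS.Model N d F) (hN : 0 < N) (S : Setup d F) (hS : Rep M S)
    (U : BFSS.SU N) : ∃ a : Fin d → ℝ,
      (Matrix.of fun B A => BFSS.adCoeff M.T U B A) = NormedSpace.exp ((-1 : ℝ) • S.adm a) := by
  have hU : U.val ∈ unitary (Matrix (Fin N) (Fin N) ℂ) :=
    (Matrix.mem_specialUnitaryGroup_iff.1 U.2).1
  obtain ⟨K, hK, hKU⟩ := mad_log U.val hU
  have hreal : ∀ A, (M.T A * K).trace = (((M.T A * K).trace.re : ℝ) : ℂ) := by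
    intro A
    symm
    rw [← Complex.conj_eq_iff_re]
    have h1 : (M.T A * K).conjTranspose.trace = star (M.T A * K).trace :=
      Matrix.trace_conjTranspose _
    rw [Matrix.conjTranspose_mul, M.T_hermitian, hK.eq, Matrix.trace_mul_comm] at h1
    exact h1.symm
  set h : Fin d → ℝ := fun A => (M.T A * K).trace.re with hh
  have hKe : K = ∑ A, ((h A : ℝ) : ℂ) • M.T A + (K.trace / N) • (1 : Matrix (Fin N) (Fin N) ℂ) := by
    have := mad_complete M hN K
    rw [Finset.sum_congr rfl fun A _ => by rw [hreal A]] at this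
    exact this
  refine ⟨h, ?_⟩
  have hD : ∀ C, (Complex.I • K) * M.T C - M.T C * (Complex.I • K) =
      ∑ B, ((((-1 : ℝ) • S.adm h) B C : ℝ) : ℂ) • M.T B := by
    intro C
    have e1 : (Complex.I • K) * M.T C - M.T C * (Complex.I • K) =
        Complex.I • ∑ A, ((h A : ℝ) : ℂ) • (M.T A * M.T C - M.T C * M.T A) := by
      conv_lhs => rw [hKe]
      rw [Matrix.smul_mul, Matrix.mul_smul, ← smul_sub, add_mul, mul_add, Matrix.smul_mul,
        Matrix.mul_smul, one_mul, mul_one, add_sub_add_right_eq_sub, Matrix.sum_mul,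
        Matrix.mul_sum, ← Finset.sum_sub_distrib]
      congr 1
      refine Finset.sum_congr rfl fun A _ => ?_
      rw [Matrix.smul_mul, Matrix.mul_smul, smul_sub]
    rw [e1, Finset.smul_sum]
    have e2 : ∀ A, Complex.I • ((h A : ℝ) : ℂ) • (M.T A * M.T C - M.T C * M.T A) =
        ∑ B, ((-(h A * M.f A C B) : ℝ) : ℂ) • M.T B := by
      intro A
      rw [M.T_comm, Finset.smul_sum, Finset.smul_sum]
      refine Finset.sum_congr rfl fun B _ => ?_
      rw [smul_smul, smul_smul]
      congr 1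
      push_cast
      linear_combination ((h A : ℂ) * (M.f A C B : ℂ)) * Complex.I_mul_I
    rw [Finset.sum_congr rfl fun A _ => e2 A, Finset.sum_comm]
    refine Finset.sum_congr rfl fun B _ => ?_
    rw [← Finset.sum_smul, ← Complex.ofReal_sum]
    congr 2
    simp only [Setup.adm, Matrix.smul_apply, Matrix.of_apply, smul_eq_mul, Finset.mul_sum]
    refine Finset.sum_congr rfl fun A _ => ?_
    rw [S.f_cyc B A C, hS.hf]
    ring
  have hconj := mad_conj M.T (Complex.I • K) ((-1 : ℝ) • S.adm h) hD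
  have hUstar : U.val.conjTranspose = NormedSpace.exp (-(Complex.I • K)) := by
    rw [← hKU, ← Matrix.exp_conjTranspose, Matrix.conjTranspose_smul, hK.eq]
    simp
  ext B A
  rw [Matrix.of_apply]
  unfold BFSS.adCoeff
  rw [hUstar]
  conv_lhs => rw [← hKU]
  rw [hconj A, Matrix.mul_sum, Matrix.trace_sum, Finset.sum_eq_single B]
  · rw [Matrix.mul_smul, Matrix.trace_smul, M.T_orthonormal, if_pos rfl]
    simp
  · intro C _ hC
    rw [Matrix.mul_smul, Matrix.trace_smul, M.T_orthonormal, if_neg (Ne.symm hC), smul_zero]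
  · simp

/-- **M-Ad** -/
theorem adS (M : BFSS.Model N d F)
    (hexp : ∀ (S : Setup d F) (a : Fin d → ℝ) (t : ℝ), NormedSpace.exp (t • S.adm a) ∈ S.grp) :
    AdStmt M := by
  intro S hS U
  rcases Nat.eq_zero_or_pos N with hN | hN
  · have hd : d = 0 := by rw [M.dim_eq, hN]; rfl
    subst hd
    have h := hexp S 0 0
    have e : (Matrix.of fun B A => BFSS.adCoeff M.T U B A) =
        NormedSpace.exp ((0 : ℝ) • S.adm 0) := by
      ext i
      exact i.elim0
    rw [e]
    exact h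
  · obtain ⟨a, ha⟩ := mad_exp M hN S hS U
    rw [ha]
    exact hexp S a (-1)

end Main

end Vale.Agent.P353.Z.U
end

section

/-! # P353, general `N`: `S(exp(i x)) = exp(Z(x))` on the torus -/

open MeasureTheory Filter Topology
open scoped ContDiff

namespace Vale.Agent.P353.Z.U

variable {N d : ℕ} {F : Type*} [NormedAddCommGroup F] [InnerProductSpace ℂ F]

lemma mgd_smul (s : ℝ) (x : mgH N) : mgd (s • x) = (s : ℂ) • mgd x := by
  rw [mgd, mgd, ← Matrix.diagonal_smul]
  congr 1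
  funext j
  show ((s * x.1 j : ℝ) : ℂ) = (s : ℂ) • ((x.1 j : ℝ) : ℂ)
  rw [smul_eq_mul]
  push_cast
  ring

lemma mgd_add (x y : mgH N) : mgd (x + y) = mgd x + mgd y := by
  rw [mgd, mgd, mgd, Matrix.diagonal_add]
  congr 1
  funext j
  show ((x.1 j + y.1 j : ℝ) : ℂ) = _
  push_cast
  ring

lemma mgd_zero : mgd (0 : mgH N) = 0 := by
  have h := mgd_smul (0 : ℝ) (0 : mgH N)
  rw [zero_smul, Complex.ofReal_zero, zero_smul] at h
  exact h

lemma mgc_tor_diag (y x : mgH N) : mgc (mgtorM y) (mgd x) = mgd x := by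
  have h1 := (mg_unit (mgtor y)).2
  have h2 : (mgtor y).val = mgtorM y := rfl
  rw [h2] at h1
  have h3 : mgtorM y * mgd x = mgd x * mgtorM y := by
    rw [mgtorM, mgd, Matrix.diagonal_mul_diagonal, Matrix.diagonal_mul_diagonal]
    congr 1
    funext j
    ring
  rw [mgc, h3, mul_assoc, h1, mul_one]

/-- unitary matrices can be replaced by special unitary matrices -/
lemma mg_phase (hN : 0 < N) (V : Matrix (Fin N) (Fin N) ℂ)
    (hV : V ∈ Matrix.unitaryGroup (Fin N) ℂ) :
    ∃ U : Matrix.specialUnitaryGroup (Fin N) ℂ, ∀ Y, mgc U.val Y = mgc V Y := by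
  have hV2 := Matrix.mem_unitaryGroup_iff.1 hV
  rw [Matrix.star_eq_conjTranspose] at hV2
  have hdet : V.det * (starRingEnd ℂ) V.det = 1 := by
    have h1 := congrArg Matrix.det hV2
    rw [Matrix.det_mul, Matrix.det_conjTranspose, Matrix.det_one] at h1
    exact h1
  have hnorm : ‖V.det‖ = 1 := by
    have h1 := congrArg norm hdet
    rw [norm_mul, RCLike.norm_conj, norm_one] at h1
    have h2 : (0 : ℝ) ≤ ‖V.det‖ := norm_nonneg _
    nlinarith
  have hne : V.det ≠ 0 := by
    intro h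
    rw [h, norm_zero] at hnorm
    exact zero_ne_one hnorm
  obtain ⟨ζ, hζ⟩ := IsAlgClosed.exists_pow_nat_eq (V.det)⁻¹ hN
  have hζn : ‖ζ‖ = 1 := by
    have h1 := congrArg norm hζ
    rw [norm_pow, norm_inv, hnorm, inv_one] at h1
    exact (pow_eq_one_iff_of_nonneg (norm_nonneg _) hN.ne').1 h1
  have hζζ : ζ * (starRingEnd ℂ) ζ = 1 := by
    rw [Complex.mul_conj, Complex.normSq_eq_norm_sq, hζn]
    norm_num
  have hconj : ∀ Y, (ζ • V) * Y * (ζ • V).conjTranspose = V * Y * V.conjTranspose := by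
    intro Y
    rw [Matrix.conjTranspose_smul, Matrix.smul_mul, Matrix.smul_mul, Matrix.mul_smul, smul_smul,
      RCLike.star_def, hζζ, one_smul]
  refine ⟨⟨ζ • V, ?_⟩, fun Y => hconj Y⟩
  rw [Matrix.mem_specialUnitaryGroup_iff]
  constructor
  · rw [Matrix.mem_unitaryGroup_iff, Matrix.star_eq_conjTranspose]
    have h1 := hconj 1
    rw [mul_one, mul_one, hV2] at h1
    exact h1
  · rw [Matrix.det_smul, Fintype.card_fin, hζ, inv_mul_cancel₀ hne]

/-- permutation matrices -/
lemma mg_perm (hN : 0 < N) (σ : Equiv.Perm (Fin N)) :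
    ∃ U : Matrix.specialUnitaryGroup (Fin N) ℂ, ∀ y : Fin N → ℂ,
      mgc U.val (Matrix.diagonal y) = Matrix.diagonal (fun j => y (σ j)) := by
  set V : Matrix (Fin N) (Fin N) ℂ := Matrix.of fun i j => if σ i = j then 1 else 0 with hVdef
  have hV : ∀ y : Fin N → ℂ,
      V * Matrix.diagonal y * V.conjTranspose = Matrix.diagonal (fun j => y (σ j)) := by
    intro y
    ext i k
    rw [Matrix.mul_apply]
    have h1 : ∀ j, (V * Matrix.diagonal y) i j * V.conjTranspose j k =
        if σ i = j then (if σ k = j then y j else 0) else 0 := by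
      intro j
      rw [Matrix.mul_diagonal, Matrix.conjTranspose_apply, hVdef, Matrix.of_apply,
        Matrix.of_apply]
      by_cases h1 : σ i = j <;> by_cases h2 : σ k = j <;> simp [h1, h2]
    simp only [h1]
    rw [Finset.sum_ite_eq Finset.univ (σ i), if_pos (Finset.mem_univ _), Matrix.diagonal_apply]
    by_cases h : i = k
    · rw [if_pos h, h, if_pos rfl]
    · rw [if_neg h, if_neg (fun h2 => h (σ.injective h2).symm)]
  have hmem : V ∈ Matrix.unitaryGroup (Fin N) ℂ := by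
    rw [Matrix.mem_unitaryGroup_iff, Matrix.star_eq_conjTranspose]
    have h1 := hV (fun _ => 1)
    have h2 : (Matrix.diagonal fun _ : Fin N => (1 : ℂ)) = 1 := Matrix.diagonal_one
    rw [h2, mul_one] at h1
    exact h1
  obtain ⟨U, hU⟩ := mg_phase hN V hmem
  exact ⟨U, fun y => by rw [hU, mgc, hV]⟩

section torus

variable [CompleteSpace F] (M : P353.Model N d F)

lemma mgE_semi {z z' A : F →L[ℂ] F} (h : A * z = z' * A) (a : ℝ) :
    A * mgE z a = mgE z' a * A := by
  have hφ : ∀ s, HasDerivAt (fun s => mgE z' (-s) * A * mgE z s) 0 s := by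
    intro s
    have h1 := mg_deriv_mul (mg_deriv_mul (mgE_deriv_neg z' s) (hasDerivAt_const s A))
      (mgE_deriv z s)
    refine h1.congr_deriv ?_
    have hc : z' * mgE z' (-s) = mgE z' (-s) * z' := mgE_comm (Commute.refl z') (-s)
    have e1 : mgE z' (-s) * A * (z * mgE z s) = mgE z' (-s) * (A * z) * mgE z s := by
      noncomm_ring
    rw [e1, h, hc]
    noncomm_ring
  have hconst := is_const_of_deriv_eq_zero (fun s => (hφ s).differentiableAt)
    (fun s => (hφ s).deriv) a 0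
  simp only [neg_zero, mgE_zero, mul_one, one_mul] at hconst
  calc A * mgE z a = mgE z' a * (mgE z' (-a) * A * mgE z a) := by
        rw [mul_assoc (mgE z' (-a)), ← mul_assoc (mgE z' a), mgE_mul_neg, one_mul]
    _ = mgE z' a * A := by rw [hconst]

lemma mgE_smul (z : F →L[ℂ] F) (s : ℝ) : mgE ((s : ℂ) • z) 1 = mgE z s := by
  unfold mgE
  rw [Complex.ofReal_one, one_smul]

omit [CompleteSpace F] in
include M in
lemma mg_nontriv : Nontrivial F := by
  obtain ⟨v, hv⟩ := M.nontrivial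
  exact ⟨v, 0, hv⟩

omit [CompleteSpace F] in
lemma mgS_inv (U : Matrix.specialUnitaryGroup (Fin N) ℂ) : M.S U * M.S U⁻¹ = 1 := by
  rw [← map_mul, mul_inv_cancel, map_one]

lemma mgz_commute [FiniteDimensional ℂ F] (hd : 0 < d) (x y : mgH N) :
    Commute (mgz M (mgd x)) (mgz M (mgd y)) := by
  have hcomm : ∀ s : ℝ, mgE (mgz M (mgd y)) s * mgz M (mgd x) =
      mgz M (mgd x) * mgE (mgz M (mgd y)) s := by
    intro s
    obtain ⟨μ, hμ⟩ := mg_lambda M hd y s
    have hμ0 : μ ≠ 0 := by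
      intro h0
      have h1 := mgS_inv M (mgtor (s • y))
      rw [hμ, h0, zero_smul, zero_mul] at h1
      have := mg_nontriv M
      exact zero_ne_one h1
    have h1 := mgS_mgz M hd (mgtor (s • y)) (mgd x)
    rw [show (mgtor (s • y)).val = mgtorM (s • y) from rfl, mgc_tor_diag, hμ, smul_mul_assoc,
      mul_smul_comm] at h1
    exact smul_right_injective _ hμ0 h1
  have h1 := mg_deriv_mul (mgE_deriv (mgz M (mgd y)) 0) (hasDerivAt_const (0 : ℝ) (mgz M (mgd x)))
  have h2 := mg_deriv_mul (hasDerivAt_const (0 : ℝ) (mgz M (mgd x))) (mgE_deriv (mgz M (mgd y)) 0)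
  have h3 : (fun s => mgE (mgz M (mgd y)) s * mgz M (mgd x)) =
      fun s => mgz M (mgd x) * mgE (mgz M (mgd y)) s := funext hcomm
  rw [h3] at h1
  have h4 := h1.unique h2
  simp only [mgE_zero, mul_zero, mul_one, zero_add, add_zero] at h4
  exact h4.symm

/-- **the torus acts by exponentials** -/
theorem mgS_tor [FiniteDimensional ℂ F] (hd : 0 < d) (x : mgH N) :
    M.S (mgtor x) = mgE (mgz M (mgd x)) 1 := by
  obtain ⟨hN, -⟩ := mg_dim M hd
  have hnt := mg_nontriv M
  have hex : ∀ x : mgH N, ∃ μ : ℂ, M.S (mgtor x) = μ • mgE (mgz M (mgd x)) 1 := by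
    intro x
    have h := mg_lambda M hd x 1
    rwa [one_smul] at h
  choose lam hlam using hex
  have hcancel : ∀ (a b : ℂ) (x : mgH N), a • mgE (mgz M (mgd x)) 1 = b • mgE (mgz M (mgd x)) 1 →
      a = b := by
    intro a b x hab
    have h1 : (a - b) • mgE (mgz M (mgd x)) 1 = 0 := by rw [sub_smul, hab, sub_self]
    rcases smul_eq_zero.mp h1 with h | h
    · exact sub_eq_zero.mp h
    · exact absurd h (mgE_ne_zero _ _)
  have hadd : ∀ x y, lam (x + y) = lam x * lam y := by
    intro x y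
    apply hcancel _ _ (x + y)
    rw [← hlam, mgtor_add, map_mul, hlam, hlam, smul_mul_smul_comm, mgd_add, map_add,
      mgE_add_of_comm (mgz_commute M hd x y)]
  have h0 : lam 0 = 1 := by
    apply hcancel _ _ 0
    rw [← hlam, mgtor_zero, map_one, one_smul, mgd_zero, map_zero]
    unfold mgE
    rw [smul_zero, NormedSpace.exp_zero]
  have hsum : ∀ (s : Finset (Fin N)) (f : Fin N → mgH N), lam (∑ i ∈ s, f i) = ∏ i ∈ s, lam (f i) := by
    intro s f
    induction s using Finset.induction_on with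
    | empty => rw [Finset.sum_empty, Finset.prod_empty, h0]
    | insert a s ha ih => rw [Finset.sum_insert ha, Finset.prod_insert ha, hadd, ih]
  have hperm : ∀ (σ : Equiv.Perm (Fin N)) (x : mgH N) (hx : ∑ j, x.1 (σ j) = 0),
      lam ⟨fun j => x.1 (σ j), hx⟩ = lam x := by
    intro σ x hx
    set y : mgH N := ⟨fun j => x.1 (σ j), hx⟩ with hy
    obtain ⟨U, hU⟩ := mg_perm hN σ
    have e1 : mgc U.val (mgd x) = mgd y := hU _
    have e2 : mgc U.val (mgtorM x) = mgtorM y := hU _
    have e3 : mgtor y * U = U * mgtor x := by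
      apply Subtype.ext
      show mgtorM y * U.val = U.val * mgtorM x
      rw [← e2, mgc, mul_assoc, (mg_unit U).1, mul_one]
    have e4 : M.S U * mgE (mgz M (mgd x)) 1 = mgE (mgz M (mgd y)) 1 * M.S U := by
      apply mgE_semi
      rw [mgS_mgz M hd, e1]
    have e5 := congrArg M.S e3
    rw [map_mul, map_mul, hlam, hlam, mul_smul_comm, e4, smul_mul_assoc] at e5
    have e6 := congrArg (fun T => T * M.S U⁻¹) e5
    simp only [smul_mul_assoc, mul_assoc, mgS_inv, mul_one] at e6
    exact hcancel _ _ _ e6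
  have hNe : NeZero N := ⟨hN.ne'⟩
  have hpow : ∀ x, lam x ^ N = 1 := by
    intro x
    have hx : ∀ i : Fin N, ∑ j, x.1 ((Equiv.addRight i) j) = 0 := by
      intro i
      rw [Equiv.sum_comp (Equiv.addRight i) x.1]
      exact x.2
    have h1 := hsum Finset.univ (fun i => ⟨fun j => x.1 ((Equiv.addRight i) j), hx i⟩)
    simp only [hperm] at h1
    rw [Finset.prod_const, Finset.card_univ, Fintype.card_fin] at h1
    rw [← h1]
    have h2 : (∑ i : Fin N, (⟨fun j => x.1 ((Equiv.addRight i) j), hx i⟩ : mgH N)) = 0 := by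
      apply Subtype.ext
      funext j
      rw [AddSubmonoidClass.coe_finsetSum, Finset.sum_apply]
      show ∑ i, x.1 ((Equiv.addLeft j) i) = 0
      rw [Equiv.sum_comp (Equiv.addLeft j) x.1]
      exact x.2
    rw [h2, h0]
  have hone : lam x = 1 := by
    have h1 := hsum Finset.univ (fun _ => ((N : ℝ)⁻¹) • x)
    rw [Finset.prod_const, Finset.card_univ, Fintype.card_fin, hpow, Finset.sum_const,
      Finset.card_univ, Fintype.card_fin] at h1
    have hN' : (N : ℝ) ≠ 0 := by exact_mod_cast hN.ne'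
    have h2 : N • ((N : ℝ)⁻¹ • x) = x := by
      rw [← Nat.cast_smul_eq_nsmul ℝ, smul_smul, mul_inv_cancel₀ hN', one_smul]
    rwa [h2] at h1
  rw [hlam, hone, one_smul]

/-- **conjugates of the torus act by exponentials** -/
theorem mgS_conj [FiniteDimensional ℂ F] (hd : 0 < d)
    (U : Matrix.specialUnitaryGroup (Fin N) ℂ) (x : mgH N) (t : ℝ) :
    M.S (U * mgtor (t • x) * U⁻¹) = mgE (mgz M (mgc U.val (mgd x))) t := by
  have h1 : M.S U * mgE (mgz M (mgd x)) t = mgE (mgz M (mgc U.val (mgd x))) t * M.S U := by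
    apply mgE_semi
    rw [mgS_mgz M hd]
  rw [map_mul, map_mul, mgS_tor M hd, mgd_smul, map_smul, mgE_smul, h1, mul_assoc, mgS_inv,
    mul_one]

end torus

end Vale.Agent.P353.Z.U
end

section

/-! # P353, general `N`: quadratic lower bound near the wells (C-Near) -/

open MeasureTheory Filter Topology
open scoped ContDiff

namespace Vale.Agent.P353.Z.U

variable {d : ℕ} {F : Type*} [NormedAddCommGroup F] [InnerProductSpace ℂ F]

namespace NearAux

lemma cont_coord (p : Fin 9 × Fin d) : Continuous (fun x : Cfg d => x p) :=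
  (EuclideanSpace.proj (𝕜 := ℝ) (ι := Fin 9 × Fin d) p).continuous

lemma cont_FF (S : Setup d F) (A : Fin d) (i j : Fin 9) : Continuous (S.FF A i j) := by
  unfold Setup.FF
  refine continuous_const.mul (continuous_finsetSum _ fun B _ => continuous_finsetSum _ fun C _ => ?_)
  exact (continuous_const.mul (cont_coord _)).mul (cont_coord _)

lemma cont_Vm (S : Setup d F) (m : ℝ) : Continuous (S.Vm m) := by
  unfold Setup.Vm Setup.V Setup.det3
  refine ((continuous_const.mul (continuous_finsetSum _ fun A _ => continuous_finsetSum _ fun i _ =>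
    continuous_finsetSum _ fun j _ => (cont_FF S A i j).pow 2)).add
    (continuous_const.mul (continuous_finsetSum _ fun A _ => continuous_finsetSum _ fun B _ =>
      continuous_finsetSum _ fun C _ => ?_))).add
    (continuous_const.mul (continuous_finsetSum _ fun i _ => continuous_finsetSum _ fun A _ => ?_))
  · exact ((continuous_const.mul (cont_coord _)).mul (cont_coord _)).mul (cont_coord _)
  · exact (continuous_const.mul (cont_coord _)).pow 2

lemma cont_LF (S : Setup d F) (A : Fin d) (i j : Fin 9) :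
    Continuous (fun q : Cfg d × Cfg d => S.LF q.1 A i j q.2) := by
  unfold Setup.LF
  refine continuous_const.mul (continuous_finsetSum _ fun B _ => continuous_finsetSum _ fun C _ => ?_)
  refine continuous_const.mul (((cont_coord _).comp continuous_fst).mul
    ((cont_coord _).comp continuous_snd) |>.add (((cont_coord _).comp continuous_snd).mul
    ((cont_coord _).comp continuous_fst)))

lemma cont_hq (S : Setup d F) : Continuous (fun q : Cfg d × Cfg d => S.hq q.1 q.2) := by
  unfold Setup.hq Setup.LG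
  refine ((continuous_const.mul (continuous_finsetSum _ fun k _ => continuous_finsetSum _ fun A _ =>
    ((cont_LF S A _ _).add (continuous_const.mul ((cont_coord _).comp continuous_snd))).pow 2)).add
    (continuous_const.mul (continuous_finsetSum _ fun i _ => continuous_finsetSum _ fun A _ =>
      ?_))).add (continuous_const.mul (continuous_finsetSum _ fun i _ =>
      continuous_finsetSum _ fun j _ => continuous_finsetSum _ fun A _ => ?_))
  · split_ifs
    · exact continuous_const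
    · exact ((cont_coord _).comp continuous_snd).pow 2
  · split_ifs
    · exact continuous_const
    · exact (cont_LF S A i j).pow 2

lemma closed_Perp (S : Setup d F) : IsClosed {q : Cfg d × Cfg d | S.Perp q.1 q.2} := by
  unfold Setup.Perp
  rw [Set.ofPred_forall]
  refine isClosed_iInter fun C => isClosed_eq ?_ continuous_const
  refine continuous_finsetSum _ fun i _ => continuous_finsetSum _ fun A _ =>
    continuous_finsetSum _ fun B _ => ?_
  exact (continuous_const.mul ((cont_coord _).comp continuous_fst)).mul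
    ((cont_coord _).comp continuous_snd)

lemma LF_smul (S : Setup d F) (ξ w : Cfg d) (t : ℝ) (A : Fin d) (i j : Fin 9) :
    S.LF ξ A i j (t • w) = t * S.LF ξ A i j w := by
  unfold Setup.LF
  have h : ∑ B, ∑ C, S.f A B C * (ξ (i, B) * (t • w) (j, C) + (t • w) (i, B) * ξ (j, C)) =
      t * ∑ B, ∑ C, S.f A B C * (ξ (i, B) * w (j, C) + w (i, B) * ξ (j, C)) := by
    simp only [Finset.mul_sum, PiLp.smul_apply, smul_eq_mul]
    refine Finset.sum_congr rfl fun B _ => Finset.sum_congr rfl fun C _ => ?_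
    ring
  rw [h]
  ring

lemma hq_smul (S : Setup d F) (ξ w : Cfg d) (t : ℝ) : S.hq ξ (t • w) = t ^ 2 * S.hq ξ w := by
  unfold Setup.hq Setup.LG
  simp only [LF_smul, PiLp.smul_apply, smul_eq_mul, mul_add, Finset.mul_sum]
  congr 1
  · congr 1
    · refine Finset.sum_congr rfl fun k _ => Finset.sum_congr rfl fun A _ => ?_
      ring
    · refine Finset.sum_congr rfl fun i _ => Finset.sum_congr rfl fun A _ => ?_
      split_ifs
      · ring
      · ring
  · refine Finset.sum_congr rfl fun i _ => Finset.sum_congr rfl fun j _ =>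
      Finset.sum_congr rfl fun A _ => ?_
    split_ifs
    · ring
    · ring

lemma hq_nonneg (S : Setup d F) (ξ w : Cfg d) : 0 ≤ S.hq ξ w := by
  unfold Setup.hq
  refine add_nonneg (add_nonneg (mul_nonneg (by norm_num) ?_) (mul_nonneg (by norm_num) ?_))
    (mul_nonneg (by norm_num) ?_)
  · exact Finset.sum_nonneg fun k _ => Finset.sum_nonneg fun A _ => sq_nonneg _
  · refine Finset.sum_nonneg fun i _ => Finset.sum_nonneg fun A _ => ?_
    split_ifs
    · exact le_rfl
    · exact sq_nonneg _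
  · refine Finset.sum_nonneg fun i _ => Finset.sum_nonneg fun j _ => Finset.sum_nonneg fun A _ => ?_
    split_ifs
    · exact le_rfl
    · exact sq_nonneg _

lemma Perp_smul {S : Setup d F} {ξ w : Cfg d} (h : S.Perp ξ w) (t : ℝ) : S.Perp ξ (t • w) := by
  intro C
  have h1 := h C
  have h2 : ∑ i, ∑ A, ∑ B, S.f C A B * ξ (i, A) * (t • w) (i, B) =
      t * ∑ i, ∑ A, ∑ B, S.f C A B * ξ (i, A) * w (i, B) := by
    simp only [Finset.mul_sum, PiLp.smul_apply, smul_eq_mul]
    refine Finset.sum_congr rfl fun i _ => Finset.sum_congr rfl fun A _ =>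
      Finset.sum_congr rfl fun B _ => ?_
    ring
  rw [h2, h1, mul_zero]

/-- the zero set of `V_1` is compact -/
lemma compact_wells {S : Setup d F} (hCoe : CoeStmt S) : IsCompact (S.wells 1) := by
  obtain ⟨c, C, hc, hC, h⟩ := hCoe
  refine Metric.isCompact_of_isClosed_isBounded ?_ ?_
  · exact isClosed_eq (cont_Vm S 1) continuous_const
  · rw [isBounded_iff_forall_norm_le]
    refine ⟨Real.sqrt (C / c), fun x hx => ?_⟩
    have h1 := h x
    rw [show S.Vm 1 x = 0 from hx] at h1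
    refine Real.le_sqrt_of_sq_le ?_
    rw [le_div_iff₀ hc]
    linarith

/-- lower bound of the Hessian on the normal directions, uniformly on the wells -/
lemma hq_lower {S : Setup d F} (hCoe : CoeStmt S) (hHes : HesStmt S) :
    ∃ c : ℝ, 0 < c ∧ ∀ ξ w : Cfg d, S.Vm 1 ξ = 0 → S.Perp ξ w → c * ‖w‖ ^ 2 ≤ S.hq ξ w := by
  set T : Set (Cfg d × Cfg d) := {q | q.1 ∈ S.wells 1 ∧ ‖q.2‖ = 1 ∧ S.Perp q.1 q.2} with hT
  have hTc : IsCompact T := by
    refine IsCompact.of_isClosed_subset ((compact_wells hCoe).prod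
      (isCompact_sphere (0 : Cfg d) 1)) ?_ ?_
    · refine IsClosed.inter ?_ (IsClosed.inter ?_ (closed_Perp S))
      · exact (compact_wells hCoe).isClosed.preimage continuous_fst
      · exact isClosed_eq (continuous_norm.comp continuous_snd) continuous_const
    · rintro ⟨ξ, w⟩ ⟨h1, h2, _⟩
      exact ⟨h1, by simpa using h2⟩
  have hscale : ∀ c : ℝ, (∀ q ∈ T, c ≤ S.hq q.1 q.2) → ∀ ξ w : Cfg d, S.Vm 1 ξ = 0 →
      S.Perp ξ w → c * ‖w‖ ^ 2 ≤ S.hq ξ w := by
    intro c hc ξ w hξ hw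
    rcases eq_or_ne w 0 with rfl | hw0
    · rw [norm_zero, zero_pow two_ne_zero, mul_zero]
      exact hq_nonneg S ξ 0
    · have hn : 0 < ‖w‖ := norm_pos_iff.2 hw0
      have h1 := hc (ξ, ‖w‖⁻¹ • w) ⟨hξ, by
        rw [norm_smul, norm_inv, norm_norm, inv_mul_cancel₀ hn.ne'], Perp_smul hw _⟩
      simp only [hq_smul] at h1
      have h2 : S.hq ξ w = ‖w‖ ^ 2 * ((‖w‖⁻¹) ^ 2 * S.hq ξ w) := by
        rw [← mul_assoc, ← mul_pow, mul_inv_cancel₀ hn.ne', one_pow, one_mul]
      rw [h2, mul_comm c]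
      exact mul_le_mul_of_nonneg_left h1 (sq_nonneg _)
  rcases T.eq_empty_or_nonempty with he | hne
  · exact ⟨1, one_pos, hscale 1 (by rw [he]; rintro q ⟨⟩)⟩
  · obtain ⟨q, hq, hmin⟩ := hTc.exists_isMinOn hne (cont_hq S).continuousOn
    refine ⟨S.hq q.1 q.2, ?_, hscale _ fun q' hq' => hmin hq'⟩
    refine lt_of_le_of_ne (hq_nonneg S _ _) fun h0 => ?_
    have h1 := hHes q.1 q.2 hq.1 h0.symm hq.2.2
    have h2 := hq.2.1
    rw [h1, norm_zero] at h2
    exact zero_ne_one h2

end NearAux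

open NearAux in
/-- **C-Near** -/
theorem near_stmt (S : Setup d F) (hCoe : CoeStmt S) (hHes : HesStmt S) (hTay : TayStmt S) :
    NearStmt S := by
  obtain ⟨c₀, hc₀, h1⟩ := hq_lower hCoe hHes
  obtain ⟨C, hC, h2⟩ := hTay
  refine ⟨c₀ / 4, Real.sqrt (c₀ / (4 * (C + 1))), by positivity, by positivity, ?_⟩
  intro ξ w hξ hw hp
  have h3 := h1 ξ w hξ hp
  have h4 := h2 ξ w hξ
  have h5 : ‖w‖ ^ 2 ≤ c₀ / (4 * (C + 1)) := by
    have := pow_le_pow_left₀ (norm_nonneg w) hw 2
    rwa [Real.sq_sqrt (by positivity)] at this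
  have h6 : C * ‖w‖ ^ 2 ≤ c₀ / 4 := by
    rw [le_div_iff₀ (by positivity)] at h5
    nlinarith [sq_nonneg ‖w‖]
  have h7 : C * ‖w‖ ^ 4 ≤ c₀ / 4 * ‖w‖ ^ 2 := by
    have : C * ‖w‖ ^ 4 = (C * ‖w‖ ^ 2) * ‖w‖ ^ 2 := by ring
    rw [this]
    exact mul_le_mul_of_nonneg_right h6 (sq_nonneg _)
  linarith

end Vale.Agent.P353.Z.U
end

section

/-! # P353, general `N`: the wells (C-Wel, C-Fin) -/

open MeasureTheory Filter Topology
open scoped ContDiff

namespace Vale.Agent.P353.Z.U

variable {d : ℕ} {F : Type*} [NormedAddCommGroup F] [InnerProductSpace ℂ F]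

namespace WelAux

lemma Vm_scale (S : Setup d F) (m : ℝ) (y : Cfg d) : S.Vm m (m • y) = m ^ 4 * S.Vm 1 y := by
  have hF : ∀ A i j, S.FF A i j (m • y) = m ^ 2 * S.FF A i j y := by
    intro A i j
    unfold Setup.FF
    have h : ∑ B, ∑ C, S.f A B C * (m • y) (i, B) * (m • y) (j, C) =
        m ^ 2 * ∑ B, ∑ C, S.f A B C * y (i, B) * y (j, C) := by
      simp only [Finset.mul_sum, PiLp.smul_apply, smul_eq_mul]
      refine Finset.sum_congr rfl fun B _ => Finset.sum_congr rfl fun C _ => ?_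
      ring
    rw [h]
    ring
  have hV : S.V (m • y) = m ^ 4 * S.V y := by
    unfold Setup.V
    have h : ∑ A, ∑ i, ∑ j, (S.FF A i j (m • y)) ^ 2 =
        m ^ 4 * ∑ A, ∑ i, ∑ j, (S.FF A i j y) ^ 2 := by
      simp only [Finset.mul_sum, hF]
      refine Finset.sum_congr rfl fun A _ => Finset.sum_congr rfl fun i _ =>
        Finset.sum_congr rfl fun j _ => ?_
      ring
    rw [h]
    ring
  have hD : S.det3 (m • y) = m ^ 3 * S.det3 y := by
    unfold Setup.det3
    simp only [Finset.mul_sum, PiLp.smul_apply, smul_eq_mul]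
    refine Finset.sum_congr rfl fun A _ => Finset.sum_congr rfl fun B _ =>
      Finset.sum_congr rfl fun C _ => ?_
    ring
  have hA : ∑ i, ∑ A, (aw i * (m • y) (i, A)) ^ 2 = m ^ 2 * ∑ i, ∑ A, (aw i * y (i, A)) ^ 2 := by
    simp only [Finset.mul_sum, PiLp.smul_apply, smul_eq_mul]
    refine Finset.sum_congr rfl fun i _ => Finset.sum_congr rfl fun A _ => ?_
    ring
  unfold Setup.Vm
  rw [hV, hD, hA]
  ring

lemma Vm_nonneg {S : Setup d F} (hSq : SqStmt S) (m : ℝ) (x : Cfg d) : 0 ≤ S.Vm m x := by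
  rw [hSq m x]
  refine add_nonneg (add_nonneg (mul_nonneg (by norm_num) ?_) (mul_nonneg (by positivity) ?_))
    (mul_nonneg (by norm_num) ?_)
  · exact Finset.sum_nonneg fun k _ => Finset.sum_nonneg fun A _ => sq_nonneg _
  · refine Finset.sum_nonneg fun i _ => Finset.sum_nonneg fun A _ => ?_
    split_ifs
    · exact le_rfl
    · exact sq_nonneg _
  · refine Finset.sum_nonneg fun i _ => Finset.sum_nonneg fun j _ => Finset.sum_nonneg fun A _ => ?_
    split_ifs
    · exact le_rfl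
    · exact sq_nonneg _

lemma Vm_zero (S : Setup d F) : S.Vm 1 0 = 0 := by
  have h := Vm_scale S 0 (0 : Cfg d)
  have h1 : S.Vm 1 (0 : Cfg d) = S.Vm 0 0 + (6 * S.κ * S.det3 (0 : Cfg d)) +
      1 / 2 * ∑ i : Fin 9, ∑ A : Fin d, (aw i * (0 : Cfg d) (i, A)) ^ 2 := by
    unfold Setup.Vm
    ring
  have h2 : S.det3 (0 : Cfg d) = 0 := by
    unfold Setup.det3
    simp
  have h3 : ∑ i : Fin 9, ∑ A : Fin d, (aw i * (0 : Cfg d) (i, A)) ^ 2 = 0 := by
    simp
  rw [smul_zero, zero_pow four_ne_zero, zero_mul] at h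
  rw [h1, h, h2, h3]
  ring

lemma ro_one (x : Cfg d) : ro (1 : Matrix (Fin d) (Fin d) ℝ) x = x := by
  ext p
  simp [ro, Matrix.one_apply]

/-- the case `m = 1` -/
lemma wel_one {S : Setup d F} (hCoe : CoeStmt S) (hSq : SqStmt S) (hNear : NearStmt S)
    (hFoot : FootStmt S) : ∃ c : ℝ, 0 < c ∧ ∀ x : Cfg d, c * S.dm 1 x ^ 2 ≤ S.Vm 1 x := by
  have hCoe' := hCoe
  obtain ⟨c₁, δ, hc₁, hδ, h1⟩ := hNear
  obtain ⟨c₂, C₂, hc₂, hC₂, h2⟩ := hCoe
  have hd0 : ∀ x : Cfg d, 0 ≤ S.dm 1 x := fun x => Metric.infDist_nonneg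
  have hdx : ∀ x : Cfg d, S.dm 1 x ≤ ‖x‖ := by
    intro x
    have h3 : (0 : Cfg d) ∈ S.wells 1 := Vm_zero S
    have h4 := Metric.infDist_le_dist_of_mem (x := x) h3
    rwa [dist_zero_right] at h4
  set R : ℝ := Real.sqrt (2 * C₂ / c₂) with hR
  have hR0 : 0 ≤ R := Real.sqrt_nonneg _
  -- the compact middle part
  set T : Set (Cfg d) := {x | ‖x‖ ≤ R ∧ δ ≤ S.dm 1 x} with hT
  have hdc : Continuous (S.dm 1) := Metric.continuous_infDist_pt _
  have hTc : IsCompact T := by
    refine IsCompact.of_isClosed_subset (isCompact_closedBall (0 : Cfg d) R) ?_ ?_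
    · exact (isClosed_le continuous_norm continuous_const).inter
        (isClosed_le continuous_const hdc)
    · rintro x ⟨h, _⟩
      simpa using h
  obtain ⟨c₃, hc₃, h3⟩ : ∃ c : ℝ, 0 < c ∧ ∀ x ∈ T, c ≤ S.Vm 1 x := by
    rcases T.eq_empty_or_nonempty with he | hne
    · exact ⟨1, one_pos, by rw [he]; rintro x ⟨⟩⟩
    · obtain ⟨x, hx, hmin⟩ := hTc.exists_isMinOn hne (NearAux.cont_Vm S 1).continuousOn
      refine ⟨S.Vm 1 x, ?_, fun y hy => hmin hy⟩
      refine lt_of_le_of_ne (Vm_nonneg hSq 1 x) fun h0 => ?_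
      have h4 : S.dm 1 x = 0 := Metric.infDist_zero_of_mem (show x ∈ S.wells 1 from h0.symm)
      have h5 := hx.2
      rw [h4] at h5
      linarith
  refine ⟨min c₁ (min (c₂ / 2) (c₃ / (R ^ 2 + 1))), by positivity, fun x => ?_⟩
  set c := min c₁ (min (c₂ / 2) (c₃ / (R ^ 2 + 1))) with hc
  have hcc₁ : c ≤ c₁ := min_le_left _ _
  have hcc₂ : c ≤ c₂ / 2 := (min_le_right _ _).trans (min_le_left _ _)
  have hcc₃ : c ≤ c₃ / (R ^ 2 + 1) := (min_le_right _ _).trans (min_le_right _ _)
  rcases le_or_gt (S.dm 1 x) δ with hx | hx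
  · obtain ⟨ξ, hξ, hn, hp⟩ := hFoot.2 x
    have h4 : ‖x - ξ‖ = S.dm 1 x := hn
    have h5 := h1 ξ (x - ξ) hξ (h4.le.trans hx) hp
    rw [add_sub_cancel, h4] at h5
    exact (mul_le_mul_of_nonneg_right hcc₁ (sq_nonneg _)).trans h5
  · rcases le_or_gt ‖x‖ R with hx' | hx'
    · have h4 := h3 x ⟨hx', hx.le⟩
      have h5 : S.dm 1 x ^ 2 ≤ R ^ 2 + 1 := by
        have := pow_le_pow_left₀ (hd0 x) ((hdx x).trans hx') 2
        linarith
      calc c * S.dm 1 x ^ 2 ≤ c₃ / (R ^ 2 + 1) * (R ^ 2 + 1) :=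
            mul_le_mul hcc₃ h5 (sq_nonneg _) (by positivity)
        _ = c₃ := div_mul_cancel₀ _ (by positivity)
        _ ≤ S.Vm 1 x := h4
    · have h4 : 2 * C₂ / c₂ ≤ ‖x‖ ^ 2 := by
        have := pow_le_pow_left₀ hR0 hx'.le 2
        rwa [hR, Real.sq_sqrt (by positivity)] at this
      have h5 : 2 * C₂ ≤ c₂ * ‖x‖ ^ 2 := by
        rw [div_le_iff₀ hc₂] at h4
        linarith
      have h6 := h2 x
      have h7 : S.dm 1 x ^ 2 ≤ ‖x‖ ^ 2 := pow_le_pow_left₀ (hd0 x) (hdx x) 2
      have h8 : c * S.dm 1 x ^ 2 ≤ c₂ / 2 * ‖x‖ ^ 2 :=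
        mul_le_mul hcc₂ h7 (sq_nonneg _) (by positivity)
      linarith

end WelAux

open WelAux

/-- C-Wel from C-Near -/
theorem wel_of_near (S : Setup d F) (hCoe : CoeStmt S) (hSq : SqStmt S) (hNear : NearStmt S)
    (hFoot : FootStmt S) : WelStmt S := by
  obtain ⟨c, hc, h1⟩ := wel_one hCoe hSq hNear hFoot
  refine ⟨c, hc, fun m hm x => ?_⟩
  set y : Cfg d := m⁻¹ • x with hy
  have hxy : x = m • y := by rw [hy, smul_smul, mul_inv_cancel₀ hm.ne', one_smul]
  obtain ⟨ξ, hξ, hn, _⟩ := hFoot.2 y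
  have h2 : m • ξ ∈ S.wells m := by
    show S.Vm m (m • ξ) = 0
    rw [Vm_scale, show S.Vm 1 ξ = 0 from hξ, mul_zero]
  have h3 : S.dm m x ≤ m * S.dm 1 y := by
    have h4 := Metric.infDist_le_dist_of_mem (x := x) h2
    rw [dist_eq_norm, hxy, ← smul_sub, norm_smul, Real.norm_of_nonneg hm.le, hn] at h4
    rw [hxy]
    exact h4
  have h4 : S.dm m x ^ 2 ≤ m ^ 2 * S.dm 1 y ^ 2 := by
    have := pow_le_pow_left₀ (Metric.infDist_nonneg : 0 ≤ S.dm m x) h3 2
    rwa [mul_pow] at this
  have h5 : S.Vm m x = m ^ 4 * S.Vm 1 y := by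
    rw [hxy, Vm_scale]
  rw [h5]
  calc c * m ^ 2 * S.dm m x ^ 2 ≤ c * m ^ 2 * (m ^ 2 * S.dm 1 y ^ 2) :=
        mul_le_mul_of_nonneg_left h4 (by positivity)
    _ = m ^ 4 * (c * S.dm 1 y ^ 2) := by ring
    _ ≤ m ^ 4 * S.Vm 1 y := mul_le_mul_of_nonneg_left (h1 y) (by positivity)

/-- C-Fin from C-Near -/
theorem fin_of_near (S : Setup d F) (hCoe : CoeStmt S) (hNear : NearStmt S)
    (hFoot : FootStmt S) (hGrp : GrpCptStmt S) : FinStmt S := by
  obtain ⟨c, δ, hc, hδ, h1⟩ := hNear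
  have hK := NearAux.compact_wells hCoe
  have hself : ∀ ξ : Cfg d, ξ ∈ S.Orb ξ := fun ξ => ⟨1, hGrp.2.1, (ro_one ξ).symm⟩
  obtain ⟨t, ht⟩ := hK.elim_finite_subcover_image (b := S.wells 1)
    (c := fun ξ => {x : Cfg d | Metric.infDist x (S.Orb ξ) < δ})
    (fun ξ _ => isOpen_lt (Metric.continuous_infDist_pt _) continuous_const)
    (fun ξ hξ => Set.mem_biUnion hξ (by
      show Metric.infDist ξ (S.Orb ξ) < δ
      rw [Metric.infDist_zero_of_mem (hself ξ)]
      exact hδ))
  obtain ⟨ht1, ht2, ht3⟩ := ht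
  have := ht2.fintype
  set e := (Fintype.equivFin t) with he
  refine ⟨Fintype.card t, fun j => (e.symm j : Cfg d), fun j => ht1 (e.symm j).2, ?_⟩
  intro x hx
  obtain ⟨ξ, hξt, hξ⟩ := Set.mem_iUnion₂.1 (ht3 (show x ∈ S.wells 1 from hx))
  refine ⟨e ⟨ξ, hξt⟩, ?_⟩
  show x ∈ S.Orb ((e.symm (e ⟨ξ, hξt⟩) : t) : Cfg d)
  rw [Equiv.symm_apply_apply]
  obtain ⟨ξ', hξ', hn, hp⟩ := hFoot.1 ξ x
  have hV : S.Vm 1 ξ' = 0 := by
    obtain ⟨O, hO, rfl⟩ := hξ'
    rw [hGrp.2.2.2.2.1 O hO]
    exact ht1 hξt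
  have h2 := h1 ξ' (x - ξ') hV (hn.le.trans (le_of_lt hξ)) hp
  rw [add_sub_cancel, hx] at h2
  have h3 : ‖x - ξ'‖ ^ 2 = 0 := by
    refine le_antisymm ?_ (sq_nonneg _)
    by_contra h
    rw [not_le] at h
    have := mul_pos hc h
    linarith
  have h4 : x = ξ' := sub_eq_zero.1 (norm_eq_zero.1 (pow_eq_zero_iff two_ne_zero |>.1 h3))
  rw [h4]
  exact hξ'

/-- **C-Wel** -/
theorem wel_stmt (S : Setup d F) (hCoe : CoeStmt S) (hSq : SqStmt S) (hHes : HesStmt S)
    (hTay : TayStmt S) (hFoot : FootStmt S) : WelStmt S :=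
  wel_of_near S hCoe hSq (near_stmt S hCoe hHes hTay) hFoot

/-- **C-Fin** -/
theorem fin_stmt (S : Setup d F) (hCoe : CoeStmt S) (hHes : HesStmt S) (hTay : TayStmt S)
    (hFoot : FootStmt S) (hGrp : GrpCptStmt S) : FinStmt S :=
  fin_of_near S hCoe (near_stmt S hCoe hHes hTay) hFoot hGrp

end Vale.Agent.P353.Z.U
end
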