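import Mathlib
import Vale.Agent.P353.BdZ.B1
import Vale.Agent.P353.BdZ.B6
import Vale.Agent.P353.BdZ.B2
import Vale.Agent.P353.BdZ.B3
attribute [-instance] ProperSMul.toContinuousSMul IsTopologicalTorsor.toContinuousSMul IdemSemiring.toCanonicallyOrderedAdd IdemSemiring.toMulLeftMono IdemSemiring.toMulRightMono AddQuantale.instAddLeftMono AddQuantale.instAddRightMono Quantale.instMulLeftMono Quantale.instMulRightMono FiniteDimensional.rclike_to_real IsScalarTower.complexToReal FiniteDimensional.complexToReal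

set_option linter.all false

section

/-! # P353, C-L1: analytic tools (Fourier uniqueness, growth, Gaussians) -/

open MeasureTheory Filter Topology
open scoped ContDiff FourierTransform ENNReal

namespace Vale.Agent.P353.Z.U

variable {dc : ℕ}

/-! ### Fourier uniqueness -/

theorem l1_fourier {f : (Cfg dc) → ℂ} (hf : Integrable f)
    (h : ∀ k : (Cfg dc), ∫ x, Complex.exp (((inner ℝ k x : ℝ) : ℂ) * Complex.I) * f x = 0) :
    f =ᵐ[volume] 0 := by
  have h1 : ∀ w : (Cfg dc), 𝓕 f w = 0 := by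
    intro w
    rw [Real.fourier_eq']
    rw [← h ((-2 * Real.pi) • w)]
    refine integral_congr_ae (Eventually.of_forall fun x => ?_)
    simp only [smul_eq_mul, inner_smul_left, real_inner_comm]
    congr 2
  refine ae_eq_zero_of_integral_contDiff_smul_eq_zero hf.locallyIntegrable fun g hg hc => ?_
  have hg' : ContDiff ℝ ∞ fun x : (Cfg dc) => ((g x : ℝ) : ℂ) := Complex.ofRealCLM.contDiff.comp hg
  have hc' : HasCompactSupport fun x : (Cfg dc) => ((g x : ℝ) : ℂ) :=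
    hc.comp_left (g := fun r : ℝ => (r : ℂ)) Complex.ofReal_zero
  let G : SchwartzMap (Cfg dc) ℂ := hc'.toSchwartzMap hg'
  have hG : ∀ x, G x = ((g x : ℝ) : ℂ) := fun x => rfl
  let H : SchwartzMap (Cfg dc) ℂ := 𝓕⁻ G
  have hH : 𝓕 H = G := FourierTransform.fourier_fourierInv_eq G
  have key : ∫ x, (𝓕 H x) * f x = ∫ x, H x * 𝓕 f x := by
    simpa using! VectorFourier.integral_bilin_fourierIntegral_eq_flip
      (ContinuousLinearMap.mul ℂ ℂ) (L := innerₗ (Cfg dc))
      Real.continuous_fourierChar continuous_inner H.integrable hf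
  simp only [h1, mul_zero, integral_zero, hH] at key
  rw [← key]
  refine integral_congr_ae (Eventually.of_forall fun x => ?_)
  simp only [hG, Complex.real_smul]

/-! ### growth -/

/-- measurable functions with polynomially bounded local `L²` norms -/
structure L1Gr {G : Type*} [NormedAddCommGroup G] (u : (Cfg dc) → G) : Prop where
  meas : AEStronglyMeasurable u (volume : Measure (Cfg dc))
  loc : ∀ s : ℝ, 0 < s → IntegrableOn (fun x => ‖u x‖ ^ 2) (Metric.ball (0 : (Cfg dc)) s)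
  gr : ∃ (K : ℝ) (p : ℕ), ∀ s : ℝ, 1 ≤ s →
    ∫ x in Metric.ball (0 : (Cfg dc)) s, ‖u x‖ ^ 2 ≤ K * s ^ p

theorem l1_summable {c : ℝ} (hc : 0 < c) (K : ℝ) (p : ℕ) :
    Summable fun n : ℕ => Real.exp (-(c * n ^ 2)) * (|K| * ((n : ℝ) + 1) ^ p) := by
  have h1 := Real.summable_pow_mul_exp_neg_nat_mul p hc
  have h2 := (summable_nat_add_iff 1).mpr h1
  refine Summable.of_nonneg_of_le (fun n => by positivity) (fun n => ?_)
    (h2.mul_left (|K| * Real.exp c))
  have h3 : Real.exp (-(c * n ^ 2)) ≤ Real.exp c * Real.exp (-c * ((n + 1 : ℕ) : ℝ)) := by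
    rw [← Real.exp_add, Real.exp_le_exp]
    have h4 : (n : ℝ) ≤ (n : ℝ) ^ 2 := by
      rcases Nat.eq_zero_or_pos n with rfl | hn
      · simp
      · have : (1 : ℝ) ≤ n := by exact_mod_cast hn
        nlinarith
    push_cast
    nlinarith
  calc Real.exp (-(c * n ^ 2)) * (|K| * ((n : ℝ) + 1) ^ p)
      ≤ (Real.exp c * Real.exp (-c * ((n + 1 : ℕ) : ℝ))) * (|K| * ((n : ℝ) + 1) ^ p) :=
        mul_le_mul_of_nonneg_right h3 (by positivity)
    _ = _ := by push_cast; ring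

namespace L1Gr

variable {G : Type*} [NormedAddCommGroup G] {u : (Cfg dc) → G}

theorem int_gauss (h : L1Gr u) {c : ℝ} (hc : 0 < c) :
    Integrable fun x : (Cfg dc) => Real.exp (-(c * ‖x‖ ^ 2)) * ‖u x‖ ^ 2 := by
  obtain ⟨K, p, hK⟩ := h.gr
  have hcont : Continuous fun x : (Cfg dc) => Real.exp (-(c * ‖x‖ ^ 2)) := by fun_prop
  refine ⟨hcont.aestronglyMeasurable.mul (h.meas.norm.pow 2), ?_⟩
  rw [hasFiniteIntegral_iff_ofReal (Eventually.of_forall fun x => by positivity)]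
  have hle : ∀ x : (Cfg dc), ENNReal.ofReal (Real.exp (-(c * ‖x‖ ^ 2)) * ‖u x‖ ^ 2) ≤
      ∑' n : ℕ, ENNReal.ofReal (Real.exp (-(c * n ^ 2))) *
        (Metric.ball (0 : (Cfg dc)) (n + 1)).indicator (fun y => ENNReal.ofReal (‖u y‖ ^ 2)) x := by
    intro x
    refine le_trans ?_ (ENNReal.le_tsum ⌊‖x‖⌋₊)
    have h1 : x ∈ Metric.ball (0 : (Cfg dc)) ((⌊‖x‖⌋₊ : ℝ) + 1) := by
      rw [Metric.mem_ball, dist_zero_right]
      exact Nat.lt_floor_add_one _
    rw [Set.indicator_of_mem h1, ← ENNReal.ofReal_mul (Real.exp_pos _).le]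
    refine ENNReal.ofReal_le_ofReal (mul_le_mul_of_nonneg_right ?_ (by positivity))
    rw [Real.exp_le_exp]
    have h2 : (⌊‖x‖⌋₊ : ℝ) ≤ ‖x‖ := Nat.floor_le (norm_nonneg x)
    have h3 : (⌊‖x‖⌋₊ : ℝ) ^ 2 ≤ ‖x‖ ^ 2 := pow_le_pow_left₀ (Nat.cast_nonneg _) h2 2
    nlinarith
  refine lt_of_le_of_lt (lintegral_mono hle) ?_
  have hmeas : AEMeasurable (fun y => ENNReal.ofReal (‖u y‖ ^ 2)) (volume : Measure (Cfg dc)) :=
    (h.meas.norm.pow 2).aemeasurable.ennreal_ofReal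
  rw [lintegral_tsum fun n => ((hmeas.indicator Metric.isOpen_ball.measurableSet).const_mul _)]
  have hterm : ∀ n : ℕ, ∫⁻ x, ENNReal.ofReal (Real.exp (-(c * n ^ 2))) *
        (Metric.ball (0 : (Cfg dc)) (n + 1)).indicator (fun y => ENNReal.ofReal (‖u y‖ ^ 2)) x ≤
      ENNReal.ofReal (Real.exp (-(c * n ^ 2)) * (|K| * ((n : ℝ) + 1) ^ p)) := by
    intro n
    rw [lintegral_const_mul' _ _ ENNReal.ofReal_ne_top,
      lintegral_indicator Metric.isOpen_ball.measurableSet,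
      ENNReal.ofReal_mul (Real.exp_pos _).le]
    refine mul_le_mul_of_nonneg_left ?_ bot_le
    have hn : (0 : ℝ) < (n : ℝ) + 1 := by positivity
    rw [← ofReal_integral_eq_lintegral_ofReal (h.loc _ hn)
      (Eventually.of_forall fun x => by positivity)]
    refine ENNReal.ofReal_le_ofReal ((hK _ (by linarith [Nat.cast_nonneg (α := ℝ) n])).trans ?_)
    exact mul_le_mul_of_nonneg_right (le_abs_self K) (by positivity)
  refine lt_of_le_of_lt (ENNReal.tsum_le_tsum hterm) ?_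
  rw [← ENNReal.ofReal_tsum_of_nonneg (fun n => by positivity) (l1_summable hc K p)]
  exact ENNReal.ofReal_lt_top

/-- the dominating function used everywhere -/
theorem int_dom (h : L1Gr u) {c : ℝ} (hc : 0 < c) :
    Integrable fun x : (Cfg dc) => Real.exp (-(c * ‖x‖ ^ 2)) * (1 + ‖u x‖ ^ 2) := by
  have h1 : Integrable fun x : (Cfg dc) => Real.exp (-(c * ‖x‖ ^ 2)) := by
    have := GaussianFourier.integrable_cexp_neg_mul_sq_norm_add (V := (Cfg dc)) (b := (c : ℂ))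
      (by simpa using hc) 0 0
    have h2 := this.re
    refine h2.congr (Eventually.of_forall fun x => ?_)
    simp only [inner_zero_left, Complex.ofReal_zero, mul_zero, add_zero]
    rw [show (-(c : ℂ) * (‖x‖ : ℂ) ^ 2) = ((-(c * ‖x‖ ^ 2) : ℝ) : ℂ) by push_cast; ring,
      ← Complex.ofReal_exp]
    exact Complex.ofReal_re _
  refine (h1.add (h.int_gauss hc)).congr (Eventually.of_forall fun x => ?_)
  simp only [Pi.add_apply]; ring

end L1Gr

/-- polynomials times Gaussians -/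
theorem l1_poly_gauss {c d : ℝ} (hcd : d < c) (m : ℕ) : ∃ C : ℝ, 0 ≤ C ∧ ∀ x : (Cfg dc),
    (1 + ‖x‖) ^ m * Real.exp (-(c * ‖x‖ ^ 2)) ≤ C * Real.exp (-(d * ‖x‖ ^ 2)) := by
  refine ⟨Real.exp (m ^ 2 / (4 * (c - d))), (Real.exp_pos _).le, fun x => ?_⟩
  have hs : 0 < c - d := by linarith
  have h1 : (1 + ‖x‖) ^ m ≤ Real.exp (m * ‖x‖) := by
    rw [Real.exp_nat_mul]
    refine pow_le_pow_left₀ (by positivity) ?_ m
    rw [add_comm]; exact Real.add_one_le_exp _
  calc (1 + ‖x‖) ^ m * Real.exp (-(c * ‖x‖ ^ 2))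
      ≤ Real.exp (m * ‖x‖) * Real.exp (-(c * ‖x‖ ^ 2)) :=
        mul_le_mul_of_nonneg_right h1 (Real.exp_pos _).le
    _ ≤ Real.exp (m ^ 2 / (4 * (c - d))) * Real.exp (-(d * ‖x‖ ^ 2)) := by
        rw [← Real.exp_add, ← Real.exp_add, Real.exp_le_exp]
        have h2 : (m : ℝ) ^ 2 / (4 * (c - d)) - m * ‖x‖ + (c - d) * ‖x‖ ^ 2 =
            (c - d) * (‖x‖ - m / (2 * (c - d))) ^ 2 := by
          field_simp
          ring
        have h3 : 0 ≤ (c - d) * (‖x‖ - m / (2 * (c - d))) ^ 2 := by positivity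
        linarith

end Vale.Agent.P353.Z.U
end

section

/-! # P353, C-L1: the weak equation for Gaussian test functions, limit of cut-offs -/

open MeasureTheory Filter Topology
open scoped ContDiff ComplexConjugate

namespace Vale.Agent.P353.Z.U

variable {dc : ℕ}

theorem L1Gr.int_inner {U : (Cfg dc) → ℂ} (h : L1Gr U) {g : (Cfg dc) → ℂ}
    (hg : AEStronglyMeasurable g (volume : Measure (Cfg dc))) {C c : ℝ} (hc : 0 < c)
    (hb : ∀ x, ‖g x‖ ≤ C * Real.exp (-(c * ‖x‖ ^ 2))) :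
    Integrable (fun x => inner ℂ (g x) (U x)) := by
  refine ((h.int_dom hc).const_mul C).mono' (hg.inner h.meas)
    (Eventually.of_forall fun x => ?_)
  have h1 := hb x
  have h0 : 0 ≤ C * Real.exp (-(c * ‖x‖ ^ 2)) := (norm_nonneg _).trans h1
  calc ‖inner ℂ (g x) (U x)‖ ≤ ‖g x‖ * ‖U x‖ := norm_inner_le_norm _ _
    _ ≤ (C * Real.exp (-(c * ‖x‖ ^ 2))) * (1 + ‖U x‖ ^ 2) := by
        refine mul_le_mul h1 ?_ (norm_nonneg _) h0
        nlinarith [sq_nonneg (‖U x‖ - 1), norm_nonneg (U x)]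
    _ = _ := by ring

theorem l1_cs_bound {g : (Cfg dc) → ℂ} (hg : Continuous g) (hs : HasCompactSupport g) :
    ∃ C : ℝ, ∀ x, ‖g x‖ ≤ C * Real.exp (-(1 * ‖x‖ ^ 2)) := by
  have h1 : Continuous fun x : (Cfg dc) => ((Real.exp (‖x‖ ^ 2) : ℝ) : ℂ) * g x := by fun_prop
  have h2 : HasCompactSupport fun x : (Cfg dc) => ((Real.exp (‖x‖ ^ 2) : ℝ) : ℂ) * g x := hs.mul_left
  obtain ⟨C, hC⟩ := h2.exists_bound_of_continuous h1
  refine ⟨C, fun x => ?_⟩
  have h3 := hC x
  rw [norm_mul, Complex.norm_real, Real.norm_of_nonneg (Real.exp_pos _).le] at h3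
  have h4 : ‖g x‖ = Real.exp (-(1 * ‖x‖ ^ 2)) * (Real.exp (‖x‖ ^ 2) * ‖g x‖) := by
    rw [← mul_assoc, ← Real.exp_add]
    simp
  rw [h4, mul_comm C]
  exact mul_le_mul_of_nonneg_left h3 (Real.exp_pos _).le

theorem L1Gr.int_inner_cs {U : (Cfg dc) → ℂ} (h : L1Gr U) {g : (Cfg dc) → ℂ}
    (hg : Continuous g) (hs : HasCompactSupport g) :
    Integrable (fun x => inner ℂ (g x) (U x)) := by
  obtain ⟨C, hC⟩ := l1_cs_bound hg hs
  exact h.int_inner hg.aestronglyMeasurable one_pos hC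

theorem l1_hcs_dir {f : (Cfg dc) → ℂ} (hf : HasCompactSupport f) (e : (Cfg dc)) :
    HasCompactSupport (fun y => fderiv ℝ f y e) := hf.fderiv_apply (𝕜 := ℝ) e

/-- weak solutions -/
structure L1Sol {ι : Type} [Fintype ι] [DecidableEq ι] (D : L1D dc ι) (ν : ℝ) (U : (Cfg dc) → ℂ) :
    Prop where
  gr : L1Gr U
  eq1 : ∀ η : (Cfg dc) → ℂ, ContDiff ℝ ∞ η → HasCompactSupport η →
    ∫ x, inner ℂ (D.L0 ν η x) (U x) = 0
  eq2 : ∀ (C : ι) (η : (Cfg dc) → ℂ), ContDiff ℝ ∞ η → HasCompactSupport η →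
    ∫ x, inner ℂ (fderiv ℝ η x (D.τ C)) (U x) = 0

/-! ### scaling of a function -/

theorem l1_fderiv_scale {f : (Cfg dc) → ℂ} (hf : ContDiff ℝ ∞ f) (r : ℝ) (x e : (Cfg dc)) :
    fderiv ℝ (fun y => f (r • y)) x e = (r : ℂ) * fderiv ℝ f (r • x) e := by
  have h1 : HasFDerivAt (fun x : (Cfg dc) => r • x) (r • ContinuousLinearMap.id ℝ (Cfg dc)) x :=
    (hasFDerivAt_id x).const_smul r
  have h2 := (l1_diff hf (r • x)).hasFDerivAt.comp x h1
  have h3 : fderiv ℝ (fun x : (Cfg dc) => f (r • x)) x = _ := h2.fderiv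
  rw [h3]
  simp

theorem l1_fderiv2_scale {f : (Cfg dc) → ℂ} (hf : ContDiff ℝ ∞ f) (r : ℝ) (x e : (Cfg dc)) :
    fderiv ℝ (fun y => fderiv ℝ (fun z => f (r • z)) y e) x e =
      (r : ℂ) ^ 2 * fderiv ℝ (fun z => fderiv ℝ f z e) (r • x) e := by
  have h1 : (fun y => fderiv ℝ (fun z => f (r • z)) y e) =
      fun y => (r : ℂ) * (fun z => fderiv ℝ f z e) (r • y) := by
    funext y; exact l1_fderiv_scale hf r y e
  rw [h1]
  have hg := l1_contDiff_dir hf e
  have hg' : DifferentiableAt ℝ (fun y : (Cfg dc) => (fun z => fderiv ℝ f z e) (r • y)) x :=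
    l1_diff (hg.comp (contDiff_const_smul r)) x
  have h2 := l1_fderiv_scale hg r x e
  rw [fderiv_const_mul hg', smul_apply, h2]
  simp only [smul_eq_mul]
  ring

namespace L1D

variable {ι : Type} [Fintype ι] [DecidableEq ι] (D : L1D dc ι)

theorem contDiff_L0 (ν : ℝ) {η : (Cfg dc) → ℂ} (hη : ContDiff ℝ ∞ η) : Continuous (D.L0 ν η) := by
  unfold L0
  refine Continuous.add (Continuous.neg (continuous_finsetSum _ fun p _ => ?_))
    (Continuous.mul ?_ hη.continuous)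
  · exact (l1_contDiff_dir (l1_contDiff_dir hη _) _).continuous
  · have : Continuous D.A := D.A.continuous
    fun_prop

theorem hcs_L0 (ν : ℝ) {η : (Cfg dc) → ℂ} (hη : HasCompactSupport η) : HasCompactSupport (D.L0 ν η) := by
  unfold L0
  refine HasCompactSupport.add ?_ hη.mul_left
  have h : ∀ p, HasCompactSupport (fun x => fderiv ℝ (fun y => fderiv ℝ η y (l1e p)) x (l1e p)) :=
    fun p => l1_hcs_dir (l1_hcs_dir hη _) _
  have h2 : HasCompactSupport (fun x => ∑ p, fderiv ℝ (fun y => fderiv ℝ η y (l1e p)) x (l1e p)) := by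
    refine HasCompactSupport.intro' (K := tsupport η) hη (isClosed_tsupport η) fun x hx => ?_
    refine Finset.sum_eq_zero fun p _ => ?_
    by_contra hne
    refine hx ?_
    have h3 : x ∈ tsupport (fun y => fderiv ℝ η y (l1e p)) :=
      tsupport_fderiv_apply_subset ℝ (l1e p) (subset_tsupport _ hne)
    exact tsupport_fderiv_apply_subset ℝ (l1e p) h3
  exact h2.neg

end L1D

theorem L1Sol.eqL {ι : Type} [Fintype ι] [DecidableEq ι] {D : L1D dc ι} {ν : ℝ} {U : (Cfg dc) → ℂ}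
    (h : L1Sol D ν U) {η : (Cfg dc) → ℂ} (hη : ContDiff ℝ ∞ η) (hs : HasCompactSupport η) :
    ∫ x, inner ℂ (D.LL ν η x) (U x) = 0 := by
  unfold L1D.LL
  simp only [inner_sub_left, sum_inner]
  have hc : ∀ C, ContDiff ℝ ∞ (fun y => ((inner ℝ (D.τ C) y : ℝ) : ℂ) * η y) :=
    fun C => (D.contDiff_τ C).mul hη
  have hsC : ∀ C, HasCompactSupport (fun y => ((inner ℝ (D.τ C) y : ℝ) : ℂ) * η y) :=
    fun C => hs.mul_left
  have hi : ∀ C, Integrable (fun x => inner ℂ
      (fderiv ℝ (fun y => ((inner ℝ (D.τ C) y : ℝ) : ℂ) * η y) x (D.τ C)) (U x)) :=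
    fun C => h.gr.int_inner_cs (l1_contDiff_dir (hc C) _).continuous (l1_hcs_dir (hsC C) _)
  rw [integral_sub (h.gr.int_inner_cs (D.contDiff_L0 ν hη) (D.hcs_L0 ν hs))
    (integrable_finsetSum _ fun C _ => hi C), h.eq1 η hη hs,
    integral_finsetSum _ fun C _ => hi C]
  rw [Finset.sum_eq_zero fun C _ => h.eq2 C _ (hc C) (hsC C), sub_zero]

end Vale.Agent.P353.Z.U
end

section

/-! # P353, C-L1: the weak equation for Gaussian test functions, limit of cut-offs -/

open MeasureTheory Filter Topology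
open scoped ContDiff ComplexConjugate

namespace Vale.Agent.P353.Z.U

variable {dc : ℕ}

namespace L1D

variable {ι : Type} [Fintype ι] [DecidableEq ι] (D : L1D dc ι)

theorem norm_cc_le (k e x : (Cfg dc)) : ‖D.cc k e x‖ ≤ (‖D.M2‖ + ‖k‖) * ‖e‖ * (1 + ‖x‖) := by
  unfold cc
  have h1 : ‖-((inner ℝ (D.M2 x) e : ℝ) : ℂ)‖ ≤ ‖D.M2‖ * ‖x‖ * ‖e‖ := by
    rw [norm_neg, Complex.norm_real]
    exact (norm_inner_le_norm _ _).trans
      (mul_le_mul_of_nonneg_right (D.M2.le_opNorm x) (norm_nonneg _))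
  have h2 : ‖((inner ℝ k e : ℝ) : ℂ) * Complex.I‖ ≤ ‖k‖ * ‖e‖ := by
    rw [norm_mul, Complex.norm_I, mul_one, Complex.norm_real]
    exact norm_inner_le_norm _ _
  refine (norm_add_le _ _).trans ((add_le_add h1 h2).trans ?_)
  have h3 := norm_nonneg x
  have h4 : 0 ≤ ‖D.M2‖ * ‖e‖ := by positivity
  have h5 : 0 ≤ ‖k‖ * ‖e‖ * ‖x‖ := by positivity
  nlinarith

theorem norm_bb_le (ν : ℝ) (k x : (Cfg dc)) :
    ‖D.bb ν k x‖ ≤ (‖k‖ ^ 2 + 2 * |ν| + 2 * (‖D.M‖ * ‖k‖)) * (1 + ‖x‖) := by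
  unfold bb
  have h1 : ‖((‖k‖ ^ 2 + 2 * ν : ℝ) : ℂ)‖ ≤ ‖k‖ ^ 2 + 2 * |ν| := by
    rw [Complex.norm_real]
    refine (norm_add_le _ _).trans (le_of_eq ?_)
    simp
  have h2 : ‖2 * ((inner ℝ (D.M x) k : ℝ) : ℂ) * Complex.I‖ ≤ 2 * (‖D.M‖ * ‖x‖ * ‖k‖) := by
    rw [norm_mul, norm_mul, Complex.norm_I, mul_one, Complex.norm_real, Complex.norm_ofNat]
    refine mul_le_mul_of_nonneg_left ?_ (by norm_num)
    exact (norm_inner_le_norm _ _).trans
      (mul_le_mul_of_nonneg_right (D.M.le_opNorm x) (norm_nonneg _))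
  refine (norm_add_le _ _).trans ((add_le_add h1 h2).trans ?_)
  have h3 := norm_nonneg x
  have h4 : 0 ≤ ‖D.M‖ * ‖k‖ := by positivity
  have h5 : 0 ≤ (‖k‖ ^ 2 + 2 * |ν|) * ‖x‖ := by positivity
  nlinarith

theorem continuous_cc (k e : (Cfg dc)) : Continuous (D.cc k e) := (D.differentiable_cc k e).continuous

theorem continuous_bb (ν : ℝ) (k : (Cfg dc)) : Continuous (D.bb ν k) := by
  unfold bb
  have : Continuous D.M := D.M.continuous
  fun_prop

/-- cut-off expression -/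
noncomputable def gg (ν : ℝ) (k : (Cfg dc)) (ψ : (Cfg dc) → ℂ) (r : ℝ) (x : (Cfg dc)) : ℂ :=
  ψ (r • x) * D.bb ν k x -
      ((∑ p, ((r : ℂ) ^ 2 * fderiv ℝ (fun z => fderiv ℝ ψ z (l1e p)) (r • x) (l1e p) +
        2 * (((r : ℂ) * fderiv ℝ ψ (r • x) (l1e p)) * D.cc k (l1e p) x))) +
      ∑ C, ((inner ℝ (D.τ C) x : ℝ) : ℂ) * ((r : ℂ) * fderiv ℝ ψ (r • x) (D.τ C)))

theorem LL_scale (ν : ℝ) (k : (Cfg dc)) {ψ : (Cfg dc) → ℂ} (hψ : ContDiff ℝ ∞ ψ) (r : ℝ) (x : (Cfg dc)) :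
    D.LL ν (fun y => ψ (r • y) * D.EE k y) x = D.EE k x * D.gg ν k ψ r x := by
  have h : ContDiff ℝ ∞ (fun y : (Cfg dc) => ψ (r • y)) := hψ.comp (contDiff_const_smul r)
  rw [D.LL_mul ν k h x]
  unfold gg
  simp only [l1_fderiv2_scale hψ]
  simp only [l1_fderiv_scale hψ]

theorem gg_bound (ν : ℝ) (k : (Cfg dc)) {ψ : (Cfg dc) → ℂ} (hψ : ContDiff ℝ ∞ ψ)
    (hs : HasCompactSupport ψ) : ∃ C : ℝ, 0 ≤ C ∧ ∀ r : ℝ, 0 ≤ r → r ≤ 1 → ∀ x,
      ‖D.gg ν k ψ r x‖ ≤ C * (1 + ‖x‖) ^ 1 := by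
  obtain ⟨K0, hK0⟩ := hs.exists_bound_of_continuous hψ.continuous
  have h1 : ∀ e : (Cfg dc), ∃ K : ℝ, ∀ y, ‖fderiv ℝ ψ y e‖ ≤ K := fun e =>
    (l1_hcs_dir hs e).exists_bound_of_continuous (l1_contDiff_dir hψ e).continuous
  have h2 : ∀ e : (Cfg dc), ∃ K : ℝ, ∀ y, ‖fderiv ℝ (fun z => fderiv ℝ ψ z e) y e‖ ≤ K := fun e =>
    (l1_hcs_dir (l1_hcs_dir hs e) e).exists_bound_of_continuous
      (l1_contDiff_dir (l1_contDiff_dir hψ e) e).continuous
  choose K1 hK1 using h1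
  choose K2 hK2 using h2
  have hK0' : 0 ≤ K0 := (norm_nonneg _).trans (hK0 0)
  have hK1' : ∀ e, 0 ≤ K1 e := fun e => (norm_nonneg _).trans (hK1 e 0)
  have hK2' : ∀ e, 0 ≤ K2 e := fun e => (norm_nonneg _).trans (hK2 e 0)
  refine ⟨K0 * (‖k‖ ^ 2 + 2 * |ν| + 2 * (‖D.M‖ * ‖k‖)) +
    ((∑ p, (K2 (l1e p) + 2 * (K1 (l1e p) * ((‖D.M2‖ + ‖k‖) * ‖l1e p‖)))) +
      ∑ C, ‖D.τ C‖ * K1 (D.τ C)), ?_, fun r hr0 hr1 x => ?_⟩
  · have e1 : ∀ p, 0 ≤ K2 (l1e p) + 2 * (K1 (l1e p) * ((‖D.M2‖ + ‖k‖) * ‖l1e p‖)) := fun p => by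
      have := hK1' (l1e p); have := hK2' (l1e p); positivity
    have e2 : ∀ C, 0 ≤ ‖D.τ C‖ * K1 (D.τ C) := fun C => by
      have := hK1' (D.τ C); positivity
    have e3 := Finset.sum_nonneg fun p (_ : p ∈ Finset.univ) => e1 p
    have e4 := Finset.sum_nonneg fun C (_ : C ∈ Finset.univ) => e2 C
    positivity
  · have hx := norm_nonneg x
    have hx1 : 1 ≤ 1 + ‖x‖ := by linarith
    have hrc : ‖(r : ℂ)‖ ≤ 1 := by rw [Complex.norm_real, Real.norm_of_nonneg hr0]; exact hr1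
    unfold gg
    refine (norm_sub_le _ _).trans ?_
    rw [pow_one, add_mul, add_mul]
    refine add_le_add ?_ ((norm_add_le _ _).trans (add_le_add ?_ ?_))
    · rw [norm_mul, mul_assoc]
      exact mul_le_mul (hK0 _) (D.norm_bb_le ν k x) (norm_nonneg _) hK0'
    · rw [Finset.sum_mul]
      refine norm_sum_le_of_le _ fun p _ => ?_
      have a1 : ‖(r : ℂ) ^ 2 * fderiv ℝ (fun z => fderiv ℝ ψ z (l1e p)) (r • x) (l1e p)‖ ≤
          K2 (l1e p) := by
        rw [norm_mul, norm_pow]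
        calc ‖(r : ℂ)‖ ^ 2 * _ ≤ 1 * K2 (l1e p) :=
              mul_le_mul (pow_le_one₀ (norm_nonneg _) hrc) (hK2 _ _) (norm_nonneg _) zero_le_one
          _ = _ := one_mul _
      have a2 : ‖(r : ℂ) * fderiv ℝ ψ (r • x) (l1e p)‖ ≤ K1 (l1e p) := by
        rw [norm_mul]
        calc ‖(r : ℂ)‖ * _ ≤ 1 * K1 (l1e p) :=
              mul_le_mul hrc (hK1 _ _) (norm_nonneg _) zero_le_one
          _ = _ := one_mul _
      have a3 : ‖2 * (((r : ℂ) * fderiv ℝ ψ (r • x) (l1e p)) * D.cc k (l1e p) x)‖ ≤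
          2 * (K1 (l1e p) * ((‖D.M2‖ + ‖k‖) * ‖l1e p‖ * (1 + ‖x‖))) := by
        rw [norm_mul, Complex.norm_ofNat, norm_mul _ (D.cc k (l1e p) x)]
        refine mul_le_mul_of_nonneg_left ?_ (by norm_num)
        exact mul_le_mul a2 (D.norm_cc_le k _ x) (norm_nonneg _) (hK1' _)
      refine (norm_add_le _ _).trans ((add_le_add a1 a3).trans ?_)
      have := hK2' (l1e p)
      nlinarith
    · rw [Finset.sum_mul]
      refine norm_sum_le_of_le _ fun C _ => ?_
      have a2 : ‖(r : ℂ) * fderiv ℝ ψ (r • x) (D.τ C)‖ ≤ K1 (D.τ C) := by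
        rw [norm_mul]
        calc ‖(r : ℂ)‖ * _ ≤ 1 * K1 (D.τ C) :=
              mul_le_mul hrc (hK1 _ _) (norm_nonneg _) zero_le_one
          _ = _ := one_mul _
      have a1 : ‖((inner ℝ (D.τ C) x : ℝ) : ℂ)‖ ≤ ‖D.τ C‖ * (1 + ‖x‖) := by
        rw [Complex.norm_real]
        refine (norm_inner_le_norm _ _).trans ?_
        exact mul_le_mul_of_nonneg_left (by linarith) (norm_nonneg _)
      rw [norm_mul]
      calc _ ≤ (‖D.τ C‖ * (1 + ‖x‖)) * K1 (D.τ C) :=
            mul_le_mul a1 a2 (norm_nonneg _) (by positivity)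
        _ = _ := by ring

theorem gg_continuous (ν : ℝ) (k : (Cfg dc)) {ψ : (Cfg dc) → ℂ} (hψ : ContDiff ℝ ∞ ψ) :
    Continuous (fun q : ℝ × (Cfg dc) => D.gg ν k ψ q.1 q.2) := by
  have hs : Continuous fun q : ℝ × (Cfg dc) => q.1 • q.2 := continuous_fst.smul continuous_snd
  have h0 := hψ.continuous.comp hs
  have h1 : ∀ e, Continuous fun q : ℝ × (Cfg dc) => fderiv ℝ ψ (q.1 • q.2) e := fun e =>
    (l1_contDiff_dir hψ e).continuous.comp hs
  have h2 : ∀ e, Continuous fun q : ℝ × (Cfg dc) =>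
      fderiv ℝ (fun z => fderiv ℝ ψ z e) (q.1 • q.2) e := fun e =>
    (l1_contDiff_dir (l1_contDiff_dir hψ e) e).continuous.comp hs
  have hr : Continuous fun q : ℝ × (Cfg dc) => (q.1 : ℂ) := Complex.continuous_ofReal.comp continuous_fst
  unfold gg
  refine (h0.mul ((D.continuous_bb ν k).comp continuous_snd)).sub
    ((continuous_finsetSum _ fun p _ => ?_).add (continuous_finsetSum _ fun C _ => ?_))
  · exact ((hr.pow 2).mul (h2 _)).add (continuous_const.mul
      ((hr.mul (h1 _)).mul ((D.continuous_cc k _).comp continuous_snd)))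
  · refine Continuous.mul ?_ (hr.mul (h1 _))
    exact Complex.continuous_ofReal.comp (continuous_const.inner continuous_snd)

theorem gg_tendsto (ν : ℝ) (k : (Cfg dc)) {ψ : (Cfg dc) → ℂ} (hψ : ContDiff ℝ ∞ ψ) {r : ℕ → ℝ}
    (hr : Tendsto r atTop (𝓝 0)) (x : (Cfg dc)) :
    Tendsto (fun n => D.gg ν k ψ (r n) x) atTop (𝓝 (D.gg ν k ψ 0 x)) := by
  have h1 : Continuous fun s : ℝ => D.gg ν k ψ s x :=
    (D.gg_continuous ν k hψ).comp (continuous_id.prodMk continuous_const)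
  exact (h1.tendsto 0).comp hr

theorem gg_continuous' (ν : ℝ) (k : (Cfg dc)) {ψ : (Cfg dc) → ℂ} (hψ : ContDiff ℝ ∞ ψ) (r : ℝ) :
    Continuous (D.gg ν k ψ r) :=
  (D.gg_continuous ν k hψ).comp (continuous_const.prodMk continuous_id)

theorem gg_zero (ν : ℝ) (k : (Cfg dc)) {ψ : (Cfg dc) → ℂ} (h1 : ψ 0 = 1) (x : (Cfg dc)) :
    D.gg ν k ψ 0 x = D.bb ν k x := by
  unfold gg
  simp [h1]

end L1D

/-- **(W)** the weak equation for Gaussian test functions -/
theorem L1Sol.weak {ι : Type} [Fintype ι] [DecidableEq ι] {D : L1D dc ι} {ν : ℝ} {U : (Cfg dc) → ℂ}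
    (h : L1Sol D ν U) (k : (Cfg dc)) : ∫ x, inner ℂ (D.EE k x * D.bb ν k x) (U x) = 0 := by
  let b : ContDiffBump (0 : (Cfg dc)) := ⟨1, 2, one_pos, one_lt_two⟩
  let ψ : (Cfg dc) → ℂ := fun x => ((b x : ℝ) : ℂ)
  have hψ : ContDiff ℝ ∞ ψ := Complex.ofRealCLM.contDiff.comp b.contDiff
  have hs : HasCompactSupport ψ := b.hasCompactSupport.comp_left Complex.ofReal_zero
  have h1 : ψ 0 = 1 := by
    have : b 0 = 1 := b.one_of_mem_closedBall (by simp [b])
    simp [ψ, this]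
  obtain ⟨C, hC, hb⟩ := D.gg_bound ν k hψ hs
  obtain ⟨C', hC', hp⟩ := l1_poly_gauss (dc := dc) D.c0_quarter_lt 1
  let r : ℕ → ℝ := fun n => 1 / ((n : ℝ) + 1)
  have hr0 : ∀ n, 0 < r n := fun n => by positivity
  have hr1 : ∀ n, r n ≤ 1 := fun n => by
    rw [div_le_one (by positivity)]
    linarith [Nat.cast_nonneg (α := ℝ) n]
  have hrt : Tendsto r atTop (𝓝 0) := tendsto_one_div_add_atTop_nhds_zero_nat
  have hbound : ∀ n x, ‖D.EE k x * D.gg ν k ψ (r n) x‖ ≤
      (C * C') * Real.exp (-(D.c0 / 4 * ‖x‖ ^ 2)) := by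
    intro n x
    rw [norm_mul]
    calc ‖D.EE k x‖ * ‖D.gg ν k ψ (r n) x‖
        ≤ Real.exp (-(D.c0 / 2 * ‖x‖ ^ 2)) * (C * (1 + ‖x‖) ^ 1) :=
          mul_le_mul (D.norm_EE_le k x) (hb _ (hr0 n).le (hr1 n) x) (norm_nonneg _)
            (Real.exp_pos _).le
      _ = C * ((1 + ‖x‖) ^ 1 * Real.exp (-(D.c0 / 2 * ‖x‖ ^ 2))) := by ring
      _ ≤ C * (C' * Real.exp (-(D.c0 / 4 * ‖x‖ ^ 2))) := mul_le_mul_of_nonneg_left (hp x) hC
      _ = _ := by ring
  have hzero : ∀ n, ∫ x, inner ℂ (D.EE k x * D.gg ν k ψ (r n) x) (U x) = 0 := by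
    intro n
    have hη : ContDiff ℝ ∞ (fun y : (Cfg dc) => ψ (r n • y) * D.EE k y) :=
      (hψ.comp (contDiff_const_smul (r n))).mul (D.contDiff_EE k)
    have hηs : HasCompactSupport (fun y : (Cfg dc) => ψ (r n • y) * D.EE k y) :=
      (hs.comp_smul (hr0 n).ne').mul_right
    have := h.eqL hη hηs
    simpa only [D.LL_scale ν k hψ] using this
  have hlim : Tendsto (fun n => ∫ x, inner ℂ (D.EE k x * D.gg ν k ψ (r n) x) (U x)) atTop
      (𝓝 (∫ x, inner ℂ (D.EE k x * D.bb ν k x) (U x))) := by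
    refine tendsto_integral_of_dominated_convergence
      (fun x => (C * C') * (Real.exp (-(D.c0 / 4 * ‖x‖ ^ 2)) * (1 + ‖U x‖ ^ 2))) ?_ ?_ ?_ ?_
    · intro n
      refine AEStronglyMeasurable.inner (Continuous.aestronglyMeasurable ?_) h.gr.meas
      exact (D.contDiff_EE k).continuous.mul (D.gg_continuous' ν k hψ (r n))
    · exact (h.gr.int_dom D.c0_quarter_pos).const_mul _
    · intro n
      refine Eventually.of_forall fun x => ?_
      calc ‖inner ℂ (D.EE k x * D.gg ν k ψ (r n) x) (U x)‖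
          ≤ ‖D.EE k x * D.gg ν k ψ (r n) x‖ * ‖U x‖ := norm_inner_le_norm _ _
        _ ≤ ((C * C') * Real.exp (-(D.c0 / 4 * ‖x‖ ^ 2))) * (1 + ‖U x‖ ^ 2) := by
            refine mul_le_mul (hbound n x) ?_ (norm_nonneg _) (by positivity)
            nlinarith [sq_nonneg (‖U x‖ - 1), norm_nonneg (U x)]
        _ = _ := by ring
    · refine Eventually.of_forall fun x => ?_
      have h2 := D.gg_tendsto ν k hψ hrt x
      rw [D.gg_zero ν k h1] at h2
      have h3 : Tendsto (fun n => D.EE k x * D.gg ν k ψ (r n) x) atTop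
          (𝓝 (D.EE k x * D.bb ν k x)) := h2.const_mul _
      exact h3.inner tendsto_const_nhds
  simp only [hzero] at hlim
  exact (tendsto_nhds_unique hlim tendsto_const_nhds)

end Vale.Agent.P353.Z.U
end

section

/-! # P353, C-L1: the flow argument -/

open MeasureTheory Filter Topology
open scoped ContDiff ComplexConjugate

namespace Vale.Agent.P353.Z.U

variable {dc : ℕ}

namespace L1D

variable {ι : Type} [Fintype ι] [DecidableEq ι] (D : L1D dc ι)

/-- the flow `e^{-sM} k` -/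
noncomputable def fl (k : (Cfg dc)) (s : ℝ) : (Cfg dc) := (NormedSpace.exp (s • (-D.M))) k

theorem fl_zero (k : (Cfg dc)) : D.fl k 0 = k := by
  simp [fl]

theorem hasDerivAt_fl (k : (Cfg dc)) (s : ℝ) : HasDerivAt (D.fl k) (-(D.M (D.fl k s))) s := by
  have h := hasDerivAt_exp_smul_const' (𝕂 := ℝ) (-D.M) s
  have h2 := h.clm_apply (hasDerivAt_const s k)
  refine h2.congr_deriv ?_
  simp [fl]

theorem continuous_fl (k : (Cfg dc)) : Continuous (D.fl k) :=
  continuous_iff_continuousAt.mpr fun s => (D.hasDerivAt_fl k s).continuousAt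

theorem norm_fl_le (k : (Cfg dc)) {s : ℝ} (hs : 0 ≤ s) :
    ‖D.fl k s‖ ≤ Real.exp (-(D.c0 * s)) * ‖k‖ := by
  let φ : ℝ → ℝ := fun s => Real.exp (2 * D.c0 * s) * ‖D.fl k s‖ ^ 2
  have hd : ∀ s, HasDerivAt φ (Real.exp (2 * D.c0 * s) * (2 * D.c0) * ‖D.fl k s‖ ^ 2 +
      Real.exp (2 * D.c0 * s) * (2 * inner ℝ (D.fl k s) (-(D.M (D.fl k s))))) s := by
    intro s
    have h1 : HasDerivAt (fun s : ℝ => Real.exp (2 * D.c0 * s))
        (Real.exp (2 * D.c0 * s) * (2 * D.c0)) s := by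
      have := ((hasDerivAt_id s).const_mul (2 * D.c0)).exp
      simpa using this
    have h2 := (D.hasDerivAt_fl k s).norm_sq
    exact h1.mul h2
  have hanti : Antitone φ := by
    refine antitone_of_deriv_nonpos (fun s => (hd s).differentiableAt) fun s => ?_
    rw [(hd s).deriv, inner_neg_right, real_inner_comm]
    have h3 := D.M_low (D.fl k s)
    have h4 := Real.exp_pos (2 * D.c0 * s)
    nlinarith
  have h5 := hanti hs
  simp only [φ, fl_zero, mul_zero, Real.exp_zero, one_mul] at h5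
  have h6 : (Real.exp (D.c0 * s) * ‖D.fl k s‖) ^ 2 ≤ ‖k‖ ^ 2 := by
    rw [mul_pow]
    have : Real.exp (D.c0 * s) ^ 2 = Real.exp (2 * D.c0 * s) := by
      rw [← Real.exp_nat_mul]
      congr 1
      push_cast
      ring
    rw [this]; exact h5
  have h7 : Real.exp (D.c0 * s) * ‖D.fl k s‖ ≤ ‖k‖ := by
    exact (pow_le_pow_iff_left₀ (by positivity) (norm_nonneg _) (by norm_num)).mp h6
  rw [Real.exp_neg, ← div_eq_inv_mul, le_div_iff₀ (Real.exp_pos _), mul_comm]
  exact h7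

theorem tendsto_fl (k : (Cfg dc)) : Tendsto (D.fl k) atTop (𝓝 0) := by
  rw [tendsto_zero_iff_norm_tendsto_zero]
  have h1 : Tendsto (fun s : ℝ => Real.exp (-(D.c0 * s)) * ‖k‖) atTop (𝓝 0) := by
    have h2 : Tendsto (fun s : ℝ => D.c0 * s) atTop atTop :=
      tendsto_id.const_mul_atTop D.c0_pos
    have := (Real.tendsto_exp_neg_atTop_nhds_zero.comp h2).mul_const ‖k‖
    simpa using this
  refine squeeze_zero' (Eventually.of_forall fun s => norm_nonneg _) ?_ h1
  filter_upwards [eventually_ge_atTop (0 : ℝ)] with s hs using D.norm_fl_le k hs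

/-- inverse of `M` -/
theorem exists_inv : ∃ N : (Cfg dc) →L[ℝ] (Cfg dc), ∀ x, D.M (N x) = x := by
  have hinj : Function.Injective (D.M : (Cfg dc) →ₗ[ℝ] (Cfg dc)) := by
    rw [← LinearMap.ker_eq_bot, LinearMap.ker_eq_bot']
    intro x hx
    have h1 := D.M_low x
    have h2 : D.M x = 0 := hx
    rw [h2, inner_zero_left] at h1
    have h3 : ‖x‖ = 0 := by
      have h4 := norm_nonneg x
      have h5 := D.c0_pos
      have h6 : ‖x‖ ^ 2 ≤ 0 := by
        by_contra h7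
        push Not at h7
        have := mul_pos h5 h7
        linarith
      have h8 : ‖x‖ ^ 2 = 0 := le_antisymm h6 (by positivity)
      exact pow_eq_zero_iff (two_ne_zero) |>.mp h8
    exact norm_eq_zero.mp h3
  let e : (Cfg dc) ≃ₗ[ℝ] (Cfg dc) := LinearEquiv.ofInjectiveEndo (D.M : (Cfg dc) →ₗ[ℝ] (Cfg dc)) hinj
  refine ⟨(e.symm : (Cfg dc) →ₗ[ℝ] (Cfg dc)).toContinuousLinearMap, fun x => ?_⟩
  have h1 : D.M (e.symm x) = e (e.symm x) := rfl
  rw [LinearMap.coe_toContinuousLinearMap']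
  exact h1.trans (e.apply_symm_apply x)

/-- a quadratic form with derivative `-½‖k_s‖²` along the flow -/
theorem exists_Gamma : ∃ Γ : (Cfg dc) → ℝ, Continuous Γ ∧ Γ 0 = 0 ∧
    ∀ k s, HasDerivAt (fun s => Γ (D.fl k s)) (-(1 / 2) * ‖D.fl k s‖ ^ 2) s := by
  obtain ⟨N, hN⟩ := D.exists_inv
  have hsym : ∀ x y, inner ℝ (N x) y = inner ℝ x (N y) := fun x y => by
    calc inner ℝ (N x) y = inner ℝ (N x) (D.M (N y)) := by rw [hN]
      _ = inner ℝ (D.M (N x)) (N y) := (D.M_symm _ _).symm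
      _ = inner ℝ x (N y) := by rw [hN]
  refine ⟨fun x => 1 / 4 * inner ℝ (N x) x, ?_, by simp, fun k s => ?_⟩
  · have := N.continuous
    fun_prop
  · have h1 := D.hasDerivAt_fl k s
    have h2 : HasDerivAt (fun s => N (D.fl k s)) (N (-(D.M (D.fl k s)))) s :=
      N.hasFDerivAt.comp_hasDerivAt s h1
    have h3 := (h2.inner ℝ h1).const_mul (1 / 4)
    refine h3.congr_deriv ?_
    rw [hsym (-(D.M (D.fl k s))), inner_neg_left, inner_neg_right, ← D.M_symm, hN, D.M_symm, hN,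
      real_inner_self_eq_norm_sq]
    ring

/-- Fourier transform of `e^{-½q} U` -/
noncomputable def FF (U : (Cfg dc) → ℂ) (k : (Cfg dc)) : ℂ := ∫ x, inner ℂ (D.EE k x) (U x)

theorem int_EE {U : (Cfg dc) → ℂ} (hU : L1Gr U) (k : (Cfg dc)) :
    Integrable (fun x => inner ℂ (D.EE k x) (U x)) :=
  hU.int_inner (D.contDiff_EE k).continuous.aestronglyMeasurable (C := 1) (c := D.c0 / 2)
    D.c0_half_pos fun x => by rw [one_mul]; exact D.norm_EE_le k x

theorem continuous_EE2 : Continuous fun q : (Cfg dc) × (Cfg dc) => D.EE q.1 q.2 := by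
  unfold EE ph
  have := D.M2.continuous
  fun_prop

theorem continuous_FF {U : (Cfg dc) → ℂ} (hU : L1Gr U) : Continuous (D.FF U) := by
  unfold FF
  refine continuous_of_dominated (bound := fun x =>
    Real.exp (-(D.c0 / 2 * ‖x‖ ^ 2)) * (1 + ‖U x‖ ^ 2)) (fun k => (D.int_EE hU k).1) (fun k => ?_)
    (hU.int_dom D.c0_half_pos) ?_
  · refine Eventually.of_forall fun x => ?_
    calc ‖inner ℂ (D.EE k x) (U x)‖ ≤ ‖D.EE k x‖ * ‖U x‖ := norm_inner_le_norm _ _
      _ ≤ _ := by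
        refine mul_le_mul (D.norm_EE_le k x) ?_ (norm_nonneg _) (Real.exp_pos _).le
        nlinarith [sq_nonneg (‖U x‖ - 1), norm_nonneg (U x)]
  · refine Eventually.of_forall fun x => ?_
    exact (D.continuous_EE2.comp (continuous_id.prodMk continuous_const)).inner continuous_const

end L1D

end Vale.Agent.P353.Z.U
end

section

/-! # P353, C-L1: the flow argument, conclusion -/

open MeasureTheory Filter Topology
open scoped ContDiff ComplexConjugate

namespace Vale.Agent.P353.Z.U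

variable {dc : ℕ}

variable {ι : Type} [Fintype ι] [DecidableEq ι] {D : L1D dc ι} {ν : ℝ} {U : (Cfg dc) → ℂ}

namespace L1D

variable (D)

theorem hasDerivAt_EE_fl (k x : (Cfg dc)) (s : ℝ) : HasDerivAt (fun s => D.EE (D.fl k s) x)
    (D.EE (D.fl k s) x * (-((inner ℝ (D.M x) (D.fl k s) : ℝ) : ℂ) * Complex.I)) s := by
  have h1 := D.hasDerivAt_fl k s
  have h2 : HasDerivAt (fun s => inner ℝ (D.fl k s) x) (inner ℝ (-(D.M (D.fl k s))) x) s := by
    have := h1.inner ℝ (hasDerivAt_const s x)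
    simpa using this
  have h3 : HasDerivAt (fun s => ((inner ℝ (D.fl k s) x : ℝ) : ℂ))
      ((inner ℝ (-(D.M (D.fl k s))) x : ℝ) : ℂ) s := h2.ofReal_comp
  have h4 : HasDerivAt (fun s => D.ph (D.fl k s) x)
      (((inner ℝ (-(D.M (D.fl k s))) x : ℝ) : ℂ) * Complex.I) s := by
    unfold ph
    exact (h3.mul_const Complex.I).const_add _
  have h5 := h4.cexp
  refine h5.congr_deriv ?_
  unfold EE
  rw [inner_neg_left, D.M_symm, real_inner_comm (D.M x)]
  push_cast
  ring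

end L1D

theorem L1Sol.hasDerivAt_FF (h : L1Sol D ν U) (k : (Cfg dc)) (s : ℝ) :
    HasDerivAt (fun s => D.FF U (D.fl k s))
      (((1 / 2 * ‖D.fl k s‖ ^ 2 + ν : ℝ) : ℂ) * D.FF U (D.fl k s)) s := by
  obtain ⟨C', hC', hp⟩ := l1_poly_gauss (dc := dc) D.c0_quarter_lt 1
  obtain ⟨K, hK⟩ := (isCompact_closedBall s 1).exists_bound_of_continuousOn
    (D.continuous_fl k).continuousOn
  have hK0 : 0 ≤ K := (norm_nonneg _).trans (hK s (Metric.mem_closedBall_self zero_le_one))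
  let G' : ℝ → (Cfg dc) → ℂ := fun s x => inner ℂ
    (D.EE (D.fl k s) x * (-((inner ℝ (D.M x) (D.fl k s) : ℝ) : ℂ) * Complex.I)) (U x)
  have hcont : ∀ s, Continuous fun x =>
      D.EE (D.fl k s) x * (-((inner ℝ (D.M x) (D.fl k s) : ℝ) : ℂ) * Complex.I) := by
    intro s
    have h1 := (D.contDiff_EE (D.fl k s)).continuous
    have h2 := D.M.continuous
    fun_prop
  have hd := hasDerivAt_integral_of_dominated_loc_of_deriv_le (μ := (volume : Measure (Cfg dc)))
    (F := fun s x => inner ℂ (D.EE (D.fl k s) x) (U x)) (F' := G') (x₀ := s)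
    (s := Metric.closedBall s 1)
    (bound := fun x => ‖D.M‖ * K * C' * (Real.exp (-(D.c0 / 4 * ‖x‖ ^ 2)) * (1 + ‖U x‖ ^ 2)))
    (Metric.closedBall_mem_nhds s one_pos)
    (Eventually.of_forall fun s => (D.int_EE h.gr _).1) (D.int_EE h.gr _)
    ((hcont s).aestronglyMeasurable.inner h.gr.meas)
    (Eventually.of_forall fun x t ht => ?_)
    ((h.gr.int_dom D.c0_quarter_pos).const_mul _)
    (Eventually.of_forall fun x t _ => ?_)
  · have h1 := hd.2
    have h2 : ∫ x, G' s x = ((1 / 2 * ‖D.fl k s‖ ^ 2 + ν : ℝ) : ℂ) * D.FF U (D.fl k s) := by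
      have h3 := h.weak (D.fl k s)
      have h4 : ∀ x, G' s x = ((1 / 2 * ‖D.fl k s‖ ^ 2 + ν : ℝ) : ℂ) *
          inner ℂ (D.EE (D.fl k s) x) (U x) -
          (1 / 2 : ℂ) * inner ℂ (D.EE (D.fl k s) x * D.bb ν (D.fl k s) x) (U x) := by
        intro x
        simp only [G', L1D.bb, RCLike.inner_apply, map_mul, map_add, map_neg, Complex.conj_ofReal,
          Complex.conj_I, map_ofNat]
        push_cast
        ring
      have hib : Integrable (fun x => inner ℂ (D.EE (D.fl k s) x * D.bb ν (D.fl k s) x) (U x)) := by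
        refine h.gr.int_inner (C := (‖D.fl k s‖ ^ 2 + 2 * |ν| + 2 * (‖D.M‖ * ‖D.fl k s‖)) * C')
          (c := D.c0 / 4) ?_ D.c0_quarter_pos fun x => ?_
        · exact ((D.contDiff_EE _).continuous.mul (D.continuous_bb ν _)).aestronglyMeasurable
        · rw [norm_mul]
          calc ‖D.EE (D.fl k s) x‖ * ‖D.bb ν (D.fl k s) x‖
              ≤ Real.exp (-(D.c0 / 2 * ‖x‖ ^ 2)) *
                ((‖D.fl k s‖ ^ 2 + 2 * |ν| + 2 * (‖D.M‖ * ‖D.fl k s‖)) * (1 + ‖x‖)) :=
                mul_le_mul (D.norm_EE_le _ x) (D.norm_bb_le ν _ x) (norm_nonneg _)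
                  (Real.exp_pos _).le
            _ = (‖D.fl k s‖ ^ 2 + 2 * |ν| + 2 * (‖D.M‖ * ‖D.fl k s‖)) *
                ((1 + ‖x‖) ^ 1 * Real.exp (-(D.c0 / 2 * ‖x‖ ^ 2))) := by ring
            _ ≤ (‖D.fl k s‖ ^ 2 + 2 * |ν| + 2 * (‖D.M‖ * ‖D.fl k s‖)) *
                (C' * Real.exp (-(D.c0 / 4 * ‖x‖ ^ 2))) :=
                mul_le_mul_of_nonneg_left (hp x) (by positivity)
            _ = _ := by ring
      simp only [h4]
      rw [integral_sub ((D.int_EE h.gr _).const_mul _) (hib.const_mul _), integral_const_mul,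
        integral_const_mul, h3, mul_zero, sub_zero]
      rfl
    rw [← h2]
    exact h1
  · have h1 := hK t ht
    have h2 : ‖-((inner ℝ (D.M x) (D.fl k t) : ℝ) : ℂ) * Complex.I‖ ≤ ‖D.M‖ * ‖x‖ * K := by
      rw [norm_mul, Complex.norm_I, mul_one, norm_neg, Complex.norm_real]
      refine (norm_inner_le_norm _ _).trans ?_
      exact mul_le_mul (D.M.le_opNorm x) h1 (norm_nonneg _) (by positivity)
    calc ‖G' t x‖ ≤ ‖D.EE (D.fl k t) x * (-((inner ℝ (D.M x) (D.fl k t) : ℝ) : ℂ) * Complex.I)‖ *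
          ‖U x‖ := norm_inner_le_norm _ _
      _ ≤ (Real.exp (-(D.c0 / 2 * ‖x‖ ^ 2)) * (‖D.M‖ * ‖x‖ * K)) * (1 + ‖U x‖ ^ 2) := by
          rw [norm_mul]
          refine mul_le_mul (mul_le_mul (D.norm_EE_le _ x) h2 (norm_nonneg _)
            (Real.exp_pos _).le) ?_ (norm_nonneg _) (by positivity)
          nlinarith [sq_nonneg (‖U x‖ - 1), norm_nonneg (U x)]
      _ = (‖D.M‖ * K * (1 + ‖U x‖ ^ 2)) * (‖x‖ * Real.exp (-(D.c0 / 2 * ‖x‖ ^ 2))) := by ring
      _ ≤ (‖D.M‖ * K * (1 + ‖U x‖ ^ 2)) * (C' * Real.exp (-(D.c0 / 4 * ‖x‖ ^ 2))) := by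
          refine mul_le_mul_of_nonneg_left ((le_trans ?_ (hp x))) (by positivity)
          refine mul_le_mul_of_nonneg_right ?_ (Real.exp_pos _).le
          rw [pow_one]; linarith [norm_nonneg x]
      _ = _ := by ring
  · have h1 := (D.hasDerivAt_EE_fl k x t).inner ℂ (hasDerivAt_const t (U x))
    simpa [G'] using h1

theorem L1Sol.exists_Gamma' (D : L1D dc ι) : ∃ Γ : (Cfg dc) → ℝ, ∀ (ν : ℝ) (U : (Cfg dc) → ℂ), L1Sol D ν U →
    (ν = 0 → ∀ k, D.FF U k = ((Real.exp (-Γ k) : ℝ) : ℂ) * D.FF U 0) ∧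
      (0 < ν → ∀ k, D.FF U k = 0) := by
  obtain ⟨Γ, hΓ, hΓ0, hd⟩ := D.exists_Gamma
  refine ⟨Γ, fun ν U h => ?_⟩
  have hconst : ∀ k s, ((Real.exp (Γ (D.fl k s) - ν * s) : ℝ) : ℂ) * D.FF U (D.fl k s) =
      ((Real.exp (Γ k) : ℝ) : ℂ) * D.FF U k := by
    intro k s
    let Φ : ℝ → ℂ := fun s => ((Real.exp (Γ (D.fl k s) - ν * s) : ℝ) : ℂ) * D.FF U (D.fl k s)
    have hΦ : ∀ s, HasDerivAt Φ 0 s := by
      intro s
      have h1 : HasDerivAt (fun s => Γ (D.fl k s) - ν * s)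
          (-(1 / 2) * ‖D.fl k s‖ ^ 2 - ν) s := by
        refine ((hd k s).sub ((hasDerivAt_id s).const_mul ν)).congr_deriv ?_
        simp
      have h2 := (h1.exp).ofReal_comp
      have h3 := h2.mul (h.hasDerivAt_FF k s)
      refine h3.congr_deriv ?_
      push_cast
      ring
    have h4 : Φ s = Φ 0 :=
      is_const_of_deriv_eq_zero (fun s => (hΦ s).differentiableAt) (fun s => (hΦ s).deriv) s 0
    simpa [Φ, D.fl_zero] using h4
  have hF : ∀ k, Tendsto (fun s => D.FF U (D.fl k s)) atTop (𝓝 (D.FF U 0)) := fun k =>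
    ((D.continuous_FF h.gr).tendsto 0).comp (D.tendsto_fl k)
  have hG : ∀ k, Tendsto (fun s => Γ (D.fl k s)) atTop (𝓝 0) := fun k => by
    have := (hΓ.tendsto 0).comp (D.tendsto_fl k)
    rwa [hΓ0] at this
  refine ⟨fun hν k => ?_, fun hν k => ?_⟩
  · have h1 : Tendsto (fun s => ((Real.exp (Γ (D.fl k s) - ν * s) : ℝ) : ℂ) *
        D.FF U (D.fl k s)) atTop (𝓝 (((1 : ℝ) : ℂ) * D.FF U 0)) := by
      refine Tendsto.mul ?_ (hF k)
      refine (Complex.continuous_ofReal.tendsto 1).comp ?_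
      have h5 := (Real.continuous_exp.tendsto 0).comp (hG k)
      simp only [Real.exp_zero] at h5
      refine h5.congr fun s => ?_
      simp [hν]
    simp only [hconst] at h1
    have h2 := tendsto_nhds_unique h1 tendsto_const_nhds
    rw [Complex.ofReal_one, one_mul] at h2
    rw [h2, ← mul_assoc, ← Complex.ofReal_mul, ← Real.exp_add]
    simp
  · have h1 : Tendsto (fun s => ((Real.exp (Γ (D.fl k s) - ν * s) : ℝ) : ℂ) *
        D.FF U (D.fl k s)) atTop (𝓝 (((0 : ℝ) : ℂ) * D.FF U 0)) := by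
      refine Tendsto.mul ?_ (hF k)
      refine (Complex.continuous_ofReal.tendsto 0).comp ?_
      refine Real.tendsto_exp_atBot.comp ?_
      have h3 : Tendsto (fun s : ℝ => ν * s) atTop atTop := tendsto_id.const_mul_atTop hν
      exact (hG k).add_atBot (tendsto_neg_atTop_atBot.comp h3)
    simp only [hconst] at h1
    have h2 := tendsto_nhds_unique h1 tendsto_const_nhds
    rw [Complex.ofReal_zero, zero_mul] at h2
    rcases mul_eq_zero.mp h2.symm with h3 | h3
    · exact absurd (Complex.ofReal_eq_zero.mp h3) (Real.exp_pos _).ne'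
    · exact h3

end Vale.Agent.P353.Z.U
end

section

/-! # P353, C-L1: scalar Liouville theorem -/

open MeasureTheory Filter Topology
open scoped ContDiff ComplexConjugate

namespace Vale.Agent.P353.Z.U

variable {dc : ℕ}

theorem l1_ibp {f g : (Cfg dc) → ℂ} (hf : ContDiff ℝ ∞ f) (hs : HasCompactSupport f)
    (hg : ContDiff ℝ ∞ g) (e : (Cfg dc)) :
    ∫ x, inner ℂ (fderiv ℝ f x e) (g x) = - ∫ x, inner ℂ (f x) (fderiv ℝ g x e) := by
  have hw : ContDiff ℝ 1 (fun x => inner ℂ (f x) (g x)) :=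
    (hf.inner ℂ hg).of_le (by simp)
  have hcw : HasCompactSupport (fun x => inner ℂ (f x) (g x)) := by
    refine hs.mono ?_
    intro x hx
    simp only [Function.mem_support] at hx ⊢
    intro h0
    exact hx (by rw [h0, inner_zero_left])
  have h := integral_fderiv_eq_zero _ hw hcw e
  have hd : ∀ x, fderiv ℝ (fun x => inner ℂ (f x) (g x)) x e =
      inner ℂ (f x) (fderiv ℝ g x e) + inner ℂ (fderiv ℝ f x e) (g x) := by
    intro x
    rw [fderiv_inner_apply ℂ (l1_diff hf x) (l1_diff hg x)]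
  have hi1 : Integrable (fun x => inner ℂ (f x) (fderiv ℝ g x e)) := by
    refine (hf.continuous.inner (l1_contDiff_dir hg e).continuous).integrable_of_hasCompactSupport ?_
    refine hs.mono ?_
    intro x hx
    simp only [Function.mem_support] at hx ⊢
    intro h0
    exact hx (by rw [h0, inner_zero_left])
  have hi2 : Integrable (fun x => inner ℂ (fderiv ℝ f x e) (g x)) := by
    refine ((l1_contDiff_dir hf e).continuous.inner hg.continuous).integrable_of_hasCompactSupport ?_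
    refine (l1_hcs_dir hs e).mono ?_
    intro x hx
    simp only [Function.mem_support] at hx ⊢
    intro h0
    exact hx (by rw [h0, inner_zero_left])
  simp only [hd] at h
  rw [integral_add hi1 hi2] at h
  linear_combination h

variable {ι : Type} [Fintype ι] [DecidableEq ι]

namespace L1D

variable (D : L1D dc ι)

/-- the ground state -/
noncomputable def GG (x : (Cfg dc)) : ℂ := Complex.exp ((-(1 / 2) * inner ℝ (D.A x) x : ℝ) : ℂ)

theorem GG_eq (x : (Cfg dc)) : D.GG x = ((Real.exp (-(1 / 2) * inner ℝ (D.A x) x) : ℝ) : ℂ) := by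
  rw [GG, Complex.ofReal_exp]

theorem norm_GG_le (x : (Cfg dc)) : ‖D.GG x‖ ≤ 1 := by
  rw [GG_eq, Complex.norm_real, Real.norm_of_nonneg (Real.exp_pos _).le, Real.exp_le_one_iff,
    D.symm]
  have := D.pos x
  linarith

theorem contDiff_GG : ContDiff ℝ ∞ D.GG := by
  unfold GG
  refine ContDiff.cexp ?_
  exact Complex.ofRealCLM.contDiff.comp (contDiff_const.mul (D.A.contDiff.inner ℝ contDiff_id))

theorem fderiv_GG (x e : (Cfg dc)) : fderiv ℝ D.GG x e = -((inner ℝ (D.A x) e : ℝ) : ℂ) * D.GG x := by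
  have h := (D.A.hasFDerivAt (x := x)).inner ℝ (hasFDerivAt_id x)
  have h1 : HasFDerivAt (fun y => -(1 / 2) * inner ℝ (D.A y) y) (-innerSL ℝ (D.A x)) x := by
    refine (h.const_mul (-(1 / 2))).congr_fderiv ?_
    ext e
    simp only [ContinuousLinearMap.comp_apply, fderivInnerCLM_apply,
      ContinuousLinearMap.prod_apply, ContinuousLinearMap.id_apply, id,
      smul_apply, innerSL_apply_apply, smul_eq_mul, neg_apply]
    rw [D.symm e x, real_inner_comm (D.A x) e]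
    ring
  have h2 := (Complex.ofRealCLM.hasFDerivAt (x := -(1 / 2) * inner ℝ (D.A x) x)).comp x h1
  have h3 : HasFDerivAt D.GG _ x := h2.cexp
  rw [h3.fderiv]
  simp [GG]
  ring

theorem fderiv_A (x e e' : (Cfg dc)) :
    fderiv ℝ (fun y => -((inner ℝ (D.A y) e : ℝ) : ℂ)) x e' = -((inner ℝ (D.A e') e : ℝ) : ℂ) := by
  have h1 : HasFDerivAt (fun y => inner ℝ (D.A y) e) ((innerSL ℝ e).comp D.A) x := by
    have h0 : HasFDerivAt (fun y => inner ℝ e (D.A y)) ((innerSL ℝ e).comp D.A) x :=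
      ((innerSL ℝ e).comp D.A).hasFDerivAt
    simpa only [real_inner_comm] using h0
  have h2 := (Complex.ofRealCLM.hasFDerivAt (x := inner ℝ (D.A x) e)).comp x h1
  have h3 : HasFDerivAt (fun y => -((inner ℝ (D.A y) e : ℝ) : ℂ)) _ x := h2.neg
  rw [h3.fderiv]
  simp [real_inner_comm]

theorem diff_A (x e : (Cfg dc)) : DifferentiableAt ℝ (fun y => -((inner ℝ (D.A y) e : ℝ) : ℂ)) x := by
  refine (Differentiable.neg ?_) x
  exact Complex.ofRealCLM.differentiable.comp (D.A.differentiable.inner ℝ (differentiable_const e))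

theorem fderiv2_GG (x e : (Cfg dc)) : fderiv ℝ (fun y => fderiv ℝ D.GG y e) x e =
    (((inner ℝ (D.A x) e) ^ 2 - inner ℝ (D.A e) e : ℝ) : ℂ) * D.GG x := by
  have h1 : (fun y => fderiv ℝ D.GG y e) = fun y => -((inner ℝ (D.A y) e : ℝ) : ℂ) * D.GG y := by
    funext y; exact D.fderiv_GG y e
  rw [h1, l1_fderiv_mul (D.diff_A x e) (l1_diff D.contDiff_GG x), fderiv_A, fderiv_GG]
  push_cast
  ring

theorem gr_GG : L1Gr D.GG := by
  have hc := D.contDiff_GG.continuous
  have hloc : ∀ s : ℝ, IntegrableOn (fun x => ‖D.GG x‖ ^ 2) (Metric.ball (0 : (Cfg dc)) s) := fun s =>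
    ((hc.norm.pow 2).continuousOn.integrableOn_compact (isCompact_closedBall (0 : (Cfg dc)) s)).mono_set
      Metric.ball_subset_closedBall
  refine ⟨hc.aestronglyMeasurable, fun s _ => hloc s, ?_⟩
  refine ⟨(volume (Metric.ball (0 : (Cfg dc)) 1)).toReal, Module.finrank ℝ (Cfg dc), fun s hs => ?_⟩
  have h1 : ∫ x in Metric.ball (0 : (Cfg dc)) s, ‖D.GG x‖ ^ 2 ≤
      ∫ x in Metric.ball (0 : (Cfg dc)) s, (1 : ℝ) := by
    refine setIntegral_mono (hloc s) ?_ fun x => ?_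
    · exact integrableOn_const (by exact measure_ball_lt_top.ne)
    · exact pow_le_one₀ (norm_nonneg _) (D.norm_GG_le x)
  refine h1.trans (le_of_eq ?_)
  rw [setIntegral_const, smul_eq_mul, mul_one, Measure.real,
    Measure.addHaar_ball_of_pos _ _ (show (0 : ℝ) < s by linarith), ENNReal.toReal_mul,
    ENNReal.toReal_ofReal (by positivity), mul_comm]

theorem sol_GG : L1Sol D 0 D.GG := by
  have hG := D.contDiff_GG
  refine ⟨D.gr_GG, fun η hη hs => ?_, fun C η hη hs => ?_⟩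
  · have hi2 : ∀ p, Integrable (fun x => inner ℂ
        (fderiv ℝ (fun y => fderiv ℝ η y (l1e p)) x (l1e p)) (D.GG x)) := fun p =>
      D.gr_GG.int_inner_cs (l1_contDiff_dir (l1_contDiff_dir hη _) _).continuous
        (l1_hcs_dir (l1_hcs_dir hs _) _)
    have e2 : ∀ p, ∫ x, inner ℂ (fderiv ℝ (fun y => fderiv ℝ η y (l1e p)) x (l1e p)) (D.GG x) =
        ∫ x, inner ℂ (η x) (fderiv ℝ (fun y => fderiv ℝ D.GG y (l1e p)) x (l1e p)) := fun p => by
      rw [l1_ibp (l1_contDiff_dir hη _) (l1_hcs_dir hs _) hG,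
        l1_ibp hη hs (l1_contDiff_dir hG _), neg_neg]
    have hA := D.A.continuous
    have hc0 : Continuous fun x => ((‖D.A x‖ ^ 2 - D.tr + 2 * 0 : ℝ) : ℂ) * η x := by
      have := hη.continuous
      fun_prop
    have hi0 : Integrable (fun x => inner ℂ
        (((‖D.A x‖ ^ 2 - D.tr + 2 * 0 : ℝ) : ℂ) * η x) (D.GG x)) :=
      D.gr_GG.int_inner_cs hc0 hs.mul_left
    have hn2 : Integrable (fun x => -∑ p, inner ℂ
        (fderiv ℝ (fun y => fderiv ℝ η y (l1e p)) x (l1e p)) (D.GG x)) :=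
      (integrable_finsetSum _ fun p _ => hi2 p).neg
    unfold L0
    simp only [inner_add_left, inner_neg_left, sum_inner]
    rw [integral_add hn2 hi0, integral_neg,
      integral_finsetSum _ fun p _ => hi2 p]
    simp only [e2]
    have hi3 : ∀ p, Integrable (fun x => inner ℂ (η x)
        (fderiv ℝ (fun y => fderiv ℝ D.GG y (l1e p)) x (l1e p))) := fun p => by
      refine (hη.continuous.inner (l1_contDiff_dir (l1_contDiff_dir hG _)
        _).continuous).integrable_of_hasCompactSupport ?_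
      refine hs.mono ?_
      intro x hx
      simp only [Function.mem_support] at hx ⊢
      intro h0
      exact hx (by rw [h0, inner_zero_left])
    have hn3 : Integrable (fun x => -∑ p, inner ℂ (η x)
        (fderiv ℝ (fun y => fderiv ℝ D.GG y (l1e p)) x (l1e p))) :=
      (integrable_finsetSum _ fun p _ => hi3 p).neg
    rw [← integral_finsetSum _ fun p _ => hi3 p, ← integral_neg, ← integral_add hn3 hi0]
    rw [← integral_zero (Cfg dc) ℂ]
    refine integral_congr_ae (Eventually.of_forall fun x => ?_)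
    simp only [fderiv2_GG]
    rw [← inner_sum, ← Finset.sum_mul, ← Complex.ofReal_sum, Finset.sum_sub_distrib]
    have h4 : ∑ p, inner ℝ (D.A x) (l1e p) ^ 2 = ‖D.A x‖ ^ 2 := by
      rw [← real_inner_self_eq_norm_sq, l1_inner_sum]
      exact Finset.sum_congr rfl fun p _ => by rw [l1_inner_e]; ring
    rw [h4]
    simp only [RCLike.inner_apply, map_mul, Complex.conj_ofReal, tr]
    push_cast
    ring
  · rw [l1_ibp hη hs hG]
    have : ∀ x, fderiv ℝ D.GG x (D.τ C) = 0 := fun x => by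
      rw [fderiv_GG, D.symm, D.Aτ, inner_zero_right]; simp
    simp [this]

theorem FF_GG_ne : D.FF D.GG 0 ≠ 0 := by
  have h1 : ∀ x, inner ℂ (D.EE 0 x) (D.GG x) =
      ((Real.exp (-(1 / 2) * inner ℝ (D.M2 x) x) * Real.exp (-(1 / 2) * inner ℝ (D.A x) x) : ℝ) : ℂ) := by
    intro x
    rw [GG_eq, EE, ph, inner_zero_left, Complex.ofReal_zero, zero_mul, add_zero,
      ← Complex.ofReal_exp]
    simp only [RCLike.inner_apply, Complex.conj_ofReal]
    push_cast
    ring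
  unfold FF
  have hint := D.int_EE D.gr_GG 0
  simp only [h1] at hint ⊢
  rw [integral_complex_ofReal, Complex.ofReal_ne_zero]
  have hint' : Integrable (fun x : (Cfg dc) => Real.exp (-(1 / 2) * inner ℝ (D.M2 x) x) *
      Real.exp (-(1 / 2) * inner ℝ (D.A x) x)) := by
    refine hint.re.congr (Eventually.of_forall fun x => ?_)
    exact Complex.ofReal_re _
  refine ne_of_gt ?_
  rw [integral_pos_iff_support_of_nonneg (fun x => by positivity) hint']
  have hsupp : Function.support (fun x : (Cfg dc) => Real.exp (-(1 / 2) * inner ℝ (D.M2 x) x) *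
      Real.exp (-(1 / 2) * inner ℝ (D.A x) x)) = Set.univ := by
    ext x
    simp only [Function.mem_support, Set.mem_univ, iff_true]
    positivity
  rw [hsupp]
  exact (isOpen_univ.measure_pos volume Set.univ_nonempty)

end L1D

/-- **scalar Liouville theorem** -/
theorem L1Sol.liouville {D : L1D dc ι} {ν : ℝ} {U : (Cfg dc) → ℂ} (hν : 0 ≤ ν) (h : L1Sol D ν U) :
    ∃ c : ℂ, (0 < ν → c = 0) ∧ ∀ᵐ x, U x = c * D.GG x := by
  obtain ⟨Γ, hΓ⟩ := L1Sol.exists_Gamma' D
  have key : ∀ c : ℂ, (∀ k, D.FF U k = c * D.FF D.GG k) → ∀ᵐ x, U x = c * D.GG x := by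
    intro c hc
    have hI : Integrable fun x => inner ℂ (D.EE 0 x) (U x - c * D.GG x) := by
      have h1 := (D.int_EE h.gr 0).sub ((D.int_EE D.gr_GG 0).const_mul c)
      refine h1.congr (Eventually.of_forall fun x => ?_)
      simp only [Pi.sub_apply, RCLike.inner_apply]
      ring
    have h0 := l1_fourier hI fun k => by
      have h1 : ∀ x, Complex.exp (((inner ℝ k x : ℝ) : ℂ) * Complex.I) *
          inner ℂ (D.EE 0 x) (U x - c * D.GG x) =
          inner ℂ (D.EE (-k) x) (U x) - c * inner ℂ (D.EE (-k) x) (D.GG x) := by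
        intro x
        have h2 : conj (D.EE (-k) x) = Complex.exp (((inner ℝ k x : ℝ) : ℂ) * Complex.I) *
            conj (D.EE 0 x) := by
          unfold L1D.EE L1D.ph
          rw [← Complex.exp_conj, ← Complex.exp_conj, ← Complex.exp_add]
          congr 1
          rw [map_add, map_add, map_mul, map_mul, Complex.conj_ofReal, Complex.conj_ofReal,
            Complex.conj_ofReal, Complex.conj_I, inner_neg_left, inner_zero_left]
          push_cast
          ring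
        simp only [RCLike.inner_apply, h2]
        ring
      simp only [h1]
      rw [integral_sub (D.int_EE h.gr _) ((D.int_EE D.gr_GG _).const_mul c), integral_const_mul]
      have := hc (-k)
      unfold L1D.FF at this
      rw [this, sub_self]
    filter_upwards [h0] with x hx
    simp only [Pi.zero_apply, RCLike.inner_apply, mul_eq_zero] at hx
    rcases hx with hx | hx
    · exact sub_eq_zero.mp hx
    · exact absurd ((map_eq_zero _).mp hx) (Complex.exp_ne_zero _)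
  rcases hν.eq_or_lt with h0 | h0
  · refine ⟨D.FF U 0 / D.FF D.GG 0, fun h1 => absurd h0 h1.ne, key _ fun k => ?_⟩
    rw [(hΓ ν U h).1 h0.symm k, (hΓ 0 D.GG D.sol_GG).1 rfl k]
    have := D.FF_GG_ne
    field_simp
  · refine ⟨0, fun _ => rfl, key 0 fun k => ?_⟩
    rw [(hΓ ν U h).2 h0 k, zero_mul]

end Vale.Agent.P353.Z.U
end

section

/-! # P353, C-L1: the second order identity on test functions -/

open MeasureTheory Filter Topology
open scoped ContDiff ComplexConjugate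

namespace Vale.Agent.P353.Z.U

variable {dc : ℕ}

variable {F : Type*} [NormedAddCommGroup F] [InnerProductSpace ℂ F]

/-! ### general facts on test functions -/

theorem l1_tst_sum {κ : Type*} (s : Finset κ) {f : κ → (Cfg dc) → F} (h : ∀ k ∈ s, Setup.Tst (f k)) :
    Setup.Tst (fun x => ∑ k ∈ s, f k x) := by
  classical
  refine ⟨ContDiff.sum fun k hk => (h k hk).1, ?_⟩
  induction s using Finset.induction_on with
  | empty => simp only [Finset.sum_empty]; exact HasCompactSupport.zero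
  | insert a s ha ih =>
    simp only [Finset.sum_insert ha]
    exact (h a (Finset.mem_insert_self _ _)).2.add
      (ih fun k hk => h k (Finset.mem_insert_of_mem hk))

theorem l1_tst_csmul (c : ℂ) {f : (Cfg dc) → F} (h : Setup.Tst f) : Setup.Tst (fun x => c • f x) := by
  refine ⟨h.1.const_smul c, h.2.mono ?_⟩
  intro x hx
  simp only [Function.mem_support] at hx ⊢
  intro h0
  exact hx (by rw [h0, smul_zero])

theorem l1_nsq_add {f g : (Cfg dc) → F} (hf : Setup.Tst f) (hg : Setup.Tst g) :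
    nsq (fun x => f x + g x) = nsq f + nsq g + 2 * (∫ x, inner ℂ (f x) (g x)).re := by
  unfold nsq
  have hi := hf.inner_int hg.1.continuous
  have h1 : ∀ x, ‖f x + g x‖ ^ 2 = ‖f x‖ ^ 2 + ‖g x‖ ^ 2 + 2 * (inner ℂ (f x) (g x)).re := by
    intro x
    rw [norm_add_sq (𝕜 := ℂ)]
    simp only [RCLike.re_to_complex]
    ring
  simp only [h1]
  have i1 : Integrable (fun x => ‖f x‖ ^ 2 + ‖g x‖ ^ 2) := hf.norm_sq_int.add hg.norm_sq_int
  have i2 : Integrable (fun x => 2 * (inner ℂ (f x) (g x)).re) := hi.re.const_mul 2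
  rw [integral_add i1 i2, integral_add hf.norm_sq_int hg.norm_sq_int, integral_const_mul]
  congr 2
  exact integral_re hi

theorem l1_self {f : (Cfg dc) → F} (hf : Setup.Tst f) (h : (∫ x, inner ℂ (f x) (f x)).re ≤ 0) :
    ∀ x, f x = 0 := by
  have hi := hf.inner_int hf.1.continuous
  have h1 : ∫ x, ‖f x‖ ^ 2 = (∫ x, inner ℂ (f x) (f x)).re := by
    have := integral_re hi
    rw [RCLike.re_to_complex] at this
    rw [← this]
    refine integral_congr_ae (Eventually.of_forall fun x => ?_)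
    simp only [RCLike.re_to_complex]
    exact (re_inner_self (f x)).symm
  have h2 : ∫ x, ‖f x‖ ^ 2 = 0 := le_antisymm (h1 ▸ h) (integral_nonneg fun x => by positivity)
  rw [integral_eq_zero_iff_of_nonneg (fun x => by positivity) hf.norm_sq_int] at h2
  have h3 : (fun x => ‖f x‖ ^ 2) = fun _ => (0 : ℝ) :=
    (hf.1.continuous.norm.pow 2).ae_eq_iff_eq volume continuous_const |>.mp h2
  intro x
  have h4 := congrFun h3 x
  simpa using h4

/-- integrability against a locally `L²` function -/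
theorem l1_int_cs {u : (Cfg dc) → F} (h : L1Gr u) {g : (Cfg dc) → F} (hg : Setup.Tst g) :
    Integrable (fun x => inner ℂ (g x) (u x)) := by
  have hn : HasCompactSupport (fun x => ((‖g x‖ : ℝ) : ℂ)) :=
    hg.2.comp_left (g := fun v : F => ((‖v‖ : ℝ) : ℂ)) (by simp)
  obtain ⟨C, hC⟩ := l1_cs_bound (Complex.continuous_ofReal.comp hg.1.continuous.norm) hn
  refine ((h.int_dom one_pos).const_mul C).mono'
    (hg.1.continuous.aestronglyMeasurable.inner h.meas) (Eventually.of_forall fun x => ?_)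
  have h1 : ‖g x‖ ≤ C * Real.exp (-(1 * ‖x‖ ^ 2)) := by
    have := hC x
    simpa using this
  have h0 : 0 ≤ C * Real.exp (-(1 * ‖x‖ ^ 2)) := (norm_nonneg _).trans h1
  calc ‖inner ℂ (g x) (u x)‖ ≤ ‖g x‖ * ‖u x‖ := norm_inner_le_norm _ _
    _ ≤ (C * Real.exp (-(1 * ‖x‖ ^ 2))) * (1 + ‖u x‖ ^ 2) := by
        refine mul_le_mul h1 ?_ (norm_nonneg _) h0
        nlinarith [sq_nonneg (‖u x‖ - 1), norm_nonneg (u x)]
    _ = _ := by ring

/-! ### the operator `Qlin` -/

variable (S : Setup dc F)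

/-- the multiplication part of `Qlin ξ₀` -/
noncomputable def l1Op (ξ : (Cfg dc)) (β : Fin 16) (x : (Cfg dc)) : F →L[ℂ] F := S.MM β x + S.DW ξ β x

theorem l1_Qlin_eq (ξ : (Cfg dc)) (β : Fin 16) (u : (Cfg dc) → F) (x : (Cfg dc)) :
    S.Qlin ξ β u x = S.Q β u x - S.W β x (u x) + l1Op S ξ β x (u x) := by
  simp only [Setup.Qlin, Setup.Q0, Setup.Q, l1Op, _root_.add_apply]
  abel

theorem l1_contDiff_Op (ξ : (Cfg dc)) (β : Fin 16) : ContDiff ℝ ∞ (l1Op S ξ β) := by
  unfold l1Op Setup.MM Setup.DW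
  refine ContDiff.add ?_ ?_
  · refine ContDiff.sum fun i _ => ContDiff.sum fun A _ => ?_
    exact (Setup.contDiff_ofReal (contDiff_const.mul (Setup.contDiff_coord _))).smul contDiff_const
  · refine ContDiff.const_smul _ (ContDiff.sum fun A _ => ContDiff.sum fun B _ =>
      ContDiff.sum fun C _ => ContDiff.sum fun i _ => ContDiff.sum fun j _ => ?_)
    exact (contDiff_const.mul (Setup.contDiff_ofReal (Setup.contDiff_coord _))).smul contDiff_const

theorem l1_MM_symm (β : Fin 16) (x : (Cfg dc)) (v w : F) :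
    inner ℂ (S.MM β x v) w = inner ℂ v (S.MM β x w) := by
  simp only [Setup.MM, _root_.sum_apply, _root_.smul_apply, sum_inner, inner_sum,
    inner_smul_left, inner_smul_right,
    S.vec_symm _ (Setup.mul_im_zero (S.g_im _) S.Gam_real), Complex.conj_ofReal]

theorem l1_DW_symm (ξ : (Cfg dc)) (β : Fin 16) (x : (Cfg dc)) (v w : F) :
    inner ℂ (S.DW ξ β x v) w = inner ℂ v (S.DW ξ β x w) := by
  simp only [Setup.DW, _root_.sum_apply, _root_.smul_apply, sum_inner, inner_sum,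
    inner_smul_left, inner_smul_right, S.vec_symm _ (S.g2_im _ _), Complex.conj_ofReal, map_mul]

theorem l1_Op_symm (ξ : (Cfg dc)) (β : Fin 16) (x : (Cfg dc)) (v w : F) :
    inner ℂ (l1Op S ξ β x v) w = inner ℂ v (l1Op S ξ β x w) := by
  simp only [l1Op, _root_.add_apply, inner_add_left, inner_add_right, l1_MM_symm, l1_DW_symm]

theorem l1_tst_Qlin (ξ : (Cfg dc)) {u : (Cfg dc) → F} (hu : Setup.Tst u) (β : Fin 16) :
    Setup.Tst (S.Qlin ξ β u) := by
  have h : S.Qlin ξ β u = fun x => S.Q β u x - S.W β x (u x) + l1Op S ξ β x (u x) := by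
    funext x; exact l1_Qlin_eq S ξ β u x
  rw [h]
  exact ((hu.Q S β).sub (hu.clm (S.contDiff_W β))).add (hu.clm (l1_contDiff_Op S ξ β))

theorem l1_Qlin_symm (ξ : (Cfg dc)) {u v : (Cfg dc) → F} (hu : Setup.Tst u) (hv : Setup.Tst v) (β : Fin 16) :
    ∫ x, inner ℂ (S.Qlin ξ β u x) (v x) = ∫ x, inner ℂ (u x) (S.Qlin ξ β v x) := by
  have h1 := Q_symm S β u v hu hv.1
  have h2 : ∀ x, inner ℂ (S.Qlin ξ β u x) (v x) - inner ℂ (S.Q β u x) (v x) =
      inner ℂ (u x) (S.Qlin ξ β v x) - inner ℂ (u x) (S.Q β v x) := by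
    intro x
    rw [l1_Qlin_eq, l1_Qlin_eq]
    simp only [inner_add_left, inner_add_right, inner_sub_left, inner_sub_right, S.W_symm,
      l1_Op_symm]
    ring
  have h3 := integral_congr_ae (μ := (volume : Measure (Cfg dc))) (Eventually.of_forall h2)
  rw [integral_sub ((l1_tst_Qlin S ξ hu β).inner_int hv.1.continuous)
    ((hu.Q S β).inner_int hv.1.continuous),
    integral_sub (hu.inner_int (l1_tst_Qlin S ξ hv β).1.continuous)
    (hu.inner_int (hv.Q S β).1.continuous), h1] at h3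
  exact sub_left_inj.mp h3

theorem l1_Qlin_add (ξ : (Cfg dc)) {u v : (Cfg dc) → F} (hu : Setup.Tst u) (hv : Setup.Tst v) (β : Fin 16) :
    S.Qlin ξ β (fun x => u x + v x) = fun x => S.Qlin ξ β u x + S.Qlin ξ β v x := by
  funext x
  simp only [Setup.Qlin, Setup.Q0, pd_add (hu.diff x) (hv.diff x), map_add,
    Finset.sum_add_distrib, smul_add]
  abel

/-! ### the lowering operators -/

variable {ι : Type} [Fintype ι] [DecidableEq ι] (D : L1D dc ι)

/-- `∂_i^A + (A_1 x)_i^A` -/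
noncomputable def l1a (i : Fin 9) (A : Fin dc) (u : (Cfg dc) → F) (x : (Cfg dc)) : F :=
  pd i A u x + ((D.A x (i, A) : ℝ) : ℂ) • u x

/-- `-∂_i^A + (A_1 x)_i^A` -/
noncomputable def l1b (i : Fin 9) (A : Fin dc) (u : (Cfg dc) → F) (x : (Cfg dc)) : F :=
  -pd i A u x + ((D.A x (i, A) : ℝ) : ℂ) • u x

theorem l1_contDiff_A1 (i : Fin 9) (A : Fin dc) : ContDiff ℝ ∞ (fun x : (Cfg dc) => D.A x (i, A)) := by
  have h : (fun x : (Cfg dc) => D.A x (i, A)) = fun x => D.A x (i, A) := rfl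
  rw [h]
  exact (Setup.contDiff_coord (i, A)).comp D.A.contDiff

theorem l1_tst_a {u : (Cfg dc) → F} (hu : Setup.Tst u) (i : Fin 9) (A : Fin dc) :
    Setup.Tst (l1a D i A u) := by
  exact (hu.pd i A).add (hu.rsmul (l1_contDiff_A1 D i A))

theorem l1_tst_b {u : (Cfg dc) → F} (hu : Setup.Tst u) (i : Fin 9) (A : Fin dc) :
    Setup.Tst (l1b D i A u) := by
  exact ((hu.pd i A).neg).add (hu.rsmul (l1_contDiff_A1 D i A))

theorem l1_a_add {u v : (Cfg dc) → F} (hu : Setup.Tst u) (hv : Setup.Tst v) (i : Fin 9) (A : Fin dc) :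
    l1a D i A (fun x => u x + v x) = fun x => l1a D i A u x + l1a D i A v x := by
  funext x
  simp only [l1a, pd_add (hu.diff x) (hv.diff x), smul_add]
  abel

theorem l1_ab {u v : (Cfg dc) → F} (hu : Setup.Tst u) (hv : Setup.Tst v) (i : Fin 9) (A : Fin dc) :
    ∫ x, inner ℂ (l1b D i A u x) (v x) = ∫ x, inner ℂ (u x) (l1a D i A v x) := by
  have h1 := integral_inner_pd u v (hu.1.of_le (by simp)) (hv.1.of_le (by simp)) hu.2 i A
  have hm := hu.rsmul (l1_contDiff_A1 D i A)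
  have hm' := hv.rsmul (l1_contDiff_A1 D i A)
  have e1 : ∫ x, inner ℂ (l1b D i A u x) (v x) = -(∫ x, inner ℂ (pd i A u x) (v x)) +
      ∫ x, inner ℂ (((D.A x (i, A) : ℝ) : ℂ) • u x) (v x) := by
    have hn : Integrable (fun x => -inner ℂ (pd i A u x) (v x)) :=
      ((hu.pd i A).inner_int hv.1.continuous).neg
    rw [← integral_neg, ← integral_add hn (hm.inner_int hv.1.continuous)]
    refine integral_congr_ae (Eventually.of_forall fun x => ?_)
    simp only [l1b, inner_add_left, inner_neg_left]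
  have e2 : ∫ x, inner ℂ (u x) (l1a D i A v x) = (∫ x, inner ℂ (u x) (pd i A v x)) +
      ∫ x, inner ℂ (u x) (((D.A x (i, A) : ℝ) : ℂ) • v x) := by
    rw [← integral_add (hu.inner_int (hv.pd i A).1.continuous) (hu.inner_int hm'.1.continuous)]
    refine integral_congr_ae (Eventually.of_forall fun x => ?_)
    simp only [l1a, inner_add_right]
  rw [e1, e2, h1, neg_neg]
  congr 1
  refine integral_congr_ae (Eventually.of_forall fun x => ?_)
  simp only [inner_smul_left, inner_smul_right, Complex.conj_ofReal]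

end Vale.Agent.P353.Z.U
end

section

/-! # P353, C-L1: the second order identity on test functions, II -/

open MeasureTheory Filter Topology
open scoped ContDiff ComplexConjugate

namespace Vale.Agent.P353.Z.U

variable {dc : ℕ}

variable {F : Type*} [NormedAddCommGroup F] [InnerProductSpace ℂ F]

variable (S : Setup dc F) (ξ : (Cfg dc))

variable {ι : Type} [Fintype ι] [DecidableEq ι] (D : L1D dc ι)

/-- the second-order operator -/
noncomputable def l1H (N N' : F →L[ℂ] F) (ζ : (Cfg dc) → F) (x : (Cfg dc)) : F :=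
  (8 : ℂ) • (∑ i, ∑ A, l1b D i A (l1a D i A ζ) x) + (8 : ℂ) • (N (ζ x) + N' (ζ x))

theorem l1_tst_H (N N' : F →L[ℂ] F) {ζ : (Cfg dc) → F} (hζ : Setup.Tst ζ) :
    Setup.Tst (l1H D N N' ζ) := by
  have h1 : Setup.Tst (fun x => ∑ i, ∑ A, l1b D i A (l1a D i A ζ) x) :=
    l1_tst_sum _ fun i _ => l1_tst_sum _ fun A _ => l1_tst_b D (l1_tst_a D hζ i A) i A
  have h2 : Setup.Tst (fun x => N (ζ x)) := hζ.clm (T := fun _ => N) contDiff_const
  have h3 : Setup.Tst (fun x => N' (ζ x)) := hζ.clm (T := fun _ => N') contDiff_const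
  exact (l1_tst_csmul 8 h1).add (l1_tst_csmul 8 (h2.add h3))

theorem l1_inner_H (N N' : F →L[ℂ] F) (hN : ∀ v w, inner ℂ (N' v) w = inner ℂ v (N w))
    {ζ v : (Cfg dc) → F} (hζ : Setup.Tst ζ) (hv : Setup.Tst v) :
    ∫ x, inner ℂ (l1H D N N' ζ x) (v x) =
      8 * (∑ i, ∑ A, ∫ x, inner ℂ (l1a D i A ζ x) (l1a D i A v x)) +
        8 * ((∫ x, inner ℂ (N (ζ x)) (v x)) + ∫ x, inner ℂ (ζ x) (N (v x))) := by
  have hba : ∀ i A, Setup.Tst (l1b D i A (l1a D i A ζ)) := fun i A => l1_tst_b D (l1_tst_a D hζ i A) i A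
  have hs : Setup.Tst (fun x => ∑ i, ∑ A, l1b D i A (l1a D i A ζ) x) :=
    l1_tst_sum _ fun i _ => l1_tst_sum _ fun A _ => hba i A
  have h2 : Setup.Tst (fun x => N (ζ x)) := hζ.clm (T := fun _ => N) contDiff_const
  have h3 : Setup.Tst (fun x => N' (ζ x)) := hζ.clm (T := fun _ => N') contDiff_const
  have hc := hv.1.continuous
  have hNc : Continuous fun x => N (v x) := N.continuous.comp hc
  have e0 : ∀ x, inner ℂ (l1H D N N' ζ x) (v x) =
      8 * (∑ i, ∑ A, inner ℂ (l1b D i A (l1a D i A ζ) x) (v x)) +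
        8 * (inner ℂ (N (ζ x)) (v x) + inner ℂ (ζ x) (N (v x))) := by
    intro x
    simp only [l1H, inner_add_left, inner_smul_left, sum_inner, hN, map_ofNat]
  have i1 : Integrable (fun x => ∑ i, ∑ A, inner ℂ (l1b D i A (l1a D i A ζ) x) (v x)) :=
    integrable_finsetSum _ fun i _ => integrable_finsetSum _ fun A _ => (hba i A).inner_int hc
  have i2 : Integrable (fun x => inner ℂ (N (ζ x)) (v x)) := h2.inner_int hc
  have i3 : Integrable (fun x => inner ℂ (ζ x) (N (v x))) := hζ.inner_int hNc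
  have i4 : Integrable (fun x => inner ℂ (N (ζ x)) (v x) + inner ℂ (ζ x) (N (v x))) := i2.add i3
  simp only [e0]
  rw [integral_add (i1.const_mul 8) (i4.const_mul 8), integral_const_mul, integral_const_mul,
    integral_add i2 i3,
    integral_finsetSum _ fun i _ => integrable_finsetSum _ fun A _ => (hba i A).inner_int hc]
  congr 2
  refine Finset.sum_congr rfl fun i _ => ?_
  rw [integral_finsetSum _ fun A _ => (hba i A).inner_int hc]
  exact Finset.sum_congr rfl fun A _ => l1_ab D (l1_tst_a D hζ i A) hv i A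

theorem l1_QQ {ζ v : (Cfg dc) → F} (hζ : Setup.Tst ζ) (hv : Setup.Tst v) :
    ∫ x, inner ℂ (∑ β, S.Qlin ξ β (S.Qlin ξ β ζ) x) (v x) =
      ∑ β, ∫ x, inner ℂ (S.Qlin ξ β ζ x) (S.Qlin ξ β v x) := by
  have hQ : ∀ β, Setup.Tst (S.Qlin ξ β (S.Qlin ξ β ζ)) := fun β =>
    l1_tst_Qlin S ξ (l1_tst_Qlin S ξ hζ β) β
  simp only [sum_inner]
  rw [integral_finsetSum _ fun β _ => (hQ β).inner_int hv.1.continuous]
  exact Finset.sum_congr rfl fun β _ => l1_Qlin_symm S ξ (l1_tst_Qlin S ξ hζ β) hv β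

/-- energy identity -/
def L1En (N : F →L[ℂ] F) : Prop := ∀ v : (Cfg dc) → F, Setup.Tst v →
  ∑ β, nsq (S.Qlin ξ β v) =
    8 * (∑ i, ∑ A, nsq (fun x => pd i A v x + ((D.A x (i, A) : ℝ) : ℂ) • v x)) +
    16 * (∫ x, inner ℂ (v x) (N (v x))).re

variable {S ξ D}

theorem l1_polar {N1 : F →L[ℂ] F} (hE : L1En S ξ D N1) {ζ v : (Cfg dc) → F} (hζ : Setup.Tst ζ) (hv : Setup.Tst v) :
    (∑ β, ∫ x, inner ℂ (S.Qlin ξ β ζ x) (S.Qlin ξ β v x)).re =
      8 * (∑ i, ∑ A, ∫ x, inner ℂ (l1a D i A ζ x) (l1a D i A v x)).re +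
        8 * ((∫ x, inner ℂ (v x) (N1 (ζ x))).re + (∫ x, inner ℂ (ζ x) (N1 (v x))).re) := by
  have h0 := hE (fun x => ζ x + v x) (hζ.add hv)
  have h1 := hE ζ hζ
  have h2 := hE v hv
  have eQ : ∀ β, nsq (S.Qlin ξ β (fun x => ζ x + v x)) =
      nsq (S.Qlin ξ β ζ) + nsq (S.Qlin ξ β v) +
        2 * (∫ x, inner ℂ (S.Qlin ξ β ζ x) (S.Qlin ξ β v x)).re := fun β => by
    rw [l1_Qlin_add S ξ hζ hv β]
    exact l1_nsq_add (l1_tst_Qlin S ξ hζ β) (l1_tst_Qlin S ξ hv β)
  have ea : ∀ i A, nsq (l1a D i A (fun x => ζ x + v x)) = nsq (l1a D i A ζ) + nsq (l1a D i A v) +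
      2 * (∫ x, inner ℂ (l1a D i A ζ x) (l1a D i A v x)).re := fun i A => by
    rw [l1_a_add D hζ hv i A]
    exact l1_nsq_add (l1_tst_a D hζ i A) (l1_tst_a D hv i A)
  have hNc : ∀ {w : (Cfg dc) → F}, Setup.Tst w → Continuous fun x => N1 (w x) := fun hw =>
    N1.continuous.comp hw.1.continuous
  have eN : (∫ x, inner ℂ (ζ x + v x) (N1 (ζ x + v x))).re =
      (∫ x, inner ℂ (ζ x) (N1 (ζ x))).re + (∫ x, inner ℂ (v x) (N1 (v x))).re +
        ((∫ x, inner ℂ (v x) (N1 (ζ x))).re + (∫ x, inner ℂ (ζ x) (N1 (v x))).re) := by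
    have e : ∀ x, inner ℂ (ζ x + v x) (N1 (ζ x + v x)) =
        (inner ℂ (ζ x) (N1 (ζ x)) + inner ℂ (v x) (N1 (v x))) +
        (inner ℂ (v x) (N1 (ζ x)) + inner ℂ (ζ x) (N1 (v x))) := fun x => by
      rw [map_add, inner_add_left, inner_add_right, inner_add_right]; ring
    have i1 : Integrable (fun x => inner ℂ (ζ x) (N1 (ζ x))) := hζ.inner_int (hNc hζ)
    have i2 : Integrable (fun x => inner ℂ (v x) (N1 (v x))) := hv.inner_int (hNc hv)
    have i3 : Integrable (fun x => inner ℂ (v x) (N1 (ζ x))) := hv.inner_int (hNc hζ)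
    have i4 : Integrable (fun x => inner ℂ (ζ x) (N1 (v x))) := hζ.inner_int (hNc hv)
    have i5 : Integrable (fun x => inner ℂ (ζ x) (N1 (ζ x)) + inner ℂ (v x) (N1 (v x))) :=
      i1.add i2
    have i6 : Integrable (fun x => inner ℂ (v x) (N1 (ζ x)) + inner ℂ (ζ x) (N1 (v x))) :=
      i3.add i4
    simp only [e]
    rw [integral_add i5 i6, integral_add i1 i2, integral_add i3 i4]
    simp only [Complex.add_re]
  have ha : ∀ (w : (Cfg dc) → F) i A, (fun x => pd i A w x + ((D.A x (i, A) : ℝ) : ℂ) • w x) = l1a D i A w :=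
    fun w i A => rfl
  simp only [ha] at h0 h1 h2
  rw [eN] at h0
  simp only [eQ, ea, Finset.sum_add_distrib, ← Finset.mul_sum] at h0
  simp only [Complex.re_sum]
  linarith

theorem l1_second {N1 : F →L[ℂ] F} (hE : L1En S ξ D N1) (N' : F →L[ℂ] F)
    (hN : ∀ v w, inner ℂ (N' v) w = inner ℂ v (N1 w)) {ζ : (Cfg dc) → F} (hζ : Setup.Tst ζ) (x : (Cfg dc)) :
    ∑ β, S.Qlin ξ β (S.Qlin ξ β ζ) x = l1H D N1 N' ζ x := by
  have hQ : Setup.Tst (fun x => ∑ β, S.Qlin ξ β (S.Qlin ξ β ζ) x) :=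
    l1_tst_sum _ fun β _ => l1_tst_Qlin S ξ (l1_tst_Qlin S ξ hζ β) β
  have hH := l1_tst_H D N1 N' hζ
  have hD := hQ.sub hH
  refine sub_eq_zero.mp (l1_self hD ?_ x)
  have e1 : ∀ y, inner ℂ ((∑ β, S.Qlin ξ β (S.Qlin ξ β ζ) y) - l1H D N1 N' ζ y)
      ((∑ β, S.Qlin ξ β (S.Qlin ξ β ζ) y) - l1H D N1 N' ζ y) =
      inner ℂ (∑ β, S.Qlin ξ β (S.Qlin ξ β ζ) y)
        ((∑ β, S.Qlin ξ β (S.Qlin ξ β ζ) y) - l1H D N1 N' ζ y) -
      inner ℂ (l1H D N1 N' ζ y)
        ((∑ β, S.Qlin ξ β (S.Qlin ξ β ζ) y) - l1H D N1 N' ζ y) := fun y => by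
    rw [inner_sub_left]
  simp only [e1]
  rw [integral_sub (hQ.inner_int hD.1.continuous) (hH.inner_int hD.1.continuous),
    l1_QQ S ξ hζ hD, l1_inner_H D N1 N' hN hζ hD, Complex.sub_re, l1_polar hE hζ hD]
  have hc : (∫ x, inner ℂ ((∑ β, S.Qlin ξ β (S.Qlin ξ β ζ) x) - l1H D N1 N' ζ x)
      (N1 (ζ x))).re = (∫ x, inner ℂ (N1 (ζ x))
        ((∑ β, S.Qlin ξ β (S.Qlin ξ β ζ) x) - l1H D N1 N' ζ x)).re := by
    have : ∀ x, inner ℂ ((∑ β, S.Qlin ξ β (S.Qlin ξ β ζ) x) - l1H D N1 N' ζ x)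
      (N1 (ζ x)) = conj (inner ℂ (N1 (ζ x))
        ((∑ β, S.Qlin ξ β (S.Qlin ξ β ζ) x) - l1H D N1 N' ζ x)) := fun x =>
      (inner_conj_symm _ _).symm
    simp only [this]
    rw [integral_conj, Complex.conj_re]
  rw [hc]
  simp only [Complex.add_re, Complex.mul_re, Complex.re_ofNat, Complex.im_ofNat, zero_mul, sub_zero]
  linarith

end Vale.Agent.P353.Z.U
end
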