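import Mathlib
import Vale.Agent.P353.BdZ.B2
import Vale.Agent.P353.BdZ.B3
import Vale.Agent.P353.BdZ.B4

set_option linter.all false

section

/-! # P353, uniqueness for `N = 2`: the ten dimensional Fierz identity -/

open MeasureTheory Filter Topology
open scoped ContDiff Matrix

namespace Vale.Agent.P353.Z.U

variable {dc : ℕ}

variable {F : Type*} [NormedAddCommGroup F] [InnerProductSpace ℂ F]

/-- the gamma matrices and the unit matrix -/
noncomputable def f10N (S : Setup dc F) : Option (Fin 9) → Matrix (Fin 16) (Fin 16) ℂ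
  | none => 1
  | some i => S.g i

/-- signs -/
noncomputable def f10w : Option (Fin 9) → ℂ
  | none => -1
  | some _ => 1

/-- the tensor `∑ ± N ⊗ N` -/
noncomputable def f10E (S : Setup dc F) (a b c d : Fin 16) : ℂ :=
  ∑ μ, f10w μ * (f10N S μ a b * f10N S μ c d)

theorem f10_symm (S : Setup dc F) (μ : Option (Fin 9)) : (f10N S μ)ᵀ = f10N S μ := by
  cases μ with
  | none => exact Matrix.transpose_one
  | some i => exact S.g_symm i

theorem f10_real (S : Setup dc F) (μ : Option (Fin 9)) (a b : Fin 16) : (f10N S μ a b).im = 0 := by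
  cases μ with
  | none =>
    change ((1 : Matrix (Fin 16) (Fin 16) ℂ) a b).im = 0
    rw [Matrix.one_apply]
    split_ifs <;> simp
  | some i => exact S.g_real i a b

theorem f10_wreal (μ : Option (Fin 9)) : (f10w μ).im = 0 := by
  cases μ <;> simp [f10w]

theorem f10_trace_one (S : Setup dc F) (i : Fin 9) : (S.g i).trace = 0 := by
  obtain ⟨j, hj⟩ : ∃ j : Fin 9, i ≠ j := ⟨i + 1, by
    have : ∀ i : Fin 9, i ≠ i + 1 := by decide
    exact this i⟩
  have h1 : S.g i = S.g j * S.g j * S.g i := by rw [S.g_sq' j, one_mul]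
  have h2 : (S.g j * S.g j * S.g i).trace = -(S.g j * S.g j * S.g i).trace := by
    conv_lhs => rw [mul_assoc, S.g_ac hj.symm, mul_neg, Matrix.trace_neg, ← mul_assoc,
      Matrix.trace_mul_comm, ← mul_assoc]
  rw [h1]
  have h3 : (2 : ℂ) * (S.g j * S.g j * S.g i).trace = 0 := by linear_combination h2
  simpa using h3

theorem f10_trace (S : Setup dc F) (μ ν : Option (Fin 9)) :
    (f10N S μ * f10N S ν).trace = if μ = ν then 16 else 0 := by
  rcases μ with _ | i <;> rcases ν with _ | j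
  · simp only [f10N, mul_one, if_true, CS.trace_one16]
  · simp only [f10N, one_mul, f10_trace_one, reduceCtorEq, if_false]
  · simp only [f10N, mul_one, f10_trace_one, reduceCtorEq, if_false]
  · simp only [f10N, Option.some.injEq]
    exact S.trace_g_g i j

theorem f10_trace4 (S : Setup dc F) (μ ν : Option (Fin 9)) :
    (f10N S μ * f10N S ν * (f10N S μ * f10N S ν)).trace =
      if μ = none ∨ ν = none ∨ μ = ν then 16 else -16 := by
  rcases μ with _ | i <;> rcases ν with _ | j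
  · simp only [f10N, mul_one, true_or, if_true, CS.trace_one16]
  · simp only [f10N, one_mul, true_or, if_true, S.g_sq', CS.trace_one16]
  · simp only [f10N, mul_one, true_or, or_true, if_true, S.g_sq', CS.trace_one16]
  · simp only [f10N, reduceCtorEq, false_or, Option.some.injEq]
    by_cases h : i = j
    · subst h
      rw [if_pos rfl, S.g_sq', mul_one, CS.trace_one16]
    · rw [if_neg h]
      have h1 : S.g i * S.g j * (S.g i * S.g j) = -1 := by
        calc S.g i * S.g j * (S.g i * S.g j) = -(S.g j * S.g i) * (S.g i * S.g j) := by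
              rw [S.g_ac h]
          _ = -(S.g j * (S.g i * S.g i) * S.g j) := by
              rw [neg_mul]; congr 1; simp only [mul_assoc]
          _ = -1 := by rw [S.g_sq', mul_one, S.g_sq']
      rw [h1, Matrix.trace_neg, CS.trace_one16]

theorem f10_tr2 (S : Setup dc F) (μ ν : Option (Fin 9)) :
    ∑ a, ∑ b, f10N S μ a b * f10N S ν a b = (f10N S μ * f10N S ν).trace := by
  rw [Matrix.trace]
  refine Finset.sum_congr rfl fun a _ => ?_
  rw [Matrix.diag_apply, Matrix.mul_apply]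
  refine Finset.sum_congr rfl fun b _ => ?_
  conv_lhs => rw [← f10_symm S ν, Matrix.transpose_apply]

theorem f10_tr4 (S : Setup dc F) (μ ν : Option (Fin 9)) :
    ∑ a, ∑ b, ∑ c, ∑ d, (f10N S μ a b * f10N S μ c d) * (f10N S ν b c * f10N S ν a d) =
      (f10N S μ * f10N S ν * (f10N S μ * f10N S ν)).trace := by
  rw [Matrix.trace]
  refine Finset.sum_congr rfl fun a _ => ?_
  rw [Matrix.diag_apply, Matrix.mul_apply, Finset.sum_comm]
  refine Finset.sum_congr rfl fun c _ => ?_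
  rw [Matrix.mul_apply, Matrix.mul_apply, Finset.sum_mul_sum]
  refine Finset.sum_congr rfl fun b _ => Finset.sum_congr rfl fun d _ => ?_
  have h1 : f10N S ν a d = f10N S ν d a := by
    conv_lhs => rw [← f10_symm S ν, Matrix.transpose_apply]
  rw [h1]
  ring

theorem f10_comm (f : Fin 16 → Option (Fin 9) → Option (Fin 9) → ℂ) :
    ∑ d, ∑ μ, ∑ ν, f d μ ν = ∑ μ, ∑ ν, ∑ d, f d μ ν := by
  rw [Finset.sum_comm]
  exact Finset.sum_congr rfl fun _ _ => Finset.sum_comm

theorem f10_cyc (G : Fin 16 → Fin 16 → Fin 16 → Fin 16 → ℂ) :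
    ∑ a, ∑ b, ∑ c, ∑ d, G b c a d = ∑ a, ∑ b, ∑ c, ∑ d, G a b c d := by
  rw [Finset.sum_comm]
  exact Finset.sum_congr rfl fun a _ => Finset.sum_comm

theorem f10_S1 (S : Setup dc F) :
    ∑ a, ∑ b, ∑ c, ∑ d, f10E S a b c d ^ 2 = 2560 := by
  have h1 : ∀ a b c d, f10E S a b c d ^ 2 = ∑ μ, ∑ ν, f10w μ * f10w ν *
      ((f10N S μ a b * f10N S ν a b) * (f10N S μ c d * f10N S ν c d)) := by
    intro a b c d
    rw [f10E, sq, Finset.sum_mul_sum]
    refine Finset.sum_congr rfl fun μ _ => Finset.sum_congr rfl fun ν _ => ?_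
    ring
  simp_rw [h1, f10_comm, ← Finset.mul_sum, ← Finset.sum_mul, f10_tr2, f10_trace]
  simp [Fintype.sum_option, f10w, Finset.sum_ite_eq]
  norm_num

theorem f10_S2 (S : Setup dc F) :
    ∑ a, ∑ b, ∑ c, ∑ d, f10E S a b c d * f10E S b c a d = -1280 := by
  have h1 : ∀ a b c d, f10E S a b c d * f10E S b c a d = ∑ μ, ∑ ν, f10w μ * f10w ν *
      ((f10N S μ a b * f10N S μ c d) * (f10N S ν b c * f10N S ν a d)) := by
    intro a b c d
    rw [f10E, f10E, Finset.sum_mul_sum]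
    refine Finset.sum_congr rfl fun μ _ => Finset.sum_congr rfl fun ν _ => ?_
    ring
  simp_rw [h1, f10_comm, ← Finset.mul_sum, f10_tr4, f10_trace4]
  have h2 : ∀ i j : Fin 9, (if i = j then (16 : ℂ) else -16) = -16 + if i = j then 32 else 0 := by
    intro i j
    by_cases h : i = j
    · simp [h]; norm_num
    · simp [h]
  simp [Fintype.sum_option, f10w, h2, Finset.sum_add_distrib]
  norm_num

/-- the identity -/
theorem f10_zero (S : Setup dc F) (a b c d : Fin 16) :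
    f10E S a b c d + f10E S b c a d + f10E S c a b d = 0 := by
  have hEre : ∀ a b c d, (f10E S a b c d).im = 0 := by
    intro a b c d
    rw [f10E, Complex.im_sum]
    refine Finset.sum_eq_zero fun μ _ => ?_
    simp [Complex.mul_im, f10_real, f10_wreal]
  have hsum : ∑ a, ∑ b, ∑ c, ∑ d,
      (f10E S a b c d + f10E S b c a d + f10E S c a b d) ^ 2 = 0 := by
    have e : ∀ a b c d, (f10E S a b c d + f10E S b c a d + f10E S c a b d) ^ 2 =
        f10E S a b c d ^ 2 + f10E S b c a d ^ 2 + f10E S c a b d ^ 2 +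
        2 * (f10E S a b c d * f10E S b c a d) + 2 * (f10E S b c a d * f10E S c a b d) +
        2 * (f10E S c a b d * f10E S a b c d) := by
      intro a b c d
      ring
    simp_rw [e, Finset.sum_add_distrib, ← Finset.mul_sum]
    have c1 := f10_cyc (fun a b c d => f10E S a b c d ^ 2)
    have c2 := f10_cyc (fun a b c d => f10E S b c a d ^ 2)
    have c3 := f10_cyc (fun a b c d => f10E S a b c d * f10E S b c a d)
    have c4 := f10_cyc (fun a b c d => f10E S b c a d * f10E S c a b d)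
    rw [c4, c3, c2, c1, f10_S1, f10_S2]
    norm_num
  -- real parts
  have hre : ∑ a, ∑ b, ∑ c, ∑ d,
      ((f10E S a b c d + f10E S b c a d + f10E S c a b d).re) ^ 2 = 0 := by
    have h1 := congrArg Complex.re hsum
    simp only [Complex.re_sum, Complex.zero_re] at h1
    rw [← h1]
    refine Finset.sum_congr rfl fun a _ => Finset.sum_congr rfl fun b _ =>
      Finset.sum_congr rfl fun c _ => Finset.sum_congr rfl fun d _ => ?_
    have h2 : (f10E S a b c d + f10E S b c a d + f10E S c a b d).im = 0 := by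
      simp only [Complex.add_im, hEre, add_zero]
    rw [sq (f10E S a b c d + f10E S b c a d + f10E S c a b d), Complex.mul_re, h2]
    ring
  have h1 := (Finset.sum_eq_zero_iff_of_nonneg (fun a _ => Finset.sum_nonneg fun b _ =>
    Finset.sum_nonneg fun c _ => Finset.sum_nonneg fun d _ => sq_nonneg _)).1 hre a
      (Finset.mem_univ _)
  have h2 := (Finset.sum_eq_zero_iff_of_nonneg (fun b _ =>
    Finset.sum_nonneg fun c _ => Finset.sum_nonneg fun d _ => sq_nonneg _)).1 h1 b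
      (Finset.mem_univ _)
  have h3 := (Finset.sum_eq_zero_iff_of_nonneg (fun c _ =>
    Finset.sum_nonneg fun d _ => sq_nonneg _)).1 h2 c (Finset.mem_univ _)
  have h4 := (Finset.sum_eq_zero_iff_of_nonneg (fun d _ => sq_nonneg _)).1 h3 d
    (Finset.mem_univ _)
  have h5 := pow_eq_zero_iff (two_ne_zero) |>.1 h4
  refine Complex.ext h5 ?_
  simp only [Complex.add_im, hEre, add_zero, Complex.zero_im]

/-- A-F10 -/
theorem f10 (S : Setup dc F) : F10Stmt S := by
  intro α β γ δ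
  have h := f10_zero S α β γ δ
  have e : ∀ a b c d : Fin 16, f10E S a b c d =
      (∑ i, S.g i a b * S.g i c d) - if a = b ∧ c = d then 1 else 0 := by
    intro a b c d
    rw [f10E, Fintype.sum_option]
    have h1 : f10w none * (f10N S none a b * f10N S none c d) =
        -(if a = b ∧ c = d then 1 else 0) := by
      change (-1 : ℂ) * ((1 : Matrix (Fin 16) (Fin 16) ℂ) a b *
        (1 : Matrix (Fin 16) (Fin 16) ℂ) c d) = _
      rw [Matrix.one_apply, Matrix.one_apply]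
      by_cases h2 : a = b <;> by_cases h3 : c = d <;> simp [h2, h3]
    have h2 : ∀ i : Fin 9, f10w (some i) * (f10N S (some i) a b * f10N S (some i) c d) =
        S.g i a b * S.g i c d := by
      intro i
      change (1 : ℂ) * (S.g i a b * S.g i c d) = _
      rw [one_mul]
    rw [h1]
    simp_rw [h2]
    ring
  rw [e, e, e] at h
  rw [Finset.sum_add_distrib, Finset.sum_add_distrib]
  linear_combination h

end Vale.Agent.P353.Z.U
end

section

open MeasureTheory Filter Topology Matrix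
open scoped ContDiff

namespace Vale.Agent.P353.Z

variable {dc : ℕ}

variable {F : Type*} [NormedAddCommGroup F] [InnerProductSpace ℂ F]

namespace Setup

variable (S : Setup dc F)

/-- expansion of the product of two supercharges -/
lemma a1a_expand (a b : Fin 16) {u : (Cfg dc) → F} (hu : ContDiff ℝ ∞ u) (x : (Cfg dc)) :
    S.Q a (S.Q b u) x =
      -(∑ j, ∑ B, ∑ i, ∑ A, S.vec (S.g j) B a (S.vec (S.g i) A b (pd j B (pd i A u) x)))
      + ((-Complex.I) • ∑ j, ∑ B, S.vec (S.g j) B a *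
        (fderiv ℝ (S.W b) x (EuclideanSpace.single (j, B) (1 : ℝ)))) (u x)
      + (-Complex.I) • ∑ j, ∑ B, (S.vec (S.g j) B a * S.W b x + S.W a x * S.vec (S.g j) B b)
          (pd j B u x)
      + (S.W a x * S.W b x) (u x) := by
  conv_lhs => rw [Q]
  simp only [pd_Q S b hu]
  rw [Q]
  simp only [map_add, map_smul, map_sum, Finset.sum_add_distrib, smul_add,
    _root_.smul_apply, _root_.sum_apply, _root_.add_apply, mul_apply_eq_comp,
    ← Finset.smul_sum, smul_smul]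
  have hI : (-Complex.I) * (-Complex.I) = -1 := by
    rw [neg_mul_neg, Complex.I_mul_I]
  rw [hI, neg_one_smul]
  abel

lemma a1a_reindex {M : Type*} [AddCommMonoid M] (f : Fin 9 → Fin dc → Fin 9 → Fin dc → M) :
    ∑ j, ∑ B, ∑ i, ∑ A, f j B i A = ∑ j, ∑ B, ∑ i, ∑ A, f i A j B := by
  have e1 : ∀ (f : Fin 9 → Fin dc → Fin 9 → Fin dc → M), ∑ j, ∑ B, ∑ i, ∑ A, f j B i A =
      ∑ p : Fin 9 × Fin dc, ∑ q : Fin 9 × Fin dc, f p.1 p.2 q.1 q.2 := by
    intro f
    simp only [Fintype.sum_prod_type]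
  rw [e1 f, e1 (fun j B i A => f i A j B), Finset.sum_comm]

lemma a1a_g_anti_apply (i j : Fin 9) (a b : Fin 16) :
    (S.g i * S.g j) a b + (S.g j * S.g i) a b =
      if i = j then (if a = b then 2 else 0) else 0 := by
  have h := congrArg (fun M => M a b) (S.g_anti i j)
  simp only [Matrix.add_apply] at h
  rw [h]
  by_cases hij : i = j
  · simp only [hij, if_true]
    have h2 : (2 : Matrix (Fin 16) (Fin 16) ℂ) = (2 : ℂ) • 1 := by
      rw [two_smul]; norm_num
    rw [h2, Matrix.smul_apply, Matrix.one_apply]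
    by_cases hab : a = b <;> simp [hab]
  · simp [hij]

/-- the second order part -/
lemma a1a_second (a b : Fin 16) (D : Fin 9 → Fin dc → Fin 9 → Fin dc → F)
    (hD : ∀ i A j B, D i A j B = D j B i A) :
    ∑ j, ∑ B, ∑ i, ∑ A, S.vec (S.g j) B a (S.vec (S.g i) A b (D j B i A)) +
      ∑ j, ∑ B, ∑ i, ∑ A, S.vec (S.g j) B b (S.vec (S.g i) A a (D j B i A)) =
      if a = b then ∑ i, ∑ A, D i A i A else 0 := by
  have h1 : ∑ j, ∑ B, ∑ i, ∑ A, S.vec (S.g j) B b (S.vec (S.g i) A a (D j B i A)) =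
      ∑ j, ∑ B, ∑ i, ∑ A, S.vec (S.g i) A b (S.vec (S.g j) B a (D j B i A)) := by
    rw [a1a_reindex]
    refine Finset.sum_congr rfl fun j _ => Finset.sum_congr rfl fun B _ =>
      Finset.sum_congr rfl fun i _ => Finset.sum_congr rfl fun A _ => ?_
    rw [hD]
  rw [h1]
  simp only [← Finset.sum_add_distrib]
  have h2 : ∀ j B i A, S.vec (S.g j) B a (S.vec (S.g i) A b (D j B i A)) +
      S.vec (S.g i) A b (S.vec (S.g j) B a (D j B i A)) =
      if B = A then ((S.g j * S.g i) a b) • D j B i A else 0 := by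
    intro j B i A
    have h3 := S.vec_anti (S.g j) (S.g i) B A a b
    rw [S.g_symm] at h3
    have h4 := congrArg (fun T : F →L[ℂ] F => T (D j B i A)) h3
    simp only [_root_.add_apply, mul_apply_eq_comp] at h4
    rw [h4]
    by_cases hBA : B = A
    · simp [hBA]
    · simp [hBA]
  simp only [h2]
  have h5 : ∀ j B, ∑ i, ∑ A, (if B = A then ((S.g j * S.g i) a b) • D j B i A else 0) =
      ∑ i, ((S.g j * S.g i) a b) • D j B i B := by
    intro j B
    refine Finset.sum_congr rfl fun i _ => ?_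
    rw [Finset.sum_ite_eq]
    simp
  simp only [h5]
  have h6 : ∑ j, ∑ B, ∑ i, ((S.g j * S.g i) a b) • D j B i B =
      ∑ j, ∑ B, ∑ i, ((S.g i * S.g j) a b) • D j B i B := by
    have e : ∀ f : Fin 9 → Fin dc → Fin 9 → F, ∑ j, ∑ B, ∑ i, f j B i =
        ∑ B, ∑ j, ∑ i, f j B i := fun f => by rw [Finset.sum_comm]
    rw [e, e]
    refine Finset.sum_congr rfl fun B _ => ?_
    rw [Finset.sum_comm]
    refine Finset.sum_congr rfl fun j _ => Finset.sum_congr rfl fun i _ => ?_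
    rw [hD]
  have h7 : (2 : ℂ) • ∑ j, ∑ B, ∑ i, ((S.g j * S.g i) a b) • D j B i B =
      (2 : ℂ) • (if a = b then ∑ i, ∑ A, D i A i A else 0) := by
    rw [two_smul]
    nth_rewrite 2 [h6]
    simp only [← Finset.sum_add_distrib, ← add_smul, a1a_g_anti_apply]
    by_cases hab : a = b
    · simp only [hab, if_true, ite_smul, zero_smul, Finset.smul_sum]
      refine Finset.sum_congr rfl fun j _ => Finset.sum_congr rfl fun B _ => ?_
      rw [Finset.sum_ite_eq]
      simp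
    · simp [hab]
  have h8 := congrArg (fun w => (1 / 2 : ℂ) • w) h7
  simp only [smul_smul] at h8
  norm_num at h8
  exact h8

/-- `N_A = (1/2) F^A_{ij} γ^i γ^j` -/
lemma a1a_NA_eq (A : Fin dc) (x : (Cfg dc)) :
    S.NA A x = (1 / 2 : ℂ) • ∑ i, ∑ j, ((S.FF A i j x : ℝ) : ℂ) • (S.g i * S.g j) := by
  unfold NA
  congr 1
  have h1 : ∑ i, ∑ j, ((S.FF A i j x : ℝ) : ℂ) • (S.g j * S.g i) =
      -∑ i, ∑ j, ((S.FF A i j x : ℝ) : ℂ) • (S.g i * S.g j) := by
    rw [Finset.sum_comm, ← Finset.sum_neg_distrib]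
    refine Finset.sum_congr rfl fun i _ => ?_
    rw [← Finset.sum_neg_distrib]
    refine Finset.sum_congr rfl fun j _ => ?_
    rw [S.FF_swap A j i x, ← neg_smul]
    push_cast
    rfl
  have h2 : ∀ i j, ((S.FF A i j x : ℝ) : ℂ) • S.g2 i j =
      (1 / 2 : ℂ) • (((S.FF A i j x : ℝ) : ℂ) • (S.g i * S.g j)) -
        (1 / 2 : ℂ) • (((S.FF A i j x : ℝ) : ℂ) • (S.g j * S.g i)) := by
    intro i j
    rw [CS.g2, smul_comm, smul_sub, smul_sub]
  simp only [h2, Finset.sum_sub_distrib, ← Finset.smul_sum, h1]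
  rw [smul_neg, sub_neg_eq_add, ← add_smul]
  norm_num

/-- `γ^j N_B - N_B γ^j = 2 F^B_{jl} γ^l` -/
lemma a1a_comm (j : Fin 9) (B : Fin dc) (x : (Cfg dc)) :
    S.g j * S.NA B x - S.NA B x * S.g j =
      (2 : ℂ) • ∑ l, ((S.FF B j l x : ℝ) : ℂ) • S.g l := by
  have h1 : ∀ k l, S.g j * (S.g k * S.g l) - S.g k * S.g l * S.g j =
      (if j = k then (2 : ℂ) • S.g l else 0) - (if j = l then (2 : ℂ) • S.g k else 0) := by
    intro k l
    have e1 := S.g_swapE' j k
    have e2 := S.g_swapE' j l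
    have e3 : S.g j * (S.g k * S.g l) - S.g k * S.g l * S.g j =
        (S.g j * S.g k + S.g k * S.g j) * S.g l - S.g k * (S.g j * S.g l + S.g l * S.g j) := by
      noncomm_ring
    rw [e3, e1, e2, sub_add_cancel, sub_add_cancel]
    by_cases hjk : j = k <;> by_cases hjl : j = l <;> simp [hjk, hjl]
  rw [a1a_NA_eq, Matrix.mul_smul, Matrix.smul_mul, ← smul_sub]
  have h2 : S.g j * (∑ k, ∑ l, ((S.FF B k l x : ℝ) : ℂ) • (S.g k * S.g l)) -
      (∑ k, ∑ l, ((S.FF B k l x : ℝ) : ℂ) • (S.g k * S.g l)) * S.g j =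
      ∑ k, ∑ l, ((S.FF B k l x : ℝ) : ℂ) •
        ((if j = k then (2 : ℂ) • S.g l else 0) - (if j = l then (2 : ℂ) • S.g k else 0)) := by
    simp only [Matrix.mul_sum, Matrix.sum_mul, Matrix.mul_smul, Matrix.smul_mul,
      ← Finset.sum_sub_distrib, ← smul_sub, h1]
  rw [h2]
  have h3 : ∑ k, ∑ l, ((S.FF B k l x : ℝ) : ℂ) •
        ((if j = k then (2 : ℂ) • S.g l else 0) - (if j = l then (2 : ℂ) • S.g k else 0)) =
      (4 : ℂ) • ∑ l, ((S.FF B j l x : ℝ) : ℂ) • S.g l := by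
    simp only [smul_sub, Finset.sum_sub_distrib]
    have p1 : ∑ k, ∑ l, ((S.FF B k l x : ℝ) : ℂ) • (if j = k then (2 : ℂ) • S.g l else 0) =
        (2 : ℂ) • ∑ l, ((S.FF B j l x : ℝ) : ℂ) • S.g l := by
      rw [Finset.sum_eq_single j]
      · simp only [if_true, Finset.smul_sum]
        exact Finset.sum_congr rfl fun l _ => smul_comm _ _ _
      · intro k _ hk
        simp [Ne.symm hk]
      · intro h; exact absurd (Finset.mem_univ _) h
    have p2 : ∑ k, ∑ l, ((S.FF B k l x : ℝ) : ℂ) • (if j = l then (2 : ℂ) • S.g k else 0) =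
        -((2 : ℂ) • ∑ l, ((S.FF B j l x : ℝ) : ℂ) • S.g l) := by
      rw [Finset.sum_comm, Finset.sum_eq_single j]
      · simp only [if_true, Finset.smul_sum]
        rw [← Finset.sum_neg_distrib]
        refine Finset.sum_congr rfl fun l _ => ?_
        rw [S.FF_swap B l j x, smul_comm]
        push_cast
        rw [neg_smul, smul_neg]
      · intro k _ hk
        simp [Ne.symm hk]
      · intro h; exact absurd (Finset.mem_univ _) h
    rw [p1, p2, sub_neg_eq_add, ← add_smul]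
    norm_num
  rw [h3, smul_smul]
  norm_num

/-- the first order part -/
lemma a1a_first (a b : Fin 16) (j : Fin 9) (B : Fin dc) (x : (Cfg dc)) :
    (S.vec (S.g j) B a * S.W b x + S.W b x * S.vec (S.g j) B a) +
      (S.vec (S.g j) B b * S.W a x + S.W a x * S.vec (S.g j) B b) =
      (-(2 : ℂ) * ∑ l, ((S.FF B j l x : ℝ) : ℂ) * S.g l a b) • (1 : F →L[ℂ] F) := by
  have h : ∀ a b, S.vec (S.g j) B a * S.W b x + S.W b x * S.vec (S.g j) B a =
      (-((S.g j * S.NA B x) a b)) • (1 : F →L[ℂ] F) := by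
    intro a b
    rw [W_eq_NA, Finset.mul_sum, Finset.sum_mul, ← Finset.sum_add_distrib]
    simp only [S.vec_anti, NA_transpose, Matrix.mul_neg, Matrix.neg_apply]
    rw [Finset.sum_ite_eq]
    simp
  rw [h a b, h b a, ← add_smul]
  congr 1
  have h1 : (S.g j * S.NA B x) b a = -((S.NA B x * S.g j) a b) := by
    have h2 : (S.g j * S.NA B x) b a = ((S.g j * S.NA B x)ᵀ) a b := rfl
    rw [h2, Matrix.transpose_mul, NA_transpose, S.g_symm, Matrix.neg_mul, Matrix.neg_apply]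
  rw [h1]
  have h3 := congrArg (fun M => M a b) (S.a1a_comm j B x)
  simp only [Matrix.sub_apply, Matrix.smul_apply, Matrix.sum_apply, smul_eq_mul] at h3
  linear_combination -h3

/-- the slash of the positions of colour `B` -/
noncomputable def a1aX (B : Fin dc) (x : (Cfg dc)) : Matrix (Fin 16) (Fin 16) ℂ :=
  ∑ i, (x (i, B) : ℂ) • S.g i

/-- inner products of the positions -/
noncomputable def a1aG (x : Cfg dc) (B C : Fin dc) : ℂ := ∑ i : Fin 9, (x (i, B) : ℂ) * (x (i, C) : ℂ)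

lemma a1aX_anti (B C : Fin dc) (x : (Cfg dc)) :
    S.a1aX B x * S.a1aX C x + S.a1aX C x * S.a1aX B x = (2 * a1aG x B C) • 1 := by
  have h1 : S.a1aX C x * S.a1aX B x =
      ∑ i, ∑ j, ((x (i, B) : ℂ) * (x (j, C) : ℂ)) • (S.g j * S.g i) := by
    unfold a1aX
    rw [Finset.sum_mul_sum, Finset.sum_comm]
    refine Finset.sum_congr rfl fun i _ => Finset.sum_congr rfl fun j _ => ?_
    rw [smul_mul_smul_comm, mul_comm (x (j, C) : ℂ)]
  have h2 : S.a1aX B x * S.a1aX C x =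
      ∑ i, ∑ j, ((x (i, B) : ℂ) * (x (j, C) : ℂ)) • (S.g i * S.g j) := by
    unfold a1aX
    rw [Finset.sum_mul_sum]
    refine Finset.sum_congr rfl fun i _ => Finset.sum_congr rfl fun j _ => ?_
    rw [smul_mul_smul_comm]
  rw [h1, h2, ← Finset.sum_add_distrib]
  simp only [← Finset.sum_add_distrib, ← smul_add]
  have h3 : ∀ i j, S.g i * S.g j + S.g j * S.g i =
      if i = j then (2 : ℂ) • (1 : Matrix (Fin 16) (Fin 16) ℂ) else 0 := by
    intro i j
    rw [S.g_swapE' i j, sub_add_cancel]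
  simp only [h3, smul_ite, smul_zero, Finset.sum_ite_eq, Finset.mem_univ, if_true, smul_smul]
  rw [← Finset.sum_smul]
  congr 1
  unfold a1aG
  rw [Finset.mul_sum]
  refine Finset.sum_congr rfl fun i _ => ?_
  ring

lemma a1a_NA_X (A : Fin dc) (x : (Cfg dc)) :
    S.NA A x = (S.κ / 2 : ℂ) • ∑ B, ∑ C, (S.f A B C : ℂ) • (S.a1aX B x * S.a1aX C x) := by
  rw [a1a_NA_eq]
  have h2 : ∀ B C, S.a1aX B x * S.a1aX C x =
      ∑ i, ∑ j, ((x (i, B) : ℂ) * (x (j, C) : ℂ)) • (S.g i * S.g j) := by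
    intro B C
    unfold a1aX
    rw [Finset.sum_mul_sum]
    refine Finset.sum_congr rfl fun i _ => Finset.sum_congr rfl fun j _ => ?_
    rw [smul_mul_smul_comm]
  have h3 : ∑ i, ∑ j, ((S.FF A i j x : ℝ) : ℂ) • (S.g i * S.g j) =
      (S.κ : ℂ) • ∑ B, ∑ C, (S.f A B C : ℂ) • (S.a1aX B x * S.a1aX C x) := by
    simp only [h2, Finset.smul_sum, smul_smul]
    have h4 : ∀ i j, ((S.FF A i j x : ℝ) : ℂ) • (S.g i * S.g j) =
        ∑ B, ∑ C, ((S.κ : ℂ) * ((S.f A B C : ℂ) * ((x (i, B) : ℂ) * (x (j, C) : ℂ)))) •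
          (S.g i * S.g j) := by
      intro i j
      simp only [← Finset.sum_smul]
      congr 1
      unfold FF
      push_cast
      simp only [Finset.mul_sum]
      refine Finset.sum_congr rfl fun B _ => Finset.sum_congr rfl fun C _ => ?_
      ring
    simp only [h4]
    calc ∑ i, ∑ j, ∑ B, ∑ C, ((S.κ : ℂ) * ((S.f A B C : ℂ) * ((x (i, B) : ℂ) *
          (x (j, C) : ℂ)))) • (S.g i * S.g j)
        = ∑ i, ∑ B, ∑ j, ∑ C, ((S.κ : ℂ) * ((S.f A B C : ℂ) * ((x (i, B) : ℂ) *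
          (x (j, C) : ℂ)))) • (S.g i * S.g j) :=
          Finset.sum_congr rfl fun i _ => Finset.sum_comm
      _ = ∑ B, ∑ i, ∑ j, ∑ C, ((S.κ : ℂ) * ((S.f A B C : ℂ) * ((x (i, B) : ℂ) *
          (x (j, C) : ℂ)))) • (S.g i * S.g j) := Finset.sum_comm
      _ = ∑ B, ∑ i, ∑ C, ∑ j, ((S.κ : ℂ) * ((S.f A B C : ℂ) * ((x (i, B) : ℂ) *
          (x (j, C) : ℂ)))) • (S.g i * S.g j) :=
          Finset.sum_congr rfl fun B _ => Finset.sum_congr rfl fun i _ => Finset.sum_comm
      _ = ∑ B, ∑ C, ∑ i, ∑ j, ((S.κ : ℂ) * ((S.f A B C : ℂ) * ((x (i, B) : ℂ) *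
          (x (j, C) : ℂ)))) • (S.g i * S.g j) :=
          Finset.sum_congr rfl fun B _ => Finset.sum_comm
  rw [h3, smul_smul]
  congr 1
  ring

lemma a1a_cyc3 {M : Type*} [AddCommMonoid M] (g : Fin dc → Fin dc → Fin dc → M) :
    ∑ B, ∑ C, ∑ D, g C D B = ∑ B, ∑ C, ∑ D, g B C D := by
  rw [Finset.sum_comm]
  refine Finset.sum_congr rfl fun B _ => ?_
  rw [Finset.sum_comm]

lemma a1a_swap4 {M : Type*} [AddCommMonoid M] (g : Fin dc → Fin dc → Fin dc → Fin dc → M) :
    ∑ B, ∑ C, ∑ D, ∑ E, g D E B C = ∑ B, ∑ C, ∑ D, ∑ E, g B C D E := by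
  have e1 : ∀ (g : Fin dc → Fin dc → Fin dc → Fin dc → M), ∑ B, ∑ C, ∑ D, ∑ E, g B C D E =
      ∑ p : Fin dc × Fin dc, ∑ q : Fin dc × Fin dc, g p.1 p.2 q.1 q.2 := by
    intro g
    simp only [Fintype.sum_prod_type]
  rw [e1 g, e1 (fun B C D E => g D E B C), Finset.sum_comm]

lemma a1a_perm5 {M : Type*} [AddCommMonoid M] (g : Fin dc → Fin dc → Fin dc → Fin dc → Fin dc → M) :
    ∑ A, ∑ B, ∑ C, ∑ D, ∑ E, g A B C D E = ∑ B, ∑ C, ∑ D, ∑ E, ∑ A, g A B C D E := by
  rw [Finset.sum_comm]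
  refine Finset.sum_congr rfl fun B _ => ?_
  rw [Finset.sum_comm]
  refine Finset.sum_congr rfl fun C _ => ?_
  rw [Finset.sum_comm]
  refine Finset.sum_congr rfl fun D _ => ?_
  rw [Finset.sum_comm]

/-- quartic expressions with a coefficient tensor satisfying the Bianchi identity are scalars -/
lemma a1a_bianchi {R : Type*} [Ring R] [Algebra ℂ R] (X : Fin dc → R) (G : Fin dc → Fin dc → ℂ)
    (hX : ∀ B C, X B * X C + X C * X B = (2 * G B C) • 1) (hG : ∀ B C, G B C = G C B)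
    (T : Fin dc → Fin dc → Fin dc → Fin dc → ℂ)
    (hT1 : ∀ B C D E, T C B D E = -T B C D E)
    (hT2 : ∀ B C D E, T D E B C = T B C D E)
    (hT3 : ∀ B C D E, T B C D E + T C D B E + T D B C E = 0) :
    ∃ e : ℂ, ∑ B, ∑ C, ∑ D, ∑ E, T B C D E • (X B * X C * X D * X E) = e • 1 := by
  have hsw : ∀ B C, X B * X C = (2 * G B C) • 1 - X C * X B := fun B C => by
    rw [← hX B C, add_sub_cancel_right]
  obtain ⟨S0, hS0⟩ : ∃ S0, S0 = ∑ B, ∑ C, ∑ D, ∑ E, T B C D E • (X B * X C * X D * X E) :=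
    ⟨_, rfl⟩
  obtain ⟨K, hK⟩ : ∃ K, K = ∑ B, ∑ C, ∑ D, ∑ E, (T B C D E * G D B) • (X C * X E) := ⟨_, rfl⟩
  have h1 : ∑ B, ∑ C, ∑ D, ∑ E, T B C D E • (X B * X C * X D * X E) +
      ∑ B, ∑ C, ∑ D, ∑ E, T C D B E • (X B * X C * X D * X E) +
      ∑ B, ∑ C, ∑ D, ∑ E, T D B C E • (X B * X C * X D * X E) = 0 := by
    simp only [← Finset.sum_add_distrib, ← add_smul, hT3, zero_smul, Finset.sum_const_zero]
  have hL : ∑ B, ∑ C, ∑ D, ∑ E, (T B C D E * G D C) • (X B * X E) = -K := by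
    rw [hK, Finset.sum_comm, ← Finset.sum_neg_distrib]
    refine Finset.sum_congr rfl fun B _ => ?_
    rw [← Finset.sum_neg_distrib]
    refine Finset.sum_congr rfl fun C _ => ?_
    rw [← Finset.sum_neg_distrib]
    refine Finset.sum_congr rfl fun D _ => ?_
    rw [← Finset.sum_neg_distrib]
    refine Finset.sum_congr rfl fun E _ => ?_
    rw [hT1, neg_mul, neg_smul]
  have hN : ∑ B, ∑ C, ∑ D, ∑ E, (T B C D E * G C B) • (X D * X E) = 0 := by
    have h2 : ∑ B, ∑ C, ∑ D, ∑ E, (T B C D E * G C B) • (X D * X E) =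
        -∑ B, ∑ C, ∑ D, ∑ E, (T B C D E * G C B) • (X D * X E) := by
      conv_lhs => rw [Finset.sum_comm]
      rw [← Finset.sum_neg_distrib]
      refine Finset.sum_congr rfl fun B _ => ?_
      rw [← Finset.sum_neg_distrib]
      refine Finset.sum_congr rfl fun C _ => ?_
      rw [← Finset.sum_neg_distrib]
      refine Finset.sum_congr rfl fun D _ => ?_
      rw [← Finset.sum_neg_distrib]
      refine Finset.sum_congr rfl fun E _ => ?_
      rw [hT1, hG, neg_mul, neg_smul]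
    have h3 := add_eq_zero_iff_eq_neg.2 h2
    rw [← two_smul ℂ] at h3
    have h4 := congrArg (fun w => (1 / 2 : ℂ) • w) h3
    simp only [smul_smul, smul_zero] at h4
    norm_num at h4
    exact h4
  have h2 : ∑ B, ∑ C, ∑ D, ∑ E, T C D B E • (X B * X C * X D * X E) =
      S0 + (4 : ℂ) • K := by
    rw [a1a_cyc3 (fun b c d => ∑ E, T b c d E • (X d * X b * X c * X E))]
    have e : ∀ B C D E, T B C D E • (X D * X B * X C * X E) =
        T B C D E • (X B * X C * X D * X E) + (2 : ℂ) • ((T B C D E * G D B) • (X C * X E)) -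
          (2 : ℂ) • ((T B C D E * G D C) • (X B * X E)) := by
      intro B C D E
      have e1 : X D * X B * X C * X E = X B * X C * X D * X E + (2 * G D B) • (X C * X E) -
          (2 * G D C) • (X B * X E) := by
        rw [hsw D B]
        have e2 : ((2 * G D B) • (1 : R) - X B * X D) * X C * X E =
            (2 * G D B) • (X C * X E) - X B * (X D * X C) * X E := by
          simp only [sub_mul, smul_mul_assoc, one_mul, mul_assoc]
        rw [e2, hsw D C]
        simp only [sub_mul, mul_sub, smul_mul_assoc, mul_smul_comm, mul_one, mul_assoc]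
        abel
      rw [e1]
      module
    simp only [e, Finset.sum_add_distrib, Finset.sum_sub_distrib, ← Finset.smul_sum, hL]
    rw [← hS0, ← hK]
    module
  have h3 : ∑ B, ∑ C, ∑ D, ∑ E, T D B C E • (X B * X C * X D * X E) =
      S0 + (2 : ℂ) • K := by
    rw [← a1a_cyc3 (fun b c d => ∑ E, T d b c E • (X b * X c * X d * X E))]
    have e : ∀ B C D E, T B C D E • (X C * X D * X B * X E) =
        T B C D E • (X B * X C * X D * X E) + (2 : ℂ) • ((T B C D E * G D B) • (X C * X E)) -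
          (2 : ℂ) • ((T B C D E * G C B) • (X D * X E)) := by
      intro B C D E
      have e1 : X C * X D * X B * X E = X B * X C * X D * X E + (2 * G D B) • (X C * X E) -
          (2 * G C B) • (X D * X E) := by
        have e2 : X C * X D * X B * X E = X C * (X D * X B) * X E := by
          simp only [mul_assoc]
        rw [e2, hsw D B]
        have e3 : X C * ((2 * G D B) • (1 : R) - X B * X D) * X E =
            (2 * G D B) • (X C * X E) - (X C * X B) * X D * X E := by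
          simp only [sub_mul, mul_sub, smul_mul_assoc, mul_smul_comm, mul_one, mul_assoc]
        rw [e3, hsw C B]
        simp only [sub_mul, smul_mul_assoc, one_mul, mul_assoc]
        abel
      rw [e1]
      module
    simp only [e, Finset.sum_add_distrib, Finset.sum_sub_distrib, ← Finset.smul_sum, hN]
    rw [← hS0, ← hK]
    module
  have hK2 : K = ∑ B, ∑ C, ∑ D, ∑ E, (T B C D E * G D B) • (X E * X C) := by
    rw [hK, ← a1a_swap4 (fun B C D E => (T B C D E * G D B) • (X C * X E))]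
    refine Finset.sum_congr rfl fun B _ => Finset.sum_congr rfl fun C _ =>
      Finset.sum_congr rfl fun D _ => Finset.sum_congr rfl fun E _ => ?_
    rw [hT2, hG B D]
  have hK3 : (2 : ℂ) • K =
      (∑ B, ∑ C, ∑ D, ∑ E, (T B C D E * G D B) * (2 * G C E)) • (1 : R) := by
    rw [two_smul]
    nth_rewrite 2 [hK2]
    rw [hK]
    simp only [← Finset.sum_add_distrib, ← smul_add, hX, smul_smul, Finset.sum_smul]
  rw [h2, h3, ← hS0] at h1
  refine ⟨-∑ B, ∑ C, ∑ D, ∑ E, (T B C D E * G D B) * (2 * G C E), ?_⟩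
  rw [← hS0, neg_smul, ← hK3]
  have h5 : (3 : ℂ) • S0 = (3 : ℂ) • -((2 : ℂ) • K) := by
    rw [← sub_eq_zero, ← h1]
    module
  have h6 := congrArg (fun w => (1 / 3 : ℂ) • w) h5
  simp only [smul_smul] at h6
  norm_num at h6
  rw [h6]

lemma a1a_NA_sq (x : (Cfg dc)) :
    ∑ A, S.NA A x * S.NA A x =
      ((-(1 / 2) * ∑ A, ∑ i, ∑ j, (S.FF A i j x) ^ 2 : ℝ) : ℂ) • 1 := by
  have h : ∃ e : ℂ, ∑ A, S.NA A x * S.NA A x = e • 1 := by
    obtain ⟨e, he⟩ := a1a_bianchi (fun B => S.a1aX B x) (a1aG x)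
      (fun B C => S.a1aX_anti B C x) (fun B C => by
        unfold a1aG
        exact Finset.sum_congr rfl fun i _ => mul_comm _ _)
      (fun B C D E => ∑ A, (S.f A B C : ℂ) * (S.f A D E : ℂ))
      (fun B C D E => by
        rw [← Finset.sum_neg_distrib]
        refine Finset.sum_congr rfl fun A _ => ?_
        rw [S.f_swap' A B C]
        push_cast
        ring)
      (fun B C D E => Finset.sum_congr rfl fun A _ => mul_comm _ _)
      (fun B C D E => by
        have hj := S.f_jac B C D E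
        rw [← Finset.sum_add_distrib, ← Finset.sum_add_distrib]
        rw [← Complex.ofReal_zero, ← hj]
        push_cast
        refine Finset.sum_congr rfl fun A _ => ?_
        rw [S.f_cyc A B C, S.f_cyc A C D, S.f_cyc A D B])
    refine ⟨(S.κ / 2 : ℂ) * (S.κ / 2 : ℂ) * e, ?_⟩
    rw [mul_smul, ← he]
    have h2 : ∀ A, S.NA A x * S.NA A x = ((S.κ / 2 : ℂ) * (S.κ / 2 : ℂ)) •
        ∑ B, ∑ C, ∑ D, ∑ E, ((S.f A B C : ℂ) * (S.f A D E : ℂ)) •
          (S.a1aX B x * S.a1aX C x * S.a1aX D x * S.a1aX E x) := by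
      intro A
      rw [a1a_NA_X, smul_mul_smul_comm]
      congr 1
      rw [Finset.sum_mul]
      refine Finset.sum_congr rfl fun B _ => ?_
      rw [Finset.sum_mul]
      refine Finset.sum_congr rfl fun C _ => ?_
      rw [Finset.mul_sum]
      refine Finset.sum_congr rfl fun D _ => ?_
      rw [Finset.mul_sum]
      refine Finset.sum_congr rfl fun E _ => ?_
      rw [smul_mul_smul_comm, mul_assoc, mul_assoc, mul_assoc]
    rw [Finset.sum_congr rfl fun A _ => h2 A, ← Finset.smul_sum, a1a_perm5]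
    refine congrArg (fun w => ((S.κ / 2 : ℂ) * (S.κ / 2 : ℂ)) • w) ?_
    refine Finset.sum_congr rfl fun B _ => Finset.sum_congr rfl fun C _ =>
      Finset.sum_congr rfl fun D _ => Finset.sum_congr rfl fun E _ => ?_
    rw [Finset.sum_smul]
  obtain ⟨e, he⟩ := h
  have h3 : (∑ A, S.NA A x * S.NA A x).trace =
      ∑ A, ((-8 * ∑ i, ∑ j, (S.FF A i j x) ^ 2 : ℝ) : ℂ) := by
    rw [Matrix.trace_sum]
    exact Finset.sum_congr rfl fun A _ => S.trace_NA_NA A x
  rw [he, Matrix.trace_smul, CS.trace_one16, smul_eq_mul] at h3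
  rw [he]
  congr 1
  push_cast at h3 ⊢
  rw [← Finset.mul_sum] at h3
  linear_combination (1 / 16) * h3

/-- the zero order part -/
lemma a1a_zero (a b : Fin 16) (x : (Cfg dc)) :
    S.W a x * S.W b x + S.W b x * S.W a x =
      (if a = b then ((2 * S.V x : ℝ) : ℂ) else 0) • (1 : F →L[ℂ] F) := by
  have h1 : S.W a x * S.W b x + S.W b x * S.W a x =
      ∑ A, ∑ B, (if A = B then ((S.NA A x * (S.NA B x)ᵀ) a b) • (1 : F →L[ℂ] F) else 0) := by
    simp only [W_eq_NA, Finset.sum_mul_sum]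
    have : ∑ A, ∑ B, S.vec (S.NA A x) A b * S.vec (S.NA B x) B a =
        ∑ A, ∑ B, S.vec (S.NA B x) B b * S.vec (S.NA A x) A a := Finset.sum_comm
    rw [this, ← Finset.sum_add_distrib]
    simp only [← Finset.sum_add_distrib, S.vec_anti]
  rw [h1]
  simp only [Finset.sum_ite_eq, Finset.mem_univ, if_true, NA_transpose, Matrix.mul_neg,
    Matrix.neg_apply]
  rw [← Finset.sum_smul]
  congr 1
  have h2 := congrArg (fun M => M a b) (S.a1a_NA_sq x)
  simp only [Matrix.sum_apply, Matrix.smul_apply, Matrix.one_apply, smul_eq_mul] at h2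
  rw [Finset.sum_neg_distrib, h2]
  by_cases hab : a = b
  · simp only [hab, if_true, mul_one, V]
    push_cast
    ring
  · simp [hab]

lemma a1a_bil (N : Matrix (Fin 16) (Fin 16) ℂ) (A B : Fin dc) :
    S.bil N A B = ∑ c, ∑ d, N c d • (S.th c A * S.th d B) := by
  simp only [CS.bil, CS.vec, Finset.mul_sum, mul_smul_comm]

/-- the coefficients of the fermionic term -/
noncomputable def a1aK (a b : Fin 16) (l : Fin 9) (c d : Fin 16) : ℂ :=
  ∑ j, (S.g j a c * S.g2 j l b d + S.g j b c * S.g2 j l a d)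

lemma a1a_g2_apply (j l : Fin 9) (b d : Fin 16) :
    S.g2 j l b d = (∑ e, S.g j b e * S.g l e d) - (if j = l then (if b = d then 1 else 0) else 0) := by
  have h1 : S.g2 j l b d = (1 / 2 : ℂ) * ((S.g j * S.g l) b d - (S.g l * S.g j) b d) := by
    rw [CS.g2, Matrix.smul_apply, Matrix.sub_apply, smul_eq_mul]
  have h2 := S.a1a_g_anti_apply j l b d
  have h3 : (∑ e, S.g j b e * S.g l e d) = (S.g j * S.g l) b d := (Matrix.mul_apply).symm
  rw [h1, h3]
  by_cases hjl : j = l <;> by_cases hbd : b = d <;> simp only [hjl, hbd, if_true, if_false] at h2 ⊢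
  all_goals linear_combination -(1 / 2) * h2

lemma a1a_g_sym (i : Fin 9) (a b : Fin 16) : S.g i a b = S.g i b a := by
  have := congrArg (fun M => M b a) (S.g_symm i)
  exact this

lemma a1a_K (h : U.F10Stmt S) (a b : Fin 16) (l : Fin 9) (c d : Fin 16) :
    S.a1aK a b l c d + S.a1aK a b l d c =
      2 * (if a = b then S.g l c d else 0) - 2 * (S.g l a b * (if c = d then 1 else 0)) := by
  have hK : ∀ c d, S.a1aK a b l c d =
      (if a = b then S.g l c d else 0) + (if b = c then S.g l a d else 0) +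
        (if c = a then S.g l b d else 0) - ∑ j, S.g j a b * (S.g j * S.g l) c d -
        (if b = d then S.g l a c else 0) - (if a = d then S.g l b c else 0) := by
    intro c d
    have e1 : S.a1aK a b l c d = (∑ e, (∑ j, (S.g j a c * S.g j b e + S.g j b c * S.g j a e)) *
        S.g l e d) - (if b = d then S.g l a c else 0) - (if a = d then S.g l b c else 0) := by
      unfold a1aK
      simp only [a1a_g2_apply, mul_sub, Finset.sum_add_distrib, Finset.sum_sub_distrib]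
      have e2 : ∀ (p q : Fin 16), ∑ j, S.g j p c * (if j = l then (if q = d then (1 : ℂ) else 0)
          else 0) = (if q = d then S.g l p c else 0) := by
        intro p q
        rw [Finset.sum_eq_single l]
        · by_cases hq : q = d <;> simp [hq]
        · intro j _ hj; simp [hj]
        · intro hh; exact absurd (Finset.mem_univ _) hh
      rw [e2 a b, e2 b a]
      have e3 : ∀ p q : Fin 16, ∑ j, S.g j p c * ∑ e, S.g j q e * S.g l e d =
          ∑ e, (∑ j, S.g j p c * S.g j q e) * S.g l e d := by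
        intro p q
        simp only [Finset.mul_sum, Finset.sum_mul]
        rw [Finset.sum_comm]
        refine Finset.sum_congr rfl fun e _ => Finset.sum_congr rfl fun j _ => ?_
        ring
      rw [e3, e3]
      simp only [add_mul, Finset.sum_add_distrib]
      ring
    rw [e1]
    have e4 : ∀ e, ∑ j, (S.g j a c * S.g j b e + S.g j b c * S.g j a e) =
        (if a = b ∧ c = e then 1 else 0) + (if b = c ∧ a = e then 1 else 0) +
          (if c = a ∧ b = e then 1 else 0) - ∑ j, S.g j a b * S.g j c e := by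
      intro e
      have h5 := h a b c e
      rw [← h5, ← Finset.sum_sub_distrib]
      refine Finset.sum_congr rfl fun j _ => ?_
      rw [S.a1a_g_sym j c a]
      ring
    simp only [e4, sub_mul, add_mul, Finset.sum_sub_distrib, Finset.sum_add_distrib]
    have e5 : ∀ (p : Prop) [Decidable p] (q : Fin 16), ∑ e, (if p ∧ q = e then (1 : ℂ) else 0) *
        S.g l e d = (if p then S.g l q d else 0) := by
      intro p _ q
      by_cases hp : p <;> simp [hp]
    have e6 : ∑ e, (∑ j, S.g j a b * S.g j c e) * S.g l e d =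
        ∑ j, S.g j a b * (S.g j * S.g l) c d := by
      simp only [Matrix.mul_apply, Finset.mul_sum, Finset.sum_mul]
      rw [Finset.sum_comm]
      refine Finset.sum_congr rfl fun e _ => Finset.sum_congr rfl fun j _ => ?_
      ring
    rw [e5, e5, e5, e6]
  rw [hK, hK]
  have e7 : ∑ j, S.g j a b * (S.g j * S.g l) c d + ∑ j, S.g j a b * (S.g j * S.g l) d c =
      2 * (S.g l a b * (if c = d then 1 else 0)) := by
    rw [← Finset.sum_add_distrib]
    have e8 : ∀ j, S.g j a b * (S.g j * S.g l) c d + S.g j a b * (S.g j * S.g l) d c =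
        if j = l then S.g j a b * (if c = d then 2 else 0) else 0 := by
      intro j
      have e9 : (S.g j * S.g l) d c = (S.g l * S.g j) c d := by
        have : (S.g j * S.g l) d c = ((S.g j * S.g l)ᵀ) c d := rfl
        rw [this, Matrix.transpose_mul, S.g_symm, S.g_symm]
      rw [e9, ← mul_add, a1a_g_anti_apply]
      by_cases hj : j = l <;> simp [hj]
    simp only [e8]
    rw [Finset.sum_ite_eq']
    by_cases hcd : c = d <;> simp [hcd]
    ring
  rw [S.a1a_g_sym l d c]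
  have s1 : (if d = a then S.g l b c else 0) = (if a = d then S.g l b c else 0) := by
    simp only [eq_comm]
  have s2 : (if c = a then S.g l b d else 0) = (if a = c then S.g l b d else 0) := by
    simp only [eq_comm]
  rw [s1, s2]
  linear_combination -e7

/-- the zero order part coming from `∂W` -/
lemma a1a_ferm_aux (h : U.F10Stmt S) (a b : Fin 16) (l : Fin 9) (D : Fin dc) :
    ∑ A, ∑ B, (S.f A B D : ℂ) • ∑ j, (S.vec (S.g j) B a * S.vec (S.g2 j l) A b +
      S.vec (S.g j) B b * S.vec (S.g2 j l) A a) =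
    ∑ A, ∑ B, (S.f A B D : ℂ) • ((if a = b then S.bil (S.g l) B A else 0) -
      S.g l a b • S.bil 1 B A) := by
  have e1 : ∀ A B, ∑ j, (S.vec (S.g j) B a * S.vec (S.g2 j l) A b +
      S.vec (S.g j) B b * S.vec (S.g2 j l) A a) =
      ∑ c, ∑ d, S.a1aK a b l c d • (S.th c B * S.th d A) := by
    intro A B
    have e2 : ∀ p q : Fin 16, ∀ j, S.vec (S.g j) B p * S.vec (S.g2 j l) A q =
        ∑ c, ∑ d, (S.g j p c * S.g2 j l q d) • (S.th c B * S.th d A) := by
      intro p q j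
      simp only [CS.vec, Finset.sum_mul_sum, smul_mul_smul_comm]
    simp only [e2, ← Finset.sum_add_distrib, ← add_smul]
    unfold a1aK
    rw [Finset.sum_comm]
    refine Finset.sum_congr rfl fun c _ => ?_
    rw [Finset.sum_comm]
    refine Finset.sum_congr rfl fun d _ => ?_
    rw [← Finset.sum_smul]
  simp only [e1]
  have e3 : ∑ A, ∑ B, (S.f A B D : ℂ) • ∑ c, ∑ d, S.a1aK a b l c d • (S.th c B * S.th d A) =
      ∑ A, ∑ B, (S.f A B D : ℂ) • ∑ c, ∑ d, S.a1aK a b l d c • (S.th c B * S.th d A) := by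
    rw [Finset.sum_comm]
    refine Finset.sum_congr rfl fun A _ => Finset.sum_congr rfl fun B _ => ?_
    by_cases hAB : A = B
    · subst hAB
      have : S.f A A D = 0 := by linarith [S.f_swap A A D]
      rw [this]
      simp
    · have h1 : S.f B A D = -S.f A B D := S.f_swap B A D
      have h2 : ∑ c, ∑ d, S.a1aK a b l c d • (S.th c A * S.th d B) =
          -∑ c, ∑ d, S.a1aK a b l d c • (S.th c B * S.th d A) := by
        rw [Finset.sum_comm, ← Finset.sum_neg_distrib]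
        refine Finset.sum_congr rfl fun c _ => ?_
        rw [← Finset.sum_neg_distrib]
        refine Finset.sum_congr rfl fun d _ => ?_
        have h3 := S.th_anti d A c B
        rw [if_neg (fun hh => hAB hh.2)] at h3
        rw [eq_neg_of_add_eq_zero_left h3, smul_neg]
      rw [h1, h2]
      push_cast
      simp only [neg_smul, smul_neg, neg_neg]
  have e4 : (2 : ℂ) • ∑ A, ∑ B, (S.f A B D : ℂ) • ∑ c, ∑ d, S.a1aK a b l c d •
      (S.th c B * S.th d A) = (2 : ℂ) • ∑ A, ∑ B, (S.f A B D : ℂ) •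
      ((if a = b then S.bil (S.g l) B A else 0) - S.g l a b • S.bil 1 B A) := by
    rw [two_smul]
    nth_rewrite 2 [e3]
    simp only [← Finset.sum_add_distrib, ← smul_add, ← add_smul, S.a1a_K h, Finset.smul_sum]
    refine Finset.sum_congr rfl fun A _ => Finset.sum_congr rfl fun B _ => ?_
    rw [smul_comm (2 : ℂ)]
    simp only [← Finset.smul_sum (r := (S.f A B D : ℂ))]
    congr 1
    have e5 : S.bil 1 B A = ∑ c, ∑ d, (if c = d then (1 : ℂ) else 0) • (S.th c B * S.th d A) := by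
      rw [a1a_bil]
      rfl
    have e6 : (if a = b then S.bil (S.g l) B A else 0) = ∑ c, ∑ d,
        (if a = b then S.g l c d else 0) • (S.th c B * S.th d A) := by
      by_cases hab : a = b
      · simp only [hab, if_true, a1a_bil]
      · simp [hab]
    rw [e5, e6, Finset.smul_sum, ← Finset.sum_sub_distrib, Finset.smul_sum]
    refine Finset.sum_congr rfl fun c _ => ?_
    rw [Finset.smul_sum, ← Finset.sum_sub_distrib, Finset.smul_sum]
    refine Finset.sum_congr rfl fun d _ => ?_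
    rw [sub_smul, smul_sub, smul_smul, smul_smul, smul_smul, mul_assoc]
  have e7 := congrArg (fun w => (1 / 2 : ℂ) • w) e4
  simp only [smul_smul] at e7
  norm_num at e7
  exact e7

lemma a1a_ferm1 (a b : Fin 16) (x : (Cfg dc)) :
    ∑ j, ∑ B, (S.vec (S.g j) B a *
        (fderiv ℝ (S.W b) x (EuclideanSpace.single (j, B) (1 : ℝ))) + S.vec (S.g j) B b *
        (fderiv ℝ (S.W a) x (EuclideanSpace.single (j, B) (1 : ℝ)))) =
      (S.κ : ℂ) • ∑ l, ∑ D, (x (l, D) : ℂ) • ∑ A, ∑ B, (S.f A B D : ℂ) •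
        ∑ j, (S.vec (S.g j) B a * S.vec (S.g2 j l) A b +
          S.vec (S.g j) B b * S.vec (S.g2 j l) A a) := by
  have e2 : ∀ j B, (S.vec (S.g j) B a *
      (fderiv ℝ (S.W b) x (EuclideanSpace.single (j, B) (1 : ℝ))) + S.vec (S.g j) B b *
      (fderiv ℝ (S.W a) x (EuclideanSpace.single (j, B) (1 : ℝ)))) =
      (S.κ : ℂ) • ∑ A, ∑ l, ∑ D, (x (l, D) : ℂ) • (S.f A B D : ℂ) •
        (S.vec (S.g j) B a * S.vec (S.g2 j l) A b +
        S.vec (S.g j) B b * S.vec (S.g2 j l) A a) := by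
    intro j B
    rw [fderiv_W, fderiv_W, mul_smul_comm, mul_smul_comm, ← smul_add]
    congr 1
    simp only [Finset.mul_sum, mul_smul_comm, ← Finset.sum_add_distrib, ← smul_add, smul_smul]
    refine Finset.sum_congr rfl fun A _ => Finset.sum_congr rfl fun l _ =>
      Finset.sum_congr rfl fun D _ => ?_
    rw [mul_comm]
  simp only [e2, ← Finset.smul_sum (r := (S.κ : ℂ))]
  congr 1
  generalize hf : (fun (j : Fin 9) (B A : Fin dc) (l : Fin 9) (D : Fin dc) =>
    (S.vec (S.g j) B a * S.vec (S.g2 j l) A b + S.vec (S.g j) B b * S.vec (S.g2 j l) A a)) = f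
  calc _ = ∑ j, ∑ B, ∑ A, ∑ l, ∑ D, (x (l, D) : ℂ) • (S.f A B D : ℂ) • f j B A l D := by
        simp only [← hf]
    _ = ∑ j, ∑ B, ∑ l, ∑ A, ∑ D, (x (l, D) : ℂ) • (S.f A B D : ℂ) • f j B A l D :=
        Finset.sum_congr rfl fun j _ => Finset.sum_congr rfl fun B _ => Finset.sum_comm
    _ = ∑ j, ∑ l, ∑ B, ∑ A, ∑ D, (x (l, D) : ℂ) • (S.f A B D : ℂ) • f j B A l D :=
        Finset.sum_congr rfl fun j _ => Finset.sum_comm
    _ = ∑ l, ∑ j, ∑ B, ∑ A, ∑ D, (x (l, D) : ℂ) • (S.f A B D : ℂ) • f j B A l D :=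
        Finset.sum_comm
    _ = ∑ l, ∑ j, ∑ D, ∑ A, ∑ B, (x (l, D) : ℂ) • (S.f A B D : ℂ) • f j B A l D := by
        refine Finset.sum_congr rfl fun l _ => Finset.sum_congr rfl fun j _ => ?_
        rw [Finset.sum_comm]
        rw [Finset.sum_congr rfl fun A _ => Finset.sum_comm]
        rw [Finset.sum_comm]
    _ = ∑ l, ∑ D, ∑ j, ∑ A, ∑ B, (x (l, D) : ℂ) • (S.f A B D : ℂ) • f j B A l D :=
        Finset.sum_congr rfl fun l _ => Finset.sum_comm
    _ = ∑ l, ∑ D, ∑ A, ∑ j, ∑ B, (x (l, D) : ℂ) • (S.f A B D : ℂ) • f j B A l D :=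
        Finset.sum_congr rfl fun l _ => Finset.sum_congr rfl fun D _ => Finset.sum_comm
    _ = ∑ l, ∑ D, ∑ A, ∑ B, ∑ j, (x (l, D) : ℂ) • (S.f A B D : ℂ) • f j B A l D :=
        Finset.sum_congr rfl fun l _ => Finset.sum_congr rfl fun D _ =>
          Finset.sum_congr rfl fun A _ => Finset.sum_comm
    _ = _ := by
        simp only [← hf, Finset.smul_sum]

lemma a1a_ferm2 (a b : Fin 16) (x : (Cfg dc)) (l : Fin 9) (D : Fin dc) :
    (x (l, D) : ℂ) • ∑ A, ∑ B, (S.f A B D : ℂ) •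
      ((if a = b then S.bil (S.g l) B A else 0) - S.g l a b • S.bil 1 B A) =
      (if a = b then -∑ A, ∑ B, ((S.f A B D : ℂ) * (x (l, D) : ℂ)) •
        S.bil (S.g l) A B else 0) + (S.g l a b * (x (l, D) : ℂ)) •
          ∑ A, ∑ B, (S.f D A B : ℂ) • S.bil 1 A B := by
  have hs2 : ∀ A B : Fin dc, (S.f A B D : ℂ) = (S.f D A B : ℂ) := by
    intro A B
    have : S.f A B D = S.f D A B := (S.f_cyc D A B).symm
    rw [this]
  have hs : ∀ A B : Fin dc, (S.f A B D : ℂ) = -(S.f B A D : ℂ) := by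
    intro A B
    have : S.f A B D = -S.f B A D := S.f_swap A B D
    rw [this]
    push_cast
    ring
  rw [Finset.sum_comm]
  simp only [Finset.smul_sum]
  have t : ∀ A B : Fin dc, (x (l, D) : ℂ) • (S.f A B D : ℂ) •
      ((if a = b then S.bil (S.g l) B A else 0) - S.g l a b • S.bil 1 B A) =
      -(if a = b then ((S.f B A D : ℂ) * (x (l, D) : ℂ)) • S.bil (S.g l) B A else 0) +
        (S.g l a b * (x (l, D) : ℂ)) • (S.f D B A : ℂ) • S.bil 1 B A := by
    intro A B
    rw [hs A B, hs2 B A]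
    by_cases hab : a = b
    · simp only [hab, if_true]
      module
    · simp only [hab, if_false]
      module
  simp only [t, Finset.sum_add_distrib]
  congr 1
  by_cases hab : a = b
  · simp only [hab, if_true, Finset.sum_neg_distrib]
  · simp [hab]

/-- the zero order part coming from `∂W` -/
lemma a1a_ferm (h : U.F10Stmt S) (a b : Fin 16) (x : (Cfg dc)) :
    (-Complex.I) • ∑ j, ∑ B, (S.vec (S.g j) B a *
        (fderiv ℝ (S.W b) x (EuclideanSpace.single (j, B) (1 : ℝ))) + S.vec (S.g j) B b *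
        (fderiv ℝ (S.W a) x (EuclideanSpace.single (j, B) (1 : ℝ)))) =
      (if a = b then (2 : ℂ) • S.Fx x else 0) +
        (2 * S.κ : ℂ) • ∑ l, ∑ D, (S.g l a b * (x (l, D) : ℂ)) • S.cS D := by
  rw [S.a1a_ferm1]
  simp only [S.a1a_ferm_aux h]
  simp only [S.a1a_ferm2]
  simp only [Finset.sum_add_distrib]
  rw [smul_add, smul_add]
  congr 1
  · by_cases hab : a = b
    · simp only [hab, if_true, Fx, Finset.sum_neg_distrib, smul_neg, smul_smul, ← neg_smul]
      have e : ∑ l, ∑ D, ∑ A, ∑ B, ((S.f A B D : ℂ) * (x (l, D) : ℂ)) • S.bil (S.g l) A B =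
          ∑ q, ∑ A, ∑ B, ∑ C, ((S.f A B C : ℂ) * (x (q, C) : ℂ)) • S.bil (S.g q) A B := by
        refine Finset.sum_congr rfl fun l _ => ?_
        rw [Finset.sum_comm]
        refine Finset.sum_congr rfl fun A _ => ?_
        rw [Finset.sum_comm]
      rw [e]
      congr 1
      ring
    · simp [hab]
  · simp only [cS, smul_smul, Finset.smul_sum]
    refine Finset.sum_congr rfl fun l _ => Finset.sum_congr rfl fun D _ =>
      Finset.sum_congr rfl fun A _ => Finset.sum_congr rfl fun B _ => ?_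
    congr 1
    ring

lemma a1a_first_sum (a b : Fin 16) (x : (Cfg dc)) (p : Fin 9 → Fin dc → F) :
    (-Complex.I) • ∑ j, ∑ B, (-(2 : ℂ) * ∑ l, ((S.FF B j l x : ℝ) : ℂ) * S.g l a b) • p j B =
      (2 * S.κ : ℂ) • ∑ l, ∑ D, (S.g l a b * (x (l, D) : ℂ)) •
        ((-Complex.I) • ∑ i, ∑ A, ∑ B, ((S.f D A B : ℂ) * (x (i, A) : ℂ)) • p i B) := by
  have hs2 : ∀ A B D : Fin dc, (S.f B A D : ℂ) = -(S.f D A B : ℂ) := by
    intro A B D
    have : S.f B A D = -S.f D A B := by rw [S.f_swap B A D, S.f_cyc D A B]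
    rw [this]
    push_cast
    ring
  have e1 : ∀ j B, (-(2 : ℂ) * ∑ l, ((S.FF B j l x : ℝ) : ℂ) * S.g l a b) • p j B =
      ∑ l, ∑ D, ∑ A, ((2 * S.κ : ℂ) * (S.g l a b * (x (l, D) : ℂ)) *
        ((S.f D A B : ℂ) * (x (j, A) : ℂ))) • p j B := by
    intro j B
    simp only [← Finset.sum_smul]
    congr 1
    rw [Finset.mul_sum]
    refine Finset.sum_congr rfl fun l _ => ?_
    unfold FF
    push_cast
    rw [Finset.sum_comm, Finset.mul_sum, Finset.sum_mul, Finset.mul_sum]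
    refine Finset.sum_congr rfl fun D _ => ?_
    rw [Finset.mul_sum, Finset.sum_mul, Finset.mul_sum]
    refine Finset.sum_congr rfl fun A _ => ?_
    rw [hs2 A B D]
    ring
  simp only [e1]
  generalize hf : (fun (j : Fin 9) (B : Fin dc) (l : Fin 9) (D A : Fin dc) =>
    ((2 * S.κ : ℂ) * (S.g l a b * (x (l, D) : ℂ)) * ((S.f D A B : ℂ) * (x (j, A) : ℂ))) •
      p j B) = f
  have hr : (2 * S.κ : ℂ) • ∑ l, ∑ D, (S.g l a b * (x (l, D) : ℂ)) •
        ((-Complex.I) • ∑ i, ∑ A, ∑ B, ((S.f D A B : ℂ) * (x (i, A) : ℂ)) • p i B) =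
      (-Complex.I) • ∑ l, ∑ D, ∑ i, ∑ A, ∑ B, f i B l D A := by
    simp only [← hf, Finset.smul_sum, smul_smul]
    refine Finset.sum_congr rfl fun l _ => Finset.sum_congr rfl fun D _ =>
      Finset.sum_congr rfl fun i _ => Finset.sum_congr rfl fun A _ =>
      Finset.sum_congr rfl fun B _ => ?_
    congr 1
    ring
  rw [hr]
  congr 1
  calc _ = ∑ j, ∑ B, ∑ l, ∑ D, ∑ A, f j B l D A := by simp only [← hf]
    _ = ∑ j, ∑ l, ∑ B, ∑ D, ∑ A, f j B l D A :=
        Finset.sum_congr rfl fun j _ => Finset.sum_comm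
    _ = ∑ l, ∑ j, ∑ B, ∑ D, ∑ A, f j B l D A := Finset.sum_comm
    _ = ∑ l, ∑ j, ∑ D, ∑ B, ∑ A, f j B l D A :=
        Finset.sum_congr rfl fun l _ => Finset.sum_congr rfl fun j _ => Finset.sum_comm
    _ = ∑ l, ∑ D, ∑ j, ∑ B, ∑ A, f j B l D A :=
        Finset.sum_congr rfl fun l _ => Finset.sum_comm
    _ = ∑ l, ∑ D, ∑ j, ∑ A, ∑ B, f j B l D A :=
        Finset.sum_congr rfl fun l _ => Finset.sum_congr rfl fun D _ =>
          Finset.sum_congr rfl fun j _ => Finset.sum_comm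

lemma a1a_arrange {M : Type*} [AddCommGroup M] {X1 X2 T1 T2 P1 P2 Z1 Z2 X Fp Cp V P : M}
    (hX : X1 + X2 = X) (hT : T1 + T2 = Fp + Cp) (hP : P1 + P2 = P) (hZ : Z1 + Z2 = V) :
    -X1 + T1 + P1 + Z1 + (-X2 + T2 + P2 + Z2) = -X + Fp + V + (P + Cp) := by
  have h : Fp = T1 + T2 - Cp := by rw [hT]; abel
  rw [h, ← hX, ← hP, ← hZ]
  abel

/-- **A1a** the anticommutator of the undeformed supercharges -/
theorem a1a (h : U.F10Stmt S) : U.A1aStmt S := by
  intro a b u hu x
  rw [S.a1a_expand a b hu, S.a1a_expand b a hu]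
  have hsec := S.a1a_second a b (fun j B i A => pd j B (pd i A u) x)
    (fun i A j B => pd_comm hu i j A B x)
  have hferm := congrArg (fun T : F →L[ℂ] F => T (u x)) (S.a1a_ferm h a b x)
  have hzero := congrArg (fun T : F →L[ℂ] F => T (u x)) (S.a1a_zero a b x)
  have hfirst : (-Complex.I) • ∑ j, ∑ B, (S.vec (S.g j) B a * S.W b x +
        S.W a x * S.vec (S.g j) B b) (pd j B u x) +
      (-Complex.I) • ∑ j, ∑ B, (S.vec (S.g j) B b * S.W a x +
        S.W b x * S.vec (S.g j) B a) (pd j B u x) =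
      (2 * S.κ : ℂ) • ∑ l, ∑ D, (S.g l a b * (x (l, D) : ℂ)) •
        ((-Complex.I) • ∑ i, ∑ A, ∑ B, ((S.f D A B : ℂ) * (x (i, A) : ℂ)) • pd i B u x) := by
    rw [← smul_add]
    simp only [← Finset.sum_add_distrib, ← _root_.add_apply]
    have f1 : ∀ j B, (S.vec (S.g j) B a * S.W b x + S.W a x * S.vec (S.g j) B b +
        (S.vec (S.g j) B b * S.W a x + S.W b x * S.vec (S.g j) B a)) (pd j B u x) =
        (-(2 : ℂ) * ∑ l, ((S.FF B j l x : ℝ) : ℂ) * S.g l a b) • pd j B u x := by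
      intro j B
      have f2 := congrArg (fun T : F →L[ℂ] F => T (pd j B u x)) (S.a1a_first a b j B x)
      simp only [_root_.add_apply, _root_.smul_apply] at f2 ⊢
      rw [one_apply_eq_self] at f2
      rw [← f2]
      abel
    simp only [f1]
    exact S.a1a_first_sum a b x (fun j B => pd j B u x)
  have hT : ((-Complex.I) • ∑ j, ∑ B, S.vec (S.g j) B a *
        (fderiv ℝ (S.W b) x (EuclideanSpace.single (j, B) (1 : ℝ)))) (u x) +
      ((-Complex.I) • ∑ j, ∑ B, S.vec (S.g j) B b *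
        (fderiv ℝ (S.W a) x (EuclideanSpace.single (j, B) (1 : ℝ)))) (u x) =
      (if a = b then (2 : ℂ) • S.Fx x (u x) else 0) +
        (2 * S.κ : ℂ) • ∑ l, ∑ D, (S.g l a b * (x (l, D) : ℂ)) • S.cS D (u x) := by
    rw [← _root_.add_apply, ← smul_add]
    simp only [← Finset.sum_add_distrib]
    refine hferm.trans ?_
    simp only [_root_.add_apply, _root_.smul_apply, _root_.sum_apply]
    congr 1
    by_cases hab : a = b <;> simp [hab]
  have hZ : (S.W a x * S.W b x) (u x) + (S.W b x * S.W a x) (u x) =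
      if a = b then ((2 * S.V x : ℝ) : ℂ) • u x else 0 := by
    rw [← _root_.add_apply]
    refine hzero.trans ?_
    by_cases hab : a = b <;> simp [hab]
  have hG : (2 * S.κ : ℂ) • ∑ j, ∑ C, (S.g j a b * (x (j, C) : ℂ)) • S.G C u x =
      (2 * S.κ : ℂ) • ∑ l, ∑ D, (S.g l a b * (x (l, D) : ℂ)) •
        ((-Complex.I) • ∑ i, ∑ A, ∑ B, ((S.f D A B : ℂ) * (x (i, A) : ℂ)) • pd i B u x) +
      (2 * S.κ : ℂ) • ∑ l, ∑ D, (S.g l a b * (x (l, D) : ℂ)) • S.cS D (u x) := by
    rw [← smul_add]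
    simp only [← Finset.sum_add_distrib, ← smul_add]
    rfl
  have hH : (if a = b then (2 : ℂ) • S.Hm 0 u x else 0) =
      -(if a = b then ∑ i, ∑ A, pd i A (pd i A u) x else 0) +
      (if a = b then (2 : ℂ) • S.Fx x (u x) else 0) +
      (if a = b then ((2 * S.V x : ℝ) : ℂ) • u x else 0) := by
    by_cases hab : a = b
    · simp only [hab, if_true]
      have hV : S.Vm 0 x = S.V x := by simp [Vm]
      rw [Hm, hV]
      push_cast
      simp only [mul_zero, zero_smul, sub_zero, smul_add, smul_smul]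
      module
    · simp [hab]
  rw [hG, hH]
  exact a1a_arrange hsec hT hfirst hZ

end Setup

/-- **A1a** without hypotheses -/
theorem U.a1a (S : Setup dc F) : U.A1aStmt S := S.a1a (U.f10 S)

end Vale.Agent.P353.Z
end

section

/-! # P353, general `N`: C-Crit and C-Inv -/

open MeasureTheory Filter Topology
open scoped ContDiff Matrix Kronecker

namespace Vale.Agent.P353.Z.U

variable {d : ℕ} {F : Type*} [NormedAddCommGroup F] [InnerProductSpace ℂ F]

namespace InvPf

section ring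

variable {R : Type*} [Ring R] {a b c : R}

lemma r0 (ha : a * a = 1) (hab : a * b = -(b * a)) (hac : a * c = -(c * a)) :
    a * b * c * a = b * c := by
  have h1 : c * a = -(a * c) := by rw [hac, neg_neg]
  have h2 : b * a = -(a * b) := by rw [hab, neg_neg]
  calc a * b * c * a = a * b * (c * a) := by rw [mul_assoc (a * b)]
    _ = -(a * (b * a) * c) := by rw [h1]; noncomm_ring
    _ = a * a * b * c := by rw [h2]; noncomm_ring
    _ = b * c := by rw [ha, one_mul]

lemma r1 (hb : b * b = 1) (hac : a * c = -(c * a))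
    (hbc : b * c = -(c * b)) : a * b * c * b = c * a := by
  have h1 : c * b = -(b * c) := by rw [hbc, neg_neg]
  calc a * b * c * b = a * b * (c * b) := by rw [mul_assoc (a * b)]
    _ = -(a * (b * b) * c) := by rw [h1]; noncomm_ring
    _ = c * a := by rw [hb, mul_one, hac, neg_neg]

lemma r2 (hc : c * c = 1) : a * b * c * c = a * b := by
  rw [mul_assoc (a * b), hc, mul_one]

/-- `(bc)(bc) = -1` -/
lemma q0 (hb : b * b = 1) (hc : c * c = 1) (hbc : b * c = -(c * b)) :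
    b * c * (b * c) = -1 := by
  have h1 : c * b = -(b * c) := by rw [hbc, neg_neg]
  calc b * c * (b * c) = b * (c * b) * c := by noncomm_ring
    _ = -(b * b * (c * c)) := by rw [h1]; noncomm_ring
    _ = -1 := by rw [hb, hc, one_mul]

/-- `(bc)(ca) = ba` -/
lemma q1 (hc : c * c = 1) : b * c * (c * a) = b * a := by
  calc b * c * (c * a) = b * (c * c) * a := by noncomm_ring
    _ = b * a := by rw [hc, mul_one]

/-- `(ca)(bc) = ab` -/
lemma q2 (hc : c * c = 1) (hac : a * c = -(c * a)) (hbc : b * c = -(c * b)) :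
    c * a * (b * c) = a * b := by
  have h1 : c * a = -(a * c) := by rw [hac, neg_neg]
  have h2 : c * b = -(b * c) := by rw [hbc, neg_neg]
  calc c * a * (b * c) = -(a * (c * b) * c) := by rw [h1]; noncomm_ring
    _ = a * b * (c * c) := by rw [h2]; noncomm_ring
    _ = a * b := by rw [hc, mul_one]

end ring

/-- real gamma matrices -/
noncomputable def gr (S : Setup d F) (i : Fin 9) : Matrix (Fin 16) (Fin 16) ℝ :=
  (S.g i).map Complex.re

lemma gr_map (S : Setup d F) (i : Fin 9) : (gr S i).map (Complex.ofRealHom) = S.g i := by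
  ext α β
  simp only [gr, Matrix.map_apply, Complex.ofRealHom_eq_coe]
  apply Complex.ext
  · simp
  · simp [S.g_real i α β]

lemma map_inj {M N : Matrix (Fin 16) (Fin 16) ℝ}
    (h : M.map (Complex.ofRealHom) = N.map (Complex.ofRealHom)) : M = N := by
  ext α β
  have := congrFun (congrFun h α) β
  simpa using this

lemma gr_sq (S : Setup d F) (i : Fin 9) : gr S i * gr S i = 1 := by
  apply map_inj
  rw [Matrix.map_mul, gr_map, S.g_sqE]
  simp

lemma neg_map' (M : Matrix (Fin 16) (Fin 16) ℝ) :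
    (-M).map (Complex.ofRealHom) = -(M.map (Complex.ofRealHom)) := by
  ext α β
  simp only [Matrix.map_apply, Matrix.neg_apply, map_neg]

lemma gr_ac (S : Setup d F) {i j : Fin 9} (h : i ≠ j) : gr S i * gr S j = -(gr S j * gr S i) := by
  apply map_inj
  rw [neg_map', Matrix.map_mul, Matrix.map_mul, gr_map, gr_map, S.g_ac h]

lemma gr_symm (S : Setup d F) (i : Fin 9) : (gr S i)ᵀ = gr S i := by
  ext α β
  have h := congrFun (congrFun (S.g_symm i) α) β
  simp only [Matrix.transpose_apply] at h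
  simp only [gr, Matrix.transpose_apply, Matrix.map_apply, h]

/-- real `Γ` -/
noncomputable def Gr (S : Setup d F) : Matrix (Fin 16) (Fin 16) ℝ := gr S 0 * gr S 1 * gr S 2

lemma Gr_map (S : Setup d F) : (Gr S).map (Complex.ofRealHom) = S.Gam := by
  unfold Gr Setup.Gam
  rw [Matrix.map_mul, Matrix.map_mul, gr_map, gr_map, gr_map]

lemma Gr_transpose (S : Setup d F) : (Gr S)ᵀ = -Gr S := by
  apply map_inj
  rw [neg_map', Gr_map, ← S.Gam_transpose, ← Gr_map]
  rfl

lemma Gr_sq (S : Setup d F) : Gr S * Gr S = -1 := by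
  apply map_inj
  rw [Matrix.map_mul, Gr_map, S.Gam_sq]
  ext α β
  by_cases h : α = β
  · subst h; simp
  · simp [h]

lemma n01 : (0 : Fin 9) ≠ 1 := by decide
lemma n02 : (0 : Fin 9) ≠ 2 := by decide
lemma n12 : (1 : Fin 9) ≠ 2 := by decide

lemma G0 (S : Setup d F) : Gr S * gr S 0 = gr S 1 * gr S 2 :=
  r0 (gr_sq S 0) (gr_ac S n01) (gr_ac S n02)

lemma G1 (S : Setup d F) : Gr S * gr S 1 = gr S 2 * gr S 0 :=
  r1 (gr_sq S 1) (gr_ac S n02) (gr_ac S n12)

lemma G2 (S : Setup d F) : Gr S * gr S 2 = gr S 0 * gr S 1 := r2 (gr_sq S 2)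

/-- colour matrices `D_q` -/
noncomputable def Dq (S : Setup d F) (ξ : Cfg d) (q : Fin 9) : Matrix (Fin d) (Fin d) ℝ :=
  Matrix.of fun A B => S.κ / 2 * ∑ C, S.f A B C * ξ (q, C)

lemma Dq_transpose (S : Setup d F) (ξ : Cfg d) (q : Fin 9) : (Dq S ξ q)ᵀ = -Dq S ξ q := by
  ext A B
  simp only [Dq, Matrix.transpose_apply, Matrix.of_apply, Matrix.neg_apply]
  rw [← mul_neg, ← Finset.sum_neg_distrib]
  congr 1
  refine Finset.sum_congr rfl fun C _ => ?_
  rw [S.f_swap B A C]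
  ring

lemma jac2 (S : Setup d F) (A B C C' : Fin d) :
    ∑ E, (S.f A E C * S.f E B C' - S.f A E C' * S.f E B C) = -∑ E, S.f A B E * S.f E C C' := by
  have h := S.f_jac C A B C'
  have h2 : ∑ E, (S.f A E C * S.f E B C' - S.f A E C' * S.f E B C) + ∑ E, S.f A B E * S.f E C C'
      = 0 := by
    rw [← h, ← Finset.sum_add_distrib]
    refine Finset.sum_congr rfl fun E _ => ?_
    have e1 : S.f C A E = S.f A E C := S.f_cyc C A E
    have e2 : S.f B C E = S.f E B C := by rw [S.f_cyc E B C]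
    have e3 : S.f E A C' = -S.f A E C' := S.f_swap E A C'
    rw [e1, e2, e3]
    ring
  linarith

lemma Dq_comm (S : Setup d F) (ξ : Cfg d) {i j k : Fin 9}
    (h : ∀ E, S.FF E i j ξ = -2 * ξ (k, E)) :
    Dq S ξ i * Dq S ξ j - Dq S ξ j * Dq S ξ i = Dq S ξ k := by
  ext A B
  have hk : ∀ E, ξ (k, E) = -(S.κ / 2) * ∑ C, ∑ C', S.f E C C' * ξ (i, C) * ξ (j, C') := by
    intro E
    have := h E
    unfold Setup.FF at this
    linarith
  have hR : Dq S ξ k A B = S.κ ^ 2 / 4 * ∑ C, ∑ C', (ξ (i, C) * ξ (j, C')) *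
      (-∑ E, S.f A B E * S.f E C C') := by
    simp only [Dq, Matrix.of_apply, hk]
    have e1 : ∑ E, S.f A B E * (-(S.κ / 2) * ∑ C, ∑ C', S.f E C C' * ξ (i, C) * ξ (j, C')) =
        (S.κ / 2) * ∑ E, ∑ C, ∑ C', (ξ (i, C) * ξ (j, C')) * (-(S.f A B E * S.f E C C')) := by
      rw [Finset.mul_sum]
      refine Finset.sum_congr rfl fun E _ => ?_
      simp only [Finset.mul_sum]
      refine Finset.sum_congr rfl fun C _ => Finset.sum_congr rfl fun C' _ => ?_
      ring
    rw [e1, Finset.sum_comm]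
    have e2 : ∀ C, ∑ E, ∑ C', (ξ (i, C) * ξ (j, C')) * (-(S.f A B E * S.f E C C')) =
        ∑ C', (ξ (i, C) * ξ (j, C')) * (-∑ E, S.f A B E * S.f E C C') := by
      intro C
      rw [Finset.sum_comm]
      refine Finset.sum_congr rfl fun C' _ => ?_
      rw [← Finset.sum_neg_distrib, Finset.mul_sum]
    rw [Finset.sum_congr rfl fun C _ => e2 C]
    ring
  have hL : (Dq S ξ i * Dq S ξ j - Dq S ξ j * Dq S ξ i) A B = S.κ ^ 2 / 4 * ∑ C, ∑ C',
      (ξ (i, C) * ξ (j, C')) * ∑ E, (S.f A E C * S.f E B C' - S.f A E C' * S.f E B C) := by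
    simp only [Matrix.sub_apply, Matrix.mul_apply, Dq, Matrix.of_apply]
    have e1 : ∀ E, (S.κ / 2 * ∑ C, S.f A E C * ξ (i, C)) * (S.κ / 2 * ∑ C', S.f E B C' * ξ (j, C'))
        = S.κ ^ 2 / 4 * ∑ C, ∑ C', (ξ (i, C) * ξ (j, C')) * (S.f A E C * S.f E B C') := by
      intro E
      have : (∑ C, S.f A E C * ξ (i, C)) * (∑ C', S.f E B C' * ξ (j, C')) =
          ∑ C, ∑ C', (ξ (i, C) * ξ (j, C')) * (S.f A E C * S.f E B C') := by
        rw [Finset.sum_mul_sum]
        refine Finset.sum_congr rfl fun C _ => Finset.sum_congr rfl fun C' _ => ?_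
        ring
      rw [← this]
      ring
    have e2 : ∀ E, (S.κ / 2 * ∑ C', S.f A E C' * ξ (j, C')) * (S.κ / 2 * ∑ C, S.f E B C * ξ (i, C))
        = S.κ ^ 2 / 4 * ∑ C, ∑ C', (ξ (i, C) * ξ (j, C')) * (S.f A E C' * S.f E B C) := by
      intro E
      have : (∑ C', S.f A E C' * ξ (j, C')) * (∑ C, S.f E B C * ξ (i, C)) =
          ∑ C, ∑ C', (ξ (i, C) * ξ (j, C')) * (S.f A E C' * S.f E B C) := by
        rw [Finset.sum_mul_sum, Finset.sum_comm]
        refine Finset.sum_congr rfl fun C _ => Finset.sum_congr rfl fun C' _ => ?_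
        ring
      rw [← this]
      ring
    rw [Finset.sum_congr rfl fun E _ => e1 E, Finset.sum_congr rfl fun E _ => e2 E,
      ← Finset.mul_sum, ← Finset.mul_sum, ← mul_sub]
    congr 1
    rw [← Finset.sum_sub_distrib]
    have e3 : ∀ E, (∑ C, ∑ C', (ξ (i, C) * ξ (j, C')) * (S.f A E C * S.f E B C')) -
        (∑ C, ∑ C', (ξ (i, C) * ξ (j, C')) * (S.f A E C' * S.f E B C)) =
        ∑ C, ∑ C', (ξ (i, C) * ξ (j, C')) * (S.f A E C * S.f E B C' - S.f A E C' * S.f E B C) := by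
      intro E
      rw [← Finset.sum_sub_distrib]
      refine Finset.sum_congr rfl fun C _ => ?_
      rw [← Finset.sum_sub_distrib]
      refine Finset.sum_congr rfl fun C' _ => ?_
      ring
    rw [Finset.sum_congr rfl fun E _ => e3 E, Finset.sum_comm]
    refine Finset.sum_congr rfl fun C _ => ?_
    rw [Finset.sum_comm]
    refine Finset.sum_congr rfl fun C' _ => ?_
    rw [Finset.mul_sum]
  rw [hL, hR]
  congr 1
  refine Finset.sum_congr rfl fun C _ => Finset.sum_congr rfl fun C' _ => ?_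
  rw [jac2]

/-- the algebra of `Y = ∑ s_q ⊗ D_q` -/
lemma core {s0 s1 s2 : Matrix (Fin 16) (Fin 16) ℝ} {D0 D1 D2 : Matrix (Fin d) (Fin d) ℝ}
    (h00 : s0 * s0 = -1) (h11 : s1 * s1 = -1) (h22 : s2 * s2 = -1)
    (h01 : s0 * s1 = -s2) (h10 : s1 * s0 = s2) (h12 : s1 * s2 = -s0) (h21 : s2 * s1 = s0)
    (h20 : s2 * s0 = -s1) (h02 : s0 * s2 = s1)
    (c01 : D0 * D1 - D1 * D0 = D2) (c12 : D1 * D2 - D2 * D1 = D0) (c20 : D2 * D0 - D0 * D2 = D1) :
    (s0 ⊗ₖ D0 + s1 ⊗ₖ D1 + s2 ⊗ₖ D2) * (s0 ⊗ₖ D0 + s1 ⊗ₖ D1 + s2 ⊗ₖ D2) +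
      (s0 ⊗ₖ D0 + s1 ⊗ₖ D1 + s2 ⊗ₖ D2) =
      -((1 : Matrix (Fin 16) (Fin 16) ℝ) ⊗ₖ (D0 * D0 + D1 * D1 + D2 * D2)) := by
  simp only [add_mul, mul_add, ← Matrix.mul_kronecker_mul, h00, h11, h22, h01, h10, h12, h21,
    h20, h02]
  ext ⟨α, A⟩ ⟨β, B⟩
  have e01 := congrFun (congrFun c01 A) B
  have e12 := congrFun (congrFun c12 A) B
  have e20 := congrFun (congrFun c20 A) B
  simp only [Matrix.sub_apply] at e01 e12 e20
  simp only [Matrix.add_apply, Matrix.neg_apply, Matrix.kroneckerMap_apply]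
  linear_combination (-s2 α β) * e01 - s0 α β * e12 - s1 α β * e20

/-- positivity -/
lemma pos {D : Matrix (Fin d) (Fin d) ℝ} (hD : Dᵀ = -D) (z : Fin 16 × Fin d → ℝ) :
    z ⬝ᵥ (((1 : Matrix (Fin 16) (Fin 16) ℝ) ⊗ₖ (D * D)).mulVec z) ≤ 0 := by
  set E : Matrix (Fin 16 × Fin d) (Fin 16 × Fin d) ℝ :=
    (1 : Matrix (Fin 16) (Fin 16) ℝ) ⊗ₖ D with hE
  have h1 : (1 : Matrix (Fin 16) (Fin 16) ℝ) ⊗ₖ (D * D) = E * E := by
    rw [hE, ← Matrix.mul_kronecker_mul, one_mul]
  have h2 : Eᵀ = -E := by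
    ext ⟨α, A⟩ ⟨β, B⟩
    have := congrFun (congrFun hD A) B
    simp only [Matrix.transpose_apply, Matrix.neg_apply] at this
    simp only [hE, Matrix.transpose_apply, Matrix.neg_apply, Matrix.kroneckerMap_apply, this,
      Matrix.one_apply]
    by_cases h : α = β
    · simp [h]
    · simp [h, Ne.symm h]
  have h3 : z ⬝ᵥ (E * E).mulVec z = -((E.mulVec z) ⬝ᵥ (E.mulVec z)) := by
    rw [← Matrix.mulVec_mulVec, Matrix.dotProduct_mulVec, ← Matrix.mulVec_transpose, h2,
      Matrix.neg_mulVec, neg_dotProduct]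
  rw [h1, h3]
  have : 0 ≤ (E.mulVec z) ⬝ᵥ (E.mulVec z) := by
    rw [dotProduct]
    exact Finset.sum_nonneg fun i _ => mul_self_nonneg _
  linarith

/-- the matrix `R` -/
noncomputable def RR (S : Setup d F) (ξ : Cfg d) : Matrix (Fin 16 × Fin d) (Fin 16 × Fin d) ℝ :=
  ∑ q, gr S q ⊗ₖ Dq S ξ q - (3 / 4 : ℝ) • (Gr S ⊗ₖ (1 : Matrix (Fin d) (Fin d) ℝ))

lemma RR_transpose (S : Setup d F) (ξ : Cfg d) : (RR S ξ)ᵀ = -RR S ξ := by
  ext ⟨α, A⟩ ⟨β, B⟩
  have h1 : ∀ q, Dq S ξ q B A = -Dq S ξ q A B := fun q => by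
    have := congrFun (congrFun (Dq_transpose S ξ q) A) B
    simpa only [Matrix.transpose_apply, Matrix.neg_apply] using this
  have h2 : ∀ q, gr S q β α = gr S q α β := fun q => by
    have := congrFun (congrFun (gr_symm S q) α) β
    simpa only [Matrix.transpose_apply] using this
  have h3 : Gr S β α = -Gr S α β := by
    have := congrFun (congrFun (Gr_transpose S) α) β
    simpa only [Matrix.transpose_apply, Matrix.neg_apply] using this
  have h4 : (1 : Matrix (Fin d) (Fin d) ℝ) B A = (1 : Matrix (Fin d) (Fin d) ℝ) A B := by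
    by_cases h : A = B
    · rw [h]
    · rw [Matrix.one_apply_ne h, Matrix.one_apply_ne (Ne.symm h)]
  simp only [RR, Matrix.transpose_apply, Matrix.neg_apply, Matrix.sub_apply, Matrix.sum_apply,
    Matrix.smul_apply, Matrix.kroneckerMap_apply, h1, h2, h3, h4, mul_neg, neg_mul, smul_eq_mul,
    Finset.sum_neg_distrib]
  ring

lemma sum9 {M : Type*} [AddCommMonoid M] (g : Fin 9 → M) (h : ∀ i : Fin 9, ¬ i.val < 3 → g i = 0) :
    ∑ i, g i = g 0 + g 1 + g 2 := by
  have key : ∀ i : Fin 9, i ∉ ({0, 1, 2} : Finset (Fin 9)) → ¬ i.val < 3 := by decide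
  rw [← Finset.sum_subset (Finset.subset_univ ({0, 1, 2} : Finset (Fin 9)))
    (fun i _ hi => h i (key i hi))]
  rw [Finset.sum_insert (by decide), Finset.sum_insert (by decide), Finset.sum_singleton,
    add_assoc]

lemma cc0 (S : Setup d F) {ξ : Cfg d} (h : ∀ k A, S.GG 1 k A ξ = 0) (E : Fin d) :
    S.FF E 1 2 ξ = -2 * ξ (0, E) := by
  have h1 : S.FF E 1 2 ξ + 2 * 1 * ξ (0, E) = 0 := h 0 E
  linarith

lemma cc1 (S : Setup d F) {ξ : Cfg d} (h : ∀ k A, S.GG 1 k A ξ = 0) (E : Fin d) :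
    S.FF E 2 0 ξ = -2 * ξ (1, E) := by
  have h1 : S.FF E 2 0 ξ + 2 * 1 * ξ (1, E) = 0 := h 1 E
  linarith

lemma cc2 (S : Setup d F) {ξ : Cfg d} (h : ∀ k A, S.GG 1 k A ξ = 0) (E : Fin d) :
    S.FF E 0 1 ξ = -2 * ξ (2, E) := by
  have h1 : S.FF E 0 1 ξ + 2 * 1 * ξ (2, E) = 0 := h 2 E
  linarith

lemma RR_inj (S : Setup d F) {ξ : Cfg d} (h : ∀ k A, S.GG 1 k A ξ = 0)
    (h3 : ∀ i : Fin 9, ∀ A, ¬ i.val < 3 → ξ (i, A) = 0) (z : Fin 16 × Fin d → ℝ)
    (hz : (RR S ξ).mulVec z = 0) : z = 0 := by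
  set D0 := Dq S ξ 0 with hD0
  set D1 := Dq S ξ 1 with hD1
  set D2 := Dq S ξ 2 with hD2
  set s0 := gr S 1 * gr S 2 with hs0
  set s1 := gr S 2 * gr S 0 with hs1
  set s2 := gr S 0 * gr S 1 with hs2
  have c01 : D0 * D1 - D1 * D0 = D2 := Dq_comm S ξ (cc2 S h)
  have c12 : D1 * D2 - D2 * D1 = D0 := Dq_comm S ξ (cc0 S h)
  have c20 : D2 * D0 - D0 * D2 = D1 := Dq_comm S ξ (cc1 S h)
  have a01 := gr_ac S n01
  have a02 := gr_ac S n02
  have a12 := gr_ac S n12
  have a10 := gr_ac S n01.symm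
  have a20 := gr_ac S n02.symm
  have a21 := gr_ac S n12.symm
  have b0 := gr_sq S 0
  have b1 := gr_sq S 1
  have b2 := gr_sq S 2
  have h00 : s0 * s0 = -1 := q0 b1 b2 a12
  have h11 : s1 * s1 = -1 := q0 b2 b0 a20
  have h22 : s2 * s2 = -1 := q0 b0 b1 a01
  have h01 : s0 * s1 = -s2 := by rw [hs0, hs1, hs2, q1 b2, a10]
  have h12 : s1 * s2 = -s0 := by rw [hs0, hs1, hs2, q1 b0, a21]
  have h20 : s2 * s0 = -s1 := by rw [hs0, hs1, hs2, q1 b1, a02]
  have h10 : s1 * s0 = s2 := q2 b2 a02 a12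
  have h21 : s2 * s1 = s0 := q2 b0 a10 a20
  have h02 : s0 * s2 = s1 := q2 b1 a21 a01
  set Y : Matrix (Fin 16 × Fin d) (Fin 16 × Fin d) ℝ := s0 ⊗ₖ D0 + s1 ⊗ₖ D1 + s2 ⊗ₖ D2 with hY
  have hYY : Y * Y + Y = -((1 : Matrix (Fin 16) (Fin 16) ℝ) ⊗ₖ (D0 * D0 + D1 * D1 + D2 * D2)) :=
    core h00 h11 h22 h01 h10 h12 h21 h20 h02 c01 c12 c20
  have hsum : ∑ q, gr S q ⊗ₖ Dq S ξ q = gr S 0 ⊗ₖ D0 + gr S 1 ⊗ₖ D1 + gr S 2 ⊗ₖ D2 := by
    refine sum9 (fun q => gr S q ⊗ₖ Dq S ξ q) fun i hi => ?_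
    ext ⟨α, A⟩ ⟨β, B⟩
    simp only [Matrix.kroneckerMap_apply, Dq, Matrix.of_apply, h3 i _ hi, mul_zero,
      Finset.sum_const_zero, Matrix.zero_apply]
  have hPR : (Gr S ⊗ₖ (1 : Matrix (Fin d) (Fin d) ℝ)) * RR S ξ = Y + (3 / 4 : ℝ) • 1 := by
    rw [RR, hsum, mul_sub, mul_add, mul_add, Matrix.mul_smul]
    simp only [← Matrix.mul_kronecker_mul, one_mul, G0, G1, G2, Gr_sq]
    rw [hY, sub_eq_add_neg, ← smul_neg]
    congr 2
    ext ⟨α, A⟩ ⟨β, B⟩
    simp only [Matrix.neg_apply, Matrix.kroneckerMap_apply, Matrix.one_apply, Prod.mk.injEq]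
    by_cases hα : α = β <;> by_cases hA : A = B <;> simp [hα, hA]
  have hYz : Y.mulVec z + (3 / 4 : ℝ) • z = 0 := by
    have h1 : ((Gr S ⊗ₖ (1 : Matrix (Fin d) (Fin d) ℝ)) * RR S ξ).mulVec z = 0 := by
      rw [← Matrix.mulVec_mulVec, hz, Matrix.mulVec_zero]
    rw [hPR, Matrix.add_mulVec, Matrix.smul_mulVec, Matrix.one_mulVec] at h1
    exact h1
  have hYz' : Y.mulVec z = -((3 / 4 : ℝ) • z) := eq_neg_of_add_eq_zero_left hYz
  have hYYz : (Y * Y + Y).mulVec z = -((3 / 16 : ℝ) • z) := by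
    rw [Matrix.add_mulVec, ← Matrix.mulVec_mulVec, hYz', Matrix.mulVec_neg, Matrix.mulVec_smul,
      hYz']
    ext p
    simp only [Pi.add_apply, Pi.neg_apply, Pi.smul_apply, smul_eq_mul]
    ring
  have hsp : (1 : Matrix (Fin 16) (Fin 16) ℝ) ⊗ₖ (D0 * D0 + D1 * D1 + D2 * D2) =
      (1 : Matrix (Fin 16) (Fin 16) ℝ) ⊗ₖ (D0 * D0) + (1 : Matrix (Fin 16) (Fin 16) ℝ) ⊗ₖ (D1 * D1)
        + (1 : Matrix (Fin 16) (Fin 16) ℝ) ⊗ₖ (D2 * D2) := by
    rw [Matrix.kronecker_add, Matrix.kronecker_add]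
  have p0 := pos (Dq_transpose S ξ 0) z
  have p1 := pos (Dq_transpose S ξ 1) z
  have p2 := pos (Dq_transpose S ξ 2) z
  have hdot : z ⬝ᵥ (Y * Y + Y).mulVec z = -(3 / 16) * (z ⬝ᵥ z) := by
    rw [hYYz, dotProduct_neg, dotProduct_smul, smul_eq_mul]
    ring
  rw [hYY, hsp, Matrix.neg_mulVec, dotProduct_neg, Matrix.add_mulVec, Matrix.add_mulVec,
    dotProduct_add, dotProduct_add] at hdot
  have hzz : 0 ≤ z ⬝ᵥ z := by
    rw [dotProduct]
    exact Finset.sum_nonneg fun i _ => mul_self_nonneg _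
  have hzz0 : z ⬝ᵥ z = 0 := by linarith
  exact dotProduct_self_eq_zero.1 hzz0

lemma bil_exp (S : Setup d F) (N : Matrix (Fin 16) (Fin 16) ℂ) (A B : Fin d) :
    S.bil N A B = ∑ α, ∑ γ, N α γ • (S.th α A * S.th γ B) := by
  simp only [CS.bil, CS.vec, Finset.mul_sum, mul_smul_comm]

lemma kr (S : Setup d F) (M : Matrix (Fin 16) (Fin 16) ℂ) (K : Matrix (Fin d) (Fin d) ℂ) :
    ∑ p : Fin 16 × Fin d, ∑ q : Fin 16 × Fin d, (M p.1 q.1 * K p.2 q.2) •
      (S.th p.1 p.2 * S.th q.1 q.2) = ∑ A, ∑ B, K A B • S.bil M A B := by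
  simp only [Fintype.sum_prod_type, bil_exp, Finset.smul_sum, smul_smul]
  rw [Finset.sum_comm]
  refine Finset.sum_congr rfl fun A _ => ?_
  rw [Finset.sum_congr rfl fun α _ => Finset.sum_comm, Finset.sum_comm]
  refine Finset.sum_congr rfl fun B _ => Finset.sum_congr rfl fun α _ =>
    Finset.sum_congr rfl fun β _ => ?_
  rw [mul_comm]

lemma RR_apply (S : Setup d F) (ξ : Cfg d) (p p' : Fin 16 × Fin d) :
    ((RR S ξ p p' : ℝ) : ℂ) = ∑ q, S.g q p.1 p'.1 * ((Dq S ξ q p.2 p'.2 : ℝ) : ℂ) -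
      (3 / 4 : ℂ) * (S.Gam p.1 p'.1 * (1 : Matrix (Fin d) (Fin d) ℂ) p.2 p'.2) := by
  have h1 : ∀ q, S.g q p.1 p'.1 = ((gr S q p.1 p'.1 : ℝ) : ℂ) := fun q => by
    rw [← gr_map S q]; rfl
  have h2 : S.Gam p.1 p'.1 = ((Gr S p.1 p'.1 : ℝ) : ℂ) := by
    rw [← Gr_map S]; rfl
  have h3 : (1 : Matrix (Fin d) (Fin d) ℂ) p.2 p'.2 =
      (((1 : Matrix (Fin d) (Fin d) ℝ) p.2 p'.2 : ℝ) : ℂ) := by
    by_cases h : p.2 = p'.2
    · simp [Matrix.one_apply, h]
    · simp [h]
  simp only [RR, Matrix.sub_apply, Matrix.sum_apply, Matrix.smul_apply, Matrix.kroneckerMap_apply,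
    h1, h2, h3, smul_eq_mul]
  push_cast
  rfl

lemma op (S : Setup d F) (ξ : Cfg d) :
    S.Fx ξ - (3 / 4 : ℂ) • S.FG = Complex.I • ∑ p, ∑ p', ((RR S ξ p p' : ℝ) : ℂ) •
      (S.th p.1 p.2 * S.th p'.1 p'.2) := by
  have h1 : ∑ p : Fin 16 × Fin d, ∑ p' : Fin 16 × Fin d, ((RR S ξ p p' : ℝ) : ℂ) •
      (S.th p.1 p.2 * S.th p'.1 p'.2) =
      ∑ q, ∑ A, ∑ B, ((Dq S ξ q A B : ℝ) : ℂ) • S.bil (S.g q) A B -
        (3 / 4 : ℂ) • ∑ A, ∑ B, (1 : Matrix (Fin d) (Fin d) ℂ) A B • S.bil S.Gam A B := by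
    have e1 : ∀ q, ∑ A, ∑ B, ((Dq S ξ q A B : ℝ) : ℂ) • S.bil (S.g q) A B =
        ∑ p : Fin 16 × Fin d, ∑ p' : Fin 16 × Fin d,
          (S.g q p.1 p'.1 * ((Dq S ξ q p.2 p'.2 : ℝ) : ℂ)) •
            (S.th p.1 p.2 * S.th p'.1 p'.2) := fun q =>
      (kr S (S.g q) ((Dq S ξ q).map (Complex.ofRealHom))).symm
    have e2 : ∑ q, ∑ p : Fin 16 × Fin d, ∑ p' : Fin 16 × Fin d,
          (S.g q p.1 p'.1 * ((Dq S ξ q p.2 p'.2 : ℝ) : ℂ)) •
            (S.th p.1 p.2 * S.th p'.1 p'.2) =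
        ∑ p : Fin 16 × Fin d, ∑ p' : Fin 16 × Fin d, ∑ q,
          (S.g q p.1 p'.1 * ((Dq S ξ q p.2 p'.2 : ℝ) : ℂ)) •
            (S.th p.1 p.2 * S.th p'.1 p'.2) := by
      rw [Finset.sum_comm]
      refine Finset.sum_congr rfl fun p _ => ?_
      rw [Finset.sum_comm]
    rw [Finset.sum_congr rfl fun q _ => e1 q, e2, ← kr S S.Gam 1, Finset.smul_sum,
      ← Finset.sum_sub_distrib]
    refine Finset.sum_congr rfl fun p _ => ?_
    rw [Finset.smul_sum, ← Finset.sum_sub_distrib]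
    refine Finset.sum_congr rfl fun p' _ => ?_
    rw [RR_apply, sub_smul, Finset.sum_smul, smul_smul]
  have h2 : ∑ A, ∑ B, (1 : Matrix (Fin d) (Fin d) ℂ) A B • S.bil S.Gam A B = S.tot S.Gam := by
    unfold CS.tot
    refine Finset.sum_congr rfl fun A _ => ?_
    rw [Finset.sum_eq_single A]
    · simp
    · intro B _ hB
      simp [Ne.symm hB]
    · simp
  rw [h1, h2, smul_sub]
  congr 1
  · unfold Setup.Fx
    rw [Finset.smul_sum, Finset.smul_sum]
    refine Finset.sum_congr rfl fun q _ => ?_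
    rw [Finset.smul_sum, Finset.smul_sum]
    refine Finset.sum_congr rfl fun A _ => ?_
    rw [Finset.smul_sum, Finset.smul_sum]
    refine Finset.sum_congr rfl fun B _ => ?_
    rw [← Finset.sum_smul, smul_smul, smul_smul]
    congr 1
    simp only [Dq, Matrix.of_apply]
    push_cast
    ring
  · unfold Setup.FG
    rw [smul_comm]

end InvPf

/-- **C-Inv** -/
theorem inv (S : Setup d F) : InvStmt S := by
  intro ξ hξ
  obtain ⟨h1, h2, -⟩ := hes_zero S hξ
  refine ⟨InvPf.RR S ξ, InvPf.RR_transpose S ξ, InvPf.RR_inj S h1 h2, fun v => ?_⟩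
  have := congrArg (fun T : F →L[ℂ] F => T v) (InvPf.op S ξ)
  simpa only [_root_.sub_apply, _root_.smul_apply, _root_.sum_apply,
    _root_.mul_apply_eq_comp] using this

namespace InvPf

lemma gG0 (S : Setup d F) : S.g 0 * S.Gam = S.g 1 * S.g 2 := by
  rw [S.g_Gam_comm (i := 0) (by decide)]
  exact r0 (S.g_sq' 0) (S.g_ac n01) (S.g_ac n02)

lemma gG1 (S : Setup d F) : S.g 1 * S.Gam = S.g 2 * S.g 0 := by
  rw [S.g_Gam_comm (i := 1) (by decide)]
  exact r1 (S.g_sq' 1) (S.g_ac n02) (S.g_ac n12)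

lemma gG2 (S : Setup d F) : S.g 2 * S.Gam = S.g 0 * S.g 1 := by
  rw [S.g_Gam_comm (i := 2) (by decide)]
  exact r2 (S.g_sq' 2)

lemma g2_ne (S : Setup d F) {i j : Fin 9} (h : i ≠ j) : S.g2 i j = S.g i * S.g j := by
  unfold CS.g2
  have h1 : S.g j * S.g i = -(S.g i * S.g j) := S.g_ac h.symm
  rw [h1, sub_neg_eq_add, ← two_smul ℂ (S.g i * S.g j), smul_smul]
  norm_num

end InvPf

/-- **C-Crit** -/
theorem crit (S : Setup d F) : CritStmt S := by
  intro ξ hξ β
  obtain ⟨h1, h2, h3⟩ := hes_zero S hξ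
  have hW : S.W β ξ = ∑ A, (((-2 * ξ (0, A) : ℝ) : ℂ) • S.vec (S.g 0 * S.Gam) A β +
      ((-2 * ξ (1, A) : ℝ) : ℂ) • S.vec (S.g 1 * S.Gam) A β +
      ((-2 * ξ (2, A) : ℝ) : ℂ) • S.vec (S.g 2 * S.Gam) A β) := by
    unfold Setup.W
    rw [Finset.smul_sum]
    refine Finset.sum_congr rfl fun A _ => ?_
    have z1 : ∀ i : Fin 9, ¬ i.val < 3 →
        ∑ j, ((S.FF A i j ξ : ℝ) : ℂ) • S.vec (S.g2 i j) A β = 0 := fun i hi => by
      refine Finset.sum_eq_zero fun j _ => ?_
      rw [h3 i j A (fun h => hi h.1), Complex.ofReal_zero, zero_smul]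
    have z2 : ∀ i j : Fin 9, ¬ j.val < 3 →
        ((S.FF A i j ξ : ℝ) : ℂ) • S.vec (S.g2 i j) A β = 0 := fun i j hj => by
      rw [h3 i j A (fun h => hj h.2), Complex.ofReal_zero, zero_smul]
    rw [InvPf.sum9 _ z1, InvPf.sum9 _ (z2 0), InvPf.sum9 _ (z2 1), InvPf.sum9 _ (z2 2)]
    have d0 : ∀ i, S.FF A i i ξ = 0 := fun i => by linarith [hes_FF_swap S A i i ξ]
    rw [d0 0, d0 1, d0 2, hes_FF_swap S A 1 0, hes_FF_swap S A 2 1, hes_FF_swap S A 0 2,
      InvPf.cc0 S h1, InvPf.cc1 S h1, InvPf.cc2 S h1, S.g2_swap 1 0, S.g2_swap 2 1,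
      S.g2_swap 0 2, InvPf.g2_ne S InvPf.n01, InvPf.g2_ne S InvPf.n12,
      InvPf.g2_ne S InvPf.n02.symm, InvPf.gG0, InvPf.gG1, InvPf.gG2, S.vec_neg, S.vec_neg,
      S.vec_neg]
    push_cast
    module
  have hM : S.MM β ξ = ∑ A, (((2 * ξ (0, A) : ℝ) : ℂ) • S.vec (S.g 0 * S.Gam) A β +
      ((2 * ξ (1, A) : ℝ) : ℂ) • S.vec (S.g 1 * S.Gam) A β +
      ((2 * ξ (2, A) : ℝ) : ℂ) • S.vec (S.g 2 * S.Gam) A β) := by
    unfold Setup.MM
    have z1 : ∀ i : Fin 9, ¬ i.val < 3 →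
        ∑ A, ((aw i * ξ (i, A) : ℝ) : ℂ) • S.vec (S.g i * S.Gam) A β = 0 := fun i hi => by
      refine Finset.sum_eq_zero fun A _ => ?_
      rw [h2 i A hi, mul_zero, Complex.ofReal_zero, zero_smul]
    have w0 : aw 0 = 2 := rfl
    have w1 : aw 1 = 2 := rfl
    have w2 : aw 2 = 2 := rfl
    rw [InvPf.sum9 _ z1, w0, w1, w2, Finset.sum_add_distrib, Finset.sum_add_distrib]
  rw [hW, hM, ← Finset.sum_add_distrib]
  refine Finset.sum_eq_zero fun A _ => ?_
  push_cast
  module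

end Vale.Agent.P353.Z.U
end
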