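import Mathlib
import Vale.Agent.P353.BdZ.B2
import Vale.Agent.P353.BdZ.B3
import Vale.Agent.P353.BdZ.B11
import Vale.Agent.P353.BdZ.B10
import Vale.Agent.P353.BdZ.B7
import Vale.Agent.P353.BdZ.B4
import Vale.Agent.P353.BdZ.B14
import Vale.Agent.P353.BdZ.B16
import Vale.Agent.P353.BdZ.B8
import Vale.Agent.P353.BdZ.B9
import Vale.Agent.P353.BdZ.B12
import Vale.Agent.P353.BdZ.B13
import Vale.Agent.P353.BdZ.B5
import Vale.Agent.P353.BdZ.B6
import Vale.Agent.P353.BdZ.B15

set_option linter.all false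

section

/-! # P353, general `N`: A2 and A3 (covariance of the supercharges) -/

open MeasureTheory Filter Topology
open scoped ContDiff

namespace Vale.Agent.P353.Z.U

variable {dc : ℕ}

variable {F : Type*} [NormedAddCommGroup F] [InnerProductSpace ℂ F]

/-- product rule -/
lemma fderiv_clm_app {T : (Cfg dc) → F →L[ℂ] F} {u : (Cfg dc) → F} {x : (Cfg dc)}
    (hT : DifferentiableAt ℝ T x) (hu : DifferentiableAt ℝ u x) (e : (Cfg dc)) :
    fderiv ℝ (fun y => T y (u y)) x e = (fderiv ℝ T x e) (u x) + T x (fderiv ℝ u x e) := by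
  have hB : IsBoundedBilinearMap ℝ (fun p : (F →L[ℂ] F) × F => p.1 p.2) := by
    have h := (isBoundedBilinearMap_apply (𝕜 := ℂ) (E := F) (F := F))
    refine ⟨fun a b c => by simp, fun c a b => ?_, fun a b c => by simp, fun c a b => ?_, ?_⟩
    · simp
    · simp
    · obtain ⟨C, hC, hb⟩ := h.bound
      exact ⟨C, hC, hb⟩
  have h1 := hB.hasFDerivAt (T x, u x)
  have h2 := hT.hasFDerivAt.prodMk hu.hasFDerivAt
  have h3 := h1.comp x h2
  have h4 : fderiv ℝ (fun y => T y (u y)) x = _ := h3.fderiv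
  rw [h4]
  simp [add_comm]

/-- directional derivative of a quadratic polynomial -/
lemma line_fderiv {G : Type*} [NormedAddCommGroup G] [NormedSpace ℂ G] {f : (Cfg dc) → G} {x v : (Cfg dc)}
    {a b : G} (hf : DifferentiableAt ℝ f x)
    (h : ∀ t : ℝ, f (x + t • v) = f x + (t : ℂ) • a + ((t : ℂ) ^ 2) • b) :
    fderiv ℝ f x v = a := by
  have h1 : HasDerivAt (fun t : ℝ => f (x + t • v)) (fderiv ℝ f x v) 0 := by
    have h2 : HasDerivAt (fun t : ℝ => x + t • v) v 0 := by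
      simpa using ((hasDerivAt_id (0 : ℝ)).smul_const v).const_add x
    have h3 : HasFDerivAt f (fderiv ℝ f x) (x + (0 : ℝ) • v) := by simpa using hf.hasFDerivAt
    exact h3.comp_hasDerivAt (0 : ℝ) h2
  have h4 : HasDerivAt (fun t : ℝ => f x + (t : ℂ) • a + ((t : ℂ) ^ 2) • b) a 0 := by
    have h5 : HasDerivAt (fun t : ℝ => (t : ℂ)) 1 (0 : ℝ) := by
      simpa using (hasDerivAt_id (0 : ℝ)).ofReal_comp
    have h6 : HasDerivAt (fun t : ℝ => (t : ℂ) ^ 2) 0 (0 : ℝ) := by
      simpa using h5.fun_pow 2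
    simpa using ((h5.smul_const a).const_add (f x)).fun_add (h6.smul_const b)
  have h7 : (fun t : ℝ => f (x + t • v)) = fun t : ℝ => f x + (t : ℂ) • a + ((t : ℂ) ^ 2) • b :=
    funext h
  rw [h7] at h1
  exact h1.unique h4

/-- commutator of a first order generator with a Dirac type operator -/
lemma comm_gen {N : Fin 9 → Fin dc → F →L[ℂ] F} {Z : (Cfg dc) → F →L[ℂ] F} (hZ : ContDiff ℝ ∞ Z)
    (L : (Cfg dc) →L[ℝ] (Cfg dc)) (T : F →L[ℂ] F) {D K : ((Cfg dc) → F) → (Cfg dc) → F}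
    (hD : ∀ u x, D u x = (-Complex.I) • fderiv ℝ u x (L x) + T (u x))
    (hK : ∀ u x, K u x = (-Complex.I) • ∑ i, ∑ A, N i A (pd i A u x) + Z x (u x))
    {u : (Cfg dc) → F} (hu : ContDiff ℝ ∞ u) (x : (Cfg dc)) :
    D (K u) x - K (D u) x =
      ∑ i, ∑ A, N i A (fderiv ℝ u x (L (EuclideanSpace.single (i, A) (1 : ℝ)))) +
      (-Complex.I) • ∑ i, ∑ A, (T * N i A - N i A * T) (pd i A u x) +
      (-Complex.I) • (fderiv ℝ Z x (L x)) (u x) + (T * Z x - Z x * T) (u x) := by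
  have hud : Differentiable ℝ u := hu.differentiable (by simp)
  have hpd : ∀ i A, DifferentiableAt ℝ (pd i A u) x := fun i A =>
    (contDiff_pd hu).differentiable (by simp) x
  have hfd : Differentiable ℝ (fderiv ℝ u) := (hu.fderiv_right (m := ∞) (by simp)).differentiable
    (by simp)
  have hZd : DifferentiableAt ℝ Z x := hZ.differentiable (by simp) x
  have hKu : K u = fun y => (-Complex.I) • ∑ i, ∑ A, N i A (pd i A u y) + Z y (u y) :=
    funext (hK u)
  have hDu : D u = fun y => (-Complex.I) • fderiv ℝ u y (L y) + T (u y) := funext (hD u)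
  have e1 : ∀ e, fderiv ℝ (K u) x e = (-Complex.I) • ∑ i, ∑ A, N i A (fderiv ℝ (pd i A u) x e) +
      ((fderiv ℝ Z x e) (u x) + Z x (fderiv ℝ u x e)) := by
    intro e
    have hN : ∀ i A, DifferentiableAt ℝ (fun y => N i A (pd i A u y)) x := fun i A =>
      ((N i A).restrictScalars ℝ).differentiableAt.comp x (hpd i A)
    have hs1 : ∀ i, DifferentiableAt ℝ (fun y => ∑ A, N i A (pd i A u y)) x := fun i =>
      DifferentiableAt.fun_sum fun A _ => hN i A
    have hs2 : DifferentiableAt ℝ (fun y => ∑ i, ∑ A, N i A (pd i A u y)) x :=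
      DifferentiableAt.fun_sum fun i _ => hs1 i
    have hs3 : DifferentiableAt ℝ (fun y => Z y (u y)) x :=
      (Setup.contDiff_clm_apply' hZ hu).differentiable (by simp) x
    rw [hKu, fderiv_fun_add (hs2.fun_const_smul _) hs3, _root_.add_apply, fderiv_clm_app hZd (hud x),
      fderiv_fun_const_smul hs2]
    congr 1
    rw [_root_.smul_apply]
    congr 1
    rw [fderiv_fun_sum fun i _ => hs1 i, _root_.sum_apply]
    refine Finset.sum_congr rfl fun i _ => ?_
    rw [fderiv_fun_sum fun A _ => hN i A, _root_.sum_apply]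
    refine Finset.sum_congr rfl fun A _ => ?_
    rw [fderiv_clm_app (T := fun _ => N i A) (differentiableAt_const _) (hpd i A)]
    simp
  have e2 : ∀ i A, pd i A (D u) x = (-Complex.I) • (fderiv ℝ (pd i A u) x (L x) +
      fderiv ℝ u x (L (EuclideanSpace.single (i, A) (1 : ℝ)))) + T (pd i A u x) := by
    intro i A
    have hL : DifferentiableAt ℝ (fun y => fderiv ℝ u y (L y)) x :=
      (hfd x).clm_apply L.differentiableAt
    have hT : DifferentiableAt ℝ (fun y => T (u y)) x :=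
      (T.restrictScalars ℝ).differentiableAt.comp x (hud x)
    have hs : IsSymmSndFDerivAt ℝ u x := by
      refine (hu.contDiffAt).isSymmSndFDerivAt ?_
      simp only [minSmoothness_of_isRCLikeNormedField]
      exact WithTop.coe_le_coe.mpr le_top
    have h3 : fderiv ℝ (pd i A u) x (L x) =
        fderiv ℝ (fderiv ℝ u) x (EuclideanSpace.single (i, A) (1 : ℝ)) (L x) := by
      unfold pd
      rw [fderiv_clm_apply (hfd x) (differentiableAt_const _)]
      simp only [fderiv_fun_const, Pi.zero_apply, _root_.add_apply,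
        ContinuousLinearMap.flip_apply]
      simp only [ContinuousLinearMap.comp_zero, _root_.zero_apply, zero_add]
      exact hs _ _
    rw [pd, hDu, fderiv_fun_add (hL.fun_const_smul _) hT, _root_.add_apply,
      fderiv_fun_const_smul hL, _root_.smul_apply, fderiv_clm_apply (hfd x) L.differentiableAt,
      fderiv_clm_app (T := fun _ => T) (differentiableAt_const _) (hud x), h3]
    simp only [fderiv_fun_const, Pi.zero_apply, _root_.add_apply, _root_.zero_apply,
      ContinuousLinearMap.flip_apply, ContinuousLinearMap.comp_apply, ContinuousLinearMap.fderiv,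
      zero_add]
    rw [add_comm (fderiv ℝ u x (L _))]
    rfl
  rw [hD (K u) x, hK (D u) x, e1, hD u x, hK u x]
  simp only [e2, map_add, map_smul, map_sum, _root_.sub_apply, mul_apply_eq_comp,
    Finset.sum_add_distrib, Finset.sum_sub_distrib, ← Finset.smul_sum]
  linear_combination (norm := module) (-Complex.I_mul_I) •
    (∑ i, ∑ A, N i A (fderiv ℝ u x (L (EuclideanSpace.single (i, A) (1 : ℝ)))))


section defs

variable (S : Setup dc F)

/-- polarisation of the matrix `NA` -/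
noncomputable def NB (A : Fin dc) (v x : (Cfg dc)) : Matrix (Fin 16) (Fin 16) ℂ :=
  (S.κ / 2 : ℂ) • ∑ B, ∑ C, (S.f A B C : ℂ) • (S.XB B v * S.XB C x + S.XB B x * S.XB C v)

/-- the matrix of the mass term -/
noncomputable def MA (A : Fin dc) (x : (Cfg dc)) : Matrix (Fin 16) (Fin 16) ℂ :=
  ∑ i, ((aw i * x (i, A) : ℝ) : ℂ) • (S.g i * S.Gam)

lemma XB_line (A : Fin dc) (x v : (Cfg dc)) (t : ℝ) :
    S.XB A (x + t • v) = S.XB A x + (t : ℂ) • S.XB A v := by
  simp only [Setup.XB, PiLp.add_apply, PiLp.smul_apply, smul_eq_mul, Complex.ofReal_add,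
    Complex.ofReal_mul, add_smul, mul_smul, Finset.sum_add_distrib, Finset.smul_sum]

lemma NA_line (A : Fin dc) (x v : (Cfg dc)) (t : ℝ) :
    S.NA A (x + t • v) = S.NA A x + (t : ℂ) • NB S A v x + ((t : ℂ) ^ 2) • S.NA A v := by
  simp only [S.NA_eq_XB, NB, XB_line]
  rw [smul_comm (t : ℂ), smul_comm ((t : ℂ) ^ 2), ← smul_add, ← smul_add]
  congr 1
  simp only [Finset.smul_sum, ← Finset.sum_add_distrib]
  refine Finset.sum_congr rfl fun B _ => Finset.sum_congr rfl fun C _ => ?_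
  simp only [add_mul, mul_add, Matrix.smul_mul, Matrix.mul_smul]
  module

lemma fderiv_W' (b : Fin 16) (x v : (Cfg dc)) :
    fderiv ℝ (S.W b) x v = ∑ A, S.vec (NB S A v x) A b := by
  refine line_fderiv (b := S.W b v) ((S.contDiff_W b).differentiable (by simp) x) fun t => ?_
  simp only [S.W_eq_NA, NA_line, S.vec_add, S.vec_smul, Finset.sum_add_distrib, ← Finset.smul_sum]

lemma MM_eq_MA (b : Fin 16) (x : (Cfg dc)) : S.MM b x = ∑ A, S.vec (MA S A x) A b := by
  simp only [Setup.MM, MA, S.vec_sum, S.vec_smul]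
  rw [Finset.sum_comm]

lemma MA_line (A : Fin dc) (x v : (Cfg dc)) (t : ℝ) :
    MA S A (x + t • v) = MA S A x + (t : ℂ) • MA S A v := by
  simp only [MA, PiLp.add_apply, PiLp.smul_apply, smul_eq_mul, Finset.smul_sum,
    ← Finset.sum_add_distrib]
  refine Finset.sum_congr rfl fun i _ => ?_
  push_cast
  module

lemma contDiff_MM (b : Fin 16) : ContDiff ℝ ∞ (S.MM b) := by
  unfold Setup.MM
  refine ContDiff.sum fun i _ => ContDiff.sum fun A _ => ?_
  exact (Setup.contDiff_ofReal (contDiff_const.mul (Setup.contDiff_coord _))).smul contDiff_const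

lemma fderiv_MM (b : Fin 16) (x v : (Cfg dc)) : fderiv ℝ (S.MM b) x v = S.MM b v := by
  refine line_fderiv (b := 0) ((contDiff_MM S b).differentiable (by simp) x) fun t => ?_
  simp only [MM_eq_MA, MA_line, S.vec_add, S.vec_smul, Finset.sum_add_distrib, ← Finset.smul_sum,
    smul_zero, add_zero]

/-- the multiplier part of `Q_β + m M_β` -/
noncomputable def Zm (m : ℝ) (b : Fin 16) (x : (Cfg dc)) : F →L[ℂ] F := S.W b x + (m : ℂ) • S.MM b x

lemma contDiff_Zm (m : ℝ) (b : Fin 16) : ContDiff ℝ ∞ (Zm S m b) :=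
  (S.contDiff_W b).add ((contDiff_MM S b).const_smul (m : ℂ))

lemma fderiv_Zm (m : ℝ) (b : Fin 16) (x v : (Cfg dc)) : fderiv ℝ (Zm S m b) x v =
    ∑ A, S.vec (NB S A v x + (m : ℂ) • MA S A v) A b := by
  have h1 : DifferentiableAt ℝ (S.W b) x := (S.contDiff_W b).differentiable (by simp) x
  have h2 : DifferentiableAt ℝ (S.MM b) x := (contDiff_MM S b).differentiable (by simp) x
  have h : fderiv ℝ (Zm S m b) x = fderiv ℝ (S.W b) x + (m : ℂ) • fderiv ℝ (S.MM b) x := by
    have e : Zm S m b = fun y => S.W b y + (m : ℂ) • S.MM b y := rfl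
    rw [e, fderiv_fun_add h1 (h2.fun_const_smul _), fderiv_fun_const_smul h2]
  rw [h, _root_.add_apply, _root_.smul_apply, fderiv_W', fderiv_MM, MM_eq_MA]
  simp only [S.vec_add, S.vec_smul, Finset.sum_add_distrib, ← Finset.smul_sum]

lemma Zm_eq (m : ℝ) (b : Fin 16) (x : (Cfg dc)) : Zm S m b x =
    ∑ A, S.vec (S.NA A x + (m : ℂ) • MA S A x) A b := by
  rw [Zm, S.W_eq_NA, MM_eq_MA]
  simp only [S.vec_add, S.vec_smul, Finset.sum_add_distrib, ← Finset.smul_sum]

lemma Qm_eq (m : ℝ) (b : Fin 16) (u : (Cfg dc) → F) (x : (Cfg dc)) : S.Qm m b u x =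
    (-Complex.I) • ∑ i, ∑ A, S.vec (S.g i) A b (pd i A u x) + Zm S m b x (u x) := by
  rw [Setup.Qm, Setup.Q, Zm, _root_.add_apply, _root_.smul_apply, add_assoc]

/-! ### rotations -/

lemma aw_same {k l : Fin 9} (h : Same k l) : aw k = aw l := by
  unfold aw
  by_cases hk : k.val < 3
  · rw [if_pos hk, if_pos (h.2.mp hk)]
  · rw [if_neg hk, if_neg fun hl => hk (h.2.mpr hl)]

lemma g_g2_comm (k l i : Fin 9) : S.g i * S.g2 k l - S.g2 k l * S.g i =
    (2 : ℂ) • ((if i = k then S.g l else 0) - (if i = l then S.g k else 0)) := by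
  have h := S.g2_mul_g k l i
  rw [h]
  by_cases h1 : i = k <;> by_cases h2 : i = l
  · subst h1; subst h2; simp
  · subst h1; simp [h2, Ne.symm h2]
  · subst h2; simp [h1, Ne.symm h1]
  · simp [h1, h2, Ne.symm h1, Ne.symm h2]

lemma neg_LL_apply (k l i : Fin 9) (A : Fin dc) (x : (Cfg dc)) :
    (-(LL k l x)) (i, A) = (if i = l then x (k, A) else 0) - (if i = k then x (l, A) else 0) := by
  rw [PiLp.neg_apply, LL_apply]
  ring

lemma XB_J (k l : Fin 9) (A : Fin dc) (x : (Cfg dc)) :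
    (2 : ℂ) • S.XB A (-(LL k l x)) = S.XB A x * S.g2 k l - S.g2 k l * S.XB A x := by
  simp only [Setup.XB, neg_LL_apply, Finset.sum_mul, Finset.mul_sum, Matrix.smul_mul,
    Matrix.mul_smul, ← Finset.sum_sub_distrib, ← smul_sub, g_g2_comm]
  simp only [smul_comm _ (2 : ℂ), ← Finset.smul_sum]
  congr 1
  simp only [smul_sub, Complex.ofReal_sub, sub_smul, Finset.sum_sub_distrib, smul_ite, smul_zero]
  rw [sub_eq_sub_iff_add_eq_add]
  simp

lemma NB_J (k l : Fin 9) (A : Fin dc) (x : (Cfg dc)) :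
    (2 : ℂ) • NB S A (-(LL k l x)) x = S.NA A x * S.g2 k l - S.g2 k l * S.NA A x := by
  rw [NB, S.NA_eq_XB, smul_comm, Matrix.smul_mul, Matrix.mul_smul, ← smul_sub]
  congr 1
  simp only [Finset.smul_sum, Finset.sum_mul, Finset.mul_sum, ← Finset.sum_sub_distrib]
  refine Finset.sum_congr rfl fun B _ => Finset.sum_congr rfl fun C _ => ?_
  rw [smul_comm, smul_add, ← Matrix.smul_mul, ← Matrix.mul_smul, XB_J, XB_J, Matrix.smul_mul,
    Matrix.mul_smul, ← smul_sub]
  congr 1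
  noncomm_ring

lemma MA_J {k l : Fin 9} (h : Same k l) (A : Fin dc) (x : (Cfg dc)) :
    (2 : ℂ) • MA S A (-(LL k l x)) = MA S A x * S.g2 k l - S.g2 k l * MA S A x := by
  have e : ∀ i, S.g i * S.Gam * S.g2 k l - S.g2 k l * (S.g i * S.Gam) =
      (2 : ℂ) • ((if i = k then S.g l * S.Gam else 0) - (if i = l then S.g k * S.Gam else 0)) := by
    intro i
    have h1 : S.g i * S.Gam * S.g2 k l - S.g2 k l * (S.g i * S.Gam) =
        (S.g i * S.g2 k l - S.g2 k l * S.g i) * S.Gam := by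
      rw [sub_mul, mul_assoc (S.g i), ← S.Gam_comm_g2 h]
      simp only [mul_assoc]
    rw [h1, g_g2_comm, Matrix.smul_mul, sub_mul]
    congr 2 <;> split_ifs <;> simp
  simp only [MA, neg_LL_apply, Finset.sum_mul, Finset.mul_sum, Matrix.smul_mul,
    Matrix.mul_smul, ← Finset.sum_sub_distrib, ← smul_sub, e]
  simp only [smul_comm _ (2 : ℂ), ← Finset.smul_sum]
  congr 1
  simp only [smul_sub, mul_sub, Complex.ofReal_sub, sub_smul, Finset.sum_sub_distrib, smul_ite,
    smul_zero]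
  rw [sub_eq_sub_iff_add_eq_add]
  simp [aw_same h, -Complex.ofReal_mul]

lemma comm_Sk (k l : Fin 9) (P : Matrix (Fin 16) (Fin 16) ℂ) (A : Fin dc) (b : Fin 16) :
    S.Skl k l * S.vec P A b - S.vec P A b * S.Skl k l =
      (Complex.I / 2) • S.vec (P * S.g2 k l) A b := by
  rw [S.Skl_eq, ← neg_sub, S.vec_comm_Sk, ← neg_smul]
  congr 1
  ring

lemma fderiv_neg_LL (k l i : Fin 9) (A : Fin dc) (u : (Cfg dc) → F) (x : (Cfg dc)) :
    fderiv ℝ u x (-(LL k l (EuclideanSpace.single (i, A) (1 : ℝ)))) =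
      (if i = k then pd l A u x else 0) - (if i = l then pd k A u x else 0) := by
  have h : -(LL k l (EuclideanSpace.single (i, A) (1 : ℝ))) =
      (if i = k then (EuclideanSpace.single (l, A) (1 : ℝ) : (Cfg dc)) else 0) -
        (if i = l then (EuclideanSpace.single (k, A) (1 : ℝ) : (Cfg dc)) else 0) := by
    rw [neg_LL_eq]
    simp only [PiLp.single_apply, Prod.mk.injEq, Finset.sum_sub_distrib]
    congr 1
    · by_cases h1 : i = k
      · subst h1
        simp only [true_and, if_true, ite_smul, one_smul, zero_smul]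
        rw [Finset.sum_ite_eq']
        simp
      · have h1' : ¬ k = i := fun e => h1 e.symm
        simp [h1, h1']
    · by_cases h1 : i = l
      · subst h1
        simp only [true_and, if_true, ite_smul, one_smul, zero_smul]
        rw [Finset.sum_ite_eq']
        simp
      · have h1' : ¬ l = i := fun e => h1 e.symm
        simp [h1, h1']
  rw [h, map_sub]
  congr 1
  · split_ifs <;> simp [pd]
  · split_ifs <;> simp [pd]

theorem a2 : A2Stmt S := by
  intro m k l hkl α u hu x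
  have hD : ∀ (u : (Cfg dc) → F) (x : (Cfg dc)), S.J k l u x =
      (-Complex.I) • fderiv ℝ u x ((-(LL k l)) x) + S.Skl k l (u x) := fun u x => S.J_eq k l u x
  rw [comm_gen (contDiff_Zm S m α) (-(LL k l)) (S.Skl k l) hD (Qm_eq S m α) hu x]
  -- the zero order part
  have hZ : (-Complex.I) • (fderiv ℝ (Zm S m α) x ((-(LL k l)) x)) (u x) +
      (S.Skl k l * Zm S m α x - Zm S m α x * S.Skl k l) (u x) =
      (Complex.I / 2) • ∑ β, S.g2 k l α β • Zm S m β x (u x) := by
    have h1 : ∑ β, S.g2 k l α β • Zm S m β x =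
        ∑ A, S.vec (S.g2 k l * (S.NA A x + (m : ℂ) • MA S A x)) A α := by
      simp only [Zm_eq, S.vec_mul, Finset.smul_sum]
      rw [Finset.sum_comm]
    have h2 : (2 : ℂ) • fderiv ℝ (Zm S m α) x ((-(LL k l)) x) =
        ∑ A, S.vec ((S.NA A x + (m : ℂ) • MA S A x) * S.g2 k l) A α -
        ∑ A, S.vec (S.g2 k l * (S.NA A x + (m : ℂ) • MA S A x)) A α := by
      rw [fderiv_Zm, Finset.smul_sum, ← Finset.sum_sub_distrib]
      refine Finset.sum_congr rfl fun A _ => ?_
      rw [← S.vec_smul, ← S.vec_sub]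
      congr 1
      rw [_root_.neg_apply, smul_add, NB_J, smul_comm, MA_J S hkl]
      simp only [add_mul, mul_add, Matrix.smul_mul, Matrix.mul_smul, smul_sub]
      rw [sub_add_sub_comm]
    have h3 : S.Skl k l * Zm S m α x - Zm S m α x * S.Skl k l =
        (Complex.I / 2) • ∑ A, S.vec ((S.NA A x + (m : ℂ) • MA S A x) * S.g2 k l) A α := by
      rw [Zm_eq, Finset.mul_sum, Finset.sum_mul, ← Finset.sum_sub_distrib, Finset.smul_sum]
      refine Finset.sum_congr rfl fun A _ => ?_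
      rw [comm_Sk]
    have h4 : (-Complex.I) • fderiv ℝ (Zm S m α) x ((-(LL k l)) x) +
        (S.Skl k l * Zm S m α x - Zm S m α x * S.Skl k l) =
        (Complex.I / 2) • ∑ β, S.g2 k l α β • Zm S m β x := by
      rw [h1, h3]
      linear_combination (norm := module) (-Complex.I / 2) • h2
    have h5 := congrArg (fun T : F →L[ℂ] F => T (u x)) h4
    simpa only [_root_.add_apply, _root_.smul_apply, _root_.sum_apply] using h5
  -- the first order part
  have hF : ∑ i, ∑ A, S.vec (S.g i) A α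
        (fderiv ℝ u x ((-(LL k l)) (EuclideanSpace.single (i, A) (1 : ℝ)))) +
      (-Complex.I) • ∑ i, ∑ A, (S.Skl k l * S.vec (S.g i) A α - S.vec (S.g i) A α * S.Skl k l)
        (pd i A u x) =
      (1 / 2 : ℂ) • ∑ i, ∑ A, S.vec (S.g2 k l * S.g i) A α (pd i A u x) := by
    have h1 : ∀ i, S.g2 k l * S.g i = S.g i * S.g2 k l -
        (2 : ℂ) • ((if i = k then S.g l else 0) - (if i = l then S.g k else 0)) := by
      intro i
      rw [← g_g2_comm]
      abel
    have h2 : ∑ i, ∑ A, S.vec (S.g i) A α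
        (fderiv ℝ u x ((-(LL k l)) (EuclideanSpace.single (i, A) (1 : ℝ)))) =
        ∑ A, (S.vec (S.g k) A α (pd l A u x) - S.vec (S.g l) A α (pd k A u x)) := by
      rw [Finset.sum_comm]
      refine Finset.sum_congr rfl fun A _ => ?_
      have e1 : ∀ (c : Prop) [Decidable c] (T : F →L[ℂ] F) (v : F),
          T (if c then v else 0) = if c then T v else 0 := by
        intro c _ T v
        split_ifs
        · rfl
        · rw [map_zero]
      simp only [_root_.neg_apply, fderiv_neg_LL, map_sub, Finset.sum_sub_distrib, e1]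
      simp
    have h3 : ∑ i, ∑ A, S.vec (S.g2 k l * S.g i) A α (pd i A u x) =
        ∑ i, ∑ A, S.vec (S.g i * S.g2 k l) A α (pd i A u x) +
        (2 : ℂ) • ∑ A, (S.vec (S.g k) A α (pd l A u x) - S.vec (S.g l) A α (pd k A u x)) := by
      have e : ∀ i A, S.vec (S.g2 k l * S.g i) A α (pd i A u x) =
          S.vec (S.g i * S.g2 k l) A α (pd i A u x) +
          (2 : ℂ) • ((if i = l then S.vec (S.g k) A α (pd i A u x) else 0) -
            (if i = k then S.vec (S.g l) A α (pd i A u x) else 0)) := by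
        intro i A
        rw [h1, S.vec_sub, S.vec_smul, S.vec_sub, _root_.sub_apply, _root_.smul_apply,
          _root_.sub_apply]
        have e1 : ∀ (c : Prop) [Decidable c] (P : Matrix (Fin 16) (Fin 16) ℂ) (v : F),
            S.vec (if c then P else 0) A α v = if c then S.vec P A α v else 0 := by
          intro c _ P v
          split_ifs
          · rfl
          · rw [S.vec_zero]; rfl
        rw [e1, e1]
        module
      simp only [e, Finset.sum_add_distrib, ← Finset.smul_sum, Finset.sum_sub_distrib]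
      congr 3
      · rw [Finset.sum_comm]; simp
      · rw [Finset.sum_comm]; simp
    have h4 : ∀ i A, (S.Skl k l * S.vec (S.g i) A α - S.vec (S.g i) A α * S.Skl k l)
        (pd i A u x) = (Complex.I / 2) • S.vec (S.g i * S.g2 k l) A α (pd i A u x) := by
      intro i A
      rw [comm_Sk]; rfl
    simp only [h4, ← Finset.smul_sum]
    rw [h2, h3]
    linear_combination (norm := module) (-(1 / 2 : ℂ) * Complex.I_mul_I) •
      (∑ i, ∑ A, S.vec (S.g i * S.g2 k l) A α (pd i A u x))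
  have hQ : ∑ β, S.g2 k l α β • S.Qm m β u x =
      (-Complex.I) • ∑ i, ∑ A, S.vec (S.g2 k l * S.g i) A α (pd i A u x) +
      ∑ β, S.g2 k l α β • Zm S m β x (u x) := by
    simp only [Qm_eq, smul_add, Finset.sum_add_distrib]
    congr 1
    simp only [smul_comm _ (-Complex.I), ← Finset.smul_sum]
    congr 1
    simp only [Finset.smul_sum, S.vec_mul, _root_.sum_apply, _root_.smul_apply]
    rw [Finset.sum_comm]
    refine Finset.sum_congr rfl fun i _ => ?_
    rw [Finset.sum_comm]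
  rw [hQ, add_assoc, hZ, hF]
  linear_combination (norm := module) ((1 / 2 : ℂ) * Complex.I_mul_I) •
      (∑ i, ∑ A, S.vec (S.g2 k l * S.g i) A α (pd i A u x))

/-! ### gauge transformations -/

/-- the generator of the colour rotations -/
noncomputable def gLc (C : Fin dc) : (Cfg dc) →L[ℝ] (Cfg dc) :=
  ∑ i : Fin 9, ∑ A : Fin dc, ∑ B : Fin dc, (S.f C A B) •
    ((EuclideanSpace.proj (𝕜 := ℝ) (i, A) : (Cfg dc) →L[ℝ] ℝ).smulRight
      (EuclideanSpace.single (i, B) (1 : ℝ)))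

lemma gLc_eq (C : Fin dc) (x : (Cfg dc)) : gLc S C x = ∑ i : Fin 9, ∑ A : Fin dc, ∑ B : Fin dc,
    ((S.f C A B) * x (i, A)) • (EuclideanSpace.single (i, B) (1 : ℝ) : (Cfg dc)) := by
  simp only [gLc, _root_.sum_apply, _root_.smul_apply, ContinuousLinearMap.smulRight_apply,
    PiLp.proj_apply, smul_smul]

lemma gLc_apply (C : Fin dc) (x : (Cfg dc)) (i : Fin 9) (B : Fin dc) :
    (gLc S C x) (i, B) = ∑ A, (S.f C A B) * x (i, A) := by
  simp only [gLc_eq, WithLp.ofLp_sum, Finset.sum_apply, WithLp.ofLp_smul, Pi.smul_apply,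
    PiLp.single_apply, Prod.mk.injEq, smul_eq_mul, mul_ite, mul_one, mul_zero]
  rw [Finset.sum_eq_single i]
  · simp
  · intro j _ hj; simp [Ne.symm hj]
  · intro h; exact absurd (Finset.mem_univ _) h

lemma gLc_single (C : Fin dc) (i : Fin 9) (A : Fin dc) :
    gLc S C (EuclideanSpace.single (i, A) (1 : ℝ)) =
      ∑ B : Fin dc, (S.f C A B) • (EuclideanSpace.single (i, B) (1 : ℝ) : (Cfg dc)) := by
  rw [gLc_eq, Finset.sum_eq_single i, Finset.sum_eq_single A]
  · simp
  · intro B _ hB; simp [hB]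
  · intro h; exact absurd (Finset.mem_univ _) h
  · intro j _ hj; simp [hj]
  · intro h; exact absurd (Finset.mem_univ _) h

lemma G_eq (C : Fin dc) (u : (Cfg dc) → F) (x : (Cfg dc)) :
    S.G C u x = (-Complex.I) • fderiv ℝ u x (gLc S C x) + S.cS C (u x) := by
  have h : ∀ (i : Fin 9) (A B : Fin dc), ((S.f C A B : ℂ) * (x (i, A) : ℂ)) • pd i B u x =
      ((S.f C A B) * x (i, A)) • pd i B u x := by
    intro i A B
    rw [← Complex.coe_smul]
    push_cast
    rfl
  simp only [Setup.G, h, gLc_eq, map_sum, map_smul]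
  rfl

lemma XB_G (C B : Fin dc) (x : (Cfg dc)) : S.XB B (gLc S C x) = ∑ A, (S.f C A B : ℂ) • S.XB A x := by
  simp only [Setup.XB, gLc_apply, Complex.ofReal_sum, Finset.sum_smul, Finset.smul_sum]
  rw [Finset.sum_comm]
  refine Finset.sum_congr rfl fun A _ => Finset.sum_congr rfl fun i _ => ?_
  rw [smul_smul]
  congr 1
  push_cast
  rfl

lemma MA_G (C B : Fin dc) (x : (Cfg dc)) : MA S B (gLc S C x) = ∑ A, (S.f C A B : ℂ) • MA S A x := by
  simp only [MA, gLc_apply, Finset.mul_sum, Complex.ofReal_sum, Finset.sum_smul, Finset.smul_sum]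
  rw [Finset.sum_comm]
  refine Finset.sum_congr rfl fun A _ => Finset.sum_congr rfl fun i _ => ?_
  rw [smul_smul]
  congr 1
  push_cast
  ring

lemma f_jac4 (C E P Q : Fin dc) :
    ∑ X, (S.f E X Q * S.f C P X + S.f E P X * S.f C Q X - S.f C X E * S.f X P Q) = 0 := by
  have h := S.f_jac C P E Q
  rw [← neg_eq_zero, ← Finset.sum_neg_distrib, ← h]
  refine Finset.sum_congr rfl fun X _ => ?_
  have e1 := S.f_swap E X Q
  have e2 : S.f C Q X = S.f X C Q := by rw [S.f_cyc C Q X, S.f_cyc Q X C]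
  have e3 := S.f_swap E P X
  have e4 : S.f C X E = S.f E C X := by rw [S.f_swap' C E X, S.f_swap C E X, neg_neg]
  rw [e1, e2, e3, e4]
  ring

/-- Jacobi identity -/
lemma f_jacobi {M : Type*} [AddCommGroup M] [Module ℂ M] (b : Fin dc → Fin dc → M)
    (C E : Fin dc) :
    ∑ B, ∑ D, (S.f E B D : ℂ) • (∑ G, (S.f C G B : ℂ) • b G D + ∑ G, (S.f C G D : ℂ) • b B G) =
      ∑ A, (S.f C A E : ℂ) • ∑ B, ∑ D, (S.f A B D : ℂ) • b B D := by
  have e1 : ∑ B, ∑ D, (S.f E B D : ℂ) • ∑ G, (S.f C G B : ℂ) • b G D =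
      ∑ P, ∑ Q, ∑ X, ((S.f E X Q * S.f C P X : ℝ) : ℂ) • b P Q := by
    simp only [Finset.smul_sum, smul_smul, Complex.ofReal_mul]
    calc _ = ∑ D, ∑ B, ∑ G, ((S.f E B D : ℂ) * (S.f C G B : ℂ)) • b G D := Finset.sum_comm
      _ = ∑ D, ∑ G, ∑ B, ((S.f E B D : ℂ) * (S.f C G B : ℂ)) • b G D :=
        Finset.sum_congr rfl fun D _ => Finset.sum_comm
      _ = _ := Finset.sum_comm
  have e2 : ∑ B, ∑ D, (S.f E B D : ℂ) • ∑ G, (S.f C G D : ℂ) • b B G =
      ∑ P, ∑ Q, ∑ X, ((S.f E P X * S.f C Q X : ℝ) : ℂ) • b P Q := by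
    simp only [Finset.smul_sum, smul_smul, Complex.ofReal_mul]
    exact Finset.sum_congr rfl fun B _ => Finset.sum_comm
  have e3 : ∑ A, (S.f C A E : ℂ) • ∑ B, ∑ D, (S.f A B D : ℂ) • b B D =
      ∑ P, ∑ Q, ∑ X, ((S.f C X E * S.f X P Q : ℝ) : ℂ) • b P Q := by
    simp only [Finset.smul_sum, smul_smul, Complex.ofReal_mul]
    calc _ = ∑ B, ∑ A, ∑ D, ((S.f C A E : ℂ) * (S.f A B D : ℂ)) • b B D := Finset.sum_comm
      _ = _ := Finset.sum_congr rfl fun B _ => Finset.sum_comm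
  simp only [smul_add, Finset.sum_add_distrib]
  rw [e1, e2, e3]
  simp only [← Finset.sum_smul, ← Finset.sum_add_distrib, ← add_smul, ← Complex.ofReal_sum,
    ← Complex.ofReal_add]
  refine Finset.sum_congr rfl fun P _ => Finset.sum_congr rfl fun Q _ => ?_
  have h := f_jac4 S C E P Q
  rw [Finset.sum_sub_distrib, sub_eq_zero] at h
  rw [h]

lemma NB_G (C E : Fin dc) (x : (Cfg dc)) : NB S E (gLc S C x) x = ∑ A, (S.f C A E : ℂ) • S.NA A x := by
  have h := f_jacobi S (fun B D => S.XB B x * S.XB D x) C E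
  simp only [NB, S.NA_eq_XB, XB_G, Finset.sum_mul, Finset.mul_sum, Matrix.smul_mul,
    Matrix.mul_smul]
  rw [h, Finset.smul_sum]
  refine Finset.sum_congr rfl fun A _ => ?_
  rw [smul_comm]

lemma comm_cS (C : Fin dc) (P : Matrix (Fin 16) (Fin 16) ℂ) (A : Fin dc) (b : Fin 16) :
    S.cS C * S.vec P A b - S.vec P A b * S.cS C =
      Complex.I • ∑ E, (S.f C A E : ℂ) • S.vec P E b := by
  rw [S.cS_eq, ← neg_sub, S.vec_comm_sG S.f (fun C D E => S.f_swap' C E D), ← neg_smul, neg_neg]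

theorem a3 : A3Stmt S := by
  intro m C α u hu x
  rw [← sub_eq_zero]
  have hD : ∀ (u : (Cfg dc) → F) (x : (Cfg dc)), S.G C u x =
      (-Complex.I) • fderiv ℝ u x (gLc S C x) + S.cS C (u x) := fun u x => G_eq S C u x
  rw [comm_gen (contDiff_Zm S m α) (gLc S C) (S.cS C) hD (Qm_eq S m α) hu x]
  -- the zero order part
  have hZ : (-Complex.I) • (fderiv ℝ (Zm S m α) x (gLc S C x)) (u x) +
      (S.cS C * Zm S m α x - Zm S m α x * S.cS C) (u x) = 0 := by
    have h2 : fderiv ℝ (Zm S m α) x (gLc S C x) =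
        ∑ E, ∑ A, (S.f C A E : ℂ) • S.vec (S.NA A x + (m : ℂ) • MA S A x) E α := by
      rw [fderiv_Zm]
      refine Finset.sum_congr rfl fun E _ => ?_
      rw [NB_G, MA_G, Finset.smul_sum, ← Finset.sum_add_distrib, S.vec_sum]
      refine Finset.sum_congr rfl fun A _ => ?_
      rw [← S.vec_smul]
      congr 1
      rw [smul_add, smul_comm]
    have h3 : S.cS C * Zm S m α x - Zm S m α x * S.cS C =
        Complex.I • ∑ E, ∑ A, (S.f C A E : ℂ) • S.vec (S.NA A x + (m : ℂ) • MA S A x) E α := by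
      rw [Zm_eq, Finset.mul_sum, Finset.sum_mul, ← Finset.sum_sub_distrib, Finset.sum_comm,
        Finset.smul_sum]
      refine Finset.sum_congr rfl fun A _ => ?_
      rw [comm_cS]
    have h4 : (-Complex.I) • fderiv ℝ (Zm S m α) x (gLc S C x) +
        (S.cS C * Zm S m α x - Zm S m α x * S.cS C) = 0 := by
      rw [h2, h3]
      module
    have h5 := congrArg (fun T : F →L[ℂ] F => T (u x)) h4
    simpa only [_root_.add_apply, _root_.smul_apply, _root_.sum_apply, _root_.zero_apply] using h5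
  have hF : ∑ i, ∑ A, S.vec (S.g i) A α
        (fderiv ℝ u x ((gLc S C) (EuclideanSpace.single (i, A) (1 : ℝ)))) +
      (-Complex.I) • ∑ i, ∑ A, (S.cS C * S.vec (S.g i) A α - S.vec (S.g i) A α * S.cS C)
        (pd i A u x) = 0 := by
    have h1 : ∀ i A, S.vec (S.g i) A α
        (fderiv ℝ u x ((gLc S C) (EuclideanSpace.single (i, A) (1 : ℝ)))) =
        ∑ B, (S.f C A B : ℂ) • S.vec (S.g i) A α (pd i B u x) := by
      intro i A
      rw [gLc_single, map_sum, map_sum]
      refine Finset.sum_congr rfl fun B _ => ?_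
      rw [map_smul, ← Complex.coe_smul, map_smul]
      rfl
    have h2 : ∀ i A, (S.cS C * S.vec (S.g i) A α - S.vec (S.g i) A α * S.cS C) (pd i A u x) =
        Complex.I • ∑ B, (S.f C A B : ℂ) • S.vec (S.g i) B α (pd i A u x) := by
      intro i A
      rw [comm_cS, _root_.smul_apply, _root_.sum_apply]
      rfl
    have h3 : ∀ i, ∑ A, ∑ B, (S.f C A B : ℂ) • S.vec (S.g i) B α (pd i A u x) =
        -∑ A, ∑ B, (S.f C A B : ℂ) • S.vec (S.g i) A α (pd i B u x) := by
      intro i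
      rw [Finset.sum_comm, ← Finset.sum_neg_distrib]
      refine Finset.sum_congr rfl fun A _ => ?_
      rw [← Finset.sum_neg_distrib]
      refine Finset.sum_congr rfl fun B _ => ?_
      rw [S.f_swap' C A B, ← neg_smul]
      push_cast
      rfl
    simp only [h1, h2, ← Finset.smul_sum, h3, Finset.sum_neg_distrib]
    linear_combination (norm := module) (Complex.I_mul_I) •
      (∑ i, ∑ A, ∑ B, (S.f C A B : ℂ) • S.vec (S.g i) A α (pd i B u x))
  rw [add_assoc, hZ, hF, add_zero]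

end defs

end Vale.Agent.P353.Z.U
end

section

/-! # P353, C-L1 for general `N`: Liouville theorem at a zero `ξ` of `V_1` -/

open MeasureTheory Filter Topology
open scoped ContDiff ComplexConjugate

namespace Vale.Agent.P353.Z.U

variable {dc : ℕ}

variable {F : Type*} [NormedAddCommGroup F] [InnerProductSpace ℂ F]

variable (S : Setup dc F)

theorem l1_tst_eta {η : (Cfg dc) → ℂ} (hη : ContDiff ℝ ∞ η) (hs : HasCompactSupport η) (b : F) :
    Setup.Tst (fun x => η x • b) := by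
  refine ⟨hη.smul contDiff_const, hs.mono ?_⟩
  intro x hx
  simp only [Function.mem_support] at hx ⊢
  intro h0
  exact hx (by rw [h0, zero_smul])

theorem l1_pd_eta {η : (Cfg dc) → ℂ} (hη : ContDiff ℝ ∞ η) (b : F) (i : Fin 9) (A : Fin dc) (x : (Cfg dc)) :
    pd i A (fun y => η y • b) x = fderiv ℝ η x (l1e (i, A)) • b := by
  rw [pd_csmul (u := fun _ => b) (l1_diff hη x) (differentiableAt_const b)]
  have : pd i A (fun _ : (Cfg dc) => b) x = 0 := by simp [pd]
  rw [this, smul_zero, add_zero]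
  rfl

variable {ι : Type} [Fintype ι] [DecidableEq ι] (D : L1D dc ι)

theorem l1_fderiv_A1 (i : Fin 9) (A : Fin dc) (x : (Cfg dc)) :
    fderiv ℝ (fun y : (Cfg dc) => ((D.A y (i, A) : ℝ) : ℂ)) x (l1e (i, A)) =
      ((inner ℝ (D.A (l1e (i, A))) (l1e (i, A)) : ℝ) : ℂ) := by
  have h1 : (fun y : (Cfg dc) => ((D.A y (i, A) : ℝ) : ℂ)) =
      fun y => -(-((inner ℝ (D.A y) (l1e (i, A)) : ℝ) : ℂ)) := by
    funext y
    rw [neg_neg, l1_inner_e]
  rw [h1, fderiv_fun_neg, neg_apply, L1D.fderiv_A, neg_neg]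

theorem l1_H_eta (N N' : F →L[ℂ] F) {η : (Cfg dc) → ℂ} (hη : ContDiff ℝ ∞ η) {b : F} {μ : ℝ}
    (hb : N b + N' b = (μ : ℂ) • b) (x : (Cfg dc)) :
    l1H D N N' (fun y => η y • b) x = (8 * D.L0 (μ / 2) η x) • b := by
  have hA1 : ∀ i A, ContDiff ℝ ∞ (fun y : (Cfg dc) => ((D.A y (i, A) : ℝ) : ℂ)) := fun i A =>
    Setup.contDiff_ofReal (l1_contDiff_A1 D i A)
  have ha : ∀ i A, l1a D i A (fun y => η y • b) =
      fun y => (fderiv ℝ η y (l1e (i, A)) + ((D.A y (i, A) : ℝ) : ℂ) * η y) • b := by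
    intro i A; funext y
    rw [l1a, l1_pd_eta hη b i A y, smul_smul, ← add_smul]
  have hη1 : ∀ i A, ContDiff ℝ ∞ (fun y => fderiv ℝ η y (l1e (i, A)) + ((D.A y (i, A) : ℝ) : ℂ) * η y) :=
    fun i A => (l1_contDiff_dir hη _).add ((hA1 i A).mul hη)
  have hb2 : ∀ i A, l1b D i A (l1a D i A (fun y => η y • b)) x =
      (-fderiv ℝ (fun y => fderiv ℝ η y (l1e (i, A))) x (l1e (i, A)) +
        (((D.A x (i, A) : ℝ) : ℂ) ^ 2 - ((inner ℝ (D.A (l1e (i, A))) (l1e (i, A)) : ℝ) : ℂ)) * η x) • b := by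
    intro i A
    rw [ha i A, l1b, l1_pd_eta (hη1 i A) b i A x, smul_smul, ← neg_smul, ← add_smul]
    congr 1
    have d1 : DifferentiableAt ℝ (fun y => fderiv ℝ η y (l1e (i, A))) x :=
      l1_diff (l1_contDiff_dir hη _) x
    have d2 : DifferentiableAt ℝ (fun y => ((D.A y (i, A) : ℝ) : ℂ) * η y) x :=
      l1_diff ((hA1 i A).mul hη) x
    rw [fderiv_fun_add d1 d2, add_apply, l1_fderiv_mul (l1_diff (hA1 i A) x) (l1_diff hη x),
      l1_fderiv_A1]
    ring
  unfold l1H
  simp only [hb2, map_smul, ← smul_add, hb, ← Finset.sum_smul]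
  simp only [smul_smul, ← add_smul]
  congr 1
  unfold L1D.L0
  have e1 : ‖D.A x‖ ^ 2 = ∑ i, ∑ A, D.A x (i, A) ^ 2 := by
    rw [← real_inner_self_eq_norm_sq, l1_inner_sum, Fintype.sum_prod_type]
    exact Finset.sum_congr rfl fun i _ => Finset.sum_congr rfl fun A _ => by ring
  have e2 : D.tr = ∑ i, ∑ A, inner ℝ (D.A (l1e (i, A))) (l1e (i, A)) := by
    rw [L1D.tr, Fintype.sum_prod_type]
  rw [e1, e2, Fintype.sum_prod_type]
  simp only [Finset.sum_add_distrib, Finset.sum_neg_distrib, ← Finset.sum_mul,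
    Finset.sum_sub_distrib]
  push_cast
  ring

/-- scalar components of a growing function -/
theorem l1_gr_inner {u : (Cfg dc) → F} (h : L1Gr u) (b : F) : L1Gr (fun x => inner ℂ b (u x)) := by
  have hm : AEStronglyMeasurable (fun x => inner ℂ b (u x)) (volume : Measure (Cfg dc)) :=
    aestronglyMeasurable_const.inner h.meas
  have hle : ∀ x, ‖inner ℂ b (u x)‖ ^ 2 ≤ ‖b‖ ^ 2 * ‖u x‖ ^ 2 := fun x => by
    rw [← mul_pow]
    exact pow_le_pow_left₀ (norm_nonneg _) (norm_inner_le_norm _ _) 2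
  have hloc : ∀ s : ℝ, 0 < s →
      IntegrableOn (fun x => ‖inner ℂ b (u x)‖ ^ 2) (Metric.ball (0 : (Cfg dc)) s) := fun s hs => by
    refine ((h.loc s hs).const_mul (‖b‖ ^ 2)).mono' (hm.norm.pow 2).restrict
      (Eventually.of_forall fun x => ?_)
    rw [Real.norm_of_nonneg (by positivity)]
    exact hle x
  obtain ⟨K, p, hK⟩ := h.gr
  refine ⟨hm, hloc, ‖b‖ ^ 2 * K, p, fun s hs => ?_⟩
  have hs0 : 0 < s := by linarith
  calc ∫ x in Metric.ball (0 : (Cfg dc)) s, ‖inner ℂ b (u x)‖ ^ 2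
      ≤ ∫ x in Metric.ball (0 : (Cfg dc)) s, ‖b‖ ^ 2 * ‖u x‖ ^ 2 :=
        setIntegral_mono (hloc s hs0) ((h.loc s hs0).const_mul _) hle
    _ = ‖b‖ ^ 2 * ∫ x in Metric.ball (0 : (Cfg dc)) s, ‖u x‖ ^ 2 := integral_const_mul _ _
    _ ≤ ‖b‖ ^ 2 * (K * s ^ p) := mul_le_mul_of_nonneg_left (hK s hs) (by positivity)
    _ = _ := by ring

/-- the directional derivative along a gauge direction -/
theorem l1_xi {ξ : Cfg dc} {η : (Cfg dc) → ℂ} (hη : ContDiff ℝ ∞ η) (b : F) (C : Fin dc)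
    (x : (Cfg dc)) :
    (∑ i, ∑ A, ∑ B, ((S.f C A B : ℂ) * (ξ (i, A) : ℂ)) • pd i B (fun y => η y • b) x) =
      fderiv ℝ η x (l1tau S ξ C) • b := by
  simp only [l1_pd_eta hη]
  have h3 : fderiv ℝ η x (l1tau S ξ C) =
      ∑ i, ∑ A, ∑ B, ((S.f C A B : ℂ) * (ξ (i, A) : ℂ)) * fderiv ℝ η x (l1e (i, B)) := by
    unfold l1tau
    simp only [map_sum, map_smul]
    refine Finset.sum_congr rfl fun i _ => Finset.sum_congr rfl fun A _ =>
      Finset.sum_congr rfl fun B _ => ?_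
    rw [Complex.real_smul]
    push_cast
    rfl
  rw [h3]
  simp only [Finset.sum_smul, smul_smul]

/-- the weak gauge equation extends to all gauge directions -/
theorem l1_gauge {ξ : Cfg dc} {U : (Cfg dc) → ℂ} (hU : L1Gr U) {η : (Cfg dc) → ℂ}
    (hη : ContDiff ℝ ∞ η) (hs : HasCompactSupport η)
    (h : ∀ C, ∫ x, inner ℂ (fderiv ℝ η x (l1tau S ξ C)) (U x) = 0) {v : Cfg dc}
    (hv : v ∈ l1T S ξ) : ∫ x, inner ℂ (fderiv ℝ η x v) (U x) = 0 := by
  refine Submodule.span_induction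
    (p := fun v _ => ∫ x, inner ℂ (fderiv ℝ η x v) (U x) = 0) ?_ ?_ ?_ ?_ hv
  · rintro _ ⟨C, rfl⟩
    exact h C
  · simp
  · intro v w _ _ h1 h2
    have i1 : Integrable (fun x => inner ℂ (fderiv ℝ η x v) (U x)) :=
      hU.int_inner_cs (l1_contDiff_dir hη v).continuous (l1_hcs_dir hs v)
    have i2 : Integrable (fun x => inner ℂ (fderiv ℝ η x w) (U x)) :=
      hU.int_inner_cs (l1_contDiff_dir hη w).continuous (l1_hcs_dir hs w)
    have e : ∀ x, inner ℂ (fderiv ℝ η x (v + w)) (U x) =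
        inner ℂ (fderiv ℝ η x v) (U x) + inner ℂ (fderiv ℝ η x w) (U x) := fun x => by
      rw [map_add, inner_add_left]
    simp only [e]
    rw [integral_add i1 i2, h1, h2, add_zero]
  · intro a v _ h1
    have e : ∀ x, inner ℂ (fderiv ℝ η x (a • v)) (U x) =
        (a : ℂ) * inner ℂ (fderiv ℝ η x v) (U x) := fun x => by
      rw [map_smul, Complex.real_smul, ← smul_eq_mul, inner_smul_left, Complex.conj_ofReal]
    simp only [e]
    rw [integral_const_mul, h1, mul_zero]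

theorem l1_scalar {ξ : Cfg dc} {D : L1D dc (Fin (Module.finrank ℝ (l1T S ξ)))}
    (hτ : D.τ = l1bas S ξ) {N1 : F →L[ℂ] F} (hE : L1En S ξ D N1) (N' : F →L[ℂ] F)
    (hN : ∀ v w, inner ℂ (N' v) w = inner ℂ v (N1 w)) {u : (Cfg dc) → F} (hu : L1Gr u)
    (h1 : ∀ β ζ, Setup.Tst ζ → ∫ x, inner ℂ (S.Qlin ξ β ζ x) (u x) = 0)
    (h2 : ∀ (C : Fin dc) ζ, Setup.Tst ζ → ∫ x, inner ℂ
      (∑ i, ∑ A, ∑ B, ((S.f C A B : ℂ) * (ξ (i, A) : ℂ)) • pd i B ζ x) (u x) = 0)
    {b : F} {μ : ℝ} (hb : N1 b + N' b = (μ : ℂ) • b) :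
    L1Sol D (μ / 2) (fun x => inner ℂ b (u x)) := by
  refine ⟨l1_gr_inner hu b, fun η hη hs => ?_, fun j η hη hs => ?_⟩
  · have hζ := l1_tst_eta hη hs b
    have e1 : ∫ x, inner ℂ (l1H D N1 N' (fun y => η y • b) x) (u x) = 0 := by
      have e2 : ∀ x, inner ℂ (l1H D N1 N' (fun y => η y • b) x) (u x) =
          ∑ β, inner ℂ (S.Qlin ξ β (S.Qlin ξ β (fun y => η y • b)) x) (u x) := fun x => by
        rw [← l1_second hE N' hN hζ x, sum_inner]
      simp only [e2]
      rw [integral_finsetSum _ fun β _ => l1_int_cs hu (l1_tst_Qlin S ξ (l1_tst_Qlin S ξ hζ β) β)]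
      exact Finset.sum_eq_zero fun β _ => h1 β _ (l1_tst_Qlin S ξ hζ β)
    have e3 : ∀ x, inner ℂ (l1H D N1 N' (fun y => η y • b) x) (u x) =
        8 * inner ℂ (D.L0 (μ / 2) η x) (inner ℂ b (u x)) := fun x => by
      rw [l1_H_eta D N1 N' hη hb x, inner_smul_left, RCLike.inner_apply, map_mul, map_ofNat]
      ring
    simp only [e3] at e1
    rw [integral_const_mul] at e1
    rcases mul_eq_zero.mp e1 with h | h
    · norm_num at h
    · exact h
  · have hζ := l1_tst_eta hη hs b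
    rw [hτ]
    refine l1_gauge S (l1_gr_inner hu b) hη hs (fun C => ?_) (l1_bas_mem S ξ j)
    have e1 := h2 C _ hζ
    have e3 : ∀ x, inner ℂ (∑ i, ∑ A, ∑ B, ((S.f C A B : ℂ) * (ξ (i, A) : ℂ)) •
        pd i B (fun y => η y • b) x) (u x) =
        inner ℂ (fderiv ℝ η x (l1tau S ξ C)) (inner ℂ b (u x)) := fun x => by
      rw [l1_xi S hη b C x, inner_smul_left, RCLike.inner_apply]
      ring
    simp only [e3] at e1
    exact e1

omit S in
theorem l1_eig [FiniteDimensional ℂ F] (T : F →ₗ[ℂ] F) (hT : T.IsSymmetric) :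
    ∃ (n : ℕ) (b : OrthonormalBasis (Fin n) ℂ F) (μ : Fin n → ℝ),
      ∀ j, T (b j) = ((μ j : ℝ) : ℂ) • b j := by
  refine ⟨Module.finrank ℂ F, hT.eigenvectorBasis rfl, hT.eigenvalues rfl, fun j => ?_⟩
  have h := hT.apply_eigenvectorBasis rfl j
  rw [h]
  rfl

/-- **C-L1** -/
theorem l1 [FiniteDimensional ℂ F] (hSq : SqStmt S) (hHes : HesStmt S) (hSqr : SqrStmt S)
    (hEn : EnStmt S) (hNpos : NposStmt S) (hQua : QuaStmt S) (hInv : InvStmt S) : L1Stmt S := by
  intro hIrr hne ξ hξ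
  obtain ⟨K, hK⟩ := hSqr ξ
  obtain ⟨D, hDA, hDτ⟩ := l1_exists_data S hSq hHes hξ hK
  obtain ⟨R, hRt, hRi, hR⟩ := hInv ξ hξ
  have hcomp : CompleteSpace F := FiniteDimensional.complete ℂ F
  set N1 : F →L[ℂ] F := S.Nx (trK K) ξ with hN1
  have hNR : ∀ v, N1 v = (((trK K / 2 : ℝ) : ℂ)) • v + Complex.I • ∑ p, ∑ q, (R p q : ℂ) •
      S.th p.1 p.2 (S.th q.1 q.2 v) := fun v => by
    rw [← hR v, hN1]
    simp only [Setup.Nx, _root_.sub_apply, _root_.add_apply, _root_.smul_apply,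
      one_apply_eq_self]
    abel
  have hpos : ∀ v, 0 ≤ (inner ℂ v (N1 v)).re := hNpos ξ K hξ hK
  obtain ⟨Ω, hΩ, hker⟩ := hQua hIrr hne R (trK K / 2) hRt hRi fun v => by
    rw [← hNR v]
    exact hpos v
  have hker' : ∀ v, (inner ℂ v (N1 v)).re = 0 → ∃ c : ℂ, v = c • Ω := fun v hv =>
    hker v (by rw [← hNR v]; exact hv)
  have hE : L1En S ξ D N1 := by
    intro v hv
    have := hEn ξ K hξ hK v hv
    rw [hDA]
    exact this
  refine ⟨fun x => Real.exp (-(1 / 2) * inner ℝ (K x) x), ?_, fun x => Real.exp_pos _, Ω, hΩ,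
    fun u hum hloc hgr hQ hG => ?_⟩
  · have := K.continuous
    fun_prop
  have hu : L1Gr u := ⟨hum.aestronglyMeasurable, hloc, hgr⟩
  let N' : F →L[ℂ] F := ContinuousLinearMap.adjoint N1
  have hN' : ∀ v w, inner ℂ (N' v) w = inner ℂ v (N1 w) := fun v w =>
    ContinuousLinearMap.adjoint_inner_left N1 w v
  have hN'' : ∀ v w, inner ℂ (N1 v) w = inner ℂ v (N' w) := fun v w => by
    rw [← inner_conj_symm, ← hN' w v, inner_conj_symm]
  let T : F →ₗ[ℂ] F := ((N1 + N' : F →L[ℂ] F) : F →ₗ[ℂ] F)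
  have hTa : ∀ v, T v = N1 v + N' v := fun v => rfl
  have hT : T.IsSymmetric := by
    intro v w
    rw [hTa, hTa, inner_add_left, inner_add_right, hN', hN'', add_comm]
  obtain ⟨n, b, μ, hTb⟩ := l1_eig T hT
  have hb : ∀ j, N1 (b j) + N' (b j) = ((μ j : ℝ) : ℂ) • b j := fun j => by
    rw [← hTa, hTb]
  have hμ : ∀ j, μ j = 2 * (inner ℂ (b j) (N1 (b j))).re := fun j => by
    have e1 : inner ℂ (b j) (N1 (b j) + N' (b j)) = ((μ j : ℝ) : ℂ) := by
      rw [hb j, inner_smul_right, inner_self_eq_norm_sq_to_K, b.norm_eq_one]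
      simp
    have e2 : inner ℂ (b j) (N' (b j)) = conj (inner ℂ (b j) (N1 (b j))) := by
      rw [← hN'', inner_conj_symm]
    rw [inner_add_right, e2] at e1
    have e3 := congrArg Complex.re e1
    rw [Complex.add_re, Complex.conj_re, Complex.ofReal_re] at e3
    linarith
  have hμ0 : ∀ j, 0 ≤ μ j := fun j => by rw [hμ j]; have := hpos (b j); linarith
  have hd : ∀ j, ∃ d : ℂ, μ j = 0 → b j = d • Ω := fun j => by
    by_cases h0 : μ j = 0
    · have h1 : (inner ℂ (b j) (N1 (b j))).re = 0 := by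
        have := hμ j; linarith
      obtain ⟨d, hd⟩ := hker' _ h1
      exact ⟨d, fun _ => hd⟩
    · exact ⟨0, fun h => absurd h h0⟩
  choose d hd using hd
  have hc : ∀ j, ∃ c : ℂ, (0 < μ j / 2 → c = 0) ∧
      ∀ᵐ x ∂(volume : Measure (Cfg dc)), inner ℂ (b j) (u x) = c * D.GG x := fun j =>
    (l1_scalar S hDτ hE N' hN' hu hQ hG (hb j)).liouville (by have := hμ0 j; linarith)
  choose c hc0 hc1 using hc
  refine ⟨∑ j, c j * d j, ?_⟩
  have hall : ∀ᵐ x ∂(volume : Measure (Cfg dc)), ∀ j, inner ℂ (b j) (u x) = c j * D.GG x :=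
    ae_all_iff.mpr hc1
  filter_upwards [hall] with x hx
  have h1 : u x = ∑ j, inner ℂ (b j) (u x) • b j := (b.sum_repr' (u x)).symm
  rw [h1]
  have h2 : ∀ j, inner ℂ (b j) (u x) • b j = (c j * d j * D.GG x) • Ω := fun j => by
    rw [hx j]
    rcases (hμ0 j).eq_or_lt with h0 | h0
    · have h3 : (c j * D.GG x) • b j = (c j * D.GG x) • (d j • Ω) :=
        congrArg (fun v => (c j * D.GG x) • v) (hd j h0.symm)
      rw [h3, smul_smul]
      congr 1
      ring
    · rw [hc0 j (by linarith)]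
      simp
  simp only [h2]
  rw [← Finset.sum_smul, ← Finset.sum_mul, L1D.GG_eq, hDA]

end Vale.Agent.P353.Z.U
end

section

/-! # P353, general `N`: local limits -/

open MeasureTheory Filter Topology
open scoped ContDiff

namespace Vale.Agent.P353.Z.U

variable {dc : ℕ}

variable {F : Type*} [NormedAddCommGroup F] [InnerProductSpace ℂ F]

section final

variable (S : Setup dc F)

/-- derivative along the gauge directions -/
noncomputable def lmD (ξ : (Cfg dc)) (C : Fin dc) (u : (Cfg dc) → F) (x : (Cfg dc)) : F :=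
  ∑ i, ∑ A, ∑ B, ((S.f C A B : ℂ) * (ξ (i, A) : ℂ)) • pd i B u x

lemma lm_Tst_D (ξ : (Cfg dc)) (C : Fin dc) {ζ : (Cfg dc) → F} (hζ : Setup.Tst ζ) : Setup.Tst (lmD S ξ C ζ) := by
  constructor
  · unfold lmD
    refine ContDiff.sum fun i _ => ContDiff.sum fun A _ => ContDiff.sum fun B _ => ?_
    exact (contDiff_pd hζ.1).const_smul _
  · refine HasCompactSupport.intro' (K := tsupport ζ) hζ.2 (isClosed_tsupport ζ) ?_
    intro x hx
    have h1 : ∀ i A, pd i A ζ x = 0 := by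
      intro i A
      have : fderiv ℝ ζ x = 0 := by
        have h := (tsupport_fderiv_subset ℝ (f := ζ))
        by_contra hne
        exact hx (h (subset_tsupport _ hne))
      simp [pd, this]
    simp only [lmD, h1, smul_zero, Finset.sum_const_zero]

lemma lm_D_symm (ξ : (Cfg dc)) (C : Fin dc) {ζ v : (Cfg dc) → F} (hζ : Setup.Tst ζ) (hv : ContDiff ℝ ∞ v) :
    ∫ x, inner ℂ (lmD S ξ C ζ x) (v x) = -∫ x, inner ℂ (ζ x) (lmD S ξ C v x) := by
  simp only [lmD, sum_inner, inner_sum, inner_smul_left, inner_smul_right, map_mul,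
    Complex.conj_ofReal]
  have i1 : ∀ i B, Integrable (fun x => inner ℂ (pd i B ζ x) (v x)) := fun i B =>
    (hζ.pd i B).inner_int hv.continuous
  have i2 : ∀ i B, Integrable (fun x => inner ℂ (ζ x) (pd i B v x)) := fun i B =>
    hζ.inner_int (contDiff_pd hv).continuous
  rw [integral_finsetSum _ fun i _ => integrable_finsetSum _ fun A _ => integrable_finsetSum _
      fun B _ => (i1 i B).const_mul _,
    integral_finsetSum _ fun i _ => integrable_finsetSum _ fun A _ => integrable_finsetSum _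
      fun B _ => (i2 i B).const_mul _, ← Finset.sum_neg_distrib]
  refine Finset.sum_congr rfl fun i _ => ?_
  rw [integral_finsetSum _ fun A _ => integrable_finsetSum _
      fun B _ => (i1 i B).const_mul _,
    integral_finsetSum _ fun A _ => integrable_finsetSum _
      fun B _ => (i2 i B).const_mul _, ← Finset.sum_neg_distrib]
  refine Finset.sum_congr rfl fun A _ => ?_
  rw [integral_finsetSum _ fun B _ => (i1 i B).const_mul _,
    integral_finsetSum _ fun B _ => (i2 i B).const_mul _, ← Finset.sum_neg_distrib]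
  refine Finset.sum_congr rfl fun B _ => ?_
  rw [integral_const_mul, integral_const_mul, integral_inner_pd ζ v (hζ.1.of_le (by simp))
    (hv.of_le (by simp)) hζ.2 i B]
  ring

/-- the gauge generator in scaled coordinates -/
lemma lm_G_scl {φ : (Cfg dc) → F} (hφ : ContDiff ℝ ∞ φ) {m : ℝ} (hm : 0 < m) (ξ : (Cfg dc)) (C : Fin dc)
    (hG : ∀ x, S.G C φ x = 0) (w : (Cfg dc)) :
    lmD S ξ C (scl m ξ φ) w =
      (-Complex.I * ((((Real.sqrt m)⁻¹) ^ 3 : ℝ) : ℂ)) • S.G C (scl m ξ φ) w := by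
  have ht : 0 < Real.sqrt m := Real.sqrt_pos.2 hm
  have ht2 : Real.sqrt m ^ 2 = m := Real.sq_sqrt hm.le
  have htc : ((Real.sqrt m : ℝ) : ℂ) ≠ 0 := Complex.ofReal_ne_zero.2 ht.ne'
  have hmc : (m : ℂ) = ((Real.sqrt m : ℝ) : ℂ) ^ 2 := by
    rw [← Complex.ofReal_pow, ht2]
  have h := hG (m • ξ + (Real.sqrt m)⁻¹ • w)
  have e2 : scl m ξ φ w = φ (m • ξ + (Real.sqrt m)⁻¹ • w) := rfl
  have hpd : ∀ i B, pd i B φ (m • ξ + (Real.sqrt m)⁻¹ • w) =
      ((Real.sqrt m : ℝ) : ℂ) • pd i B (scl m ξ φ) w := by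
    intro i B
    rw [lm_pd_scl hφ, smul_smul, ← Complex.ofReal_mul, mul_inv_cancel₀ ht.ne', Complex.ofReal_one,
      one_smul]
  have hsum : ∑ i, ∑ A, ∑ B, ((S.f C A B : ℂ) *
      ((m • ξ + (Real.sqrt m)⁻¹ • w) (i, A) : ℂ)) • pd i B φ (m • ξ + (Real.sqrt m)⁻¹ • w) =
      (((Real.sqrt m : ℝ) : ℂ) ^ 3) • lmD S ξ C (scl m ξ φ) w +
        ∑ i, ∑ A, ∑ B, ((S.f C A B : ℂ) * (w (i, A) : ℂ)) • pd i B (scl m ξ φ) w := by
    simp only [lmD, Finset.smul_sum, ← Finset.sum_add_distrib]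
    refine Finset.sum_congr rfl fun i _ => Finset.sum_congr rfl fun A _ =>
      Finset.sum_congr rfl fun B _ => ?_
    rw [hpd, smul_smul, smul_smul, ← add_smul]
    congr 1
    rw [PiLp.add_apply, PiLp.smul_apply, PiLp.smul_apply, smul_eq_mul, smul_eq_mul]
    push_cast
    rw [hmc]
    field_simp
  rw [Setup.G, hsum, ← e2] at h
  rw [Setup.G]
  generalize (∑ i, ∑ A, ∑ B, ((S.f C A B : ℂ) * (w (i, A) : ℂ)) •
    pd i B (scl m ξ φ) w) = a at h ⊢
  generalize S.cS C (scl m ξ φ w) = b at h ⊢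
  generalize lmD S ξ C (scl m ξ φ) w = d at h ⊢
  have h2 : (-Complex.I) • a + b = (Complex.I * ((Real.sqrt m : ℝ) : ℂ) ^ 3) • d := by
    have h3 : (-Complex.I) • a + b - (Complex.I * ((Real.sqrt m : ℝ) : ℂ) ^ 3) • d =
        (-Complex.I) • ((((Real.sqrt m : ℝ) : ℂ) ^ 3) • d + a) + b := by module
    exact sub_eq_zero.1 (h3.trans h)
  rw [h2, smul_smul]
  have h4 : -Complex.I * ((((Real.sqrt m)⁻¹) ^ 3 : ℝ) : ℂ) *
      (Complex.I * ((Real.sqrt m : ℝ) : ℂ) ^ 3) = 1 := by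
    push_cast
    have hI := Complex.I_mul_I
    field_simp
    rw [← neg_mul_neg] at hI
    linear_combination -hI
  rw [h4, one_smul]

/-- **C-Lim** -/
theorem lim (h8 : A8Stmt S) (hLR : LRStmt dc F) : LimStmt S := by
  intro ξ hcr m hm1 hmt φ hφ P hP hE
  have hm0 : ∀ k, 0 < m k := fun k => lt_of_lt_of_le one_pos (hm1 k)
  have hsm : ∀ k, ContDiff ℝ ∞ (scl (m k) ξ (φ k)) := fun k =>
    lm_scl_contDiff (hφ k).1 (m k) ξ
  -- local bounds
  have hbd : ∀ s : ℝ, 0 < s → ∃ K : ℝ, ∀ k,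
      (∫ x in Metric.ball (0 : (Cfg dc)) s, ‖scl (m k) ξ (φ k) x‖ ^ 2) +
      ∑ i, ∑ A, (∫ x in Metric.ball (0 : (Cfg dc)) s, ‖pd i A (scl (m k) ξ (φ k)) x‖ ^ 2) ≤ K := by
    intro s hs
    obtain ⟨C, hC, hC'⟩ := lm_grad S h8 ξ hcr hs
    obtain ⟨B, hB⟩ := (hE (3 * s) (by linarith)).bddAbove_range
    refine ⟨P s + C * (B + P (3 * s)), fun k => add_le_add (hP k s hs) ?_⟩
    refine (hC' (m k) (hm1 k) (φ k) (hφ k).1).trans ?_
    exact mul_le_mul_of_nonneg_left (add_le_add (hB ⟨k, rfl⟩) (hP k (3 * s) (by linarith))) hC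
  obtain ⟨ψ, hψ, u, hum, hui, hul⟩ := hLR (fun k => scl (m k) ξ (φ k)) hsm hbd
  refine ⟨ψ, hψ, u, hum, hui, hul, ?_, ?_⟩
  · -- the equation
    intro β ζ hζ
    have h1 := lm_tend (v := fun k => scl (m (ψ k)) ξ (φ (ψ k)))
      (fun k => (hsm (ψ k)).continuous) hum hui hul (lm_Tst_Qlin S ξ β hζ)
    have hWζ : Setup.Tst (fun x => S.W β x (ζ x)) := Setup.Tst.clm (S.contDiff_W β) hζ
    have h2 := lm_tend (v := fun k => scl (m (ψ k)) ξ (φ (ψ k)))
      (fun k => (hsm (ψ k)).continuous) hum hui hul hWζ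
    have hcE : ∀ k, Continuous fun x => ((((Real.sqrt (m k))⁻¹ : ℝ)) : ℂ) •
        scl (m k) ξ (S.Qm (m k) β (φ k)) x := by
      intro k
      have h1 : ContDiff ℝ ∞ (S.Qm (m k) β (φ k)) := by
        have : ContDiff ℝ ∞ (fun x => S.Q β (φ k) x + ((m k : ℝ) : ℂ) • S.MM β x (φ k x)) :=
          (S.contDiff_Q β (hφ k).1).add
            ((Setup.contDiff_clm_apply' (lm_contDiff_MM S β) (hφ k).1).const_smul _)
        exact this
      exact (lm_scl_contDiff h1 (m k) ξ).continuous.const_smul _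
    have h3 : Tendsto (fun k => ∫ x, inner ℂ (ζ x) (((((Real.sqrt (m (ψ k)))⁻¹ : ℝ)) : ℂ) •
        scl (m (ψ k)) ξ (S.Qm (m (ψ k)) β (φ (ψ k))) x)) atTop (𝓝 0) := by
      refine lm_null (fun k => hcE (ψ k)) (fun s hs => ?_) hζ
      have h4 := (hE s hs).comp hψ.tendsto_atTop
      refine squeeze_zero (fun k => integral_nonneg fun x => by positivity) (fun k => ?_) h4
      have h5 : ∀ x, ‖((((Real.sqrt (m (ψ k)))⁻¹ : ℝ)) : ℂ) •
          scl (m (ψ k)) ξ (S.Qm (m (ψ k)) β (φ (ψ k))) x‖ ^ 2 =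
          (m (ψ k))⁻¹ * ‖scl (m (ψ k)) ξ (S.Qm (m (ψ k)) β (φ (ψ k))) x‖ ^ 2 := by
        intro x
        rw [norm_smul, Complex.norm_real, mul_pow, Real.norm_eq_abs, sq_abs, inv_pow,
          Real.sq_sqrt (hm0 _).le]
      simp only [h5, Function.comp]
      exact Finset.single_le_sum (f := fun β => ∫ w in Metric.ball (0 : (Cfg dc)) s,
        (m (ψ k))⁻¹ * ‖scl (m (ψ k)) ξ (S.Qm (m (ψ k)) β (φ (ψ k))) w‖ ^ 2)
        (fun β _ => integral_nonneg fun x => mul_nonneg (inv_nonneg.2 (hm0 _).le) (by positivity))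
        (Finset.mem_univ β)
    have h4 : Tendsto (fun k => ((((Real.sqrt (m (ψ k)))⁻¹) ^ 3 : ℝ) : ℂ)) atTop (𝓝 0) := by
      have a1 : Tendsto (fun k => ((Real.sqrt (m (ψ k)))⁻¹)) atTop (𝓝 0) :=
        tendsto_inv_atTop_zero.comp (Real.tendsto_sqrt_atTop.comp (hmt.comp hψ.tendsto_atTop))
      have a2 := a1.pow 3
      rw [zero_pow (by norm_num)] at a2
      have a3 := (Complex.continuous_ofReal.tendsto 0).comp a2
      rw [Complex.ofReal_zero] at a3
      exact a3
    have h5 : ∀ k, ∫ x, inner ℂ (S.Qlin ξ β ζ x) (scl (m (ψ k)) ξ (φ (ψ k)) x) =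
        (∫ x, inner ℂ (ζ x) (((((Real.sqrt (m (ψ k)))⁻¹ : ℝ)) : ℂ) •
          scl (m (ψ k)) ξ (S.Qm (m (ψ k)) β (φ (ψ k))) x)) -
        ((((Real.sqrt (m (ψ k)))⁻¹) ^ 3 : ℝ) : ℂ) *
          ∫ x, inner ℂ (S.W β x (ζ x)) (scl (m (ψ k)) ξ (φ (ψ k)) x) := by
      intro k
      rw [lm_Qlin_symm S ξ β hζ (hsm (ψ k)), ← integral_const_mul, ← integral_sub
        (hζ.inner_int (hcE (ψ k))) ((hWζ.inner_int (hsm (ψ k)).continuous).const_mul _)]
      refine integral_congr_ae (Filter.Eventually.of_forall fun x => ?_)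
      simp only
      rw [lm_Qm_scl S (hφ (ψ k)).1 (hm0 (ψ k)) (hcr β) x, inner_add_right, inner_smul_right,
        S.W_symm, add_sub_cancel_right]
    have h6 := h3.sub (h4.mul h2)
    rw [zero_mul, sub_zero] at h6
    have h7 := h6.congr fun k => (h5 k).symm
    exact tendsto_nhds_unique h1 h7
  · -- gauge directions
    intro hG C ζ hζ
    obtain ⟨Z, hZ, hZ'⟩ := (lm_adj_G S C).2 ζ hζ
    have h1 := lm_tend (v := fun k => scl (m (ψ k)) ξ (φ (ψ k)))
      (fun k => (hsm (ψ k)).continuous) hum hui hul (lm_Tst_D S ξ C hζ)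
    have h2 := lm_tend (v := fun k => scl (m (ψ k)) ξ (φ (ψ k)))
      (fun k => (hsm (ψ k)).continuous) hum hui hul hZ
    have h4 : Tendsto (fun k => ((((Real.sqrt (m (ψ k)))⁻¹) ^ 3 : ℝ) : ℂ)) atTop (𝓝 0) := by
      have a1 : Tendsto (fun k => ((Real.sqrt (m (ψ k)))⁻¹)) atTop (𝓝 0) :=
        tendsto_inv_atTop_zero.comp (Real.tendsto_sqrt_atTop.comp (hmt.comp hψ.tendsto_atTop))
      have a2 := a1.pow 3
      rw [zero_pow (by norm_num)] at a2
      have a3 := (Complex.continuous_ofReal.tendsto 0).comp a2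
      rw [Complex.ofReal_zero] at a3
      exact a3
    have h5 : ∀ k, ∫ x, inner ℂ (lmD S ξ C ζ x) (scl (m (ψ k)) ξ (φ (ψ k)) x) =
        Complex.I * (((((Real.sqrt (m (ψ k)))⁻¹) ^ 3 : ℝ) : ℂ) *
          ∫ x, inner ℂ (Z x) (scl (m (ψ k)) ξ (φ (ψ k)) x)) := by
      intro k
      rw [lm_D_symm S ξ C hζ (hsm (ψ k)), ← hZ' _ (hsm (ψ k)), ← integral_const_mul,
        ← integral_const_mul, ← integral_neg]
      refine integral_congr_ae (Filter.Eventually.of_forall fun x => ?_)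
      simp only
      rw [lm_G_scl S (hφ (ψ k)).1 (hm0 (ψ k)) ξ C (hG (ψ k) C) x, inner_smul_right]
      ring
    have h6 := (h4.mul h2).const_mul Complex.I
    rw [zero_mul, mul_zero] at h6
    have h7 := h6.congr fun k => (h5 k).symm
    exact tendsto_nhds_unique h1 h7

end final

end Vale.Agent.P353.Z.U
end

section

/-! # P353, general `N`: zero-energy states of the model are zero modes of the setup -/

open MeasureTheory Filter Topology
open scoped ContDiff

namespace Vale.Agent.P353.Z.U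

/-! ### the Clifford module is finite dimensional -/

section MFD

variable {N d : ℕ} {F : Type*} [NormedAddCommGroup F] [InnerProductSpace ℂ F]
  (M : BFSS.Model N d F)

/-- the span of the products of a list of generators applied to `v` -/
noncomputable def mbGen (v : F) : List (Fin 16 × Fin d) → Submodule ℂ F
  | [] => Submodule.span ℂ {v}
  | a :: l => mbGen v l ⊔ (mbGen v l).map (M.θ a.1 a.2 : F →ₗ[ℂ] F)

theorem mbGen_fd (v : F) (l : List (Fin 16 × Fin d)) : FiniteDimensional ℂ (mbGen M v l) := by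
  induction l with
  | nil => exact FiniteDimensional.span_singleton ℂ v
  | cons a l ih =>
    rw [mbGen]
    infer_instance

theorem mem_mbGen (v : F) (l : List (Fin 16 × Fin d)) : v ∈ mbGen M v l := by
  induction l with
  | nil => exact Submodule.mem_span_singleton_self v
  | cons a l ih => exact Submodule.mem_sup_left ih

theorem mb_theta_sq (α : Fin 16) (A : Fin d) (w : F) :
    M.θ α A (M.θ α A w) = (1 / 2 : ℂ) • w := by
  have h := M.θ_anticomm α A α A w
  rw [if_pos ⟨rfl, rfl⟩] at h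
  conv_rhs => rw [← h]
  rw [smul_add, ← add_smul]
  norm_num

theorem mbGen_inv (v : F) (l : List (Fin 16 × Fin d)) :
    ∀ b ∈ l, ∀ w ∈ mbGen M v l, M.θ b.1 b.2 w ∈ mbGen M v l := by
  induction l with
  | nil => intro b hb; simp at hb
  | cons a l ih =>
    intro b hb w hw
    rw [mbGen, Submodule.mem_sup] at hw
    obtain ⟨w1, hw1, w2', hw2', rfl⟩ := hw
    obtain ⟨w2, hw2, rfl⟩ := Submodule.mem_map.mp hw2'
    rw [map_add]
    rw [mbGen]
    change M.θ b.1 b.2 w1 + M.θ b.1 b.2 (M.θ a.1 a.2 w2) ∈ _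
    by_cases hba : b = a
    · subst hba
      rw [mb_theta_sq]
      refine Submodule.add_mem _ ?_ ?_
      · exact Submodule.mem_sup_right (Submodule.mem_map.mpr ⟨w1, hw1, rfl⟩)
      · exact Submodule.mem_sup_left (Submodule.smul_mem _ _ hw2)
    · have hbl : b ∈ l := by
        rcases List.mem_cons.mp hb with h | h
        · exact absurd h hba
        · exact h
      have h := M.θ_anticomm b.1 b.2 a.1 a.2 w2
      have hne : ¬ (b.1 = a.1 ∧ b.2 = a.2) := fun hh => hba (Prod.ext hh.1 hh.2)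
      rw [if_neg hne] at h
      have h2 : M.θ b.1 b.2 (M.θ a.1 a.2 w2) = -(M.θ a.1 a.2 (M.θ b.1 b.2 w2)) :=
        eq_neg_of_add_eq_zero_left h
      rw [h2]
      refine Submodule.add_mem _ ?_ (Submodule.neg_mem _ ?_)
      · exact Submodule.mem_sup_left (ih b hbl w1 hw1)
      · exact Submodule.mem_sup_right (Submodule.mem_map.mpr ⟨_, ih b hbl w2 hw2, rfl⟩)

include M in
/-- the Clifford module of a model is finite dimensional. -/
theorem finiteDimensional_of_model : FiniteDimensional ℂ F := by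
  obtain ⟨v, hv⟩ := M.nontrivial
  set l := (Finset.univ : Finset (Fin 16 × Fin d)).toList with hl
  have hinv : ∀ α A, ∀ w ∈ mbGen M v l, M.θ α A w ∈ mbGen M v l := by
    intro α A w hw
    exact mbGen_inv M v l (α, A) (by rw [hl, Finset.mem_toList]; exact Finset.mem_univ _) w hw
  rcases M.θ_irreducible _ hinv with h | h
  · exfalso
    have := mem_mbGen M v l
    rw [h, Submodule.mem_bot] at this
    exact hv this
  · have h1 := mbGen_fd M v l
    rw [h] at h1
    exact Module.finite_def.mpr ((Submodule.fg_iff_finiteDimensional _).mpr h1)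

end MFD

/-! ### the supercharges agree -/

section MQ

variable {N d : ℕ} {F : Type*} [NormedAddCommGroup F] [InnerProductSpace ℂ F]
  {M : BFSS.Model N d F} {S : Setup d F}

theorem mb_pd_eq {u : Cfg d → F} {x : Cfg d} (hu : DifferentiableAt ℝ u x) (i : Fin 9)
    (A : Fin d) : BFSS.pd i A u x = pd i A u x := hu.lineDeriv_eq_fderiv

theorem mb_vec (hR : Rep M S) (i : Fin 9) (A : Fin d) (β : Fin 16) (v : F) :
    S.vec (S.g i) A β v = ∑ γ, (M.γ i β γ : ℂ) • M.θ γ A v := by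
  rw [CS.vec, _root_.sum_apply]
  refine Finset.sum_congr rfl fun γ _ => ?_
  rw [_root_.smul_apply, hR.hg, hR.hth]

theorem mb_g2 (hR : Rep M S) (i j : Fin 9) (α β : Fin 16) :
    S.g2 i j α β = ((M.γ2 i j α β : ℝ) : ℂ) := by
  have h1 : ∀ i j : Fin 9, (S.g i * S.g j) α β = (((M.γ i * M.γ j) α β : ℝ) : ℂ) := by
    intro i j
    rw [Matrix.mul_apply, Matrix.mul_apply, Complex.ofReal_sum]
    exact Finset.sum_congr rfl fun k _ => by rw [hR.hg, hR.hg, Complex.ofReal_mul]
  rw [CS.g2, Matrix.smul_apply, Matrix.sub_apply, h1, h1, BFSS.Model.γ2, Matrix.smul_apply,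
    Matrix.sub_apply]
  simp

theorem mb_Q (hR : Rep M S) (β : Fin 16) {u : Cfg d → F} {x : Cfg d}
    (hu : DifferentiableAt ℝ u x) : M.Q β u x = S.Q β u x := by
  rw [Setup.Q, BFSS.Model.Q]
  congr 1
  · congr 1
    refine Finset.sum_congr rfl fun i _ => ?_
    rw [Finset.sum_comm]
    refine Finset.sum_congr rfl fun A _ => ?_
    rw [mb_vec hR]
    exact Finset.sum_congr rfl fun γ _ => by rw [mb_pd_eq hu]
  · rw [Setup.W, _root_.smul_apply]
    congr 1
    simp only [_root_.sum_apply, _root_.smul_apply]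
    -- both sides as sums over A, i, j, γ
    have h1 : ∀ A i j, ((S.FF A i j x : ℝ) : ℂ) • S.vec (S.g2 i j) A β (u x) =
        ∑ B, ∑ C, ∑ γ,
          (((M.f A B C * x (i, B) * x (j, C) * M.γ2 i j β γ : ℝ) : ℂ) • M.θ γ A (u x)) := by
      intro A i j
      have hF : ((S.FF A i j x : ℝ) : ℂ) =
          ∑ B, ∑ C, ((M.f A B C * x (i, B) * x (j, C) : ℝ) : ℂ) := by
        rw [Setup.FF, hR.hκ, hR.hf, one_mul]
        push_cast
        rfl
      rw [hF, CS.vec, _root_.sum_apply, Finset.sum_smul]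
      refine Finset.sum_congr rfl fun B _ => ?_
      rw [Finset.sum_smul]
      refine Finset.sum_congr rfl fun C _ => ?_
      rw [Finset.smul_sum]
      refine Finset.sum_congr rfl fun γ _ => ?_
      rw [_root_.smul_apply, smul_smul, mb_g2 hR, hR.hth]
      congr 1
      push_cast
      ring
    simp only [h1]
    refine Finset.sum_congr rfl fun A _ => ?_
    symm
    calc _ = ∑ i, ∑ B, ∑ j, ∑ C, ∑ γ,
          (((M.f A B C * x (i, B) * x (j, C) * M.γ2 i j β γ : ℝ) : ℂ) • M.θ γ A (u x)) :=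
          Finset.sum_congr rfl fun i _ => Finset.sum_comm
      _ = ∑ B, ∑ i, ∑ j, ∑ C, ∑ γ,
          (((M.f A B C * x (i, B) * x (j, C) * M.γ2 i j β γ : ℝ) : ℂ) • M.θ γ A (u x)) :=
          Finset.sum_comm
      _ = ∑ B, ∑ i, ∑ C, ∑ j, ∑ γ,
          (((M.f A B C * x (i, B) * x (j, C) * M.γ2 i j β γ : ℝ) : ℂ) • M.θ γ A (u x)) :=
          Finset.sum_congr rfl fun B _ => Finset.sum_congr rfl fun i _ => Finset.sum_comm
      _ = _ := Finset.sum_congr rfl fun B _ => Finset.sum_comm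

end MQ

/-! ### forms and the bridge -/

section MBr

variable {N d : ℕ} {F : Type*} [NormedAddCommGroup F] [InnerProductSpace ℂ F]
  {M : BFSS.Model N d F} {S : Setup d F}

theorem mb_Q_sub (S : Setup d F) {β : Fin 16} {u v : Cfg d → F} {x : Cfg d}
    (hu : DifferentiableAt ℝ u x) (hv : DifferentiableAt ℝ v x) :
    S.Q β (fun y => u y - v y) x = S.Q β u x - S.Q β v x := by
  simp only [Setup.Q, pd_sub hu hv, map_sub, Finset.sum_sub_distrib, smul_sub]
  abel

theorem mb_form_eq (hR : Rep M S) {φ u : Cfg d → F} (hφ : Setup.Tst φ) (hu : Setup.Tst u) :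
    M.form φ u = (1 / 16 : ℂ) * ∑ α, ∫ x, inner ℂ (S.Q α φ x) (S.Q α u x) := by
  rw [BFSS.Model.form, BFSS.leb]
  congr 1
  refine Finset.sum_congr rfl fun α _ => integral_congr_ae (Filter.Eventually.of_forall fun x => ?_)
  simp only
  rw [mb_Q hR α (hφ.diff x), mb_Q hR α (hu.diff x)]

theorem mb_inner_self (a : F) : inner ℂ a a = ((‖a‖ ^ 2 : ℝ) : ℂ) := by
  rw [inner_self_eq_norm_sq_to_K]
  norm_cast

theorem mb_form_self_re (hR : Rep M S) {u : Cfg d → F} (hu : Setup.Tst u) :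
    (M.form u u).re = 1 / 16 * ∑ α, ∫ x, ‖S.Q α u x‖ ^ 2 := by
  rw [mb_form_eq hR hu hu]
  have h : ∀ α, ∫ x, inner ℂ (S.Q α u x) (S.Q α u x) =
      ((∫ x, ‖S.Q α u x‖ ^ 2 : ℝ) : ℂ) := by
    intro α
    rw [← integral_complex_ofReal]
    exact integral_congr_ae (Filter.Eventually.of_forall fun x => mb_inner_self _)
  simp only [h]
  rw [← Complex.ofReal_sum]
  have e : (1 / 16 : ℂ) = ((1 / 16 : ℝ) : ℂ) := by norm_num
  rw [e, ← Complex.ofReal_mul, Complex.ofReal_re]

theorem mb_form_sub_re (hR : Rep M S) {u v : Cfg d → F} (hu : Setup.Tst u)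
    (hv : Setup.Tst v) : (M.form (fun x => u x - v x) fun x => u x - v x).re =
      (M.form u u).re - 2 * (M.form v u).re + (M.form v v).re := by
  rw [mb_form_self_re hR (hu.sub hv), mb_form_self_re hR hu, mb_form_self_re hR hv,
    mb_form_eq hR hv hu]
  have h : ∀ α, ∫ x, ‖S.Q α (fun x => u x - v x) x‖ ^ 2 = (∫ x, ‖S.Q α u x‖ ^ 2) -
      2 * (∫ x, inner ℂ (S.Q α v x) (S.Q α u x)).re + (∫ x, ‖S.Q α v x‖ ^ 2) := by
    intro α
    have i1 := (hu.Q S α).norm_sq_int
    have i2 := (hv.Q S α).norm_sq_int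
    have i3 : Integrable (fun x => inner ℂ (S.Q α v x) (S.Q α u x)) :=
      (hv.Q S α).inner_int (hu.Q S α).1.continuous
    have i4 : Integrable (fun x => (inner ℂ (S.Q α v x) (S.Q α u x) : ℂ).re) := i3.re
    have e1 : (∫ x, inner ℂ (S.Q α v x) (S.Q α u x)).re =
        ∫ x, (inner ℂ (S.Q α v x) (S.Q α u x) : ℂ).re := by
      exact (integral_re i3).symm
    have i5 : Integrable (fun x => 2 * (inner ℂ (S.Q α v x) (S.Q α u x) : ℂ).re) :=
      i4.const_mul 2
    have i6 : Integrable (fun x => ‖S.Q α u x‖ ^ 2 -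
      2 * (inner ℂ (S.Q α v x) (S.Q α u x) : ℂ).re) := i1.sub i5
    rw [e1, ← integral_const_mul, ← integral_sub i1 i5, ← integral_add i6 i2]
    refine integral_congr_ae (Filter.Eventually.of_forall fun x => ?_)
    simp only
    rw [mb_Q_sub S (hu.diff x) (hv.diff x), @norm_sub_sq ℂ F]
    have e3 : RCLike.re (inner ℂ (S.Q α u x) (S.Q α v x)) =
        (inner ℂ (S.Q α v x) (S.Q α u x) : ℂ).re := inner_re_symm _ _
    rw [e3]
  simp only [h]
  have e : (1 / 16 : ℂ) = ((1 / 16 : ℝ) : ℂ) := by norm_num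
  rw [e, Complex.re_ofReal_mul, Complex.re_sum, Finset.sum_add_distrib, Finset.sum_sub_distrib,
    ← Finset.mul_sum]
  ring

theorem mb_form_self_nonneg (hR : Rep M S) {u : Cfg d → F} (hu : Setup.Tst u) :
    0 ≤ (M.form u u).re := by
  rw [mb_form_self_re hR hu]
  refine mul_nonneg (by norm_num) (Finset.sum_nonneg fun α _ => integral_nonneg fun x => ?_)
  positivity

/-- **M-Bridge** zero-energy states are zero modes of the setup. -/
theorem bridge_of_gauss (M : BFSS.Model N d F) (hG : GaussStmt M) : BridgeStmt M := by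
  intro S hR Ψ hΨ h
  obtain ⟨-, u, hu1, hu2, hu3, hu4⟩ := h
  have hT : ∀ n, Setup.Tst (u n) := fun n => ⟨(hu1 n).1, (hu1 n).2.1⟩
  refine ⟨u, hT, fun n C x => hG S hR (u n) (hu1 n) C x, ?_, ?_⟩
  · refine hu2.congr fun n => ?_
    rw [BFSS.leb]
    refine integral_congr_ae ?_
    filter_upwards [hΨ.coeFn_toLp] with x hx
    rw [hx]
  -- the energies tend to zero
  have hE : Tendsto (fun n => (M.form (u n) (u n)).re) atTop (𝓝 0) := by
    rw [Metric.tendsto_atTop]
    intro ε hε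
    rw [Metric.tendsto_atTop] at hu3
    obtain ⟨⟨N1, N2⟩, hN⟩ := hu3 (ε / 2) (by positivity)
    set m := max N1 N2 with hm
    have h4 := hu4 (u m) (hu1 m)
    rw [Metric.tendsto_atTop] at h4
    obtain ⟨N3, hN3⟩ := h4 (ε / 4) (by positivity)
    refine ⟨max m N3, fun n hn => ?_⟩
    have hn1 : m ≤ n := (le_max_left _ _).trans hn
    have hn3 : N3 ≤ n := (le_max_right _ _).trans hn
    have a1 := hN (n, m) ⟨((le_max_left _ _).trans hn1 : N1 ≤ n), (le_max_right _ _ : N2 ≤ m)⟩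
    have a2 := hN3 n hn3
    rw [dist_zero_right] at a1 a2
    have b1 := Complex.re_le_norm (M.form (fun x => u n x - u m x) fun x => u n x - u m x)
    have b2 : (M.form (u m) (u n)).re ≤ ‖M.form (u m) (u n)‖ := Complex.re_le_norm _
    have b3 := mb_form_sub_re hR (hT n) (hT m)
    have b4 := mb_form_self_nonneg hR (hT m)
    have b5 := mb_form_self_nonneg hR (hT n)
    rw [Real.dist_eq, sub_zero, abs_of_nonneg b5]
    simp only at a1
    linarith
  intro β
  have h16 : Tendsto (fun n => 16 * (M.form (u n) (u n)).re) atTop (𝓝 0) := by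
    simpa using hE.const_mul 16
  refine squeeze_zero (fun n => integral_nonneg fun x => by positivity) (fun n => ?_) h16
  rw [mb_form_self_re hR (hT n)]
  have h1 : ∫ x, ‖S.Q β (u n) x‖ ^ 2 ≤ ∑ α, ∫ x, ‖S.Q α (u n) x‖ ^ 2 :=
    Finset.single_le_sum (f := fun α => ∫ x, ‖S.Q α (u n) x‖ ^ 2)
      (fun α _ => integral_nonneg fun x => by positivity) (Finset.mem_univ β)
  linarith

end MBr

end Vale.Agent.P353.Z.U
end

section

/-! # P353, general `N`: Hermitian `sl₂` triples of matrices and partitions -/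

namespace Vale.Agent.P353.Z.U.Cnt

open Matrix

variable {N : ℕ}

/-- the linear map of a matrix on Euclidean space -/
noncomputable abbrev TL (A : Matrix (Fin N) (Fin N) ℂ) :
    EuclideanSpace ℂ (Fin N) →ₗ[ℂ] EuclideanSpace ℂ (Fin N) := Matrix.toEuclideanLin A

/-- angular momentum triple -/
structure JT (J : Fin 3 → Matrix (Fin N) (Fin N) ℂ) : Prop where
  herm : ∀ k, (J k).conjTranspose = J k
  comm : ∀ k, J (k + 1) * J (k + 2) - J (k + 2) * J (k + 1) = Complex.I • J k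

/-- the raising operator -/
noncomputable def Ep (J : Fin 3 → Matrix (Fin N) (Fin N) ℂ) : Matrix (Fin N) (Fin N) ℂ :=
  J 0 + Complex.I • J 1

/-- the lowering operator -/
noncomputable def Em (J : Fin 3 → Matrix (Fin N) (Fin N) ℂ) : Matrix (Fin N) (Fin N) ℂ :=
  J 0 - Complex.I • J 1

/-- the weight operator -/
noncomputable def Hh (J : Fin 3 → Matrix (Fin N) (Fin N) ℂ) : Matrix (Fin N) (Fin N) ℂ :=
  (2 : ℂ) • J 2

lemma TL_mul (A B : Matrix (Fin N) (Fin N) ℂ) (x) : TL (A * B) x = TL A (TL B x) := by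
  simp [TL, Matrix.toLpLin_apply, Matrix.mulVec_mulVec]

lemma TL_inner (A : Matrix (Fin N) (Fin N) ℂ) (x y) :
    inner ℂ (TL A x) y = inner ℂ x (TL A.conjTranspose y) := by
  rw [TL, TL, Matrix.toEuclideanLin_conjTranspose_eq_adjoint, LinearMap.adjoint_inner_right]

variable {J : Fin 3 → Matrix (Fin N) (Fin N) ℂ}

lemma JT.c01 (hJ : JT J) : J 0 * J 1 - J 1 * J 0 = Complex.I • J 2 := hJ.comm 2
lemma JT.c12 (hJ : JT J) : J 1 * J 2 - J 2 * J 1 = Complex.I • J 0 := hJ.comm 0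
lemma JT.c20 (hJ : JT J) : J 2 * J 0 - J 0 * J 2 = Complex.I • J 1 := hJ.comm 1

lemma JT.htr (hJ : JT J) : HTr (TL (Hh J)) (TL (Ep J)) (TL (Em J)) := by
  have hH : (Hh J).conjTranspose = Hh J := by
    simp [Hh, hJ.herm]
  have hE : (Ep J).conjTranspose = Em J := by
    simp [Ep, Em, hJ.herm, sub_eq_add_neg]
  have h1 : Hh J * Ep J = Ep J * Hh J + (2 : ℂ) • Ep J := by
    have e1 : Hh J * Ep J - Ep J * Hh J = (2 : ℂ) • (J 2 * J 0 - J 0 * J 2)
        - (2 * Complex.I) • (J 1 * J 2 - J 2 * J 1) := by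
      simp only [Hh, Ep, mul_add, add_mul, smul_mul_assoc, mul_smul_comm, smul_sub, smul_add,
        smul_smul]
      module
    rw [← sub_eq_iff_eq_add', e1, hJ.c20, hJ.c12, Ep, smul_smul, smul_smul, smul_add, smul_smul,
      mul_assoc, Complex.I_mul_I]
    module
  have h2 : Hh J * Em J = Em J * Hh J - (2 : ℂ) • Em J := by
    have e1 : Hh J * Em J - Em J * Hh J = (2 : ℂ) • (J 2 * J 0 - J 0 * J 2)
        + (2 * Complex.I) • (J 1 * J 2 - J 2 * J 1) := by
      simp only [Hh, Em, mul_sub, sub_mul, smul_mul_assoc, mul_smul_comm, smul_sub,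
        smul_smul]
      module
    have e2 : (2 : ℂ) • (J 2 * J 0 - J 0 * J 2) + (2 * Complex.I) • (J 1 * J 2 - J 2 * J 1) =
        -((2 : ℂ) • Em J) := by
      rw [hJ.c20, hJ.c12, Em, smul_smul, smul_smul, smul_sub, smul_smul, mul_assoc,
        Complex.I_mul_I]
      module
    rw [sub_eq_add_neg, ← e2, ← e1]
    abel
  have h3 : Ep J * Em J = Em J * Ep J + Hh J := by
    have e1 : Ep J * Em J - Em J * Ep J = (-2 * Complex.I) • (J 0 * J 1 - J 1 * J 0) := by
      simp only [Em, Ep, mul_sub, sub_mul, mul_add, add_mul, smul_mul_assoc, mul_smul_comm,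
        smul_sub, smul_add, smul_smul]
      module
    rw [← sub_eq_iff_eq_add', e1, hJ.c01, Hh, smul_smul, mul_assoc, Complex.I_mul_I]
    norm_num
  refine ⟨fun x y => ?_, fun x y => ?_, fun x => ?_, fun x => ?_, fun x => ?_⟩
  · rw [TL_inner, hH]
  · rw [TL_inner, hE]
  · rw [← TL_mul, ← TL_mul, h1]
    simp [TL, map_add]
  · rw [← TL_mul, ← TL_mul, h2]
    simp [TL, map_sub]
  · rw [← TL_mul, ← TL_mul, h3]
    simp [TL, map_add]

/-- multiplicities -/
noncomputable def mlt (J : Fin 3 → Matrix (Fin N) (Fin N) ℂ) (n : Fin N) : ℕ :=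
  Module.finrank ℂ (hw (TL (Hh J)) (TL (Ep J)) n.val)

lemma JT.sum_mlt (hJ : JT J) : ∑ n : Fin N, mlt J n * (n.val + 1) = N :=
  hJ.htr.sum_mult (by simp)

/-- the multiset of dimensions -/
def mparts (m : Fin N → ℕ) : Multiset ℕ := ∑ n : Fin N, Multiset.replicate (m n) (n.val + 1)

lemma count_mparts (m : Fin N → ℕ) (k : Fin N) : (mparts m).count (k.val + 1) = m k := by
  unfold mparts
  rw [Multiset.count_sum', Finset.sum_eq_single k]
  · simp
  · intro b _ hb
    rw [Multiset.count_replicate, if_neg]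
    intro h1
    exact hb (Fin.ext (by omega))
  · simp

lemma sum_mparts (m : Fin N → ℕ) : (mparts m).sum = ∑ n : Fin N, m n * (n.val + 1) := by
  unfold mparts
  rw [← Multiset.coe_sumAddMonoidHom, map_sum]
  simp

lemma pos_mparts (m : Fin N → ℕ) {i : ℕ} (hi : i ∈ mparts m) : 0 < i := by
  unfold mparts at hi
  rw [Multiset.mem_sum] at hi
  obtain ⟨n, _, hn⟩ := hi
  rw [Multiset.eq_of_mem_replicate hn]
  omega

/-- the partition of an angular momentum triple -/
noncomputable def JT.part (hJ : JT J) : Nat.Partition N where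
  parts := mparts (mlt J)
  parts_pos := fun hi => pos_mparts _ hi
  parts_sum := by rw [sum_mparts, hJ.sum_mlt]

lemma JT.mlt_eq {J' : Fin 3 → Matrix (Fin N) (Fin N) ℂ} (hJ : JT J) (hJ' : JT J')
    (h : hJ.part = hJ'.part) (n : Fin N) : mlt J n = mlt J' n := by
  have h1 : mparts (mlt J) = mparts (mlt J') := congrArg Nat.Partition.parts h
  rw [← count_mparts (mlt J) n, h1, count_mparts]

/-- a unitary matrix can be multiplied by a phase to have determinant `1` -/
lemma exists_phase (u : Matrix (Fin N) (Fin N) ℂ) (hu : u.conjTranspose * u = 1) :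
    ∃ c : ℂ, star c * c = 1 ∧ c ^ N * u.det = 1 := by
  have hd : star u.det * u.det = 1 := by
    rw [← Matrix.det_conjTranspose, ← Matrix.det_mul, hu, Matrix.det_one]
  have hd0 : u.det ≠ 0 := by
    rintro h0
    rw [h0, mul_zero] at hd
    exact zero_ne_one hd
  rcases Nat.eq_zero_or_pos N with h0 | h0
  · subst h0
    exact ⟨1, by simp, by simp⟩
  · obtain ⟨c, hc⟩ := IsAlgClosed.exists_pow_nat_eq (u.det)⁻¹ h0
    refine ⟨c, ?_, by rw [hc, inv_mul_cancel₀ hd0]⟩
    have h1 : ‖u.det‖ = 1 := by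
      have h2 : ‖star u.det * u.det‖ = 1 := by rw [hd, norm_one]
      rw [norm_mul, norm_star] at h2
      nlinarith [norm_nonneg u.det]
    have h3 : ‖c‖ ^ N = 1 := by rw [← norm_pow, hc, norm_inv, h1, inv_one]
    have h4 : ‖c‖ = 1 := (pow_eq_one_iff_of_nonneg (norm_nonneg c) h0.ne').1 h3
    have h5 : star c * c = ((‖c‖ ^ 2 : ℝ) : ℂ) := by
      rw [Complex.star_def, mul_comm, Complex.mul_conj, Complex.normSq_eq_norm_sq]
    rw [h5, h4]; simp

/-- two angular momentum triples with the same partition are conjugate under `SU(N)` -/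
theorem JT.conj {J' : Fin 3 → Matrix (Fin N) (Fin N) ℂ} (hJ : JT J) (hJ' : JT J')
    (h : hJ.part = hJ'.part) :
    ∃ V : Matrix.specialUnitaryGroup (Fin N) ℂ,
      ∀ k, J' k = V.val * J k * V.val.conjTranspose := by
  obtain ⟨U, hU1, hU2, hU3⟩ := hJ.htr.equiv hJ'.htr (N := N) (by simp) (by simp)
    (fun n => hJ.mlt_eq hJ' h n)
  set u : Matrix (Fin N) (Fin N) ℂ := Matrix.toEuclideanLin.symm U.toLinearEquiv.toLinearMap with hu
  have huU : ∀ x, TL u x = U x := by
    intro x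
    simp [TL, hu]
  have hinj : ∀ A B : Matrix (Fin N) (Fin N) ℂ, (∀ x, TL A x = TL B x) → A = B := by
    intro A B hAB
    exact Matrix.toEuclideanLin.injective (LinearMap.ext hAB)
  have huu : u.conjTranspose * u = 1 := by
    apply hinj
    intro x
    refine ext_inner_left ℂ fun y => ?_
    rw [TL_mul, ← TL_inner, huU, huU, LinearIsometryEquiv.inner_map_map]
    simp [TL]
  have key : ∀ A A' : Matrix (Fin N) (Fin N) ℂ, (∀ x, U (TL A x) = TL A' (U x)) →
      u * A = A' * u := by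
    intro A A' hA
    apply hinj
    intro x
    rw [TL_mul, TL_mul, huU, huU, hA]
  have k1 := key _ _ hU1
  have k2 := key _ _ hU2
  have k3 := key _ _ hU3
  obtain ⟨c, hc1, hc2⟩ := exists_phase u huu
  have hV : (c • u) ∈ Matrix.specialUnitaryGroup (Fin N) ℂ := by
    rw [Matrix.mem_specialUnitaryGroup_iff, Matrix.mem_unitaryGroup_iff', Matrix.star_eq_conjTranspose,
      Matrix.conjTranspose_smul, Matrix.smul_mul, Matrix.mul_smul, smul_smul, hc1, one_smul, huu,
      Matrix.det_smul, Fintype.card_fin, hc2]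
    exact ⟨rfl, rfl⟩
  have huu' : u * u.conjTranspose = 1 := mul_eq_one_comm.1 huu
  have hc1' : c * star c = 1 := by rw [mul_comm]; exact hc1
  have hconj : ∀ A A' : Matrix (Fin N) (Fin N) ℂ, u * A = A' * u →
      A' = (c • u) * A * (c • u).conjTranspose := by
    intro A A' hA
    rw [Matrix.conjTranspose_smul, Matrix.smul_mul, Matrix.smul_mul, Matrix.mul_smul, smul_smul,
      hc1', one_smul, hA, mul_assoc, huu', mul_one]
  have hlin : ∀ k, u * J k = J' k * u := by
    have e0 : ∀ J : Fin 3 → Matrix (Fin N) (Fin N) ℂ,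
        J 0 = (1 / 2 : ℂ) • (Ep J + Em J) := by
      intro J; simp only [Ep, Em]; module
    have e1 : ∀ J : Fin 3 → Matrix (Fin N) (Fin N) ℂ,
        J 1 = (-Complex.I / 2 : ℂ) • (Ep J - Em J) := by
      intro J
      have : Ep J - Em J = (2 * Complex.I) • J 1 := by simp only [Ep, Em]; module
      rw [this, smul_smul]
      have h2 : (-Complex.I / 2 : ℂ) * (2 * Complex.I) = 1 := by
        ring_nf; simp
      rw [h2, one_smul]
    have e2 : ∀ J : Fin 3 → Matrix (Fin N) (Fin N) ℂ, J 2 = (1 / 2 : ℂ) • Hh J := by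
      intro J; simp only [Hh]; module
    intro k
    fin_cases k
    · show u * J 0 = J' 0 * u
      rw [e0 J, e0 J', Matrix.mul_smul, Matrix.smul_mul, mul_add, add_mul, k2, k3]
    · show u * J 1 = J' 1 * u
      rw [e1 J, e1 J', Matrix.mul_smul, Matrix.smul_mul, mul_sub, sub_mul, k2, k3]
    · show u * J 2 = J' 2 * u
      rw [e2 J, e2 J', Matrix.mul_smul, Matrix.smul_mul, k1]
  exact ⟨⟨c • u, hV⟩, fun k => hconj _ _ (hlin k)⟩

end Vale.Agent.P353.Z.U.Cnt
end

section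

/-! # P353, general `N`: M-Count, the zeros of `V_1` form at most `p(N)` orbits -/

open MeasureTheory Filter Topology
open scoped ContDiff

namespace Vale.Agent.P353.Z.U.Cnt

variable {N d : ℕ} {F : Type*} [NormedAddCommGroup F] [InnerProductSpace ℂ F]

/-- the triple of matrices `J_k = -½ ∑_A x_k^A T_A` of a configuration -/
noncomputable def Jx (M : BFSS.Model N d F) (x : Cfg d) (k : Fin 3) : Matrix (Fin N) (Fin N) ℂ :=
  ∑ A, ((-(1 / 2) * x (Setup.c3 k, A) : ℝ) : ℂ) • M.T A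

lemma Jx_herm (M : BFSS.Model N d F) (x : Cfg d) (k : Fin 3) :
    (Jx M x k).conjTranspose = Jx M x k := by
  unfold Jx
  rw [Matrix.conjTranspose_sum]
  refine Finset.sum_congr rfl fun A _ => ?_
  rw [Matrix.conjTranspose_smul, M.T_hermitian, Complex.star_def, Complex.conj_ofReal]

lemma V1_zero {S : Setup d F} (hSq : SqStmt S) {x : Cfg d} (hx : S.Vm 1 x = 0) :
    (∀ k A, S.GG 1 k A x = 0) ∧ ∀ i : Fin 9, 3 ≤ i.val → ∀ A, x (i, A) = 0 := by
  have h1 := hSq 1 x
  rw [hx] at h1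
  have n1 : 0 ≤ ∑ k, ∑ A, S.GG 1 k A x ^ 2 :=
    Finset.sum_nonneg fun _ _ => Finset.sum_nonneg fun _ _ => sq_nonneg _
  have n2 : 0 ≤ ∑ i : Fin 9, ∑ A, if i.val < 3 then 0 else x (i, A) ^ 2 :=
    Finset.sum_nonneg fun i _ => Finset.sum_nonneg fun A _ => by
      split_ifs
      · exact le_rfl
      · exact sq_nonneg _
  have n3 : 0 ≤ ∑ i : Fin 9, ∑ j : Fin 9, ∑ A,
      if i.val < 3 ∧ j.val < 3 then 0 else S.FF A i j x ^ 2 :=
    Finset.sum_nonneg fun i _ => Finset.sum_nonneg fun j _ => Finset.sum_nonneg fun A _ => by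
      split_ifs
      · exact le_rfl
      · exact sq_nonneg _
  have z1 : ∑ k, ∑ A, S.GG 1 k A x ^ 2 = 0 := by nlinarith
  have z2 : (∑ i : Fin 9, ∑ A, if i.val < 3 then 0 else x (i, A) ^ 2) = 0 := by nlinarith
  constructor
  · intro k A
    have h2 := (Finset.sum_eq_zero_iff_of_nonneg (fun k _ => Finset.sum_nonneg fun _ _ =>
      sq_nonneg _)).1 z1 k (Finset.mem_univ _)
    have h3 := (Finset.sum_eq_zero_iff_of_nonneg (fun _ _ => sq_nonneg _)).1 h2 A
      (Finset.mem_univ _)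
    exact pow_eq_zero_iff (two_ne_zero) |>.1 h3
  · intro i hi A
    have h2 := (Finset.sum_eq_zero_iff_of_nonneg (fun i _ => Finset.sum_nonneg fun A _ => by
      split_ifs
      · exact le_rfl
      · exact sq_nonneg _)).1 z2 i (Finset.mem_univ _)
    have h3 := (Finset.sum_eq_zero_iff_of_nonneg (fun A _ => by
      split_ifs
      · exact le_rfl
      · exact sq_nonneg _)).1 h2 A (Finset.mem_univ _)
    rw [if_neg (by omega)] at h3
    exact pow_eq_zero_iff (two_ne_zero) |>.1 h3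

lemma Jx_comm (M : BFSS.Model N d F) {S : Setup d F} (hR : Rep M S) (hSq : SqStmt S) {x : Cfg d}
    (hx : S.Vm 1 x = 0) (k : Fin 3) :
    Jx M x (k + 1) * Jx M x (k + 2) - Jx M x (k + 2) * Jx M x (k + 1) =
      Complex.I • Jx M x k := by
  have hG := (V1_zero hSq hx).1 k
  have e1 : Jx M x (k + 1) * Jx M x (k + 2) - Jx M x (k + 2) * Jx M x (k + 1) =
      ∑ B, ∑ C, (((1 / 4) * (x (Setup.c3 (k + 1), B) * x (Setup.c3 (k + 2), C)) : ℝ) : ℂ) •
        (M.T B * M.T C - M.T C * M.T B) := by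
    unfold Jx
    rw [Finset.sum_mul_sum, Finset.sum_mul_sum, Finset.sum_comm (γ := Fin d)
      (f := fun i j => (((-(1 / 2) * x (Setup.c3 (k + 2), i) : ℝ) : ℂ) • M.T i) *
        (((-(1 / 2) * x (Setup.c3 (k + 1), j) : ℝ) : ℂ) • M.T j)), ← Finset.sum_sub_distrib]
    refine Finset.sum_congr rfl fun B _ => ?_
    rw [← Finset.sum_sub_distrib]
    refine Finset.sum_congr rfl fun C _ => ?_
    rw [smul_mul_smul_comm, smul_mul_smul_comm, smul_sub]
    push_cast
    congr 2 <;> ring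
  rw [e1]
  have e2 : ∀ B C, M.T B * M.T C - M.T C * M.T B =
      ∑ A, (Complex.I * ((S.f A B C : ℝ) : ℂ)) • M.T A := by
    intro B C
    rw [M.T_comm]
    refine Finset.sum_congr rfl fun A _ => ?_
    rw [S.f_cyc A B C, hR.hf]
  simp only [e2, Finset.smul_sum, smul_smul]
  rw [Finset.sum_congr rfl (fun B _ => Finset.sum_comm), Finset.sum_comm]
  unfold Jx
  rw [Finset.smul_sum]
  refine Finset.sum_congr rfl fun A _ => ?_
  simp only [← Finset.sum_smul]
  rw [smul_smul]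
  congr 1
  have h1 := hG A
  unfold Setup.GG Setup.FF at h1
  rw [hR.hκ, one_mul, mul_one] at h1
  have h2 : ((-(1 / 2) * x (Setup.c3 k, A) : ℝ) : ℂ) = (((1 / 4) * ∑ B, ∑ C, S.f A B C *
      x (Setup.c3 (k + 1), B) * x (Setup.c3 (k + 2), C) : ℝ) : ℂ) := by
    congr 1
    linarith
  rw [h2]
  push_cast
  simp only [Finset.mul_sum]
  refine Finset.sum_congr rfl fun B _ => Finset.sum_congr rfl fun C _ => ?_
  ring

lemma Jx_jt (M : BFSS.Model N d F) {S : Setup d F} (hR : Rep M S) (hSq : SqStmt S) {x : Cfg d}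
    (hx : S.Vm 1 x = 0) : JT (Jx M x) :=
  ⟨Jx_herm M x, Jx_comm M hR hSq hx⟩

/-- conjugate triples come from the adjoint action -/
lemma Jx_conj (M : BFSS.Model N d F) {x y : Cfg d} (V : BFSS.SU N) (k : Fin 3)
    (h : Jx M y k = V.val * Jx M x k * V.val.conjTranspose) (B : Fin d) :
    y (Setup.c3 k, B) = ∑ A, BFSS.adCoeff M.T V B A * x (Setup.c3 k, A) := by
  have h1 : (M.T B * Jx M y k).trace = ((-(1 / 2) * y (Setup.c3 k, B) : ℝ) : ℂ) := by
    unfold Jx
    rw [Finset.mul_sum, Matrix.trace_sum]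
    simp only [Matrix.mul_smul, Matrix.trace_smul, M.T_orthonormal, smul_eq_mul, mul_ite, mul_one,
      mul_zero, Finset.sum_ite_eq, Finset.mem_univ, if_true]
  have h2 : (M.T B * Jx M y k).trace = ∑ A, ((-(1 / 2) * x (Setup.c3 k, A) : ℝ) : ℂ) *
      (M.T B * (V.val * M.T A * V.val.conjTranspose)).trace := by
    rw [h]
    unfold Jx
    rw [Finset.mul_sum, Finset.sum_mul, Finset.mul_sum, Matrix.trace_sum]
    refine Finset.sum_congr rfl fun A _ => ?_
    rw [Matrix.mul_smul, Matrix.smul_mul, Matrix.mul_smul, Matrix.trace_smul, smul_eq_mul]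
  have h3 := congrArg Complex.re (h1.symm.trans h2)
  rw [Complex.ofReal_re, Complex.re_sum] at h3
  simp only [Complex.re_ofReal_mul] at h3
  have h4 : y (Setup.c3 k, B) = -2 * (-(1 / 2) * y (Setup.c3 k, B)) := by ring
  rw [h4, h3, Finset.mul_sum]
  refine Finset.sum_congr rfl fun A _ => ?_
  unfold BFSS.adCoeff
  ring

/-- **M-Count** -/
theorem _root_.Vale.Agent.P353.Z.U.count_of (M : BFSS.Model N d F) (hAd : AdStmt M) (hSq : ∀ S : Setup d F, SqStmt S) :
    CountStmt M := by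
  intro S hR
  classical
  have hJT : ∀ x : {x : Cfg d // S.Vm 1 x = 0}, JT (Jx M x.1) := fun x =>
    Jx_jt M hR (hSq S) x.2
  let π : {x : Cfg d // S.Vm 1 x = 0} → Nat.Partition N := fun x => (hJT x).part
  have hz : S.Vm 1 (0 : Cfg d) = 0 := by
    rw [hSq S 1 0]
    simp [Setup.GG, Setup.FF]
  let e := (Fintype.equivFin (Nat.Partition N)).symm
  let ξ : Fin (Fintype.card (Nat.Partition N)) → {x : Cfg d // S.Vm 1 x = 0} := fun j =>
    if h : ∃ x, π x = e j then h.choose else ⟨0, hz⟩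
  refine ⟨fun j => (ξ j).1, fun j => (ξ j).2, fun x hx => ?_⟩
  refine ⟨e.symm (π ⟨x, hx⟩), ?_⟩
  have hex : ∃ y, π y = e (e.symm (π ⟨x, hx⟩)) := ⟨⟨x, hx⟩, by rw [Equiv.apply_symm_apply]⟩
  have hξ : ξ (e.symm (π ⟨x, hx⟩)) = hex.choose := dif_pos hex
  have hπ : π (ξ (e.symm (π ⟨x, hx⟩))) = π ⟨x, hx⟩ := by
    rw [hξ, hex.choose_spec, Equiv.apply_symm_apply]
  show x ∈ S.Orb (ξ (e.symm (π ⟨x, hx⟩))).1
  generalize ξ (e.symm (π ⟨x, hx⟩)) = y at hπ ⊢
  obtain ⟨V, hV⟩ := (hJT y).conj (hJT ⟨x, hx⟩) hπ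
  refine ⟨_, hAd S hR V, ?_⟩
  ext ⟨i, B⟩
  show x (i, B) = ∑ A, BFSS.adCoeff M.T V B A * y.1 (i, A)
  by_cases hi : i.val < 3
  · have hc : i = Setup.c3 ⟨i.val, hi⟩ := by
      apply Fin.ext; rfl
    rw [hc]
    exact Jx_conj M V ⟨i.val, hi⟩ (hV ⟨i.val, hi⟩) B
  · rw [(V1_zero (hSq S) hx).2 i (by omega) B]
    symm
    refine Finset.sum_eq_zero fun A _ => ?_
    rw [(V1_zero (hSq S) y.2).2 i (by omega) A, mul_zero]

end Vale.Agent.P353.Z.U.Cnt
end

section

/-! # P353, general `N`: the Gauss law -/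

open MeasureTheory Filter Topology
open scoped ContDiff

namespace Vale.Agent.P353.Z.U

variable {N d : ℕ} {F : Type*} [NormedAddCommGroup F] [InnerProductSpace ℂ F]

section

variable (M : P353.Model N d F)

/-- every traceless Hermitian matrix is conjugate to a diagonal one under `SU(N)` -/
lemma mg_diag (hN : 0 < N) (H : Matrix (Fin N) (Fin N) ℂ) (hH : H.conjTranspose = H)
    (htr : H.trace = 0) :
    ∃ (U : Matrix.specialUnitaryGroup (Fin N) ℂ) (x : mgH N), mgc U.val (mgd x) = H := by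
  have hH' : H.IsHermitian := hH
  obtain ⟨U, hU⟩ := mg_phase hN (hH'.eigenvectorUnitary : Matrix (Fin N) (Fin N) ℂ)
    hH'.eigenvectorUnitary.2
  have h1 : mgc (hH'.eigenvectorUnitary : Matrix (Fin N) (Fin N) ℂ)
      (Matrix.diagonal fun j => ((hH'.eigenvalues j : ℝ) : ℂ)) = H := by
    have h2 := hH'.spectral_theorem
    rw [Unitary.conjStarAlgAut_apply] at h2
    exact h2.symm
  have h3 : ∑ j, hH'.eigenvalues j = 0 := by
    have h4 := mgc_trace U (Matrix.diagonal fun j => ((hH'.eigenvalues j : ℝ) : ℂ))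
    rw [hU, h1, htr, Matrix.trace_diagonal, ← Complex.ofReal_sum] at h4
    exact_mod_cast h4.symm
  exact ⟨U, ⟨hH'.eigenvalues, h3⟩, by rw [hU]; exact h1⟩

/-- derivative of the adjoint action along the one parameter group generated by `T_C` -/
lemma mg_ad_deriv (C A B : Fin d) (U : Matrix.specialUnitaryGroup (Fin N) ℂ) (x : mgH N)
    (hx : mgc U.val (mgd x) = M.T C) :
    HasDerivAt (fun t : ℝ => P353.adCoeff M.T (U * mgtor (t • x) * U⁻¹) B A) (-(M.f C A B)) 0 := by
  have hU1 := (mg_unit U).1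
  have hU2 := (mg_unit U).2
  have hinv : (U⁻¹).val = U.val.conjTranspose := rfl
  set W0 : Matrix (Fin N) (Fin N) ℂ := U.val.conjTranspose * M.T A * U.val with hW0
  set L : Matrix (Fin N) (Fin N) ℂ →ₗ[ℂ] ℂ :=
    { toFun := fun W => (mgc U.val W * M.T B).trace
      map_add' := by
        intro X Y
        simp only [mgc, Matrix.mul_add, Matrix.add_mul, Matrix.trace_add]
      map_smul' := by
        intro c X
        simp only [mgc, Matrix.mul_smul, Matrix.smul_mul, Matrix.trace_smul, smul_eq_mul,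
          RingHom.id_apply] } with hL
  have hLa : ∀ W, L W = (mgc U.val W * M.T B).trace := fun W => rfl
  have e1 : ∀ t : ℝ, ((P353.adCoeff M.T (U * mgtor (t • x) * U⁻¹) B A : ℝ) : ℂ) =
      L (mgc (mgtorM (t • x)) W0) := by
    intro t
    rw [mg_ad, hLa]
    congr 2
    show (U.val * mgtorM (t • x) * U.val.conjTranspose) * M.T A *
      (U.val * mgtorM (t • x) * U.val.conjTranspose).conjTranspose = _
    rw [Matrix.conjTranspose_mul, Matrix.conjTranspose_mul, Matrix.conjTranspose_conjTranspose,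
      mgc, mgc, hW0]
    simp only [mul_assoc]
  have h1 := mg_deriv_lin L (mgc_tor_deriv x W0 0)
  have h0 : mgc (mgtorM ((0 : ℝ) • x)) W0 = W0 := by
    have h1 : mgtorM ((0 : ℝ) • x) = 1 := by
      rw [zero_smul]
      exact congrArg Subtype.val (mgtor_zero (N := N))
    rw [h1, mgc, Matrix.conjTranspose_one, one_mul, mul_one]
  have h2 : L (Complex.I • (mgd x * mgc (mgtorM ((0 : ℝ) • x)) W0 -
      mgc (mgtorM ((0 : ℝ) • x)) W0 * mgd x)) = ((-(M.f C A B) : ℝ) : ℂ) := by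
    rw [h0, map_smul, hLa]
    have e2 : mgc U.val (mgd x * W0 - W0 * mgd x) = M.T C * M.T A - M.T A * M.T C := by
      have e3 : mgc U.val (mgd x * W0) = M.T C * M.T A := by
        rw [← hx, mgc, mgc, hW0]
        calc U.val * (mgd x * (U.val.conjTranspose * M.T A * U.val)) * U.val.conjTranspose =
            U.val * mgd x * U.val.conjTranspose * M.T A * (U.val * U.val.conjTranspose) := by
              simp only [mul_assoc]
          _ = _ := by rw [hU2, mul_one]
      have e4 : mgc U.val (W0 * mgd x) = M.T A * M.T C := by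
        rw [← hx, mgc, mgc, hW0]
        calc U.val * (U.val.conjTranspose * M.T A * U.val * mgd x) * U.val.conjTranspose =
            (U.val * U.val.conjTranspose) * M.T A * (U.val * mgd x * U.val.conjTranspose) := by
              simp only [mul_assoc]
          _ = _ := by rw [hU2, one_mul]
      rw [← e3, ← e4]
      simp only [mgc, Matrix.mul_sub, Matrix.sub_mul]
    rw [e2]
    have h3 : ((M.T C * M.T A - M.T A * M.T C) * M.T B).trace =
        Complex.I * (M.f C A B : ℂ) := by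
      rw [M.T_comm, Finset.sum_mul, Matrix.trace_sum]
      simp only [Matrix.smul_mul, Matrix.trace_smul, M.T_orthonormal, smul_eq_mul, mul_ite,
        mul_one, mul_zero, Finset.sum_ite_eq', Finset.mem_univ, if_true]
    rw [h3, smul_eq_mul]
    push_cast
    linear_combination (M.f C A B : ℂ) * Complex.I_sq
  rw [h2] at h1
  have h4 := Complex.reCLM.hasFDerivAt.comp_hasDerivAt (0 : ℝ) h1
  have e5 : (fun t : ℝ => P353.adCoeff M.T (U * mgtor (t • x) * U⁻¹) B A) =
      (Complex.reCLM ∘ fun t : ℝ => L (mgc (mgtorM (t • x)) W0)) := by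
    funext t
    rw [Function.comp_apply, ← e1]
    simp
  rw [e5]
  refine h4.congr_deriv ?_
  simp

/-- the Gauss law, in the form `Z(T_C) u = - ∑ f_{CAB} x_i^A ∂_i^B u` -/
lemma mg_gauss [FiniteDimensional ℂ F] (u : Cfg d → F) (hu : M.IsCore u) (C : Fin d)
    (x : Cfg d) :
    ∑ i, ∑ A, ∑ B, ((M.f C A B : ℂ) * (x (i, A) : ℂ)) • P353.pd i B u x =
      - (mgz M (M.T C) (u x)) := by
  have hcs : CompleteSpace F := FiniteDimensional.complete ℂ F
  have hd : 0 < d := lt_of_le_of_lt (Nat.zero_le _) C.2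
  obtain ⟨hN, -⟩ := mg_dim M hd
  obtain ⟨hsm, -, hinv⟩ := hu
  obtain ⟨U, y, hy⟩ := mg_diag hN (M.T C) (M.T_hermitian C) (M.T_traceless C)
  have hud : HasFDerivAt u (fderiv ℝ u x) x := (hsm.differentiable (by simp) x).hasFDerivAt
  set g : ℝ → Matrix.specialUnitaryGroup (Fin N) ℂ := fun t => U * mgtor (t • y) * U⁻¹ with hg
  have hS : ∀ t, M.S (g t) = mgE (mgz M (M.T C)) t := by
    intro t
    rw [← hy]
    exact mgS_conj M hd U y t
  have hg0 : g 0 = 1 := by
    simp only [hg]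
    rw [zero_smul, mgtor_zero, mul_one, mul_inv_cancel]
  have hbasis : ∀ h : Fin 9 × Fin d → ℝ, (WithLp.toLp 2 h : Cfg d) =
      ∑ p, h p • (EuclideanSpace.single p (1 : ℝ) : Cfg d) := by
    intro h
    ext q
    rw [WithLp.ofLp_sum, Finset.sum_apply]
    simp [PiLp.single_apply]
  have hact : ∀ t, M.act (g t) x = ∑ p : Fin 9 × Fin d,
      (∑ A, P353.adCoeff M.T (g t) p.2 A * x (p.1, A)) • (EuclideanSpace.single p (1 : ℝ) : Cfg d) := by
    intro t
    rw [P353.Model.act, hbasis]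
  have hda : HasDerivAt (fun t => M.act (g t) x) (∑ p : Fin 9 × Fin d,
      (∑ A, -(M.f C A p.2) * x (p.1, A)) • (EuclideanSpace.single p (1 : ℝ) : Cfg d)) 0 := by
    have e : (fun t => M.act (g t) x) = fun t => ∑ p : Fin 9 × Fin d,
      (∑ A, P353.adCoeff M.T (g t) p.2 A * x (p.1, A)) •
        (EuclideanSpace.single p (1 : ℝ) : Cfg d) := funext hact
    rw [e]
    refine HasDerivAt.fun_sum fun p _ => HasDerivAt.smul_const ?_ _
    refine HasDerivAt.fun_sum fun A _ => HasDerivAt.mul_const ?_ _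
    exact mg_ad_deriv M C A p.2 U y hy
  have hx0 : M.act (g 0) x = x := by
    rw [hg0, P353.Model.act]
    ext p
    show ∑ A, P353.adCoeff M.T 1 p.2 A * x (p.1, A) = x p
    have h1 : ∀ A, P353.adCoeff M.T 1 p.2 A = if p.2 = A then 1 else 0 := by
      intro A
      unfold P353.adCoeff
      rw [show ((1 : Matrix.specialUnitaryGroup (Fin N) ℂ) : Matrix (Fin N) (Fin N) ℂ) = 1 from rfl,
        Matrix.conjTranspose_one, one_mul, mul_one, M.T_orthonormal]
      split_ifs <;> simp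
    simp only [h1, ite_mul, one_mul, zero_mul, Finset.sum_ite_eq, Finset.mem_univ, if_true]
  have hL : HasDerivAt (fun t => u (M.act (g t) x)) (fderiv ℝ u x (∑ p : Fin 9 × Fin d,
      (∑ A, -(M.f C A p.2) * x (p.1, A)) • (EuclideanSpace.single p (1 : ℝ) : Cfg d))) 0 := by
    have h2 : HasFDerivAt u (fderiv ℝ u x) (M.act (g 0) x) := by rw [hx0]; exact hud
    exact h2.comp_hasDerivAt (0 : ℝ) hda
  have hR : HasDerivAt (fun t => u (M.act (g t) x)) (mgz M (M.T C) (u x)) 0 := by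
    have e : (fun t => u (M.act (g t) x)) = fun t => mgE (mgz M (M.T C)) t (u x) := by
      funext t
      rw [hinv, hS]
    rw [e]
    have h2 := mgE_deriv (mgz M (M.T C)) 0
    rw [mgE_zero, mul_one] at h2
    exact ((ContinuousLinearMap.apply ℂ F (u x)).restrictScalars ℝ).hasFDerivAt.comp_hasDerivAt 0 h2
  have h3 := hL.unique hR
  rw [← h3, map_sum]
  have h4 : ∀ p : Fin 9 × Fin d, fderiv ℝ u x ((∑ A, -(M.f C A p.2) * x (p.1, A)) •
      (EuclideanSpace.single p (1 : ℝ) : Cfg d)) =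
      - ∑ A, ((M.f C A p.2 : ℂ) * (x (p.1, A) : ℂ)) • P353.pd p.1 p.2 u x := by
    intro p
    rw [map_smul, ← Complex.coe_smul, ← Finset.sum_smul, ← neg_smul]
    congr 1
    push_cast
    rw [← Finset.sum_neg_distrib]
    refine Finset.sum_congr rfl fun A _ => ?_
    ring
  simp only [h4]
  rw [Finset.sum_neg_distrib, neg_neg, Fintype.sum_prod_type]
  refine Finset.sum_congr rfl fun i _ => ?_
  rw [Finset.sum_comm]

end

/-- **M-Gauss** -/
theorem gaussLaw [FiniteDimensional ℂ F] (M : BFSS.Model N d F) : GaussStmt M := by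
  intro S hrep u hu C x
  have hcore : M.toOld.IsCore u := hu
  have h1 := mg_gauss M.toOld u hcore C x
  have hf : S.f = M.toOld.f := hrep.hf
  have hth : S.th = M.toOld.θ := hrep.hth
  have h2 : S.cS C = (-Complex.I) • mgz M.toOld (M.toOld.T C) := by
    have hb : ∀ D E, S.bil 1 D E = mgb M.toOld D E := by
      intro D E
      simp only [CS.bil, CS.vec_one, hth]
      rfl
    have ht : ∀ D E, (M.toOld.T C * (M.toOld.T D * M.toOld.T E -
        M.toOld.T E * M.toOld.T D)).trace = Complex.I * (M.f C D E : ℂ) := by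
      intro D E
      rw [Matrix.trace_mul_comm]
      have h3 := mf_trace M D E C
      rw [← mf_cyc M C D E] at h3
      exact h3
    rw [mgz_apply, Setup.cS]
    simp only [hb, ht, hf]
    rw [smul_smul, Finset.smul_sum, Finset.smul_sum]
    refine Finset.sum_congr rfl fun D _ => ?_
    rw [Finset.smul_sum, Finset.smul_sum]
    refine Finset.sum_congr rfl fun E _ => ?_
    rw [smul_smul, smul_smul]
    congr 1
    show -Complex.I / 2 * (M.f C D E : ℂ) = -Complex.I * (-Complex.I / 2) *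
      (Complex.I * (M.f C D E : ℂ))
    linear_combination (-Complex.I / 2 * (M.f C D E : ℂ)) * Complex.I_sq
  rw [Setup.G, h2, hf, h1, _root_.smul_apply, smul_neg]
  exact neg_add_cancel _

end Vale.Agent.P353.Z.U
end

section

/-! # P353, general `N`: tubes around the orbit and balls (`PackStmt`) -/

set_option linter.all false

open MeasureTheory Filter Topology
open scoped ContDiff

namespace Vale.Agent.P353.Z.U

variable {dc : ℕ} {F : Type*} [NormedAddCommGroup F] [InnerProductSpace ℂ F] (S : Setup dc F)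

/-- `ro O` as a linear isometry -/
noncomputable def pack_roL (O : Matrix (Fin dc) (Fin dc) ℝ) (h : O.transpose * O = 1) :
    Cfg dc →ₗᵢ[ℝ] Cfg dc where
  toFun := ro O
  map_add' x y := by
    ext p
    simp [ro, mul_add, Finset.sum_add_distrib]
  map_smul' c x := by
    ext p
    simp only [ro, WithLp.ofLp_smul, Pi.smul_apply, smul_eq_mul, RingHom.id_apply, Finset.mul_sum]
    refine Finset.sum_congr rfl fun B _ => ?_
    ring
  norm_map' x := grp_norm h x

noncomputable def pack_roE (O : Matrix (Fin dc) (Fin dc) ℝ) (h : O.transpose * O = 1) : (Cfg dc) ≃ₗᵢ[ℝ] (Cfg dc) :=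
  (pack_roL O h).toLinearIsometryEquiv rfl

lemma pack_roE_apply {O : Matrix (Fin dc) (Fin dc) ℝ} (h : O.transpose * O = 1) (x : (Cfg dc)) :
    pack_roE O h x = ro O x := rfl

lemma pack_ball_integral {u : (Cfg dc) → F} {O : Matrix (Fin dc) (Fin dc) ℝ} (h : O.transpose * O = 1)
    (hi : ∀ x, ‖u (ro O x)‖ = ‖u x‖) (q : (Cfg dc)) (s : ℝ) :
    ∫ x in Metric.ball (ro O q) s, ‖u x‖ ^ 2 = ∫ x in Metric.ball q s, ‖u x‖ ^ 2 := by
  have h1 := (pack_roE O h).measurePreserving.setIntegral_preimage_emb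
    (pack_roE O h).toHomeomorph.measurableEmbedding (fun x => ‖u x‖ ^ 2) (Metric.ball (ro O q) s)
  rw [← h1]
  have h2 : (pack_roE O h) ⁻¹' (Metric.ball (ro O q) s) = Metric.ball q s := by
    ext x
    rw [Set.mem_preimage, Metric.mem_ball, Metric.mem_ball, ← pack_roE_apply h q,
      (pack_roE O h).dist_map]
  rw [h2]
  refine integral_congr_ae (Filter.Eventually.of_forall fun x => ?_)
  show ‖u (pack_roE O h x)‖ ^ 2 = _
  rw [pack_roE_apply, hi]

lemma pack_orb_compact (ξ : Cfg dc) : IsCompact (S.Orb ξ) := by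
  have he : S.Orb ξ = (fun O : Matrix (Fin dc) (Fin dc) ℝ => ro O ξ) '' S.grp := by
    ext x
    constructor
    · rintro ⟨O, h1, h2⟩
      exact ⟨O, h1, h2.symm⟩
    · rintro ⟨O, h1, h2⟩
      exact ⟨O, h1, h2.symm⟩
  rw [he]
  exact (grp_compact S).image (grp_ro_cont ξ)

/-- maximal separated subsets of compact sets -/
lemma pack_exists_net {K : Set (Cfg dc)} (hK : IsCompact K) {R : ℝ} (hR : 0 < R) :
    ∃ T : Finset (Cfg dc), (∀ p ∈ T, p ∈ K) ∧ (∀ p ∈ T, ∀ q ∈ T, p ≠ q → R ≤ dist p q) ∧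
      ∀ p ∈ K, ∃ q ∈ T, dist p q < R := by
  classical
  obtain ⟨t, ht1, ht2, ht3⟩ := hK.finite_cover_balls (e := R / 2) (by positivity)
  set P : Finset (Cfg dc) → Prop := fun T => (∀ p ∈ T, p ∈ K) ∧
    (∀ p ∈ T, ∀ q ∈ T, p ≠ q → R ≤ dist p q) with hP
  have hb : ∀ T, P T → T.card ≤ ht2.toFinset.card := by
    intro T hT
    have hc : ∀ p ∈ T, ∃ c ∈ ht2.toFinset, p ∈ Metric.ball c (R / 2) := by
      intro p hp
      have := ht3 (hT.1 p hp)
      simp only [Set.mem_iUnion] at this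
      obtain ⟨c, hc, h⟩ := this
      exact ⟨c, by simpa using hc, h⟩
    choose! f hf1 hf2 using hc
    refine Finset.card_le_card_of_injOn f hf1 ?_
    intro p hp q hq hpq
    by_contra hne
    have h1 := hT.2 p hp q hq hne
    have h2 := hf2 p hp
    have h3 := hf2 q hq
    rw [hpq] at h2
    rw [Metric.mem_ball] at h2 h3
    have := dist_triangle_right p q (f q)
    linarith
  have hex : ∃ T, P T ∧ ∀ T', P T' → T'.card ≤ T.card := by
    by_contra hcon
    push Not at hcon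
    have : ∀ k : ℕ, ∃ T, P T ∧ k ≤ T.card := by
      intro k
      induction k with
      | zero => exact ⟨∅, ⟨by simp, by simp⟩, by simp⟩
      | succ k ih =>
        obtain ⟨T, hT, hk⟩ := ih
        obtain ⟨T', hT', hk'⟩ := hcon T hT
        exact ⟨T', hT', by omega⟩
    obtain ⟨T, hT, hk⟩ := this (ht2.toFinset.card + 1)
    have := hb T hT
    omega
  obtain ⟨T, hT, hmax⟩ := hex
  refine ⟨T, hT.1, hT.2, fun p hp => ?_⟩
  by_contra hcon
  push Not at hcon
  have hpT : p ∉ T := fun h => by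
    have := hcon p h
    rw [dist_self] at this
    linarith
  have h1 : P (insert p T) := by
    refine ⟨fun q hq => ?_, fun q hq r hr hqr => ?_⟩
    · rcases Finset.mem_insert.1 hq with h | h
      · rw [h]; exact hp
      · exact hT.1 q h
    · rcases Finset.mem_insert.1 hq with h | h <;> rcases Finset.mem_insert.1 hr with h' | h'
      · exact absurd (h.trans h'.symm) hqr
      · rw [h]; exact hcon r h'
      · rw [h', dist_comm]; exact hcon q h
      · exact hT.2 q h r h' hqr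
  have h2 := hmax _ h1
  rw [Finset.card_insert_of_notMem hpT] at h2
  omega

/-- packing bound -/
lemma pack_packing {T : Finset (Cfg dc)} {R s : ℝ} (hR : 0 < R) (hs : R ≤ s)
    (hsep : ∀ p ∈ T, ∀ q ∈ T, p ≠ q → R ≤ dist p q) (x : (Cfg dc)) :
    ∑ p ∈ T, (Metric.ball p s).indicator (fun _ => (1 : ℝ)) x ≤ (3 * s / R) ^ (9 * dc) := by
  classical
  have hs0 : 0 < s := lt_of_lt_of_le hR hs
  set T' := T.filter fun p => dist x p < s with hT'
  have e : ∑ p ∈ T, (Metric.ball p s).indicator (fun _ => (1 : ℝ)) x = (T'.card : ℝ) := by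
    rw [hT', Finset.card_filter]
    push_cast
    refine Finset.sum_congr rfl fun p _ => ?_
    rw [Set.indicator_apply]
    simp only [Metric.mem_ball]
  rw [e]
  have hdisj : (↑T' : Set (Cfg dc)).PairwiseDisjoint fun p => Metric.ball p (R / 2) := by
    intro p hp q hq hpq
    have hp' := (Finset.mem_filter.1 (Finset.mem_coe.1 hp)).1
    have hq' := (Finset.mem_filter.1 (Finset.mem_coe.1 hq)).1
    refine Metric.ball_disjoint_ball ?_
    have := hsep p hp' q hq' hpq
    linarith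
  have hsub : (⋃ p ∈ T', Metric.ball p (R / 2)) ⊆ Metric.ball x (s + R / 2) := by
    intro y hy
    simp only [Set.mem_iUnion] at hy
    obtain ⟨p, hp, hy⟩ := hy
    have hp' := (Finset.mem_filter.1 hp).2
    rw [Metric.mem_ball] at hy ⊢
    have := dist_triangle y p x
    rw [dist_comm x p] at hp'
    linarith
  have hvol := measure_mono (μ := (volume : Measure (Cfg dc))) hsub
  rw [measure_biUnion_finset hdisj (fun p _ => measurableSet_ball)] at hvol
  have hfr : Module.finrank ℝ (Cfg dc) = (9 * dc) := by simp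
  simp only [Measure.addHaar_ball_of_pos volume _ (show 0 < R / 2 by positivity),
    Measure.addHaar_ball_of_pos volume _ (show 0 < s + R / 2 by positivity), hfr, Finset.sum_const,
    nsmul_eq_mul] at hvol
  rw [← mul_assoc] at hvol
  have hb0 : (volume (Metric.ball (0 : (Cfg dc)) 1)) ≠ 0 := (Metric.measure_ball_pos _ _ one_pos).ne'
  have hbt : (volume (Metric.ball (0 : (Cfg dc)) 1)) ≠ ⊤ := measure_ball_lt_top.ne
  rw [ENNReal.mul_le_mul_iff_left hb0 hbt, ← ENNReal.ofReal_natCast,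
    ← ENNReal.ofReal_mul (Nat.cast_nonneg _), ENNReal.ofReal_le_ofReal_iff (by positivity)] at hvol
  have h3 : (T'.card : ℝ) ≤ ((s + R / 2) / (R / 2)) ^ (9 * dc) := by
    rw [div_pow, le_div_iff₀ (by positivity)]
    exact hvol
  refine h3.trans ?_
  refine pow_le_pow_left₀ (by positivity) ?_ (9 * dc)
  rw [div_le_div_iff₀ (by positivity) hR]
  nlinarith

/-- **C-Pack** -/
theorem pack : PackStmt S := by
  classical
  intro ξ R hR
  obtain ⟨T, hT1, hT2, hT3⟩ := pack_exists_net (pack_orb_compact S ξ) hR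
  have hmem : ξ ∈ S.Orb ξ := ⟨1, grp_one S, (grp_ro_one _).symm⟩
  have hTne : T.Nonempty := by
    obtain ⟨q, hq, -⟩ := hT3 _ hmem
    exact ⟨q, hq⟩
  refine ⟨T.card, by exact_mod_cast hTne.card_pos, fun u hu hi => ?_⟩
  have hint : Integrable (fun x => ‖u x‖ ^ 2) (volume : Measure (Cfg dc)) := hu.norm_sq_int
  have hball : ∀ p ∈ T, ∀ s, ∫ x in Metric.ball p s, ‖u x‖ ^ 2 =
      ∫ x in Metric.ball (ξ) s, ‖u x‖ ^ 2 := by
    intro p hp s
    obtain ⟨O, h1, h3⟩ := hT1 p hp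
    rw [h3]
    exact pack_ball_integral h1.1 (hi O h1) _ _
  have hsum : ∀ s, (T.card : ℝ) * ∫ x in Metric.ball (ξ) s, ‖u x‖ ^ 2 =
      ∫ x, ∑ p ∈ T, (Metric.ball p s).indicator (fun x => ‖u x‖ ^ 2) x := by
    intro s
    rw [integral_finset_sum _ fun p _ => hint.indicator measurableSet_ball]
    simp only [integral_indicator measurableSet_ball]
    rw [Finset.sum_congr rfl fun p hp => hball p hp s, Finset.sum_const, nsmul_eq_mul]
  constructor
  · rw [hsum]
    refine integral_mono_of_nonneg (Filter.Eventually.of_forall fun x => ?_)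
      (integrable_finset_sum _ fun p _ => hint.indicator measurableSet_ball)
      (Filter.Eventually.of_forall fun x => ?_)
    · show 0 ≤ ite _ _ _
      split_ifs <;> positivity
    · show ite _ _ _ ≤ _
      have hnn : ∀ p ∈ T, 0 ≤ (Metric.ball p (2 * R)).indicator (fun x => ‖u x‖ ^ 2) x :=
        fun p _ => Set.indicator_nonneg (fun _ _ => by positivity) _
      split_ifs with h
      · obtain ⟨p, hp, hpx⟩ := (pack_orb_compact S ξ).exists_infDist_eq_dist ⟨_, hmem⟩ x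
        obtain ⟨q, hq, hpq⟩ := hT3 p hp
        have hx : x ∈ Metric.ball q (2 * R) := by
          rw [Metric.mem_ball]
          have := dist_triangle x p q
          rw [hpx] at h
          linarith
        have h2 := Finset.single_le_sum hnn hq
        rw [Set.indicator_of_mem hx] at h2
        exact h2
      · exact Finset.sum_nonneg hnn
  · intro s hs
    rw [hsum]
    have h1 : (3 * s / R) ^ (9 * dc) * nsq u = ∫ x, (3 * s / R) ^ (9 * dc) * ‖u x‖ ^ 2 := by
      unfold nsq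
      rw [integral_const_mul]
    rw [h1]
    refine integral_mono (integrable_finset_sum _ fun p _ => hint.indicator measurableSet_ball)
      (hint.const_mul _) fun x => ?_
    have h2 : ∑ p ∈ T, (Metric.ball p s).indicator (fun x => ‖u x‖ ^ 2) x =
        (∑ p ∈ T, (Metric.ball p s).indicator (fun _ => (1 : ℝ)) x) * ‖u x‖ ^ 2 := by
      rw [Finset.sum_mul]
      refine Finset.sum_congr rfl fun p _ => ?_
      simp only [Set.indicator_apply]
      split_ifs <;> simp
    show ∑ p ∈ T, (Metric.ball p s).indicator (fun x => ‖u x‖ ^ 2) x ≤ _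
    rw [h2]
    exact mul_le_mul_of_nonneg_right (pack_packing hR hs hT2 x) (by positivity)

end Vale.Agent.P353.Z.U
end

section

/-! # P353, uniqueness for `N = 2`: the vacuum lemma (C-Vac) -/

namespace Vale.Agent.P353.Z.U

variable {dc : ℕ}

variable {F : Type*} [NormedAddCommGroup F] [InnerProductSpace ℂ F]

/-- `θ(a) v` -/
noncomputable def VacT (S : Setup dc F) (a : Fin 16 × Fin dc → ℂ) (v : F) : F :=
  ∑ p : Fin 16 × Fin dc, a p • S.th p.1 p.2 v

variable (S : Setup dc F)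

theorem VacT_add_left (a b : Fin 16 × Fin dc → ℂ) (v : F) :
    VacT S (a + b) v = VacT S a v + VacT S b v := by
  unfold VacT
  rw [← Finset.sum_add_distrib]
  exact Finset.sum_congr rfl fun p _ => add_smul _ _ _

theorem VacT_smul_left (c : ℂ) (a : Fin 16 × Fin dc → ℂ) (v : F) :
    VacT S (c • a) v = c • VacT S a v := by
  unfold VacT
  rw [Finset.smul_sum]
  exact Finset.sum_congr rfl fun p _ => by rw [Pi.smul_apply, smul_eq_mul, mul_smul]

theorem VacT_zero_left (v : F) : VacT S 0 v = 0 := by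
  simp [VacT]

theorem VacT_add (a : Fin 16 × Fin dc → ℂ) (v w : F) :
    VacT S a (v + w) = VacT S a v + VacT S a w := by
  unfold VacT
  rw [← Finset.sum_add_distrib]
  exact Finset.sum_congr rfl fun p _ => by rw [map_add, smul_add]

theorem VacT_smul (a : Fin 16 × Fin dc → ℂ) (c : ℂ) (v : F) :
    VacT S a (c • v) = c • VacT S a v := by
  unfold VacT
  rw [Finset.smul_sum]
  exact Finset.sum_congr rfl fun p _ => by rw [map_smul, smul_comm]

theorem VacT_zero (a : Fin 16 × Fin dc → ℂ) : VacT S a 0 = 0 := by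
  simp [VacT]

theorem VacT_single (p : Fin 16 × Fin dc) (v : F) :
    VacT S (Pi.single p 1) v = S.th p.1 p.2 v := by
  unfold VacT
  rw [Finset.sum_eq_single p (fun q _ hq => by rw [Pi.single_eq_of_ne hq, zero_smul])
    (fun h => absurd (Finset.mem_univ p) h), Pi.single_eq_same, one_smul]

theorem VacT_th_anti (p q : Fin 16 × Fin dc) (v : F) :
    S.th p.1 p.2 (S.th q.1 q.2 v) + S.th q.1 q.2 (S.th p.1 p.2 v) = if p = q then v else 0 := by
  have h := congrArg (fun A : F →L[ℂ] F => A v) (S.th_anti p.1 p.2 q.1 q.2)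
  simp only [ContinuousLinearMap.add_apply, ContinuousLinearMap.mul_apply] at h
  rw [h]
  by_cases hpq : p = q
  · subst hpq
    simp
  · rw [if_neg hpq, if_neg (fun h => hpq (Prod.ext h.1 h.2))]
    rfl

/-- `{θ(a), θ(b)} = ∑ a_p b_p` -/
theorem VacT_anti (a b : Fin 16 × Fin dc → ℂ) (v : F) :
    VacT S a (VacT S b v) + VacT S b (VacT S a v) = (∑ p, a p * b p) • v := by
  have h1 : VacT S a (VacT S b v) = ∑ p, ∑ q, (a p * b q) • S.th p.1 p.2 (S.th q.1 q.2 v) := by
    unfold VacT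
    refine Finset.sum_congr rfl fun p _ => ?_
    rw [map_sum, Finset.smul_sum]
    refine Finset.sum_congr rfl fun q _ => ?_
    rw [map_smul, mul_smul]
  have h2 : VacT S b (VacT S a v) = ∑ p, ∑ q, (a p * b q) • S.th q.1 q.2 (S.th p.1 p.2 v) := by
    unfold VacT
    rw [Finset.sum_comm]
    refine Finset.sum_congr rfl fun q _ => ?_
    rw [map_sum, Finset.smul_sum]
    refine Finset.sum_congr rfl fun p _ => ?_
    rw [map_smul, mul_comm (a p), mul_smul]
  rw [h1, h2, ← Finset.sum_add_distrib, Finset.sum_smul]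
  refine Finset.sum_congr rfl fun p _ => ?_
  rw [← Finset.sum_add_distrib]
  simp only [← smul_add, VacT_th_anti]
  rw [Finset.sum_eq_single p (fun q _ hq => by rw [if_neg (Ne.symm hq), smul_zero])
    (fun h => absurd (Finset.mem_univ p) h), if_pos rfl]

/-- `θ(a)† = θ(ā)` -/
theorem VacT_adj (a : Fin 16 × Fin dc → ℂ) (v w : F) :
    inner ℂ (VacT S a v) w = inner ℂ v (VacT S (fun p => (starRingEnd ℂ) (a p)) w) := by
  unfold VacT
  rw [sum_inner, inner_sum]
  refine Finset.sum_congr rfl fun p _ => ?_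
  rw [inner_smul_left, inner_smul_right, S.th_sa]

/-- existence of a vector killed by finitely many elements -/
theorem Vac_exists_aux {𝒜 : Submodule ℂ (Fin 16 × Fin dc → ℂ)}
    (hi : ∀ a ∈ 𝒜, ∀ b ∈ 𝒜, ∑ p, a p * b p = 0) (hF : ∃ v : F, v ≠ 0)
    (s : Finset (Fin 16 × Fin dc → ℂ)) (hs : (s : Set (Fin 16 × Fin dc → ℂ)) ⊆ 𝒜) :
    ∃ v : F, v ≠ 0 ∧ ∀ a ∈ s, VacT S a v = 0 := by
  classical
  induction s using Finset.induction_on with
  | empty =>
    obtain ⟨v, hv⟩ := hF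
    exact ⟨v, hv, fun a ha => absurd ha (Finset.notMem_empty a)⟩
  | insert a s _ ih =>
    have hsub : (s : Set (Fin 16 × Fin dc → ℂ)) ⊆ 𝒜 := fun b hb =>
      hs (Finset.mem_coe.2 (Finset.mem_insert_of_mem (Finset.mem_coe.1 hb)))
    have ha : a ∈ 𝒜 := hs (Finset.mem_coe.2 (Finset.mem_insert_self a s))
    obtain ⟨v, hv, hvs⟩ := ih hsub
    by_cases h0 : VacT S a v = 0
    · refine ⟨v, hv, fun b hb => ?_⟩
      rcases Finset.mem_insert.1 hb with rfl | hb
      · exact h0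
      · exact hvs b hb
    · refine ⟨VacT S a v, h0, fun b hb => ?_⟩
      rcases Finset.mem_insert.1 hb with rfl | hb
      · have h1 := VacT_anti S b b v
        rw [hi b ha b ha, zero_smul, ← two_smul ℂ] at h1
        exact (smul_eq_zero.1 h1).resolve_left two_ne_zero
      · have h1 := VacT_anti S b a v
        rw [hvs b hb, VacT_zero, add_zero, hi b (hsub (Finset.mem_coe.2 hb)) a ha, zero_smul] at h1
        exact h1

theorem Vac_exists {𝒜 : Submodule ℂ (Fin 16 × Fin dc → ℂ)}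
    (hi : ∀ a ∈ 𝒜, ∀ b ∈ 𝒜, ∑ p, a p * b p = 0) (hF : ∃ v : F, v ≠ 0) :
    ∃ v : F, v ≠ 0 ∧ ∀ a ∈ 𝒜, VacT S a v = 0 := by
  obtain ⟨s, hs⟩ : 𝒜.FG := IsNoetherian.noetherian 𝒜
  obtain ⟨v, hv, hvs⟩ := Vac_exists_aux S hi hF s (by rw [← hs]; exact Submodule.subset_span)
  refine ⟨v, hv, fun a ha => ?_⟩
  rw [← hs] at ha
  refine Submodule.span_induction (p := fun a _ => VacT S a v = 0) (fun a ha => hvs a ha)
    (VacT_zero_left S v) (fun a b _ _ ha hb => ?_) (fun c a _ ha => ?_) ha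
  · rw [VacT_add_left, ha, hb, add_zero]
  · rw [VacT_smul_left, ha, smul_zero]

/-- uniqueness of the vacuum -/
theorem Vac_unique (hirr : S.Irr) {𝒜 : Submodule ℂ (Fin 16 × Fin dc → ℂ)}
    (hmax : ∀ z : Fin 16 × Fin dc → ℂ, ∃ a ∈ 𝒜, ∃ b ∈ 𝒜, z = a + fun p => (starRingEnd ℂ) (b p))
    {Ω v : F} (hΩ : Ω ≠ 0) (hΩA : ∀ a ∈ 𝒜, VacT S a Ω = 0) (hv : ∀ a ∈ 𝒜, VacT S a v = 0)
    (hort : inner ℂ v Ω = 0) : v = 0 := by
  -- submodules stable under the creation operators
  obtain ⟨P, hP⟩ : ∃ P : Submodule ℂ F → Prop, P = fun W => Ω ∈ W ∧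
    ∀ b ∈ 𝒜, ∀ y ∈ W, VacT S (fun p => (starRingEnd ℂ) (b p)) y ∈ W := ⟨_, rfl⟩
  obtain ⟨W, hW⟩ : ∃ W : Submodule ℂ F, W = sInf {W | P W} := ⟨_, rfl⟩
  have hWle : ∀ W', P W' → W ≤ W' := fun W' h => by rw [hW]; exact sInf_le h
  have hWΩ : Ω ∈ W := by
    rw [hW, Submodule.mem_sInf]
    intro W' h
    have h' : P W' := h
    rw [hP] at h'
    exact h'.1
  have hWb : ∀ b ∈ 𝒜, ∀ y ∈ W, VacT S (fun p => (starRingEnd ℂ) (b p)) y ∈ W := by
    intro b hb y hy
    rw [hW, Submodule.mem_sInf]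
    intro W' h
    have h' : P W' := h
    have hyW' := hWle W' h' hy
    rw [hP] at h'
    exact h'.2 b hb y hyW'
  have hWa : ∀ a ∈ 𝒜, ∀ y ∈ W, VacT S a y ∈ W := by
    let W' : Submodule ℂ F :=
      { carrier := {y | y ∈ W ∧ ∀ a ∈ 𝒜, VacT S a y ∈ W}
        zero_mem' := ⟨W.zero_mem, fun a _ => by rw [VacT_zero]; exact W.zero_mem⟩
        add_mem' := fun {y z} hy hz => ⟨W.add_mem hy.1 hz.1, fun a ha => by
          rw [VacT_add]
          exact W.add_mem (hy.2 a ha) (hz.2 a ha)⟩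
        smul_mem' := fun c y hy => ⟨W.smul_mem c hy.1, fun a ha => by
          rw [VacT_smul]
          exact W.smul_mem c (hy.2 a ha)⟩ }
    have h1 : W ≤ W' := by
      apply hWle
      rw [hP]
      refine ⟨⟨hWΩ, fun a ha => by rw [hΩA a ha]; exact W.zero_mem⟩, fun b hb y hy => ?_⟩
      refine ⟨hWb b hb y hy.1, fun a ha => ?_⟩
      have h2 := VacT_anti S a (fun p => (starRingEnd ℂ) (b p)) y
      rw [eq_sub_of_add_eq h2]
      exact W.sub_mem (W.smul_mem _ hy.1) (hWb b hb _ (hy.2 a ha))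
    intro a ha y hy
    exact (h1 hy).2 a ha
  have hWth : ∀ α A, ∀ y ∈ W, S.th α A y ∈ W := by
    intro α A y hy
    obtain ⟨a, ha, b, hb, hab⟩ := hmax (Pi.single (α, A) 1)
    have h1 := VacT_single S (α, A) y
    rw [hab, VacT_add_left] at h1
    have h2 : S.th α A y = VacT S a y + VacT S (fun p => (starRingEnd ℂ) (b p)) y := h1.symm
    rw [h2]
    exact W.add_mem (hWa a ha y hy) (hWb b hb y hy)
  have htop : W = ⊤ := by
    rcases hirr W hWth with h | h
    · rw [h, Submodule.mem_bot] at hWΩ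
      exact absurd hWΩ hΩ
    · exact h
  let V : Submodule ℂ F :=
    { carrier := {y | inner ℂ v y = 0}
      zero_mem' := inner_zero_right v
      add_mem' := fun {y z} (hy : inner ℂ v y = 0) (hz : inner ℂ v z = 0) => by
        change inner ℂ v (y + z) = 0
        rw [inner_add_right, hy, hz, add_zero]
      smul_mem' := fun c y (hy : inner ℂ v y = 0) => by
        change inner ℂ v (c • y) = 0
        rw [inner_smul_right, hy, mul_zero] }
  have h1 : W ≤ V := by
    apply hWle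
    rw [hP]
    refine ⟨hort, fun b hb y _ => ?_⟩
    change inner ℂ v (VacT S (fun p => (starRingEnd ℂ) (b p)) y) = 0
    rw [← VacT_adj, hv b hb, inner_zero_left]
  have h2 : v ∈ V := h1 (by rw [htop]; exact Submodule.mem_top)
  have h3 : inner ℂ v v = (0 : ℂ) := h2
  exact inner_self_eq_zero.1 h3

/-- **C-Vac** -/
theorem vac (S : Setup dc F) : VacStmt S := by
  intro hirr hF 𝒜 hi hmax
  obtain ⟨v, hv, hvA⟩ := Vac_exists S hi hF
  have hn : ‖v‖ ≠ 0 := norm_ne_zero_iff.2 hv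
  have hΩA : ∀ a ∈ 𝒜, VacT S a ((‖v‖ : ℂ)⁻¹ • v) = 0 := by
    intro a ha
    rw [VacT_smul, hvA a ha, smul_zero]
  have hΩn : ‖(‖v‖ : ℂ)⁻¹ • v‖ = 1 := by
    rw [norm_smul, norm_inv, Complex.norm_real, norm_norm, inv_mul_cancel₀ hn]
  refine ⟨(‖v‖ : ℂ)⁻¹ • v, hΩn, hΩA, fun w hw => ?_⟩
  obtain ⟨Ω, hΩ⟩ : ∃ Ω : F, Ω = (‖v‖ : ℂ)⁻¹ • v := ⟨_, rfl⟩
  rw [← hΩ] at hΩA hΩn ⊢
  have hΩ0 : Ω ≠ 0 := fun h => by rw [h, norm_zero] at hΩn; exact zero_ne_one hΩn
  have hw' : ∀ a ∈ 𝒜, VacT S a w = 0 := hw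
  have h1 : w - (inner ℂ Ω w) • Ω = 0 := by
    refine Vac_unique S hirr hmax hΩ0 hΩA (fun a ha => ?_) ?_
    · have e : w - (inner ℂ Ω w) • Ω = w + (-(inner ℂ Ω w)) • Ω := by
        rw [neg_smul, sub_eq_add_neg]
      rw [e, VacT_add, VacT_smul, hw' a ha, hΩA a ha, smul_zero, add_zero]
    · rw [inner_sub_left, inner_smul_left, inner_self_eq_norm_sq_to_K, hΩn, inner_conj_symm]
      simp
  exact ⟨inner ℂ Ω w, sub_eq_zero.1 h1⟩

end Vale.Agent.P353.Z.U
end

section

open MeasureTheory Filter Topology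
open scoped ContDiff

namespace Vale.Agent.P353.Z

variable {dc : ℕ}

variable {F : Type*} [NormedAddCommGroup F] [InnerProductSpace ℂ F]

lemma tendsto_of_bounds {D q a p : ℕ → ℝ} {E : ℝ → ℝ} {c A : ℝ} (hc : 0 ≤ c) (hA : 0 ≤ A)
    (hD : ∀ n, 0 ≤ D n) (hq : Tendsto q atTop (𝓝 0)) (hp : Tendsto p atTop (𝓝 0))
    (ha : ∀ n, a n ≤ 2 * p n + A) (hE : Tendsto (fun n : ℕ => E (n + 1)) atTop (𝓝 0))
    (hb : ∀ n, ∀ R > 0, ∀ δ > 0, D n ≤ c * (R * (q n / δ + δ * a n) + (2 * E R + 2 * p n)) +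
      4 * (2 * E R + 2 * p n)) : Tendsto D atTop (𝓝 0) := by
  rw [Metric.tendsto_atTop]
  intro ε hε
  have h1 : Tendsto (fun n : ℕ => (2 * c + 8) * E (n + 1)) atTop (𝓝 0) := by
    simpa using hE.const_mul (2 * c + 8)
  obtain ⟨m, hm⟩ := (h1.eventually_lt_const (show (0 : ℝ) < ε / 3 by positivity)).exists
  set R : ℝ := (m : ℝ) + 1 with hRdef
  have hR : 0 < R := by positivity
  set δ : ℝ := ε / (3 * (c * R * A + 1)) with hδdef
  have hcRA : 0 ≤ c * R * A := by positivity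
  have hδ : 0 < δ := by positivity
  have h2 : c * R * δ * A < ε / 3 := by
    rw [hδdef]
    rw [show c * R * (ε / (3 * (c * R * A + 1))) * A = (ε / 3) * (c * R * A / (c * R * A + 1)) by
      field_simp]
    have : c * R * A / (c * R * A + 1) < 1 := by
      rw [div_lt_one (by positivity)]
      linarith
    nlinarith
  have hlim : Tendsto (fun n => c * (R * (q n / δ + δ * (2 * p n + A)) + (2 * E R + 2 * p n)) +
      4 * (2 * E R + 2 * p n)) atTop
      (𝓝 (c * (R * (0 / δ + δ * (2 * 0 + A)) + (2 * E R + 2 * 0)) + 4 * (2 * E R + 2 * 0))) := by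
    have a1 := hq.div_const δ
    have a2 := ((hp.const_mul 2).add_const A).const_mul δ
    have a3 := (tendsto_const_nhds (x := 2 * E R) (f := (atTop : Filter ℕ))).add (hp.const_mul 2)
    exact ((((a1.add a2).const_mul R).add a3).const_mul c).add (a3.const_mul 4)
  have hlt : c * (R * (0 / δ + δ * (2 * 0 + A)) + (2 * E R + 2 * 0)) + 4 * (2 * E R + 2 * 0) < ε := by
    have e : c * (R * (0 / δ + δ * (2 * 0 + A)) + (2 * E R + 2 * 0)) + 4 * (2 * E R + 2 * 0) =
        c * R * δ * A + (2 * c + 8) * E R := by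
      rw [zero_div]; ring
    rw [e]
    linarith
  obtain ⟨N, hN⟩ := Filter.eventually_atTop.mp (hlim.eventually_lt_const hlt)
  refine ⟨N, fun n hn => ?_⟩
  rw [Real.dist_eq, sub_zero, abs_of_nonneg (hD n)]
  refine lt_of_le_of_lt (hb n R hR δ hδ) (lt_of_le_of_lt ?_ (hN n hn))
  have := ha n
  gcongr

omit [InnerProductSpace ℂ F] in
/-- the tails of an `L²` function tend to zero -/
lemma tendsto_tail (Ψ : (Cfg dc) → F) (hΨ : Integrable (fun x => ‖Ψ x‖ ^ 2)) :
    Tendsto (fun n : ℕ => ∫ x, wR ((n : ℝ) + 1) ‖x‖ * ‖Ψ x‖ ^ 2) atTop (𝓝 0) := by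
  have h := tendsto_integral_of_dominated_convergence
    (F := fun (n : ℕ) x => wR ((n : ℝ) + 1) ‖x‖ * ‖Ψ x‖ ^ 2) (f := fun _ => (0 : ℝ))
    (μ := (volume : Measure (Cfg dc))) (fun x => ‖Ψ x‖ ^ 2)
    (fun n => (integrable_wR _ hΨ).aestronglyMeasurable) hΨ
    (fun n => Filter.Eventually.of_forall fun x => ?_)
    (Filter.Eventually.of_forall fun x => ?_)
  · simpa using h
  · rw [norm_mul, Real.norm_of_nonneg (wR_nonneg _ _), Real.norm_of_nonneg (by positivity)]
    have h1 := wR_le_one ((n : ℝ) + 1) ‖x‖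
    nlinarith [sq_nonneg ‖Ψ x‖]
  · obtain ⟨N, hN⟩ := exists_nat_gt ‖x‖
    refine tendsto_const_nhds.congr' ?_
    filter_upwards [Filter.eventually_ge_atTop N] with n hn
    have : ¬ ((n : ℝ) + 1 ≤ ‖x‖) := by
      push Not
      have : (N : ℝ) ≤ n := by exact_mod_cast hn
      linarith
    rw [wR, if_neg this, zero_mul]

omit [InnerProductSpace ℂ F] in
lemma norm_sq_le_two (u v : F) : ‖u‖ ^ 2 ≤ 2 * ‖v‖ ^ 2 + 2 * ‖u - v‖ ^ 2 := by
  have h1 : ‖u‖ ≤ ‖v‖ + ‖u - v‖ := by
    calc ‖u‖ = ‖v + (u - v)‖ := by congr 1; abel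
      _ ≤ _ := norm_add_le _ _
  have h2 : ‖u‖ ^ 2 ≤ (‖v‖ + ‖u - v‖) ^ 2 := by gcongr
  nlinarith [sq_nonneg (‖v‖ - ‖u - v‖)]

namespace Setup

variable (S : Setup dc F) [CompleteSpace F]

/-- the rotated function is close to the function -/
lemma rot_diff_bound {k l : Fin 9} (h : k ≠ l) {K K0 : ℝ} {u : (Cfg dc) → F} (hu : Tst u) {R : ℝ}
    {χ : (Cfg dc) → ℝ} (hχ : IsCut K0 R χ) {X : ℝ} (t : ℝ)
    (hb : ∀ s : ℝ, ‖∫ x, inner ℂ (((χ x : ℝ) : ℂ) • u x) (S.J k l (S.Ut k l s u) x)‖ ≤ K * X) :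
    ∫ x, ‖S.Ut k l t u x - u x‖ ^ 2 ≤ 2 * |t| * (K * X) + 4 * ∫ x, wR R ‖x‖ * ‖u x‖ ^ 2 := by
  set v := S.Ut k l t u with hv
  have hvT : Tst v := hu.Ut S h t
  have hχs : ContDiff ℝ ∞ χ := hχ.1
  have hχ0 := hχ.2.2.1
  have hχ1 := hχ.2.2.2.1
  have hχin := hχ.2.2.2.2.1
  have hcu : Tst (fun x => ((χ x : ℝ) : ℂ) • u x) := hu.rsmul hχs
  -- the mean value estimate
  have hder : ∀ s, HasDerivAt (fun s => ∫ x, inner ℂ (((χ x : ℝ) : ℂ) • u x) (S.Ut k l s u x))
      (∫ x, inner ℂ (((χ x : ℝ) : ℂ) • u x) (Complex.I • S.J k l (S.Ut k l s u) x)) s := fun s =>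
    S.hasDerivAt_integral_Ut h hcu.1.continuous.locallyIntegrable hu s
  have hmv : ‖(∫ x, inner ℂ (((χ x : ℝ) : ℂ) • u x) (v x)) -
      ∫ x, inner ℂ (((χ x : ℝ) : ℂ) • u x) (S.Ut k l 0 u x)‖ ≤ (K * X) * ‖t - 0‖ := by
    refine Convex.norm_image_sub_le_of_norm_hasDerivWithin_le (s := Set.univ)
      (fun s _ => (hder s).hasDerivWithinAt) (fun s _ => ?_) convex_univ (Set.mem_univ _)
      (Set.mem_univ _)
    simp only [inner_smul_right]
    rw [integral_const_mul, norm_mul, Complex.norm_I, one_mul]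
    have := hb s
    simpa only [inner_smul_right] using this
  have hU0 : ∀ x, S.Ut k l 0 u x = u x := by
    intro x
    rw [Ut, neg_zero, RR_zero, S.st_zero]
    rfl
  simp only [hU0, sub_zero, Real.norm_eq_abs] at hmv
  -- pointwise estimate
  have hpt : ∀ x, ‖v x - u x‖ ^ 2 ≤ (‖v x‖ ^ 2 - ‖u x‖ ^ 2) +
      (2 * (inner ℂ (((χ x : ℝ) : ℂ) • u x) (u x)).re -
        2 * (inner ℂ (((χ x : ℝ) : ℂ) • u x) (v x)).re) +
      (3 * (wR R ‖x‖ * ‖u x‖ ^ 2) + wR R ‖x‖ * ‖v x‖ ^ 2) := by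
    intro x
    have e1 : ‖v x - u x‖ ^ 2 = ‖v x‖ ^ 2 + ‖u x‖ ^ 2 - 2 * (inner ℂ (u x) (v x)).re := by
      rw [@norm_sub_sq ℂ]
      have : RCLike.re (inner ℂ (v x) (u x)) = (inner ℂ (u x) (v x)).re := by
        exact inner_re_symm (𝕜 := ℂ) (v x) (u x)
      rw [this]; ring
    have e2 : ∀ w : F, (inner ℂ (((χ x : ℝ) : ℂ) • u x) w).re = χ x * (inner ℂ (u x) w).re := by
      intro w
      rw [inner_smul_left, Complex.conj_ofReal, Complex.re_ofReal_mul]
    have e3 : (inner ℂ (u x) (u x)).re = ‖u x‖ ^ 2 := by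
      rw [inner_self_eq_norm_sq_to_K]; norm_cast
    rw [e1, e2, e2, e3]
    have h4 : |(inner ℂ (u x) (v x)).re| ≤ ‖u x‖ * ‖v x‖ :=
      (Complex.abs_re_le_norm _).trans (norm_inner_le_norm _ _)
    have h5 : ‖u x‖ * ‖v x‖ ≤ 1 / 2 * (‖u x‖ ^ 2 + ‖v x‖ ^ 2) := by
      nlinarith [sq_nonneg (‖u x‖ - ‖v x‖)]
    have h6 : -(inner ℂ (u x) (v x)).re ≤ 1 / 2 * (‖u x‖ ^ 2 + ‖v x‖ ^ 2) :=
      (neg_le_abs _).trans (h4.trans h5)
    by_cases hx : R ≤ ‖x‖
    · rw [wR, if_pos hx]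
      have h7 := hχ0 x
      have h8 := hχ1 x
      nlinarith [sq_nonneg ‖u x‖, sq_nonneg ‖v x‖,
        mul_le_mul_of_nonneg_left h6 (sub_nonneg.mpr h8)]
    · push Not at hx
      rw [wR, if_neg (not_le.mpr hx), hχin x hx.le]
      linarith
  have hva : ∫ x, ‖v x‖ ^ 2 = ∫ x, ‖u x‖ ^ 2 := S.integral_Ut' h t u
  have hve : ∫ x, wR R ‖x‖ * ‖v x‖ ^ 2 = ∫ x, wR R ‖x‖ * ‖u x‖ ^ 2 := S.integral_Ut h t u (wR R)
  have i1 : Integrable (fun x => ‖v x‖ ^ 2 - ‖u x‖ ^ 2) := hvT.norm_sq_int.sub hu.norm_sq_int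
  have c1 : Integrable (fun x => inner ℂ (((χ x : ℝ) : ℂ) • u x) (u x)) :=
    hcu.inner_int hu.1.continuous
  have c2 : Integrable (fun x => inner ℂ (((χ x : ℝ) : ℂ) • u x) (v x)) :=
    hcu.inner_int hvT.1.continuous
  have c1' : Integrable (fun x => 2 * (inner ℂ (((χ x : ℝ) : ℂ) • u x) (u x)).re) :=
    c1.re.const_mul 2
  have c2' : Integrable (fun x => 2 * (inner ℂ (((χ x : ℝ) : ℂ) • u x) (v x)).re) :=
    c2.re.const_mul 2
  have i2 : Integrable (fun x => 2 * (inner ℂ (((χ x : ℝ) : ℂ) • u x) (u x)).re -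
        2 * (inner ℂ (((χ x : ℝ) : ℂ) • u x) (v x)).re) := c1'.sub c2'
  have i3 : Integrable (fun x => wR R ‖x‖ * ‖u x‖ ^ 2) := integrable_wR R hu.norm_sq_int
  have i4 : Integrable (fun x => wR R ‖x‖ * ‖v x‖ ^ 2) := integrable_wR R hvT.norm_sq_int
  have i5 : Integrable (fun x => 3 * (wR R ‖x‖ * ‖u x‖ ^ 2) + wR R ‖x‖ * ‖v x‖ ^ 2) :=
    (i3.const_mul 3).add i4
  have i12 : Integrable (fun x => (‖v x‖ ^ 2 - ‖u x‖ ^ 2) +
      (2 * (inner ℂ (((χ x : ℝ) : ℂ) • u x) (u x)).re -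
        2 * (inner ℂ (((χ x : ℝ) : ℂ) • u x) (v x)).re)) := i1.add i2
  have hre : ∀ f : (Cfg dc) → ℂ, Integrable f → ∫ x, (f x).re = (∫ x, f x).re := by
    intro f hf
    exact integral_re hf
  calc ∫ x, ‖v x - u x‖ ^ 2 ≤ ∫ x, ((‖v x‖ ^ 2 - ‖u x‖ ^ 2) +
      (2 * (inner ℂ (((χ x : ℝ) : ℂ) • u x) (u x)).re -
        2 * (inner ℂ (((χ x : ℝ) : ℂ) • u x) (v x)).re) +
      (3 * (wR R ‖x‖ * ‖u x‖ ^ 2) + wR R ‖x‖ * ‖v x‖ ^ 2)) :=
        integral_mono (hvT.sub hu).norm_sq_int (i12.add i5) hpt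
    _ = 2 * ((∫ x, inner ℂ (((χ x : ℝ) : ℂ) • u x) (u x)) -
          ∫ x, inner ℂ (((χ x : ℝ) : ℂ) • u x) (v x)).re + 4 * ∫ x, wR R ‖x‖ * ‖u x‖ ^ 2 := by
        rw [integral_add i12 i5, integral_add i1 i2, integral_sub hvT.norm_sq_int hu.norm_sq_int,
          hva, sub_self, integral_sub c1' c2', integral_const_mul, integral_const_mul,
          hre _ c1, hre _ c2, integral_add (i3.const_mul 3) i4, integral_const_mul, hve,
          Complex.sub_re]
        ring
    _ ≤ 2 * (K * X * |t|) + 4 * ∫ x, wR R ‖x‖ * ‖u x‖ ^ 2 := by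
        have h1 : ((∫ x, inner ℂ (((χ x : ℝ) : ℂ) • u x) (u x)) -
          ∫ x, inner ℂ (((χ x : ℝ) : ℂ) • u x) (v x)).re ≤ K * X * |t| := by
          refine (Complex.re_le_norm _).trans ?_
          rw [norm_sub_rev]
          exact hmv
        linarith
    _ = _ := by ring

/-- the approximating sequence is asymptotically rotation invariant -/
lemma tendsto_Ut_sub {k l : Fin 9} (h : k ≠ l) (hJ : JExact S k l)
    (Ψ : Lp F 2 (volume : Measure (Cfg dc))) (u : ℕ → (Cfg dc) → F) (hA : S.Apx Ψ u) (t : ℝ) :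
    Tendsto (fun n => ∫ x, ‖S.Ut k l t (u n) x - u n x‖ ^ 2) atTop (𝓝 0) := by
  obtain ⟨K0, hK0, hcut⟩ := exists_cut (d := dc)
  obtain ⟨K, hK, hb⟩ := S.deriv_bound h hJ hK0
  obtain ⟨hT, -, hconv, hQ⟩ := hA
  have hΨ : Integrable (fun x => ‖Ψ x‖ ^ 2) := memLp_norm_sq_int (Lp.memLp Ψ)
  have hdiffm : ∀ n, MemLp (fun x => u n x - Ψ x) 2 (volume : Measure (Cfg dc)) := fun n =>
    (hT n).memLp.sub (Lp.memLp Ψ)
  have hdi : ∀ n, Integrable (fun x => ‖u n x - Ψ x‖ ^ 2) := fun n => memLp_norm_sq_int (hdiffm n)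
  refine tendsto_of_bounds (c := 2 * |t| * K) (A := 2 * ∫ x, ‖Ψ x‖ ^ 2)
    (q := fun n => ∑ b, ∫ x, ‖S.Q b (u n) x‖ ^ 2) (a := fun n => ∫ x, ‖u n x‖ ^ 2)
    (p := fun n => ∫ x, ‖u n x - Ψ x‖ ^ 2) (E := fun R => ∫ x, wR R ‖x‖ * ‖Ψ x‖ ^ 2)
    (by positivity) (mul_nonneg (by norm_num) (integral_nonneg fun x => by positivity))
    (fun n => integral_nonneg fun x => by positivity) ?_ hconv ?_ (tendsto_tail _ hΨ) ?_
  · have : Tendsto (fun n => ∑ b, ∫ x, ‖S.Q b (u n) x‖ ^ 2) atTop (𝓝 (∑ b : Fin 16, (0 : ℝ))) :=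
      tendsto_finsetSum _ fun b _ => hQ b
    simpa using this
  · intro n
    rw [← integral_const_mul, ← integral_const_mul, ← integral_add ((hdi n).const_mul 2)
      (hΨ.const_mul 2)]
    refine integral_mono (hT n).norm_sq_int (((hdi n).const_mul 2).add (hΨ.const_mul 2)) fun x => ?_
    have := norm_sq_le_two (u n x) (Ψ x)
    simp only
    linarith
  · intro n R hR δ hδ
    obtain ⟨χ, hχ⟩ := hcut R hR
    have h1 := S.rot_diff_bound h (hT n) hχ t (hb (u n) (hT n) R hR δ hδ χ hχ)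
    have h2 : ∫ x, wR R ‖x‖ * ‖u n x‖ ^ 2 ≤ 2 * (∫ x, wR R ‖x‖ * ‖Ψ x‖ ^ 2) +
        2 * ∫ x, ‖u n x - Ψ x‖ ^ 2 := by
      rw [← integral_const_mul, ← integral_const_mul,
        ← integral_add ((integrable_wR R hΨ).const_mul 2) ((hdi n).const_mul 2)]
      refine integral_mono (integrable_wR R (hT n).norm_sq_int)
        (((integrable_wR R hΨ).const_mul 2).add ((hdi n).const_mul 2)) fun x => ?_
      have h3 := norm_sq_le_two (u n x) (Ψ x)
      have h4 := wR_nonneg R ‖x‖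
      have h5 := wR_le_one R ‖x‖
      simp only
      nlinarith [sq_nonneg ‖u n x - Ψ x‖, mul_le_mul_of_nonneg_left h3 h4]
    have hK' : 0 ≤ 2 * |t| * K := by positivity
    have h6 := mul_le_mul_of_nonneg_left h2 hK'
    nlinarith [h1, h2, h6]

end Setup

/-- Spin(9) invariance of zero modes, in weak form -/
theorem weak_J_of [CompleteSpace F] (S : Setup dc F) (Ψ : Lp F 2 (volume : Measure (Cfg dc)))
    (u : ℕ → (Cfg dc) → F) (hA : S.Apx Ψ u) (k l : Fin 9) (hkl : k ≠ l) (hJ : JExact S k l)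
    (ζ : (Cfg dc) → F) (hζ : Setup.Tst ζ) :
    ∫ x, inner ℂ (S.J k l ζ x) (Ψ x) = 0 := by
  have hT := hA.1
  have hconv := hA.2.2.1
  have hdiffm : ∀ n, MemLp (fun x => Ψ x - u n x) 2 (volume : Measure (Cfg dc)) := fun n =>
    (Lp.memLp Ψ).sub (hT n).memLp
  -- pairing with test functions passes to the limit
  have hlim : ∀ w : (Cfg dc) → F, Setup.Tst w →
      Tendsto (fun n => ∫ x, inner ℂ (u n x) (w x)) atTop (𝓝 (∫ x, inner ℂ (Ψ x) (w x))) := by
    intro w hw
    rw [← tendsto_sub_nhds_zero_iff]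
    have hz : Tendsto (fun n => Real.sqrt (∫ x, ‖Ψ x - u n x‖ ^ 2) *
        Real.sqrt (∫ x, ‖w x‖ ^ 2)) atTop (𝓝 0) := by
      have h1 : Tendsto (fun n => ∫ x, ‖Ψ x - u n x‖ ^ 2) atTop (𝓝 0) := by
        simpa only [norm_sub_rev] using hconv
      have h2 := (Real.continuous_sqrt.tendsto 0).comp h1
      simp only [Real.sqrt_zero] at h2
      simpa using h2.mul_const (Real.sqrt (∫ x, ‖w x‖ ^ 2))
    refine squeeze_zero_norm (fun n => ?_) hz
    have e : (∫ x, inner ℂ (u n x) (w x)) - ∫ x, inner ℂ (Ψ x) (w x) =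
        -∫ x, inner ℂ (Ψ x - u n x) (w x) := by
      have i1 : Integrable (fun x => inner ℂ (u n x) (w x)) := (hT n).inner_int hw.1.continuous
      have i2 : Integrable (fun x => inner ℂ (Ψ x) (w x)) :=
        integrable_inner_memLp (Lp.memLp Ψ) hw.memLp
      simp only [inner_sub_left]
      rw [integral_sub i2 i1]
      ring
    rw [e, norm_neg]
    exact cs_inner (hdiffm n) hw.memLp
  -- invariance under finite rotations
  have hinv : ∀ t : ℝ, ∫ x, inner ℂ (Ψ x) (S.Ut k l t ζ x) = ∫ x, inner ℂ (Ψ x) (ζ x) := by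
    intro t
    have h1 := hlim _ (hζ.Ut S hkl t)
    have h2 := hlim _ hζ
    have h3 := S.tendsto_Ut_sub hkl hJ Ψ u hA (-t)
    have h4 : Tendsto (fun n => (∫ x, inner ℂ (u n x) (S.Ut k l t ζ x)) -
        ∫ x, inner ℂ (u n x) (ζ x)) atTop (𝓝 0) := by
      have hz : Tendsto (fun n => Real.sqrt (∫ x, ‖S.Ut k l (-t) (u n) x - u n x‖ ^ 2) *
          Real.sqrt (∫ x, ‖ζ x‖ ^ 2)) atTop (𝓝 0) := by
        have h5 := (Real.continuous_sqrt.tendsto 0).comp h3
        simp only [Real.sqrt_zero] at h5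
        simpa using h5.mul_const (Real.sqrt (∫ x, ‖ζ x‖ ^ 2))
      refine squeeze_zero_norm (fun n => ?_) hz
      have e : (∫ x, inner ℂ (u n x) (S.Ut k l t ζ x)) - ∫ x, inner ℂ (u n x) (ζ x) =
          ∫ x, inner ℂ (S.Ut k l (-t) (u n) x - u n x) (ζ x) := by
        have hU := S.inner_Ut hkl (-t) (u n) ζ
        rw [neg_neg] at hU
        rw [← hU, ← integral_sub (((hT n).Ut S hkl (-t)).inner_int hζ.1.continuous)
          ((hT n).inner_int hζ.1.continuous)]
        simp only [inner_sub_left]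
      rw [e]
      exact cs_inner (((hT n).Ut S hkl (-t)).sub (hT n)).memLp hζ.memLp
    have h5 := tendsto_nhds_unique (h1.sub h2) h4
    exact sub_eq_zero.mp h5
  -- differentiate
  have hloc : LocallyIntegrable (fun x => Ψ x) (volume : Measure (Cfg dc)) :=
    (Lp.memLp Ψ).locallyIntegrable one_le_two
  have hd := S.hasDerivAt_integral_Ut hkl hloc hζ 0
  have hconst : HasDerivAt (fun t => ∫ x, inner ℂ (Ψ x) (S.Ut k l t ζ x)) (0 : ℂ) 0 := by
    simp only [hinv]
    exact hasDerivAt_const _ _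
  have h0 := hd.unique hconst
  have hU0 : S.Ut k l 0 ζ = ζ := by
    ext x
    rw [Setup.Ut, neg_zero, RR_zero, S.st_zero]
    rfl
  rw [hU0] at h0
  simp only [inner_smul_right] at h0
  rw [integral_const_mul] at h0
  have h1 : ∫ x, inner ℂ (Ψ x) (S.J k l ζ x) = 0 := by
    rcases mul_eq_zero.mp h0 with h | h
    · exact absurd h Complex.I_ne_zero
    · exact h
  have h2 : ∫ x, inner ℂ (S.J k l ζ x) (Ψ x) =
      (starRingEnd ℂ) (∫ x, inner ℂ (Ψ x) (S.J k l ζ x)) := by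
    rw [← integral_conj]
    congr 1
    ext x
    rw [inner_conj_symm]
  rw [h2, h1, map_zero]

theorem weak_J [CompleteSpace F] (S : Setup dc F) (Ψ : Lp F 2 (volume : Measure (Cfg dc)))
    (u : ℕ → (Cfg dc) → F) (h : S.Apx Ψ u) (k l : Fin 9) (hkl : k ≠ l)
    (ζ : (Cfg dc) → F) (hζ : Setup.Tst ζ) :
    ∫ x, inner ℂ (S.J k l ζ x) (Ψ x) = 0 :=
  weak_J_of S Ψ u h k l hkl (jExact S hkl) ζ hζ

end Vale.Agent.P353.Z
end

section

/-! # P353, general `N`: zero modes are rotation invariant (D-J) -/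

open MeasureTheory Filter Topology
open scoped ContDiff

namespace Vale.Agent.P353.Z.U

variable {d : ℕ} {F : Type*} [NormedAddCommGroup F] [InnerProductSpace ℂ F]

theorem zj [CompleteSpace F] (S : Setup d F) : ZJStmt S := by
  intro Ψ hΨ k l hkl ζ hζ
  obtain ⟨u, hu⟩ := hΨ
  exact weak_J S Ψ u hu k l hkl ζ hζ

end Vale.Agent.P353.Z.U
end

section

/-! # P353, general `N`: assembly -/

open MeasureTheory Filter Topology
open scoped ContDiff

namespace Vale.Agent.P353.Z.U.All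

section A

variable {d : ℕ} {F : Type*} [NormedAddCommGroup F] [InnerProductSpace ℂ F] (S : Setup d F)

theorem A1 : A1Stmt S := a1 S (a1a S) (a1b S (fbmn S (f10 S)))
theorem A2 : A2Stmt S := a2 (S := S)
theorem A3 : A3Stmt S := a3 (S := S)
theorem A7 : A7Stmt S := a7 S (A1 S)
theorem A6 : A6Stmt S := a6 S (A7 S)
theorem A4 : A4Stmt S := a4 S (A1 S) (A2 S) (A3 S) (A7 S)
theorem Coe : CoeStmt S := coe_thm S (sq_stmt S) (grpCpt S) (grpExp S)
theorem Foot : FootStmt S := foot S (grpExp S) (grpCpt S)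
theorem Wel : WelStmt S := wel_stmt S (Coe S) (sq_stmt S) (hes_stmt S) (tay_stmt S) (Foot S)
theorem Ap : APStmt S := ap S (A6 S) (Wel S) (Coe S)

end A

section B

variable {d : ℕ} {F : Type*} [NormedAddCommGroup F] [InnerProductSpace ℂ F]
  [FiniteDimensional ℂ F] (S : Setup d F)

theorem thmB_all (k : ℕ) : ThmBStmt S k := by
  have : CompleteSpace F := FiniteDimensional.complete ℂ F
  exact thmB2_of S (A2 S) (A3 S) (cgap S (A1 S) (A2 S) (A3 S) (A4 S) (A7 S)) (ws S (A7 S))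
    (coer S (A6 S) (Coe S)) k

theorem thmC_all (n : ℕ) : ThmCStmt S n :=
  thmC S n (Ap S) (pack S) (lim S (a8 S) lr) (crit S)
    (l1 S (sq_stmt S) (hes_stmt S) (sqr S) (En.en S) (npos S (En.en S)) (qua S (vac S)) (inv S))

theorem small_all (k : ℕ) : SmallStmt S k := by
  have : CompleteSpace F := FiniteDimensional.complete ℂ F
  exact small S k (zj S) (app S)

theorem bound_all : BoundStmt S := bound_of (thmB_all S) (thmC_all S) (small_all S)

end B

section M

variable {N d : ℕ} {F : Type*} [NormedAddCommGroup F] [InnerProductSpace ℂ F]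

open BFSS

/-- for the `SU(N)` model: `dim ker H_N ≤ p(N)` -/
theorem bound_model (M : BFSS.Model N d F) :
    ∃ (n : ℕ) (Φ : Fin n → Conf d → F), n ≤ Fintype.card (Nat.Partition N) ∧
      (∀ i, M.IsZeroEnergyState (Φ i)) ∧ ∀ Ψ, M.IsZeroEnergyState Ψ →
        ∃ c : Fin n → ℂ, ∀ᵐ x ∂leb d, Ψ x = ∑ i, c i • Φ i x := by
  classical
  have hF : FiniteDimensional ℂ F := finiteDimensional_of_model M
  obtain ⟨S, hS⟩ := setS M
  have hcnt : S.OrbCount (Fintype.card (Nat.Partition N)) :=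
    count_of M (adS M fun S a t => exp_mem S a t) (fun S => sq_stmt S) S hS
  have hirr : S.Irr := by
    intro W hW
    refine M.θ_irreducible W fun α A v hv => ?_
    have := hW α A v hv
    rwa [hS.hth] at this
  have hbr := bridge_of_gauss M (gaussLaw M) S hS
  have hmem : ∀ Ψ, M.IsZeroEnergyState Ψ → MemLp Ψ 2 (volume : Measure (Cfg d)) := fun Ψ h => h.1
  set P : ℕ → Prop := fun k => ∃ (Ψ : Fin k → Conf d → F) (h : ∀ i, M.IsZeroEnergyState (Ψ i)),
    LinearIndependent ℂ fun i => (hmem (Ψ i) (h i)).toLp (Ψ i) with hP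
  have hbd : ∀ k, P k → k ≤ Fintype.card (Nat.Partition N) := by
    rintro k ⟨Ψ, h, hli⟩
    by_contra hk
    push Not at hk
    have hle : Fintype.card (Nat.Partition N) + 1 ≤ k := hk
    refine bound_all S hirr M.nontrivial _ hcnt
      (fun j => (hmem (Ψ (Fin.castLE hle j)) (h (Fin.castLE hle j))).toLp (Ψ (Fin.castLE hle j)))
      (fun j => hbr _ _ (h _)) ?_
    exact hli.comp (Fin.castLE hle) (Fin.castLE_injective hle)
  have h0 : P 0 := ⟨Fin.elim0, fun i => i.elim0, linearIndependent_empty_type⟩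
  obtain ⟨k, hk, hmax⟩ : ∃ k, P k ∧ ¬ P (k + 1) := by
    by_contra hcon
    push Not at hcon
    have hall : ∀ k, P k := fun k => by
      induction k with
      | zero => exact h0
      | succ n ih => exact hcon n ih
    have := hbd _ (hall (Fintype.card (Nat.Partition N) + 1))
    omega
  obtain ⟨Φ, hΦ, hli⟩ := hk
  refine ⟨k, Φ, hbd k ⟨Φ, hΦ, hli⟩, hΦ, fun Ψ hΨ => ?_⟩
  have hspan : (hmem Ψ hΨ).toLp Ψ ∈
      Submodule.span ℂ (Set.range fun i => (hmem (Φ i) (hΦ i)).toLp (Φ i)) := by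
    by_contra hns
    refine hmax ⟨Fin.cons Ψ Φ, fun i => ?_, ?_⟩
    · refine Fin.cases ?_ (fun j => ?_) i
      · exact hΨ
      · exact hΦ j
    · have h1 : (fun i : Fin (k + 1) => (hmem ((Fin.cons Ψ Φ : Fin (k + 1) → Conf d → F) i)
          (by refine Fin.cases ?_ (fun j => ?_) i
              · exact hΨ
              · exact hΦ j)).toLp ((Fin.cons Ψ Φ : Fin (k + 1) → Conf d → F) i)) =
          Fin.cons ((hmem Ψ hΨ).toLp Ψ) fun i => (hmem (Φ i) (hΦ i)).toLp (Φ i) := by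
        funext i
        refine Fin.cases ?_ (fun j => ?_) i
        · rfl
        · rfl
      rw [h1]
      exact linearIndependent_finCons.mpr ⟨hli, hns⟩
  rw [Submodule.mem_span_range_iff_exists_fun] at hspan
  obtain ⟨c, hc⟩ := hspan
  refine ⟨c, ?_⟩
  have h7 : ∀ (t : Finset (Fin k)), ∀ᵐ x ∂(volume : Measure (Cfg d)),
      (∑ i ∈ t, c i • (hmem (Φ i) (hΦ i)).toLp (Φ i) : Lp F 2 (volume : Measure (Cfg d))) x =
        ∑ i ∈ t, c i • Φ i x := by
    intro t
    induction t using Finset.induction_on with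
    | empty =>
      simp only [Finset.sum_empty]
      exact Lp.coeFn_zero F 2 (volume : Measure (Cfg d))
    | insert a t ha ih =>
      rw [Finset.sum_insert ha]
      filter_upwards [ih, Lp.coeFn_add (c a • (hmem (Φ a) (hΦ a)).toLp (Φ a))
        (∑ i ∈ t, c i • (hmem (Φ i) (hΦ i)).toLp (Φ i)),
        Lp.coeFn_smul (c a) ((hmem (Φ a) (hΦ a)).toLp (Φ a)),
        (hmem (Φ a) (hΦ a)).coeFn_toLp] with x h1 h2 h3 h4
      rw [h2, Pi.add_apply, h1, h3, Pi.smul_apply, h4, Finset.sum_insert ha]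
  have h8 := h7 Finset.univ
  rw [hc] at h8
  rw [leb]
  filter_upwards [h8, (hmem Ψ hΨ).coeFn_toLp] with x hx hx'
  rw [← hx', hx]

end M

end Vale.Agent.P353.Z.U.All
end
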